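import Crest.Agent.R135.Defs
set_option autoImplicit false
open MeasureTheory Metric Set Filter Topology
open scoped ENNReal NNReal Real ComplexConjugate

namespace Crest.Agent.R135

/-! Elementary length facts. -/

/-- a preconnected set containing points at distances `≤ ρ` and `≥ ρ` from `x` meets the sphere -/
theorem conn_meets_sphere {C : Set ℂ} (hC : IsPreconnected C) {x p q : ℂ} {ρ : ℝ} (hp : p ∈ C) (hq : q ∈ C)
    (h1 : dist p x ≤ ρ) (h2 : ρ ≤ dist q x) : (C ∩ sphere x ρ).Nonempty := by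
  obtain ⟨z, hz, e⟩ := hC.intermediate_value hp hq (f := fun z => dist z x) (by fun_prop) ⟨h1, h2⟩
  exact ⟨z, hz, e⟩

/-- `dist · p` is 1-Lipschitz and maps `C ∩ ball p s` onto `[0,s)`. -/
theorem H1_ge_of_conn {C : Set ℂ} (hC : IsPreconnected C) {p q : ℂ} {s : ℝ} (hp : p ∈ C) (hq : q ∈ C)
    (hs : s ≤ dist q p) : ENNReal.ofReal s ≤ H1 (C ∩ ball p s) := by
  have h := (LipschitzWith.dist_left p).hausdorffMeasure_image_le zero_le_one (C ∩ ball p s)
  rw [hausdorffMeasure_real, ENNReal.coe_one, ENNReal.one_rpow, one_mul] at h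
  refine le_trans ?_ h
  have e : ENNReal.ofReal s = volume (Ico 0 s) := by simp
  rw [e]
  refine measure_mono fun t ht => ?_
  obtain ⟨z, hz, e⟩ := conn_meets_sphere hC (x := p) (ρ := t) hp hq (by simpa using ht.1)
    (ht.2.le.trans hs)
  exact ⟨z, ⟨hz, mem_ball.2 ((mem_sphere.1 e).trans_lt ht.2)⟩, e⟩

/-- finite length implies Lebesgue-null (`μH[2]` is an additive Haar measure on `ℂ`, `Measure.hausdorffMeasure_zero_or_top`) -/
theorem vol_zero_of_H1 {S : Set ℂ} (h : H1 S < ⊤) : volume S = 0 := by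
  refine Measure.absolutelyContinuous_isAddHaarMeasure volume
    (Measure.hausdorffMeasure (Module.finrank ℝ ℂ)) ?_
  exact (Measure.hausdorffMeasure_zero_or_top (d₁ := 1) (by simp) S).resolve_right h.ne

theorem H1_finite {S : Set ℂ} (h : S.Finite) : H1 S = 0 := by
  haveI := Measure.nullSingletonClass_hausdorff ℂ one_pos
  exact h.measure_zero _

theorem H1_segment (p q : ℂ) : H1 (segment ℝ p q) = ENNReal.ofReal ‖p - q‖ := by
  rw [hausdorffMeasure_segment, edist_dist, dist_eq_norm]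

/-- image of `Icc` under the Lipschitz `circleMap` -/
theorem H1_sphere_le (x : ℂ) (ρ : ℝ) : H1 (sphere x ρ) ≤ ENNReal.ofReal (2 * π * ρ) := by
  rcases lt_or_ge ρ 0 with hρ | hρ
  · simp [sphere_eq_empty_of_neg hρ]
  have h := (lipschitzWith_circleMap x ρ).hausdorffMeasure_image_le zero_le_one (Ioc 0 (2 * π))
  rw [image_circleMap_Ioc, abs_of_nonneg hρ, hausdorffMeasure_real, ENNReal.rpow_one,
    Real.volume_Ioc, sub_zero, Real.nnabs_of_nonneg hρ] at h
  refine h.trans_eq ?_
  rw [ENNReal.ofReal_mul (p := 2 * π) (by positivity), mul_comm]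
  rfl

/-- a point of the circle within chord `δ` of `p` is `circleMap` of an angle within `πδ/(2ρ)` (Jordan `2θ/π ≤ sin θ`). -/
theorem H1_sphere_cap (x p : ℂ) (ρ δ : ℝ) (hp : p ∈ sphere x ρ) :
    H1 (sphere x ρ ∩ closedBall p δ) ≤ ENNReal.ofReal (π * δ) := by
  have hn : ‖p - x‖ = ρ := mem_sphere_iff_norm.1 hp
  rcases (hn ▸ norm_nonneg (p - x) : 0 ≤ ρ).eq_or_lt with rfl | hρ
  · exact (H1_finite (by rw [sphere_zero]; exact (finite_singleton x).inter_of_left _)).trans_le bot_le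
  have h0 : p - x ≠ 0 := norm_pos_iff.1 (hn ▸ hρ)
  have hsub : sphere x ρ ∩ closedBall p δ ⊆
      circleMap x ρ '' Icc ((p - x).arg - π / 2 * (δ / ρ)) ((p - x).arg + π / 2 * (δ / ρ)) := by
    rintro z ⟨h1, h2⟩
    have hw : ‖(z - x) / (p - x)‖ = 1 := by rw [norm_div, mem_sphere_iff_norm.1 h1, hn, div_self hρ.ne']
    have h3 := Complex.angle_le_mul_norm_sub hw norm_one
    rw [Complex.angle_one_right (norm_pos_iff.1 (hw ▸ one_pos)), div_sub_one h0, sub_sub_sub_cancel_right,
      norm_div, hn] at h3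
    obtain ⟨h4, h5⟩ := abs_le.1 (h3.trans (mul_le_mul_of_nonneg_left
      (div_le_div_of_nonneg_right (mem_closedBall_iff_norm.1 h2) hρ.le) (by positivity)))
    refine ⟨(p - x).arg + ((z - x) / (p - x)).arg, ⟨by linarith, by linarith⟩, ?_⟩
    have e1 := Complex.norm_mul_exp_arg_mul_I (p - x)
    have e2 := Complex.norm_mul_exp_arg_mul_I ((z - x) / (p - x))
    rw [hw, Complex.ofReal_one, one_mul] at e2
    rw [circleMap, Complex.ofReal_add, add_mul, Complex.exp_add, ← mul_assoc, e2, ← hn, e1, mul_div_cancel₀ _ h0,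
      add_sub_cancel]
  refine (measure_mono hsub).trans (((lipschitzWith_circleMap x ρ).hausdorffMeasure_image_le zero_le_one _).trans_eq ?_)
  rw [ENNReal.rpow_one, hausdorffMeasure_real, Real.volume_Icc, Real.nnabs_of_nonneg hρ.le, ← ENNReal.ofReal.eq_1,
    ← ENNReal.ofReal_mul hρ.le]
  congr 1
  field_simp
  ring

/-- effect of the similarity `z ↦ x + c z` -/
theorem H1_preimage_affine (x c : ℂ) (hc : c ≠ 0) (S : Set ℂ) :
    H1 ((fun z => x + c * z) ⁻¹' S) * ENNReal.ofReal ‖c‖ = H1 S := by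
  open scoped Pointwise in
  have e : (fun z => x + z) ⁻¹' S = c • ((fun z => x + c * z) ⁻¹' S) := by
    ext z
    rw [mem_smul_set_iff_inv_smul_mem₀ hc]
    simp [hc]
  rw [← measure_preimage_add H1 x S, e, Measure.hausdorffMeasure_smul₀ zero_le_one hc,
    NNReal.rpow_one, ENNReal.smul_def, smul_eq_mul, mul_comm, ofReal_norm]
  rfl

/-- mass-distribution principle: cover `A` by sets of small diameter with `∑ diam ≤ H1 A + η`
(`hausdorffMeasure_apply`/`OuterMeasure.mkMetric`), each meeting `A` lies in a ball `ball y (2 diam + tiny)`. -/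
theorem H1_zero_of_small_density {K A : Set ℂ} (hA : A ⊆ K) (hfin : H1 A < ⊤) {s₀ θ : ℝ} (hs : 0 < s₀)
    (hθ : θ < 1 / 2) (h : ∀ y ∈ A, ∀ s ∈ Ioc 0 s₀, H1 (K ∩ ball y s) ≤ ENNReal.ofReal (θ * s)) : H1 A = 0 := by
  have key := Measure.le_hausdorffMeasure 1 (ENNReal.ofReal (4 / 3) • H1.restrict A) (ENNReal.ofReal (s₀ / 2))
    (ENNReal.ofReal_pos.2 (half_pos hs)) fun s hd => ?_
  · have h1 := key A
    rw [Measure.smul_apply, Measure.restrict_apply_self, smul_eq_mul] at h1
    by_contra h0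
    have h2 := ENNReal.mul_lt_mul_left h0 hfin.ne (ENNReal.one_lt_ofReal.2 (by norm_num : (1 : ℝ) < 4 / 3))
    exact absurd h1 (not_le.2 (by rwa [one_mul] at h2))
  have ht : ediam s ≠ ⊤ := ne_top_of_le_ne_top ENNReal.ofReal_ne_top hd
  have hd' : diam s ≤ s₀ / 2 := ENNReal.toReal_le_of_le_ofReal (half_pos hs).le hd
  refine (measure_mono subset_closure).trans ?_
  rw [Measure.smul_apply, Measure.restrict_apply isClosed_closure.measurableSet, smul_eq_mul, ENNReal.rpow_one]
  rcases (closure s ∩ A).eq_empty_or_nonempty with h0 | ⟨y, hy, hyA⟩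
  · rw [h0, measure_empty, mul_zero]
    exact bot_le
  have hb : ∀ z ∈ closure s, dist z y ≤ diam s := fun z hz =>
    (dist_le_diam_of_mem' (by rwa [ediam_closure]) hz hy).trans_eq (diam_closure s)
  rcases (diam_nonneg (s := s)).eq_or_lt with h0 | h0
  · rw [H1_finite ((finite_singleton y).subset fun z hz => dist_le_zero.1 ((hb z hz.1).trans h0.ge)), mul_zero]
    exact bot_le
  have h1 : H1 (closure s ∩ A) ≤ ENNReal.ofReal (θ * (3 / 2 * diam s)) :=
    le_trans (measure_mono fun z hz => mem_inter (hA hz.2) (mem_ball.2 ((hb z hz.1).trans_lt (by linarith))))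
      (h y hyA (3 / 2 * diam s) ⟨by positivity, by linarith⟩)
  refine (mul_le_mul_right h1 _).trans ?_
  rw [← ENNReal.ofReal_mul (by norm_num), ← ENNReal.ofReal_toReal ht]
  exact ENNReal.ofReal_le_ofReal (show _ ≤ diam s by nlinarith)

end Crest.Agent.R135
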