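import Crest.Agent.R135.Defs
set_option autoImplicit false
open MeasureTheory Metric Set Filter Topology
open scoped ENNReal NNReal Real ComplexConjugate

namespace Crest.Agent.R135

/-! Locally Lipschitz functions: Rademacher, integration by parts, chain rules. -/

theorem measurable_gradient (w : ℂ → ℝ) : Measurable (gradient w) := by
  exact (InnerProductSpace.toDual ℝ ℂ).symm.continuous.measurable.comp (measurable_fderiv ℝ w)

theorem inner_gradient (w : ℂ → ℝ) (z d : ℂ) : inner ℝ (gradient w z) d = fderiv ℝ w z d := by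
  exact InnerProductSpace.toDual_symm_apply

theorem norm_gradient (w : ℂ → ℝ) (z : ℂ) : ‖gradient w z‖ = ‖fderiv ℝ w z‖ := by
  exact (InnerProductSpace.toDual ℝ ℂ).symm.norm_map _

theorem locLip_of_contDiffOn {W : Set ℂ} (hW : IsOpen W) {w : ℂ → ℝ} (h : ContDiffOn ℝ 1 w W) :
    LocallyLipschitzOn W w := by
  intro z hz
  obtain ⟨K, t, ht, hK⟩ := (h.contDiffAt (hW.mem_nhds hz)).exists_lipschitzOnWith
  exact ⟨K, t, mem_nhdsWithin_of_mem_nhds ht, hK⟩

theorem continuousOn_gradient {W : Set ℂ} (hW : IsOpen W) {w : ℂ → ℝ} (h : ContDiffOn ℝ 1 w W) :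
    ContinuousOn (gradient w) W := by
  exact (InnerProductSpace.toDual ℝ ℂ).symm.continuous.comp_continuousOn
    (h.continuousOn_fderiv_of_isOpen hW le_rfl)

theorem LC.gradient_eq {W : Set ℂ} {Λ : ℂ → ℝ} (h : LC W Λ) {z : ℂ} (hz : z ∈ W) : gradient Λ z = 0 := by
  have e : Λ =ᶠ[𝓝 z] fun _ => Λ z := h z hz
  rw [e.gradient_eq, gradient_fun_const]

theorem LC.contDiffOn {W : Set ℂ} {Λ : ℂ → ℝ} (h : LC W Λ) (n : WithTop ℕ∞) : ContDiffOn ℝ n Λ W := by
  intro z hz
  exact (contDiffAt_const.congr_of_eventuallyEq (h z hz)).contDiffWithinAt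

theorem LC.eq_of_preconnected {W C : Set ℂ} {Λ : ℂ → ℝ} (h : LC W Λ) (hC : IsPreconnected C) (hCW : C ⊆ W)
    {p q : ℂ} (hp : p ∈ C) (hq : q ∈ C) : Λ p = Λ q := by
  have := isPreconnected_iff_preconnectedSpace.1 hC
  have h1 : IsLocallyConstant fun z : C => Λ z := (IsLocallyConstant.iff_eventually_eq _).2 fun z =>
    continuous_subtype_val.continuousAt.eventually (h z (hCW z.2))
  exact h1.apply_eq_of_preconnectedSpace ⟨p, hp⟩ ⟨q, hq⟩

/-- Rademacher (`LipschitzOnWith.ae_differentiableWithinAt_of_mem` + Lindelöf) -/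
theorem ae_diff_of_locLip {W : Set ℂ} (hW : IsOpen W) {w : ℂ → ℝ} (h : LocallyLipschitzOn W w) :
    ∀ᵐ z, z ∈ W → DifferentiableAt ℝ w z := by
  refine measure_null_of_locally_null _ fun z hz => ?_
  have hzW : z ∈ W := by
    by_contra h'
    exact hz fun h'' => absurd h'' h'
  obtain ⟨K, t, ht, hK⟩ := h hzW
  rw [hW.nhdsWithin_eq hzW] at ht
  refine ⟨{y | y ∈ W → DifferentiableAt ℝ w y}ᶜ ∩ interior t,
    inter_mem_nhdsWithin _ (interior_mem_nhds.2 ht), ?_⟩
  have h1 := ae_iff.1 ((hK.mono interior_subset).ae_differentiableWithinAt_of_mem (μ := volume))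
  refine measure_mono_null (fun y hy => ?_) h1
  exact fun h2 => hy.1 fun _ => (h2 hy.2).differentiableAt (isOpen_interior.mem_nhds hy.2)

/-- the gradient is bounded on compact subsets -/
theorem grad_bdd_of_locLip {W C : Set ℂ} (hW : IsOpen W) {w : ℂ → ℝ} (h : LocallyLipschitzOn W w)
    (hC : IsCompact C) (hCW : C ⊆ W) : ∃ M : ℝ, ∀ z ∈ C, ‖gradient w z‖ ≤ M := by
  obtain ⟨C', hC', h1, h2⟩ := exists_compact_between hC hW hCW
  obtain ⟨K, hK⟩ := (h.mono h2).exists_lipschitzOnWith_of_compact hC'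
  refine ⟨K, fun z hz => ?_⟩
  rw [norm_gradient]
  exact norm_fderiv_le_of_lipschitzOn ℝ (mem_interior_iff_mem_nhds.1 (h1 hz)) hK

/-- a locally Lipschitz function vanishing on `W` off a compact subset, extended by zero, is Lipschitz -/
theorem lipschitz_indicator {W C : Set ℂ} (hW : IsOpen W) {w : ℂ → ℝ} (h : LocallyLipschitzOn W w)
    (hC : IsCompact C) (hCW : C ⊆ W) (h0 : ∀ z ∈ W \ C, w z = 0) :
    ∃ L : ℝ≥0, LipschitzWith L (W.indicator w) := by
  have z0 : ∀ z ∉ C, W.indicator w z = 0 := fun z hz => by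
    by_cases hzW : z ∈ W
    · rw [indicator_of_mem hzW, h0 z ⟨hzW, hz⟩]
    · exact indicator_of_notMem hzW _
  have h1 : LocallyLipschitzOn univ (W.indicator w) := fun z _ => by
    by_cases hzW : z ∈ W
    · obtain ⟨K, t, ht, hK⟩ := h hzW
      rw [hW.nhdsWithin_eq hzW] at ht
      refine ⟨K, t ∩ W, mem_nhdsWithin_of_mem_nhds (inter_mem ht (hW.mem_nhds hzW)), fun x hx y hy => ?_⟩
      rw [indicator_of_mem hx.2, indicator_of_mem hy.2]
      exact hK hx.1 hy.1
    · refine ⟨0, Cᶜ, mem_nhdsWithin_of_mem_nhds (hC.isClosed.isOpen_compl.mem_nhds fun h' => hzW (hCW h')),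
        fun x hx y hy => ?_⟩
      rw [z0 x hx, z0 y hy]
      simp
  obtain ⟨R, hR⟩ := hC.isBounded.subset_closedBall 0
  obtain ⟨K, hK⟩ := (h1.mono (subset_univ _)).exists_lipschitzOnWith_of_compact (isCompact_closedBall 0 (R + 1))
  obtain ⟨M, hM⟩ := hC.exists_bound_of_continuousOn (h1.continuousOn.mono (subset_univ _))
  have key : ∀ x y, y ∉ closedBall (0 : ℂ) (R + 1) →
      dist (W.indicator w x) (W.indicator w y) ≤ (K + M.toNNReal : ℝ≥0) * dist x y := fun x y hy => by
    rw [z0 y fun h' => hy (closedBall_subset_closedBall (by linarith) (hR h'))]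
    by_cases hx : x ∈ C
    · have a1 := mem_closedBall.1 (hR hx)
      have a2 := not_le.1 (mt mem_closedBall.2 hy)
      have a3 : 1 ≤ dist x y := by linarith [dist_triangle y x 0, dist_comm x y]
      rw [dist_zero_right]
      refine ((hM x hx).trans (Real.le_coe_toNNReal M)).trans ?_
      refine le_trans ?_ (le_mul_of_one_le_right (NNReal.coe_nonneg _) a3)
      exact_mod_cast le_add_self
    · rw [z0 x hx, dist_self]
      positivity
  refine ⟨K + M.toNNReal, LipschitzWith.of_dist_le_mul fun x y => ?_⟩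
  by_cases hy : y ∈ closedBall (0 : ℂ) (R + 1)
  · by_cases hx : x ∈ closedBall (0 : ℂ) (R + 1)
    · refine (hK.dist_le_mul x hx y hy).trans (mul_le_mul_of_nonneg_right ?_ dist_nonneg)
      exact_mod_cast le_self_add
    · rw [dist_comm, dist_comm x]
      exact key y x hx
  · exact key x y hy

theorem ibp_locLip_mul {W : Set ℂ} {w φ : ℂ → ℝ} (h : LocallyLipschitzOn W w)
    (hφ : LocallyLipschitzOn W φ) : LocallyLipschitzOn W fun z => w z * φ z := by
  have hm : ContDiff ℝ 1 fun p : ℝ × ℝ => p.1 * p.2 := contDiff_fst.mul contDiff_snd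
  exact locallyLipschitzOn_iff_restrict.2 (hm.locallyLipschitz.comp (h.restrict.prodMk hφ.restrict))

theorem ibp_intOn_gradient {W C : Set ℂ} (hW : IsOpen W) {w : ℂ → ℝ} (h : LocallyLipschitzOn W w)
    (hC : IsCompact C) (hCW : C ⊆ W) : IntegrableOn (gradient w) C := by
  obtain ⟨M, hM⟩ := grad_bdd_of_locLip hW h hC hCW
  exact Measure.integrableOn_of_bounded hC.measure_ne_top (measurable_gradient w).aestronglyMeasurable
    ((ae_restrict_iff' hC.measurableSet).2 (ae_of_all _ hM))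

theorem ibp_intOn_fderiv {W C : Set ℂ} (hW : IsOpen W) {w : ℂ → ℝ} (h : LocallyLipschitzOn W w)
    (hC : IsCompact C) (hCW : C ⊆ W) (d : ℂ) : IntegrableOn (fun z => fderiv ℝ w z d) C := by
  have := (ibp_intOn_gradient hW h hC hCW).inner_const (𝕜 := ℝ) d
  simp only [inner_gradient] at this
  exact this

theorem ibp_fderiv_off {W C : Set ℂ} (hW : IsOpen W) {φ : ℂ → ℝ} (hC : IsCompact C)
    (h0 : ∀ z ∈ W \ C, φ z = 0) {z : ℂ} (hz : z ∈ W \ C) : fderiv ℝ φ z = 0 := by
  have e : φ =ᶠ[𝓝 z] fun _ => 0 := by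
    filter_upwards [(hW.sdiff hC.isClosed).mem_nhds hz] with y hy using h0 y hy
  rw [e.fderiv_eq, fderiv_const_apply]

/-- basic integration by parts (`LipschitzWith.integral_lineDeriv_mul_eq` against a cutoff equal to `1` near `C`) -/
theorem integral_fderiv_eq_zero {W C : Set ℂ} (hW : IsOpen W) {w : ℂ → ℝ} (h : LocallyLipschitzOn W w)
    (hC : IsCompact C) (hCW : C ⊆ W) (h0 : ∀ z ∈ W \ C, w z = 0) (d : ℂ) :
    ∫ z in W, fderiv ℝ w z d = 0 := by
  obtain ⟨L, hL⟩ := lipschitz_indicator hW h hC hCW h0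
  have hz : ∀ z, z ∉ C → W.indicator w z = 0 := fun z hz => by
    by_cases hw : z ∈ W
    · rw [indicator_of_mem hw, h0 z ⟨hw, hz⟩]
    · exact indicator_of_notMem hw _
  have h1 := (LipschitzWith.const (α := ℂ) (1 : ℝ)).integral_lineDeriv_mul_eq (μ := volume) hL
    (HasCompactSupport.intro hC hz) (-d)
  have h2 : ∀ x : ℂ, lineDeriv ℝ (fun _ : ℂ => (1 : ℝ)) x (-d) = 0 := fun x => by
    simp [lineDeriv]
  simp only [h2, zero_mul, integral_zero, neg_neg, mul_one] at h1
  rw [← integral_indicator hW.measurableSet, h1]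
  refine integral_congr_ae ?_
  filter_upwards [hL.ae_differentiableAt (μ := volume)] with z hd
  rw [hd.lineDeriv_eq_fderiv]
  by_cases hw : z ∈ W
  · have e : W.indicator w =ᶠ[𝓝 z] w := by
      filter_upwards [hW.mem_nhds hw] with y hy using indicator_of_mem hy _
    rw [indicator_of_mem hw, e.fderiv_eq]
  · rw [indicator_of_notMem hw, ibp_fderiv_off isOpen_univ hC (fun y hy => hz y hy.2)
      ⟨mem_univ z, fun hc => hw (hCW hc)⟩, zero_apply]

/-- integration by parts, `φ` vanishing off a compact subset of `W` -/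
theorem ibp_locLip {W C : Set ℂ} (hW : IsOpen W) {w φ : ℂ → ℝ} (h : LocallyLipschitzOn W w)
    (hφ : LocallyLipschitzOn W φ) (hC : IsCompact C) (hCW : C ⊆ W) (h0 : ∀ z ∈ W \ C, φ z = 0) (d : ℂ) :
    ∫ z in W, w z * fderiv ℝ φ z d = - ∫ z in W, fderiv ℝ w z d * φ z := by
  have h1 := integral_fderiv_eq_zero hW (ibp_locLip_mul h hφ) hC hCW
    (fun z hz => by simp only [h0 z hz, mul_zero]) d
  have i1 : IntegrableOn (fun z => w z * fderiv ℝ φ z d) W :=
    ((ibp_intOn_fderiv hW hφ hC hCW d).continuousOn_mul (h.continuousOn.mono hCW) hC).of_forall_sdiff_eq_zero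
      hW.measurableSet fun z hz => by
        rw [ibp_fderiv_off hW hC h0 hz, zero_apply, mul_zero]
  have i2 : IntegrableOn (fun z => fderiv ℝ w z d * φ z) W :=
    ((ibp_intOn_fderiv hW h hC hCW d).mul_continuousOn (hφ.continuousOn.mono hCW) hC).of_forall_sdiff_eq_zero
      hW.measurableSet fun z hz => by rw [h0 z hz, mul_zero]
  rw [eq_neg_iff_add_eq_zero, ← integral_add i1 i2, ← h1]
  refine integral_congr_ae ((ae_restrict_iff' hW.measurableSet).2 ?_)
  filter_upwards [ae_diff_of_locLip hW h, ae_diff_of_locLip hW hφ] with z h2 h3 hz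
  rw [fderiv_fun_mul (h2 hz) (h3 hz)]
  simp only [add_apply, smul_apply, smul_eq_mul]
  ring

/-- a locally Lipschitz function is a weak-gradient function -/
theorem WG_of_locLip {W : Set ℂ} (hW : IsOpen W) {w : ℂ → ℝ} (h : LocallyLipschitzOn W w) :
    WG W w (gradient w) := by
  refine ⟨h.continuousOn.locallyIntegrableOn hW.measurableSet,
    (locallyIntegrableOn_iff hW.isLocallyClosed).2 fun C hCW hC => ibp_intOn_gradient hW h hC hCW,
    fun φ hφ hc hs d => ?_⟩
  simp only [inner_gradient]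
  exact ibp_locLip hW h (hφ.of_le (by exact_mod_cast le_top)).locallyLipschitz.locallyLipschitzOn hc hs
    (fun z hz => image_eq_zero_of_notMem_tsupport hz.2) d

/-- 1-Lipschitz post-composition does not increase the gradient -/
theorem norm_gradient_comp_le {Φ : ℝ → ℝ} (hΦ : LipschitzWith 1 Φ) {w : ℂ → ℝ} {z : ℂ}
    (hw : DifferentiableAt ℝ w z) : ‖gradient (Φ ∘ w) z‖ ≤ ‖gradient w z‖ := by
  rw [norm_gradient, norm_gradient]
  refine le_of_forall_pos_le_add fun ε hε => norm_fderiv_le_of_lip' ℝ (by positivity) ?_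
  filter_upwards [hw.hasFDerivAt.isLittleO.def hε] with x hx
  have h1 := hΦ.norm_sub_le (w x) (w z)
  have h2 := (fderiv ℝ w z).le_opNorm (x - z)
  have h3 := norm_add_le (w x - w z - fderiv ℝ w z (x - z)) (fderiv ℝ w z (x - z))
  rw [sub_add_cancel] at h3
  simp only [NNReal.coe_one, one_mul] at h1
  simp only [Function.comp_apply]
  linarith

end Crest.Agent.R135
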