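import Crest.Agent.R135.Defs
set_option autoImplicit false
open MeasureTheory Metric Set Filter Topology
open scoped ENNReal NNReal Real ComplexConjugate

namespace Crest.Agent.R135

/-! Polar coordinates (`Complex.lintegral_comp_polarCoord_symm`, `Complex.integral_comp_polarCoord_symm`,
`Complex.polarCoord_symm_apply`, translation invariance, Tonelli/Fubini on `Ioi 0 ×ˢ Ioo (-π) π`). -/

theorem tpolar_symm (x : ℂ) (p : ℝ × ℝ) : x + Complex.polarCoord.symm p = circleMap x p.1 p.2 := by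
  rw [Complex.polarCoord_symm_apply, circleMap, Complex.exp_mul_I]
  simp

theorem tpolar_cont (x : ℂ) : Continuous fun p : ℝ × ℝ => circleMap x p.1 p.2 := by
  unfold circleMap; fun_prop

theorem tpolar_dist (x : ℂ) {ρ : ℝ} (hρ : 0 < ρ) (φ : ℝ) : dist (circleMap x ρ φ) x = ρ := by
  rw [dist_eq_norm, circleMap_sub_center, norm_circleMap_zero, abs_of_pos hρ]

theorem tpolar_lint (x : ℂ) (f : ℂ → ℝ≥0∞) :
    ∫⁻ z, f z = ∫⁻ p, ENNReal.ofReal p.1 * f (circleMap x p.1 p.2)
      ∂((volume.restrict (Ioi (0:ℝ))).prod (volume.restrict (Ioo (-π) π))) := by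
  rw [← lintegral_add_left_eq_self f x, ← Complex.lintegral_comp_polarCoord_symm,
    Measure.prod_restrict]
  simp only [tpolar_symm, smul_eq_mul]
  rfl

theorem tpolar_int {E : Type*} [NormedAddCommGroup E] [NormedSpace ℝ E] (x : ℂ) (f : ℂ → E) :
    ∫ z, f z = ∫ p, p.1 • f (circleMap x p.1 p.2)
      ∂((volume.restrict (Ioi (0:ℝ))).prod (volume.restrict (Ioo (-π) π))) := by
  rw [← integral_add_left_eq_self f x, ← Complex.integral_comp_polarCoord_symm,
    Measure.prod_restrict]
  simp only [tpolar_symm]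
  rfl

theorem tpolar_pos : ∀ᵐ p ∂((volume.restrict (Ioi (0:ℝ))).prod (volume.restrict (Ioo (-π) π))),
    0 < p.1 := by
  rw [Measure.prod_restrict]
  filter_upwards [ae_restrict_mem (measurableSet_Ioi.prod measurableSet_Ioo)] with p hp using hp.1

theorem tpolar_qmp (x : ℂ) : Measure.QuasiMeasurePreserving (fun p : ℝ × ℝ => circleMap x p.1 p.2)
    ((volume.restrict (Ioi (0:ℝ))).prod (volume.restrict (Ioo (-π) π))) volume := by
  have hm := (tpolar_cont x).measurable
  refine ⟨hm, Measure.AbsolutelyContinuous.mk fun N hN h0 => ?_⟩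
  rw [Measure.map_apply hm hN]
  have h1 := tpolar_lint x (N.indicator 1)
  have hmm : Measurable fun p : ℝ × ℝ =>
      ENNReal.ofReal p.1 * N.indicator (1 : ℂ → ℝ≥0∞) (circleMap x p.1 p.2) :=
    measurable_fst.ennreal_ofReal.mul ((measurable_one.indicator hN).comp hm)
  rw [lintegral_indicator_one hN, h0, eq_comm, lintegral_eq_zero_iff hmm] at h1
  rw [measure_eq_zero_iff_ae_notMem]
  filter_upwards [h1, tpolar_pos] with p hp hp0 hmem
  have : circleMap x p.1 p.2 ∈ N := hmem
  simp only [Pi.zero_apply, mul_eq_zero, ENNReal.ofReal_eq_zero,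
    indicator_of_mem this, Pi.one_apply, one_ne_zero, or_false] at hp
  linarith

theorem tpolar_integrable {E : Type*} [NormedAddCommGroup E] [NormedSpace ℝ E] (x : ℂ) {f : ℂ → E}
    (hf : Integrable f) : Integrable (fun p : ℝ × ℝ => p.1 • f (circleMap x p.1 p.2))
      ((volume.restrict (Ioi (0:ℝ))).prod (volume.restrict (Ioo (-π) π))) := by
  refine ⟨measurable_fst.aestronglyMeasurable.smul
    (hf.1.comp_quasiMeasurePreserving (tpolar_qmp x)), ?_⟩
  have h := hf.2
  rw [hasFiniteIntegral_iff_enorm] at h ⊢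
  rw [tpolar_lint x] at h
  refine lt_of_eq_of_lt (lintegral_congr_ae ?_) h
  filter_upwards [tpolar_pos] with p hp
  rw [enorm_smul, Real.enorm_eq_ofReal hp.le]

theorem lintegral_polar (x : ℂ) (T : Set ℝ) (hT : MeasurableSet T) (f : ℂ → ℝ≥0∞) (hf : Measurable f) :
    ∫⁻ z in {z | dist z x ∈ T}, f z =
      ∫⁻ ρ in T ∩ Ioi 0, ENNReal.ofReal ρ * ∫⁻ φ in Ioo (-π) π, f (circleMap x ρ φ) := by
  have hS : MeasurableSet {z : ℂ | dist z x ∈ T} :=
    (continuous_id.dist continuous_const).measurable hT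
  have hm := (tpolar_cont x).measurable
  have hmm : Measurable fun p : ℝ × ℝ =>
      ENNReal.ofReal p.1 * {z : ℂ | dist z x ∈ T}.indicator f (circleMap x p.1 p.2) :=
    measurable_fst.ennreal_ofReal.mul ((hf.indicator hS).comp hm)
  rw [← lintegral_indicator hS, tpolar_lint x, lintegral_prod _ hmm.aemeasurable,
    ← Measure.restrict_restrict hT, ← lintegral_indicator hT]
  refine setLIntegral_congr_fun measurableSet_Ioi fun ρ hρ => ?_
  by_cases h : ρ ∈ T
  · have : ∀ φ, circleMap x ρ φ ∈ {z : ℂ | dist z x ∈ T} := fun φ => by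
      simpa [tpolar_dist x hρ] using h
    simp only [indicator_of_mem h, indicator_of_mem (this _)]
    exact lintegral_const_mul _ (hf.comp (continuous_circleMap x ρ).measurable)
  · have : ∀ φ, circleMap x ρ φ ∉ {z : ℂ | dist z x ∈ T} := fun φ => by
      simpa [tpolar_dist x hρ] using h
    simp [indicator_of_notMem h, indicator_of_notMem (this _)]

theorem lintegral_ball_polar (x : ℂ) (r : ℝ) (f : ℂ → ℝ≥0∞) (hf : Measurable f) :
    ∫⁻ z in ball x r, f z = ∫⁻ ρ in Ioo 0 r, ENNReal.ofReal ρ * ∫⁻ φ in Ioo (-π) π, f (circleMap x ρ φ) := by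
  have := lintegral_polar x (Iio r) measurableSet_Iio f hf
  rwa [Iio_inter_Ioi] at this

/-- Bochner version on annuli, with the integrability by-products -/
theorem integral_polar {E : Type*} [NormedAddCommGroup E] [NormedSpace ℝ E] [CompleteSpace E] (x : ℂ) {s t : ℝ}
    (hs : 0 ≤ s) (hst : s ≤ t) (f : ℂ → E) (hf : IntegrableOn f (ball x t \ ball x s)) :
    (∀ᵐ ρ : ℝ, ρ ∈ Ioo s t → IntervalIntegrable (fun φ => f (circleMap x ρ φ)) volume (-π) π) ∧
    IntervalIntegrable (fun ρ => ρ • ∫ φ in (-π)..π, f (circleMap x ρ φ)) volume s t ∧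
    ∫ z in ball x t \ ball x s, f z = ∫ ρ in s..t, ρ • ∫ φ in (-π)..π, f (circleMap x ρ φ) := by
  have hS : MeasurableSet (ball x t \ ball x s) := measurableSet_ball.diff measurableSet_ball
  have hπ : -π ≤ π := by linarith [Real.pi_pos]
  have hI := tpolar_integrable x ((integrable_indicator_iff hS).2 hf)
  have hin : ∀ ρ ∈ Ioo s t, ∀ φ, circleMap x ρ φ ∈ ball x t \ ball x s := fun ρ hρ φ => by
    simp only [Set.mem_sdiff, mem_ball, tpolar_dist x (hs.trans_lt hρ.1), not_lt]
    exact ⟨hρ.2, hρ.1.le⟩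
  have hsub : Ioo s t ⊆ Ioi 0 := fun ρ hρ => hs.trans_lt hρ.1
  have heq : ∀ ρ ∈ Ioo s t, ∫ φ in Ioo (-π) π, ρ • (ball x t \ ball x s).indicator f (circleMap x ρ φ) =
      ρ • ∫ φ in (-π)..π, f (circleMap x ρ φ) := fun ρ hρ => by
    simp only [indicator_of_mem (hin ρ hρ _)]
    rw [integral_smul, intervalIntegral.integral_of_le hπ, integral_Ioc_eq_integral_Ioo]
  refine ⟨?_, ?_, ?_⟩
  · have h1 := (ae_restrict_iff' measurableSet_Ioi).1 hI.prod_right_ae
    filter_upwards [h1] with ρ h hρ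
    have h2 := h (hsub hρ)
    simp only [indicator_of_mem (hin ρ hρ _)] at h2
    rw [intervalIntegrable_iff_integrableOn_Ioo_of_le hπ]
    exact (integrable_smul_iff (ne_of_gt (hsub hρ)) _).1 h2
  · rw [intervalIntegrable_iff_integrableOn_Ioo_of_le hst]
    exact (IntegrableOn.mono_set hI.integral_prod_left hsub).congr_fun heq measurableSet_Ioo
  · rw [← integral_indicator hS, tpolar_int x, integral_prod _ hI, intervalIntegral.integral_of_le hst,
      integral_Ioc_eq_integral_Ioo, ← setIntegral_congr_fun measurableSet_Ioo heq]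
    refine setIntegral_eq_of_subset_of_ae_sdiff_eq_zero measurableSet_Ioi.nullMeasurableSet hsub ?_
    have : ∀ᵐ ρ : ℝ, ρ ≠ s := by simp [ae_iff]
    filter_upwards [this] with ρ hρ h
    have hn : ∀ φ, circleMap x ρ φ ∉ ball x t \ ball x s := fun φ hm => by
      simp only [Set.mem_sdiff, mem_ball, tpolar_dist x h.1, not_lt] at hm
      exact h.2 ⟨lt_of_le_of_ne hm.2 hρ.symm, hm.1⟩
    simp [indicator_of_notMem (hn _)]

theorem circle_shift {E : Type*} [NormedAddCommGroup E] [NormedSpace ℝ E] (x : ℂ) (ρ φ₀ : ℝ) (f : ℂ → E) :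
    ∫ φ in (-π)..π, f (circleMap x ρ (φ₀ + φ)) = ∫ φ in (-π)..π, f (circleMap x ρ φ) := by
  have hp : Function.Periodic (fun φ => f (circleMap x ρ φ)) (2 * π) :=
    (periodic_circleMap x ρ).comp f
  have := hp.intervalIntegral_add_eq (φ₀ + -π) (-π)
  rw [intervalIntegral.integral_comp_add_left (fun φ => f (circleMap x ρ φ)) φ₀]
  convert this using 2 <;> ring

theorem circle_shift' {E : Type*} [NormedAddCommGroup E] [NormedSpace ℝ E] (x : ℂ) (ρ α : ℝ) (f : ℂ → E) :
    ∫ φ in α..(α + 2 * π), f (circleMap x ρ φ) = ∫ φ in (-π)..π, f (circleMap x ρ φ) := by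
  have hp : Function.Periodic (fun φ => f (circleMap x ρ φ)) (2 * π) :=
    (periodic_circleMap x ρ).comp f
  have := hp.intervalIntegral_add_eq α (-π)
  convert this using 2
  ring

/-- integrability on one period gives integrability on every interval -/
theorem circle_integrable {E : Type*} [NormedAddCommGroup E] [NormedSpace ℝ E] (x : ℂ) (ρ : ℝ) (f : ℂ → E)
    (h : IntervalIntegrable (fun φ => f (circleMap x ρ φ)) volume (-π) π) (s t : ℝ) :
    IntervalIntegrable (fun φ => f (circleMap x ρ φ)) volume s t := by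
  have hp : Function.Periodic (fun φ => f (circleMap x ρ φ)) (2 * π) :=
    (periodic_circleMap x ρ).comp f
  refine hp.intervalIntegrable (t := -π) (by positivity) ?_ s t
  convert h using 1
  ring

theorem finite_angles {x : ℂ} {ρ : ℝ} (hρ : 0 < ρ) {P : Set ℂ} (hP : (P ∩ sphere x ρ).Finite) (s t : ℝ) :
    {φ ∈ Icc s t | circleMap x ρ φ ∈ P}.Finite := by
  refine Finite.of_finite_fibers (circleMap x ρ) (hP.subset ?_) ?_
  · rintro _ ⟨φ, hφ, rfl⟩
    exact ⟨hφ.2, circleMap_mem_sphere x hρ.le φ⟩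
  · rintro _ ⟨a, -, rfl⟩
    refine ((finite_Icc ⌊(s - a) / (2 * π)⌋ ⌈(t - a) / (2 * π)⌉).image
      fun n : ℤ => a + n * (2 * π)).subset fun φ hφ => ?_
    obtain ⟨n, hn⟩ := (circleMap_eq_circleMap_iff x hρ.ne').1 hφ.2
    have hn' : φ = a + n * (2 * π) := by
      have := congrArg Complex.im hn
      simpa using this
    have h2 : 0 < 2 * π := by positivity
    refine ⟨n, ⟨?_, ?_⟩, hn'.symm⟩
    · rw [Int.floor_le_iff, div_lt_iff₀ h2]
      nlinarith [hφ.1.1.1]
    · rw [Int.le_ceil_iff, lt_div_iff₀ h2]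
      nlinarith [hφ.1.1.2]

theorem volume_sphere (x : ℂ) (ρ : ℝ) : volume (sphere x ρ) = 0 :=
  Measure.addHaar_sphere _ x ρ

end Crest.Agent.R135
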