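import Crest.Agent.R135.Defs
import Crest.Agent.R135.TLen
import Crest.Agent.R135.TLip
import Crest.Agent.R135.TPolar
set_option autoImplicit false
open MeasureTheory Metric Set Filter Topology
open scoped ENNReal NNReal Real ComplexConjugate

namespace Crest.Agent.R135

variable {U K : Set ℂ} {a b : ℝ} {u : ℂ → ℝ}

theorem mba_dir (w : ℂ → ℝ) (x : ℂ) (ρ : ℝ) : Dir w (closedBall x ρ) = Dir w (ball x ρ) := by
  refine setLIntegral_congr ?_
  rw [← ball_union_sphere]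
  exact union_ae_eq_left_of_ae_eq_empty (ae_eq_empty.2 (volume_sphere x ρ))

theorem mba_err {w : ℂ → ℝ} (ha : 0 ≤ a) (hb : 0 ≤ b) (x : ℂ) {ρ : ℝ} (hρ : 0 ≤ ρ) :
    Err a b u w (closedBall x ρ) ≤ ENNReal.ofReal (π * (a * b) * ρ ^ 2) := by
  have h1 : ∫⁻ z in closedBall x ρ, ENNReal.ofReal (min |w z - u z| b) ≤
      ENNReal.ofReal b * volume (closedBall x ρ) := by
    rw [← setLIntegral_const]
    exact lintegral_mono fun z => ENNReal.ofReal_le_ofReal (min_le_right _ _)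
  refine (mul_le_mul_right h1 _).trans_eq ?_
  rw [Complex.volume_closedBall, ← ENNReal.ofReal_pow hρ, ← ENNReal.ofReal_coe_nnreal, NNReal.coe_real_pi,
    ← ENNReal.ofReal_mul (by positivity), ← ENNReal.ofReal_mul hb, ← ENNReal.ofReal_mul ha]
  congr 1
  ring

theorem mba_in (f : ℂ → ℝ) {x z : ℂ} {ρ : ℝ} (hz : z ∈ ball x ρ) :
    ∀ᶠ y in 𝓝 z, (ball x ρ)ᶜ.indicator f y = 0 := by
  filter_upwards [isOpen_ball.mem_nhds hz] with y hy
  exact indicator_of_notMem (not_not.2 hy) f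

theorem mba_out (f : ℂ → ℝ) {x z : ℂ} {ρ : ℝ} (hz : z ∉ closedBall x ρ) :
    ∀ᶠ y in 𝓝 z, (ball x ρ)ᶜ.indicator f y = f y := by
  filter_upwards [isClosed_closedBall.isOpen_compl.mem_nhds hz] with y hy
  exact indicator_of_mem (show y ∈ (ball x ρ)ᶜ from fun h => hy (ball_subset_closedBall h)) f

theorem mba_cases {x z : ℂ} {ρ : ℝ} (hz : z ∈ U \ ((K \ ball x ρ) ∪ sphere x ρ)) :
    z ∈ ball x ρ ∨ (z ∉ closedBall x ρ ∧ z ∈ U \ K) := by
  by_cases h : z ∈ ball x ρ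
  · exact Or.inl h
  · refine Or.inr ⟨fun h' => ?_, hz.1, fun hK => hz.2 (Or.inl ⟨hK, h⟩)⟩
    rw [← ball_union_sphere] at h'
    exact hz.2 (Or.inr (h'.resolve_left h))

/-- Competitor `K' = (K \ ball x ρ) ∪ sphere x ρ`, `w = 0` in the ball, `u` outside (same recipe for `Adm`). -/
theorem MS.upper (h : MS U a b K u) {x : ℂ} {ρ : ℝ} (hρ : 0 ≤ ρ) (hB : closedBall x ρ ⊆ U) :
    En K u (closedBall x ρ) ≤ ENNReal.ofReal (2 * π * ρ + π * (a * b) * ρ ^ 2) := by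
  have hW : IsOpen (U \ K) := h.isOpen.sdiff h.closed
  have hc : Comp U K u ((K \ ball x ρ) ∪ sphere x ρ) ((ball x ρ)ᶜ.indicator u) x ρ := by
    refine ⟨(h.closed.sdiff isOpen_ball).union isClosed_sphere, ?_, fun z hz => (mba_out u hz.2).self_of_nhds,
      fun z hz => ?_⟩
    · ext z
      refine ⟨fun hz => ⟨?_, hz.2⟩, fun hz => ⟨Or.inl ⟨hz.1, fun h' => hz.2 (ball_subset_closedBall h')⟩, hz.2⟩⟩
      exact (hz.1.resolve_right fun h' => hz.2 (sphere_subset_closedBall h')).1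
    · rcases mba_cases hz with h1 | ⟨h1, h2⟩
      · refine ⟨0, _, mem_nhdsWithin_of_mem_nhds (mba_in u h1), fun p hp q hq => ?_⟩
        rw [show (ball x ρ)ᶜ.indicator u p = 0 from hp, show (ball x ρ)ᶜ.indicator u q = 0 from hq]
        simp
      · obtain ⟨L, t, ht, hL⟩ := locLip_of_contDiffOn hW h.c1 h2
        rw [hW.nhdsWithin_eq h2] at ht
        refine ⟨L, _, mem_nhdsWithin_of_mem_nhds (inter_mem ht (mba_out u h1)), fun p hp q hq => ?_⟩
        rw [show (ball x ρ)ᶜ.indicator u p = u p from hp.2, show (ball x ρ)ᶜ.indicator u q = u q from hq.2]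
        exact hL hp.1 hq.1
  have ha : Adm U K ((K \ ball x ρ) ∪ sphere x ρ) x ρ := by
    intro Λ hΛ
    refine ⟨(ball x ρ)ᶜ.indicator Λ, fun z hz => ?_, fun z hz => (mba_out Λ hz.2).self_of_nhds⟩
    rcases mba_cases hz with h1 | ⟨h1, h2⟩
    · filter_upwards [mba_in Λ h1] with y hy
      rw [hy, (mba_in Λ h1).self_of_nhds]
    · filter_upwards [mba_out Λ h1, hΛ z h2] with y hy hy'
      rw [hy, hy', (mba_out Λ h1).self_of_nhds]
  refine (h.min _ _ x ρ hB hc ha).trans ?_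
  have ha0 := h.a0
  have hb0 := h.b0
  rw [ENNReal.ofReal_add (by positivity) (by positivity)]
  refine add_le_add ?_ (mba_err h.a0 h.b0 x hρ)
  have h0 : Dir ((ball x ρ)ᶜ.indicator u) (closedBall x ρ) = 0 := by
    rw [mba_dir, Dir]
    refine setLIntegral_eq_zero measurableSet_ball fun z hz => ?_
    have : gradient ((ball x ρ)ᶜ.indicator u) z = 0 := by
      rw [EventuallyEq.gradient_eq (show _ =ᶠ[𝓝 z] fun _ => (0 : ℝ) from mba_in u hz)]
      simp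
    simp [this]
  rw [En, h0, zero_add]
  refine (measure_mono fun z hz => ?_).trans (H1_sphere_le x ρ)
  rcases hz.1 with h1 | h1
  · have := hz.2
    rw [← ball_union_sphere] at this
    exact this.resolve_left h1.2
  · exact h1

theorem Err_le {w : ℂ → ℝ} (ha : 0 ≤ a) (hb : 0 ≤ b) (x : ℂ) {ρ : ℝ} (hρ : 0 ≤ ρ) :
    Err a b u w (closedBall x ρ) ≤ ENNReal.ofReal (π * (a * b) * ρ ^ 2) := by
  exact mba_err ha hb x hρ

theorem MS.Dir_lt_top (h : MS U a b K u) {x : ℂ} {ρ : ℝ} (hB : closedBall x ρ ⊆ U) :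
    Dir u (closedBall x ρ) < ⊤ := by
  rcases lt_or_ge ρ 0 with hρ | hρ
  · simp [closedBall_eq_empty.2 hρ, Dir]
  · exact (le_self_add.trans (h.upper hρ hB)).trans_lt ENNReal.ofReal_lt_top

theorem MS.H1_lt_top (h : MS U a b K u) {x : ℂ} {ρ : ℝ} (hB : closedBall x ρ ⊆ U) :
    H1 (K ∩ closedBall x ρ) < ⊤ := by
  rcases lt_or_ge ρ 0 with hρ | hρ
  · simp [closedBall_eq_empty.2 hρ]
  · exact (le_add_self.trans (h.upper hρ hB)).trans_lt ENNReal.ofReal_lt_top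

theorem MS.upper_real (h : MS U a b K u) {x : ℂ} {ρ : ℝ} (hρ : 0 ≤ ρ) (hB : closedBall x ρ ⊆ U) :
    Dr u x ρ + Lr K x ρ ≤ 2 * π * ρ + π * (a * b) * ρ ^ 2 := by
  have h1 : Dir u (ball x ρ) ≤ Dir u (closedBall x ρ) := (mba_dir u x ρ).ge
  have h2 : H1 (K ∩ ball x ρ) ≤ H1 (K ∩ closedBall x ρ) :=
    measure_mono (inter_subset_inter_right _ ball_subset_closedBall)
  have ha0 := h.a0
  have hb0 := h.b0
  rw [Dr, Lr, ← ENNReal.toReal_add (h1.trans_lt (h.Dir_lt_top hB)).ne (h2.trans_lt (h.H1_lt_top hB)).ne]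
  exact ENNReal.toReal_le_of_le_ofReal (by positivity) ((add_le_add h1 h2).trans (h.upper hρ hB))

theorem Dr_nonneg (u : ℂ → ℝ) (x : ℂ) (r : ℝ) : 0 ≤ Dr u x r := ENNReal.toReal_nonneg

theorem Lr_nonneg (K : Set ℂ) (x : ℂ) (r : ℝ) : 0 ≤ Lr K x r := ENNReal.toReal_nonneg

theorem MS.ofReal_Dr (h : MS U a b K u) {x : ℂ} {ρ : ℝ} (hB : closedBall x ρ ⊆ U) :
    ENNReal.ofReal (Dr u x ρ) = Dir u (ball x ρ) := by
  exact ENNReal.ofReal_toReal ((mba_dir u x ρ).ge.trans_lt (h.Dir_lt_top hB)).ne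

theorem MS.ofReal_Lr (h : MS U a b K u) {x : ℂ} {ρ : ℝ} (hB : closedBall x ρ ⊆ U) :
    ENNReal.ofReal (Lr K x ρ) = H1 (K ∩ ball x ρ) := by
  exact ENNReal.ofReal_toReal ((measure_mono (inter_subset_inter_right _ ball_subset_closedBall)).trans_lt
    (h.H1_lt_top hB)).ne

theorem MS.Dr_mono (h : MS U a b K u) {x y : ℂ} {ρ t : ℝ} (hB : closedBall x ρ ⊆ U) (hs : ball y t ⊆ ball x ρ) :
    Dr u y t ≤ Dr u x ρ := by
  exact ENNReal.toReal_mono ((mba_dir u x ρ).ge.trans_lt (h.Dir_lt_top hB)).ne (lintegral_mono_set hs)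

theorem MS.Lr_mono (h : MS U a b K u) {x y : ℂ} {ρ t : ℝ} (hB : closedBall x ρ ⊆ U) (hs : ball y t ⊆ ball x ρ) :
    Lr K y t ≤ Lr K x ρ := by
  exact ENNReal.toReal_mono ((measure_mono (inter_subset_inter_right _ ball_subset_closedBall)).trans_lt
    (h.H1_lt_top hB)).ne (measure_mono (inter_subset_inter_right _ hs))

/-- `K ∩ U` is Lebesgue-null (Lindelöf) -/
theorem MS.ae_not_mem (h : MS U a b K u) : ∀ᵐ z, z ∈ U → z ∉ K := by
  have h0 : volume (K ∩ U) = 0 := by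
    refine measure_null_of_locally_null _ fun z hz => ?_
    obtain ⟨r, hr, hB⟩ := nhds_basis_closedBall.mem_iff.1 (h.isOpen.mem_nhds hz.2)
    refine ⟨K ∩ closedBall z r, ?_, vol_zero_of_H1 (h.H1_lt_top hB)⟩
    exact inter_mem (mem_of_superset self_mem_nhdsWithin inter_subset_left)
      (mem_nhdsWithin_of_mem_nhds (closedBall_mem_nhds z hr))
  filter_upwards [measure_eq_zero_iff_ae_notMem.1 h0] with z hz hU hK using hz ⟨hK, hU⟩

theorem Glob.vol_zero (h : Glob K u) : volume K = 0 := by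
  rw [measure_eq_zero_iff_ae_notMem]
  filter_upwards [h.ms.ae_not_mem] with z hz using hz (mem_univ z)

theorem Glob.growth (h : Glob K u) (z : ℂ) {r : ℝ} (hr : 0 < r) :
    ∫⁻ w in ball z r, ‖gradient u w‖ₑ ^ 2 ≤ ENNReal.ofReal (2 * π * r) := by
  have h1 := h.ms.upper (x := z) hr.le (subset_univ _)
  rw [mul_zero, mul_zero, zero_mul, add_zero] at h1
  exact ((mba_dir u z r).ge.trans le_self_add).trans h1

theorem Dir_closedBall (w : ℂ → ℝ) (x : ℂ) (ρ : ℝ) : Dir w (closedBall x ρ) = Dir w (ball x ρ) := by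
  exact mba_dir w x ρ

theorem mbb_grad {W : Set ℂ} {Λ : ℂ → ℝ} (hΛ : LC W Λ) (w : ℂ → ℝ) {z : ℂ} (hz : z ∈ W) :
    gradient (fun y => w y + Λ y) z = gradient w z := by
  have h : (fun y => w y + Λ y) =ᶠ[𝓝 z] fun y => w y + Λ z := by
    filter_upwards [hΛ z hz] with y hy
    rw [hy]
  rw [h.gradient_eq, gradient, gradient, fderiv_add_const]

theorem mbb_dir {Λ : ℂ → ℝ} (hΛ : LC (univ \ K) Λ) (w : ℂ → ℝ) {S : Set ℂ} (hS : MeasurableSet S)
    (h0 : volume (K ∩ S) = 0) : Dir (fun y => w y + Λ y) S = Dir w S := by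
  refine setLIntegral_congr_fun_ae hS ?_
  filter_upwards [measure_eq_zero_iff_ae_notMem.1 h0] with z hz hzS
  rw [mbb_grad hΛ w ⟨mem_univ z, fun hK => hz ⟨hK, hzS⟩⟩]

/-- adding a locally constant function: if `(K', w)` competes with `u + Λ` then `(K', w - Λ')` competes with `u` -/
theorem Glob.addLC (h : Glob K u) {Λ : ℂ → ℝ} (hΛ : LC Kᶜ Λ) : Glob K (fun z => u z + Λ z) := by
  rw [compl_eq_univ_sdiff] at hΛ
  refine ⟨⟨isOpen_univ, h.ms.closed, le_rfl, le_rfl, h.ms.c1.add fun z hz => ?_, fun z _ => by simp,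
    fun K' w x ρ hB hc ha => ?_⟩, h.dlb⟩
  · exact ((contDiffAt_const (c := Λ z)).congr_of_eventuallyEq (hΛ z hz)).contDiffWithinAt
  obtain ⟨Λ', h1, h2⟩ := ha Λ hΛ
  have h3 : LC (univ \ K') fun z => -Λ' z := fun z hz => (h1 z hz).mono fun y hy => congrArg Neg.neg hy
  have hc' : Comp univ K u K' (fun z => w z + -Λ' z) x ρ := by
    refine ⟨hc.closed, hc.eqK, fun z hz => ?_, fun z hz => ?_⟩
    · simp only [hc.eqw hz, h2 hz, add_neg_cancel_right]
    · obtain ⟨L, t, ht, hL⟩ := hc.lip hz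
      refine ⟨L, _, inter_mem ht (mem_nhdsWithin_of_mem_nhds (h1 z hz)), fun p hp q hq => ?_⟩
      simp only [show Λ' p = Λ' z from hp.2, show Λ' q = Λ' z from hq.2, edist_add_right]
      exact hL hp.1 hq.1
  have h4 := h.ms.min K' _ x ρ hB hc' ha
  simp only [Err, ENNReal.ofReal_zero, zero_mul, add_zero] at h4 ⊢
  rcases eq_top_or_lt_top (H1 (K' ∩ closedBall x ρ)) with h5 | h5
  · simp [En, h5]
  · rw [En, mbb_dir hΛ u measurableSet_closedBall (measure_mono_null inter_subset_left h.vol_zero)]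
    rwa [En, En, mbb_dir h3 w measurableSet_closedBall (vol_zero_of_H1 h5)] at h4

theorem Sm.mono {δ : ℝ} {y : ℂ} {r s : ℝ} (h : Sm δ U a b y r) (hδ : 0 < δ) (ha : 0 ≤ a) (hb : 0 ≤ b) (hs : 0 < s)
    (hsr : s ≤ r) : Sm δ U a b y s := by
  refine ⟨(ball_subset_ball (by gcongr)).trans h.sub, le_trans ?_ h.a1, le_trans ?_ h.ab⟩
  · have := hs.le.trans hsr
    gcongr
  · gcongr

/-- moving the centre costs a factor `2` -/
theorem Sm.move {δ : ℝ} {y y' : ℂ} {r : ℝ} (h : Sm δ U a b y r) (hδ : 0 < δ) (hδ1 : δ ≤ 1 / 2) (hr : 0 < r)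
    (hy : dist y' y ≤ r) : Sm (2 * δ) U a b y' r := by
  refine ⟨(ball_subset_ball' ?_).trans h.sub, h.a1.trans (by linarith), h.ab.trans (by linarith)⟩
  have h1 : r ≤ r / (2 * δ) := by
    rw [le_div_iff₀ (by positivity)]
    nlinarith
  have h2 : r / δ = r / (2 * δ) + r / (2 * δ) := by
    field_simp
    ring
  linarith

theorem Sm.weaken {δ δ' : ℝ} {y : ℂ} {r : ℝ} (h : Sm δ U a b y r) (hδ : 0 < δ) (hδ' : δ ≤ δ') (hr : 0 < r) :
    Sm δ' U a b y r := by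
  exact ⟨(ball_subset_ball (by gcongr)).trans h.sub, h.a1.trans hδ', h.ab.trans hδ'⟩

theorem exists_Sm (hU : IsOpen U) {x : ℂ} (hx : x ∈ U) (a b : ℝ) {δ : ℝ} (hδ : 0 < δ) :
    ∃ r₀ : ℝ, 0 < r₀ ∧ ∀ y ∈ ball x r₀, ∀ r ∈ Ioc 0 r₀, Sm δ U a b y r := by
  obtain ⟨ε, hε, hB⟩ := Metric.isOpen_iff.1 hU x hx
  have key : ∀ f : ℝ → ℝ, Continuous f → f 0 = 0 → ∀ c : ℝ, 0 < c → ∀ᶠ r in 𝓝[>] (0 : ℝ), f r < c :=
    fun f hf h0 c hc => mem_nhdsWithin_of_mem_nhds ((hf.tendsto' 0 0 h0).eventually (gt_mem_nhds hc))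
  obtain ⟨r₀, ⟨⟨h1, h2⟩, h3⟩, (h0 : 0 < r₀)⟩ := ((((key (fun r => r / δ + r) (by fun_prop) (by simp) ε hε).and
    (key (fun r => |a| * (r * √r)) (by fun_prop) (by simp) δ hδ)).and
    (key (fun r => |a * b| * r) (by fun_prop) (by simp) δ hδ)).and self_mem_nhdsWithin).exists
  refine ⟨r₀, h0, fun y hy r hr => ⟨(ball_subset_ball' ?_).trans hB, le_trans ?_ h2.le, le_trans ?_ h3.le⟩⟩
  · exact (add_le_add (div_le_div_of_nonneg_right hr.2 hδ.le) (mem_ball.1 hy).le).trans h1.le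
  · have := hr.1
    have := hr.2
    gcongr
    exact le_abs_self a
  · exact mul_le_mul (le_abs_self _) hr.2 hr.1.le (abs_nonneg _)

end Crest.Agent.R135
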