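import Crest.Agent.R135.Defs
import Crest.Agent.R135.TLip
set_option autoImplicit false
open MeasureTheory Metric Set Filter Topology
open scoped ENNReal NNReal Real ComplexConjugate Convolution

namespace Crest.Agent.R135

/-- derivative of a mollification -/
theorem tl2w_deriv {W : Set ℂ} {v : ℂ → ℝ} {G : ℂ → ℂ} (hv : ContinuousOn v W) (hG : ContinuousOn G W)
    (h : ∀ φ : ℂ → ℝ, ContDiff ℝ (⊤ : ℕ∞) φ → HasCompactSupport φ → tsupport φ ⊆ W → ∀ d : ℂ,
      ∫ z, v z * fderiv ℝ φ z d = - ∫ z, inner ℝ (G z) d * φ z)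
    {z : ℂ} {δ η : ℝ} (hsub : closedBall z (2 * δ) ⊆ W) (hη : 0 ≤ η)
    (hb : ∀ y ∈ closedBall z (2 * δ), ‖G y - G z‖ ≤ η) (b : ContDiffBump (0 : ℂ)) (hbδ : b.rOut ≤ δ)
    {p : ℂ} (hp : p ∈ ball z δ) :
    ∃ D : ℂ →L[ℝ] ℝ, HasFDerivAt ((closedBall z (2 * δ)).indicator v ⋆[ContinuousLinearMap.mul ℝ ℝ, volume]
      b.normed volume) D p ∧ ‖D - innerSL ℝ (G z)‖ ≤ η := by
  set C := closedBall z (2 * δ) with hC
  set ρ := b.normed (volume : Measure ℂ) with hρ
  have hCc : IsCompact C := isCompact_closedBall _ _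
  have hCm : MeasurableSet C := hCc.measurableSet
  have hvi : Integrable (C.indicator v) :=
    (integrable_indicator_iff hCm).2 ((hv.mono hsub).integrableOn_compact hCc)
  have hρc : HasCompactSupport ρ := b.hasCompactSupport_normed
  have hρs : ContDiff ℝ (⊤ : ℕ∞) ρ := b.contDiff_normed
  have hρ1 : ContDiff ℝ 1 ρ := b.contDiff_normed (n := 1)
  refine ⟨_, hρc.hasFDerivAt_convolution_right (ContinuousLinearMap.mul ℝ ℝ) hvi.locallyIntegrable hρ1 p, ?_⟩
  refine ContinuousLinearMap.opNorm_le_bound _ hη fun d => ?_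
  rw [sub_apply,
    convolution_precompR_apply _ hvi.locallyIntegrable (hρc.fderiv ℝ) (hρ1.continuous_fderiv one_ne_zero)]
  -- the test function
  set φ : ℂ → ℝ := fun t => ρ (p - t) with hφ
  have hφs : ContDiff ℝ (⊤ : ℕ∞) φ := hρs.comp (contDiff_const.sub contDiff_id)
  have hsupp : tsupport φ ⊆ closedBall p b.rOut := by
    refine closure_minimal (fun t ht => ?_) isClosed_closedBall
    have : p - t ∈ Function.support ρ := ht
    rw [hρ, b.support_normed_eq, mem_ball_zero_iff] at this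
    rw [mem_closedBall, dist_comm, dist_eq_norm]
    exact this.le
  have hpC : closedBall p b.rOut ⊆ C := by
    refine closedBall_subset_closedBall' ?_
    have := mem_ball.1 hp
    linarith
  have hφc : HasCompactSupport φ :=
    (isCompact_closedBall p b.rOut).of_isClosed_subset (isClosed_tsupport φ) hsupp
  have hφd : ∀ t, fderiv ℝ φ t d = - fderiv ℝ ρ (p - t) d := by
    intro t
    have h1 : HasFDerivAt ρ (fderiv ℝ ρ (p - t)) (p - t) :=
      (hρ1.differentiable one_ne_zero (p - t)).hasFDerivAt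
    have h2 : HasFDerivAt (fun t : ℂ => p - t) (-ContinuousLinearMap.id ℝ ℂ) t :=
      (hasFDerivAt_id t).const_sub p
    have h3 := (HasFDerivAt.comp (g := ρ) (f := fun t : ℂ => p - t) t h1 h2).fderiv
    have h4 : fderiv ℝ φ t = (fderiv ℝ ρ (p - t)).comp (-ContinuousLinearMap.id ℝ ℂ) := h3
    rw [h4]
    simp
  have e1 : (C.indicator v ⋆[ContinuousLinearMap.mul ℝ ℝ, volume] fun a => fderiv ℝ ρ a d) p =
      - ∫ t, v t * fderiv ℝ φ t d := by
    rw [convolution_def, ← integral_neg]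
    congr 1
    funext t
    simp only [ContinuousLinearMap.mul_apply']
    by_cases ht : t ∈ C
    · rw [indicator_of_mem ht, hφd]; ring
    · have h0 : fderiv ℝ φ t = 0 :=
        fderiv_of_notMem_tsupport ℝ fun ht' => ht (hpC (hsupp ht'))
      rw [indicator_of_notMem ht, h0]; simp
  rw [e1, h φ hφs hφc (hsupp.trans (hpC.trans hsub)) d, neg_neg]
  have hGc : ContinuousOn (fun y => (inner ℝ (G y) d : ℝ)) C :=
    (hG.mono hsub).inner (𝕜 := ℝ) continuousOn_const
  have hGi : Integrable (C.indicator fun y => (inner ℝ (G y) d : ℝ)) :=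
    (integrable_indicator_iff hCm).2 (hGc.integrableOn_compact hCc)
  have e2 : ∫ t, inner ℝ (G t) d * φ t =
      (ρ ⋆[ContinuousLinearMap.lsmul ℝ ℝ, volume] C.indicator fun y => (inner ℝ (G y) d : ℝ)) p := by
    rw [convolution_lsmul_swap]
    congr 1
    funext t
    by_cases ht : t ∈ C
    · rw [indicator_of_mem ht, smul_eq_mul, mul_comm]
    · have h0 : φ t = 0 := by
        by_contra hne
        exact ht (hpC (hsupp (subset_tsupport φ hne)))
      have h0' : ρ (p - t) = 0 := h0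
      rw [h0, h0']; simp
  rw [e2, ← dist_eq_norm]
  refine dist_convolution_le (R := b.rOut) (by positivity) (by rw [hρ, b.support_normed_eq])
    b.nonneg_normed b.integral_normed hGi.aestronglyMeasurable fun y hy => ?_
  have hyC : y ∈ C := hpC (ball_subset_closedBall hy)
  rw [indicator_of_mem hyC, innerSL_apply_apply, Real.dist_eq, ← inner_sub_left]
  exact (abs_real_inner_le_norm _ _).trans (mul_le_mul_of_nonneg_right (hb y hyC) (norm_nonneg d))

theorem tl2w_key {W : Set ℂ} {v : ℂ → ℝ} {G : ℂ → ℂ} (hv : ContinuousOn v W) (hG : ContinuousOn G W)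
    (h : ∀ φ : ℂ → ℝ, ContDiff ℝ (⊤ : ℕ∞) φ → HasCompactSupport φ → tsupport φ ⊆ W → ∀ d : ℂ,
      ∫ z, v z * fderiv ℝ φ z d = - ∫ z, inner ℝ (G z) d * φ z)
    {z : ℂ} {δ η : ℝ} (hδ : 0 < δ) (hsub : closedBall z (2 * δ) ⊆ W) (hη : 0 ≤ η)
    (hb : ∀ y ∈ closedBall z (2 * δ), ‖G y - G z‖ ≤ η) {x : ℂ} (hx : x ∈ ball z δ) :
    ‖v x - v z - innerSL ℝ (G z) (x - z)‖ ≤ η * ‖x - z‖ := by
  set C := closedBall z (2 * δ) with hC
  have hCc : IsCompact C := isCompact_closedBall _ _
  have hvi : Integrable (C.indicator v) :=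
    (integrable_indicator_iff hCc.measurableSet).2 ((hv.mono hsub).integrableOn_compact hCc)
  refine le_of_forall_pos_le_add fun κ hκ => ?_
  obtain ⟨ε₀, hε₀, hu⟩ := Metric.uniformContinuousOn_iff.1
    (hCc.uniformContinuousOn_of_continuous (hv.mono hsub)) (κ / 2) (by positivity)
  let b : ContDiffBump (0 : ℂ) := ⟨min ε₀ δ / 2, min ε₀ δ, by positivity, by
    have : 0 < min ε₀ δ := lt_min hε₀ hδ
    linarith⟩
  have hb1 : b.rOut ≤ δ := min_le_right _ _
  have hb2 : b.rOut ≤ ε₀ := min_le_left _ _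
  set V := C.indicator v ⋆[ContinuousLinearMap.mul ℝ ℝ, volume] b.normed volume with hV
  choose! D hD hD' using fun p (hp : p ∈ ball z δ) => tl2w_deriv hv hG h hsub hη hb b hb1 hp
  have hmv := (convex_ball z δ).norm_image_sub_le_of_norm_hasFDerivWithin_le'
    (fun p hp => (hD p hp).hasFDerivWithinAt) hD' (mem_ball_self hδ) hx
  have hcl : ∀ p ∈ ball z δ, dist (V p) (v p) ≤ κ / 2 := by
    intro p hp
    have hpC : ball p b.rOut ⊆ C := by
      refine ball_subset_closedBall.trans (closedBall_subset_closedBall' ?_)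
      have := mem_ball.1 hp
      linarith
    have e : V p = (b.normed volume ⋆[ContinuousLinearMap.lsmul ℝ ℝ, volume] C.indicator v) p := by
      rw [convolution_lsmul_swap, hV, convolution_def]
      congr 1
      funext t
      simp [mul_comm]
    rw [e]
    refine dist_convolution_le (R := b.rOut) (by positivity) (by rw [b.support_normed_eq])
      b.nonneg_normed b.integral_normed hvi.aestronglyMeasurable fun y hy => ?_
    rw [indicator_of_mem (hpC hy)]
    exact (hu y (hpC hy) p (hpC (mem_ball_self b.rOut_pos)) ((mem_ball.1 hy).trans_le hb2)).le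
  have h1 := hcl x hx
  have h2 := hcl z (mem_ball_self hδ)
  rw [Real.dist_eq, abs_le] at h1 h2
  rw [Real.norm_eq_abs, abs_le] at hmv ⊢
  constructor <;> linarith [h1.1, h1.2, h2.1, h2.2, hmv.1, hmv.2]

theorem tl2w_main {W : Set ℂ} (hW : IsOpen W) {v : ℂ → ℝ} {G : ℂ → ℂ} (hv : ContinuousOn v W)
    (hG : ContinuousOn G W)
    (h : ∀ φ : ℂ → ℝ, ContDiff ℝ (⊤ : ℕ∞) φ → HasCompactSupport φ → tsupport φ ⊆ W → ∀ d : ℂ,
      ∫ z, v z * fderiv ℝ φ z d = - ∫ z, inner ℝ (G z) d * φ z) :
    ∀ z ∈ W, HasGradientAt v (G z) z := by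
  intro z hz
  rw [hasGradientAt_iff_hasFDerivAt, hasFDerivAt_iff_isLittleO, Asymptotics.isLittleO_iff]
  intro η hη
  have hc := (hG.continuousAt (hW.mem_nhds hz)).eventually (closedBall_mem_nhds (G z) hη)
  obtain ⟨r, hr, hball⟩ := nhds_basis_closedBall.mem_iff.1 (hc.and (hW.mem_nhds hz))
  have hδ : 0 < r / 2 := by positivity
  have e : 2 * (r / 2) = r := by ring
  filter_upwards [ball_mem_nhds z hδ] with x hx
  exact tl2w_key hv hG h hδ (by rw [e]; exact fun y hy => (hball hy).2) hη.le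
    (by rw [e]; exact fun y hy => by simpa [dist_eq_norm] using (hball hy).1) hx

theorem tl2w_LC {W : Set ℂ} (hW : IsOpen W) {w : ℂ → ℝ} (h : LocallyLipschitzOn W w)
    (h0 : ∀ᵐ z, z ∈ W → gradient w z = 0) : LC W w := by
  have hg : ∀ z ∈ W, HasGradientAt w ((fun _ => (0 : ℂ)) z) z := by
    refine tl2w_main hW h.continuousOn continuousOn_const fun φ hφ hc hs d => ?_
    have h1 := (WG_of_locLip hW h).2.2 φ hφ hc hs d
    have h2 : ∫ z in W, w z * fderiv ℝ φ z d = ∫ z, w z * fderiv ℝ φ z d := by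
      refine setIntegral_eq_integral_of_forall_compl_eq_zero fun z hz => ?_
      rw [fderiv_of_notMem_tsupport ℝ fun hz' => hz (hs hz')]
      simp
    have h3 : ∫ z in W, inner ℝ (gradient w z) d * φ z = 0 := by
      refine integral_eq_zero_of_ae ?_
      rw [EventuallyEq, ae_restrict_iff' hW.measurableSet]
      filter_upwards [h0] with z hz hzW
      simp [hz hzW]
    rw [← h2, h1, h3]
    simp
  intro z hz
  obtain ⟨r, hr, hball⟩ := Metric.isOpen_iff.1 hW z hz
  filter_upwards [ball_mem_nhds z hr] with y hy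
  have hd : ∀ p ∈ ball z r, HasFDerivAt w (0 : ℂ →L[ℝ] ℝ) p := fun p hp => by
    simpa using (hg p (hball hp)).hasFDerivAt
  exact isOpen_ball.is_const_of_fderiv_eq_zero (𝕜 := ℝ) (convex_ball z r).isPreconnected
    (fun p hp => (hd p hp).differentiableAt.differentiableWithinAt) (fun p hp => (hd p hp).fderiv) hy
    (mem_ball_self hr)

end Crest.Agent.R135
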