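import Crest.Agent.R135.Defs
import Crest.Agent.R135.TLip
import Crest.Agent.R135.TLip2AuxW
set_option autoImplicit false
open MeasureTheory Metric Set Filter Topology
open scoped ENNReal NNReal Real ComplexConjugate

namespace Crest.Agent.R135

/-- zero gradient a.e. implies locally constant. Recipe: on a small ball `w` is Lipschitz; `ibp_locLip` shows that every
mollification (`ContDiffBump.convolution_tendsto_right`, `HasCompactSupport.hasFDerivAt_convolution_left`) has zero derivative; or use Fubini on lines with the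
FTC for absolutely continuous functions. -/
theorem LC_of_grad_zero {W : Set ℂ} (hW : IsOpen W) {w : ℂ → ℝ} (h : LocallyLipschitzOn W w)
    (h0 : ∀ᵐ z, z ∈ W → gradient w z = 0) : LC W w :=
  tl2w_LC hW h h0

/-- A continuous function with a continuous weak gradient is `C¹` (mollify; `hasFDerivAt_of_tendstoUniformlyOnFilter`
or `hasFDerivAt_of_tendstoLocallyUniformlyOn`). -/
theorem hasGradientAt_of_weak {W : Set ℂ} (hW : IsOpen W) {v : ℂ → ℝ} {G : ℂ → ℂ} (hv : ContinuousOn v W)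
    (hG : ContinuousOn G W)
    (h : ∀ φ : ℂ → ℝ, ContDiff ℝ (⊤ : ℕ∞) φ → HasCompactSupport φ → tsupport φ ⊆ W → ∀ d : ℂ,
      ∫ z, v z * fderiv ℝ φ z d = - ∫ z, inner ℝ (G z) d * φ z) :
    ∀ z ∈ W, HasGradientAt v (G z) z :=
  tl2w_main hW hv hG h

/-- smooth truncation at level `M` (primitive of a bump function) -/
theorem exists_trunc (M : ℝ) (hM : 0 < M) : ∃ Φ : ℝ → ℝ, ContDiff ℝ (⊤ : ℕ∞) Φ ∧ (∀ t, |t| ≤ M → Φ t = t) ∧
    (∀ t, |t| < M → deriv Φ t = 1) ∧ (∀ t, 0 ≤ deriv Φ t ∧ deriv Φ t ≤ 1) ∧ (∀ t, |Φ t| ≤ |t|) ∧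
    ∀ t, |Φ t| ≤ 2 * M := by
  let b : ContDiffBump (0 : ℝ) := ⟨M, 2 * M, hM, by linarith⟩
  have hb : ContDiff ℝ (⊤ : ℕ∞) b := b.contDiff
  have hd : ∀ t, HasDerivAt (fun t => ∫ s in (0 : ℝ)..t, b s) (b t) t := fun t =>
    (hb.continuous.integral_hasStrictDerivAt 0 t).hasDerivAt
  have hd' : deriv (fun t => ∫ s in (0 : ℝ)..t, b s) = b := funext fun t => (hd t).deriv
  have h1 : ∀ t, |t| ≤ M → b t = 1 := fun t ht =>
    b.one_of_mem_closedBall (by rwa [mem_closedBall_zero_iff, Real.norm_eq_abs])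
  have h0 : ∀ t, 2 * M ≤ |t| → b t = 0 := fun t ht =>
    b.zero_of_le_dist (by rwa [dist_zero_right, Real.norm_eq_abs])
  have hle : ∀ t, |∫ s in (0 : ℝ)..t, b s| ≤ |t| := fun t => by
    have := intervalIntegral.norm_integral_le_of_norm_le_const (a := 0) (b := t) (C := 1) (f := b) fun s _ => by
      rw [Real.norm_of_nonneg b.nonneg]
      exact b.le_one
    simpa using this
  have hi : ∀ s t, IntervalIntegrable b volume s t := fun s t => hb.continuous.intervalIntegrable s t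
  have hz : ∀ s t, (∀ x ∈ uIcc s t, 2 * M ≤ |x|) → ∫ x in (0 : ℝ)..t, b x = ∫ x in (0 : ℝ)..s, b x :=
    fun s t h => by
      rw [← intervalIntegral.integral_add_adjacent_intervals (hi 0 s) (hi s t),
        intervalIntegral.integral_congr (g := fun _ => (0 : ℝ)) fun x hx => h0 x (h x hx)]
      simp
  refine ⟨fun t => ∫ s in (0 : ℝ)..t, b s, contDiff_infty_iff_deriv.2 ⟨fun t => (hd t).differentiableAt, by rw [hd']; exact hb⟩,
    fun t ht => ?_, fun t ht => by rw [hd']; exact h1 t ht.le, fun t => by rw [hd']; exact ⟨b.nonneg, b.le_one⟩, hle, fun t => ?_⟩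
  · beta_reduce
    rw [intervalIntegral.integral_congr (g := fun _ => (1 : ℝ)) fun x hx => h1 x ?_]
    · simp
    · have := abs_le.1 ht
      rcases mem_uIcc.1 hx with h | h <;> exact abs_le.2 ⟨by linarith [h.1, h.2], by linarith [h.1, h.2]⟩
  · beta_reduce
    rcases le_total t (2 * M) with h | h
    · rcases le_total (-(2 * M)) t with h' | h'
      · exact (hle t).trans (abs_le.2 ⟨h', h⟩)
      · rw [hz (-(2 * M)) t fun x hx => ?_]
        · exact (hle _).trans (by rw [abs_neg, abs_of_pos (by linarith)])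
        · rw [uIcc_of_ge h'] at hx
          exact le_trans (by linarith [hx.2]) (neg_le_abs x)
    · rw [hz (2 * M) t fun x hx => ?_]
      · exact (hle _).trans (by rw [abs_of_pos (by linarith)])
      · rw [uIcc_of_le h] at hx
        exact hx.1.trans (le_abs_self x)

/-- smooth radial cutoff -/
theorem exists_cutoff : ∃ A : ℝ, ∀ (x : ℂ) (R : ℝ), 0 < R → ∃ η : ℂ → ℝ, ContDiff ℝ (⊤ : ℕ∞) η ∧
    (∀ z, 0 ≤ η z ∧ η z ≤ 1) ∧ (∀ z ∈ closedBall x R, η z = 1) ∧ (∀ z ∉ ball x (2 * R), η z = 0) ∧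
    (∀ z, ‖gradient η z‖ ≤ A / R) ∧ (∀ z ∈ ball x R, gradient η z = 0) ∧
    ∀ z ∉ closedBall x (2 * R), gradient η z = 0 := by
  let b : ContDiffBump (0 : ℂ) := ⟨1, 2, one_pos, one_lt_two⟩
  have hb : ContDiff ℝ (⊤ : ℕ∞) b := b.contDiff
  obtain ⟨L, hL⟩ := hb.lipschitzWith_of_hasCompactSupport b.hasCompactSupport (by simp)
  refine ⟨L, fun x R hR => ?_⟩
  have hn : ∀ z : ℂ, ‖R⁻¹ • (z - x)‖ = dist z x / R := fun z => by
    rw [norm_smul, Real.norm_of_nonneg (inv_pos.2 hR).le, dist_eq_norm, div_eq_inv_mul]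
  have h1 : ∀ z ∈ closedBall x R, b (R⁻¹ • (z - x)) = 1 := fun z hz =>
    b.one_of_mem_closedBall (by rw [mem_closedBall_zero_iff, hn]; exact (div_le_one hR).2 hz)
  have h0 : ∀ z ∉ ball x (2 * R), b (R⁻¹ • (z - x)) = 0 := fun z hz =>
    b.zero_of_le_dist (by rw [dist_zero_right, hn]; exact (le_div_iff₀ hR).2 (not_lt.1 hz))
  refine ⟨fun z => b (R⁻¹ • (z - x)), hb.comp ((contDiff_id.sub contDiff_const).const_smul _),
    fun z => ⟨b.nonneg, b.le_one⟩, h1, h0, fun z => ?_, fun z hz => ?_, fun z hz => ?_⟩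
  · have h2 : LipschitzWith (L / NNReal.mk R hR.le) fun z : ℂ => b (R⁻¹ • (z - x)) :=
      LipschitzWith.of_dist_le_mul fun z w => (hL.dist_le_mul _ _).trans (le_of_eq (by
        rw [dist_eq_norm, ← smul_sub, sub_sub_sub_cancel_right, norm_smul,
          Real.norm_of_nonneg (inv_pos.2 hR).le, dist_eq_norm, NNReal.coe_div, NNReal.coe_mk]
        ring))
    rw [norm_gradient]
    exact norm_fderiv_le_of_lipschitz ℝ h2
  · have : (fun z : ℂ => b (R⁻¹ • (z - x))) =ᶠ[𝓝 z] fun _ => 1 := by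
      filter_upwards [isOpen_ball.mem_nhds hz] with w hw using h1 w (ball_subset_closedBall hw)
    rw [this.gradient_eq, gradient_fun_const]
  · have : (fun z : ℂ => b (R⁻¹ • (z - x))) =ᶠ[𝓝 z] fun _ => 0 := by
      filter_upwards [isClosed_closedBall.isOpen_compl.mem_nhds hz] with w hw using
        h0 w fun h => hw (ball_subset_closedBall h)
    rw [this.gradient_eq, gradient_fun_const]

/-- smooth cutoff between a compact set and an open neighbourhood -/
theorem exists_cutoff_compact {C W : Set ℂ} (hC : IsCompact C) (hW : IsOpen W) (h : C ⊆ W) :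
    ∃ χ : ℂ → ℝ, ContDiff ℝ (⊤ : ℕ∞) χ ∧ HasCompactSupport χ ∧ tsupport χ ⊆ W ∧ (∀ z, 0 ≤ χ z ∧ χ z ≤ 1) ∧
      ∀ᶠ z in 𝓝ˢ C, χ z = 1 := by
  obtain ⟨L, hL, h1, h2⟩ := exists_compact_between hC hW h
  obtain ⟨f, f1, f0, f2⟩ := exists_contMDiffMap_one_nhds_of_subset_interior (n := (⊤ : ℕ∞)) (modelWithCornersSelf ℝ ℂ)
    hC.isClosed h1
  have hs : tsupport f ⊆ L := closure_minimal (fun z hz => by_contra fun h => hz (f0 z h)) hL.isClosed
  exact ⟨f, f.contMDiff.contDiff, hL.of_isClosed_subset (isClosed_tsupport _) hs, hs.trans h2, f2, f1⟩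

theorem tl2_grad (w : ℂ → ℝ) (z : ℂ) :
    gradient w z = (fderiv ℝ w z 1 : ℝ) + (fderiv ℝ w z Complex.I : ℝ) * Complex.I := by
  rw [← inner_gradient, ← inner_gradient]
  generalize gradient w z = a
  apply Complex.ext <;> simp

theorem tl2_fderiv_le (w : ℂ → ℝ) (z d : ℂ) : |fderiv ℝ w z d| ≤ ‖gradient w z‖ * ‖d‖ := by
  rw [norm_gradient]
  exact (fderiv ℝ w z).le_opNorm d

theorem tl2_fd2 {w : ℂ → ℝ} {z : ℂ} (h : ContDiffAt ℝ 2 w z) (d : ℂ) :
    HasFDerivAt (fun y => fderiv ℝ w y d) ((fderiv ℝ (fderiv ℝ w) z).flip d) z := by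
  have h1 : DifferentiableAt ℝ (fderiv ℝ w) z :=
    (h.fderiv_right (m := 1) (by norm_num)).differentiableAt one_ne_zero
  simpa using h1.hasFDerivAt.clm_apply (hasFDerivAt_const d z)

theorem tl2_symm {w : ℂ → ℝ} {z : ℂ} (h : ContDiffAt ℝ 2 w z) (d e : ℂ) :
    fderiv ℝ (fun y => fderiv ℝ w y d) z e = fderiv ℝ (fun y => fderiv ℝ w y e) z d := by
  rw [(tl2_fd2 h d).fderiv, (tl2_fd2 h e).fderiv]
  exact h.isSymmSndFDerivAt (by simp) e d

theorem tl2_c1 {W : Set ℂ} (hW : IsOpen W) {N : ℂ → ℝ} (hN : ContDiffOn ℝ 2 N W) (d : ℂ) :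
    ContDiffOn ℝ 1 (fun y => fderiv ℝ N y d) W :=
  (hN.fderiv_of_isOpen (m := 1) hW (by norm_num)).clm_apply contDiffOn_const

/-- product of two partial derivatives, one factor vanishing off a compact set -/
theorem tl2_int {W C : Set ℂ} (hW : IsOpen W) {u φ : ℂ → ℝ} (hu : LocallyLipschitzOn W u) (hC : IsCompact C)
    (hCW : C ⊆ W) (hφ : Measurable φ) (hb : ∃ M, ∀ z ∈ C, |φ z| ≤ M) (d : ℂ)
    (h0 : ∀ z ∈ W \ C, fderiv ℝ u z d * φ z = 0) : IntegrableOn (fun z => fderiv ℝ u z d * φ z) W := by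
  obtain ⟨M, hM⟩ := hb
  obtain ⟨A, hA⟩ := grad_bdd_of_locLip hW hu hC hCW
  refine IntegrableOn.of_forall_sdiff_eq_zero (s := C) ?_ hW.measurableSet h0
  refine Measure.integrableOn_of_bounded hC.measure_lt_top.ne
    ((measurable_fderiv_apply_const ℝ u d).mul hφ).aestronglyMeasurable (M := A * ‖d‖ * M) ?_
  filter_upwards [ae_restrict_mem hC.measurableSet] with z hz
  rw [Real.norm_eq_abs, abs_mul]
  exact mul_le_mul ((tl2_fderiv_le u z d).trans (mul_le_mul_of_nonneg_right (hA z hz) (norm_nonneg _))) (hM z hz)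
    (abs_nonneg _) (mul_nonneg ((norm_nonneg _).trans (hA z hz)) (norm_nonneg _))

/-- curl-free: for `u` of class `C¹` on `W` and `ψ` smooth compactly supported in `W` (two integrations by parts moved onto
`ψ`, symmetry of second derivatives `ContDiffAt.isSymmSndFDerivAt`) -/
theorem integral_curl_eq_zero {W : Set ℂ} (hW : IsOpen W) {u ψ : ℂ → ℝ} (hu : LocallyLipschitzOn W u)
    (hψ : ContDiff ℝ (⊤ : ℕ∞) ψ) (hc : HasCompactSupport ψ) (hs : tsupport ψ ⊆ W) :
    ∫ z, inner ℝ (Complex.I * gradient u z) (gradient ψ z) = 0 := by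
  have h2 : ContDiff ℝ 2 ψ := hψ.of_le (WithTop.coe_le_coe.2 le_top)
  have h0 : ∀ d, ∀ z ∉ tsupport ψ, fderiv ℝ ψ z d = 0 := fun d z hz => by
    rw [(notMem_tsupport_iff_eventuallyEq.1 hz).fderiv_eq]
    simp
  have hc1 : ∀ d, ContDiffOn ℝ 1 (fun y => fderiv ℝ ψ y d) W := tl2_c1 hW h2.contDiffOn
  have hi : ∀ d e, IntegrableOn (fun z => fderiv ℝ u z d * fderiv ℝ ψ z e) W := fun d e =>
    tl2_int hW hu hc hs (measurable_fderiv_apply_const ℝ ψ e)
      (hc.isCompact.exists_bound_of_continuousOn ((hc1 e).continuousOn.mono hs)) d fun z hz => by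
        rw [h0 e z hz.2, mul_zero]
  have ibp := fun d e => ibp_locLip hW hu (locLip_of_contDiffOn hW (hc1 e)) hc hs (fun z hz => h0 e z hz.2) d
  have e1 : ∀ z, inner ℝ (Complex.I * gradient u z) (gradient ψ z) =
      fderiv ℝ u z 1 * fderiv ℝ ψ z Complex.I - fderiv ℝ u z Complex.I * fderiv ℝ ψ z 1 := fun z => by
    rw [tl2_grad u, tl2_grad ψ]
    simp
    ring
  simp only [e1]
  rw [← setIntegral_eq_integral_of_forall_compl_eq_zero (s := W) fun z hz => by
    rw [h0 _ z fun h => hz (hs h), h0 _ z fun h => hz (hs h)]; simp, integral_sub (hi _ _) (hi _ _)]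
  have a1 := ibp 1 Complex.I
  have a2 := ibp Complex.I 1
  simp only [fun z => tl2_symm (h2.contDiffAt (x := z)) Complex.I 1] at a1
  linarith

/-- Green: `∫ ⟪∇N, ∇ψ⟫ = -∫ (ΔN) ψ` -/
theorem green_locLip {W C : Set ℂ} (hW : IsOpen W) {N ψ : ℂ → ℝ} (hN : ContDiffOn ℝ 2 N W)
    (hψ : LocallyLipschitzOn W ψ) (hC : IsCompact C) (hCW : C ⊆ W) (h0 : ∀ z ∈ W \ C, ψ z = 0) :
    ∫ z in W, inner ℝ (gradient N z) (gradient ψ z) = - ∫ z in W, lap N z * ψ z := by
  have hc1 := tl2_c1 hW hN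
  have h0' : ∀ d, ∀ z ∈ W \ C, fderiv ℝ ψ z d = 0 := fun d z hz => by
    have : ψ =ᶠ[𝓝 z] fun _ => 0 := by
      filter_upwards [(hW.sdiff hC.isClosed).mem_nhds hz] with w hw using h0 w hw
    rw [this.fderiv_eq]
    simp
  have hi : ∀ d, IntegrableOn (fun z => fderiv ℝ N z d * fderiv ℝ ψ z d) W := fun d => by
    simpa only [mul_comm] using tl2_int hW hψ hC hCW (measurable_fderiv_apply_const ℝ N d)
      (hC.exists_bound_of_continuousOn ((hc1 d).continuousOn.mono hCW)) d fun z hz => by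
        rw [h0' d z hz, zero_mul]
  have hj : ∀ d, IntegrableOn (fun z => fderiv ℝ (fun y => fderiv ℝ N y d) z d * ψ z) W := fun d => by
    refine IntegrableOn.of_forall_sdiff_eq_zero (s := C) ?_ hW.measurableSet fun z hz => by rw [h0 z hz, mul_zero]
    refine ContinuousOn.integrableOn_compact hC (ContinuousOn.mono ?_ hCW)
    exact (((hc1 d).continuousOn_fderiv_of_isOpen hW le_rfl).clm_apply continuousOn_const).mul hψ.continuousOn
  have ibp := fun d => ibp_locLip hW (locLip_of_contDiffOn hW (hc1 d)) hψ hC hCW h0 d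
  have e1 : ∀ z, inner ℝ (gradient N z) (gradient ψ z) =
      fderiv ℝ N z 1 * fderiv ℝ ψ z 1 + fderiv ℝ N z Complex.I * fderiv ℝ ψ z Complex.I := fun z => by
    rw [tl2_grad N, tl2_grad ψ]
    simp
    ring
  simp only [e1, lap, add_mul]
  rw [integral_add (hi _) (hi _), integral_add (hj _) (hj _), ibp, ibp]
  ring

/-- `conj ∇N` holomorphic iff `N` harmonic (for `C²` functions): Cauchy–Riemann -/
theorem lap_eq_zero_iff {W : Set ℂ} (hW : IsOpen W) {N : ℂ → ℝ} (hN : ContDiffOn ℝ 2 N W) :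
    DifferentiableOn ℂ (fun z => conj (gradient N z)) W ↔ ∀ z ∈ W, lap N z = 0 := by
  have e : (fun z => conj (gradient N z)) =
      fun z => ((fderiv ℝ N z 1 : ℝ) : ℂ) - ((fderiv ℝ N z Complex.I : ℝ) : ℂ) * Complex.I := funext fun z => by
    rw [tl2_grad]
    simp [sub_eq_add_neg]
  rw [e, DifferentiableOn]
  refine forall₂_congr fun z hz => ?_
  have h2 : ContDiffAt ℝ 2 N z := hN.contDiffAt (hW.mem_nhds hz)
  have hd := (Complex.ofRealCLM.hasFDerivAt.comp z (tl2_fd2 h2 1)).fun_sub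
    ((Complex.ofRealCLM.hasFDerivAt.comp z (tl2_fd2 h2 Complex.I)).mul_const Complex.I)
  have hd' : HasFDerivAt
      (fun z => ((fderiv ℝ N z 1 : ℝ) : ℂ) - ((fderiv ℝ N z Complex.I : ℝ) : ℂ) * Complex.I) _ z := hd
  have hs := h2.isSymmSndFDerivAt (by simp) 1 Complex.I
  refine Iff.trans ⟨fun h => h.differentiableAt (hW.mem_nhds hz), fun h => h.differentiableWithinAt⟩ ?_
  rw [differentiableAt_complex_iff_differentiableAt_real, and_iff_right hd'.differentiableAt, hd'.fderiv, lap,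
    (tl2_fd2 h2 1).fderiv, (tl2_fd2 h2 Complex.I).fderiv]
  simp [Complex.ext_iff, hs]
  constructor <;> intro h <;> linarith

end Crest.Agent.R135
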