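import Crest.Agent.R135.Defs
set_option autoImplicit false
open MeasureTheory Metric Set Filter Topology
open scoped ENNReal NNReal Real ComplexConjugate

namespace Crest.Agent.R135

/-- the Laplacian of a radial function -/
theorem tmol_lap {H G : ℝ → ℝ} (hH : ∀ s, HasDerivAt H (G s) s) (z : ℂ) {G' : ℝ}
    (hG : HasDerivAt G G' (‖z‖ ^ 2)) :
    lap (fun y => H (‖y‖ ^ 2)) z = 4 * (G (‖z‖ ^ 2) + ‖z‖ ^ 2 * G') := by
  have h1 : ∀ y v : ℂ, fderiv ℝ (fun y : ℂ => H (‖y‖ ^ 2)) y v = G (‖y‖ ^ 2) * (2 * inner ℝ v y) := by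
    intro y v
    have h4 : fderiv ℝ (fun y : ℂ => H (‖y‖ ^ 2)) y = _ :=
      ((hH _).comp_hasFDerivAt y (hasStrictFDerivAt_norm_sq y).hasFDerivAt).fderiv
    rw [h4]
    simp only [smul_apply, innerSL_apply_apply, smul_eq_mul, nsmul_eq_mul, Nat.cast_ofNat,
      real_inner_comm v y]
  have h2 : ∀ v : ℂ, fderiv ℝ (fun y : ℂ => G (‖y‖ ^ 2) * (2 * inner ℝ v y)) z v =
      G (‖z‖ ^ 2) * (2 * ‖v‖ ^ 2) + G' * (2 * inner ℝ v z) ^ 2 := by
    intro v
    have h3 := (hG.comp_hasFDerivAt z (hasStrictFDerivAt_norm_sq z).hasFDerivAt).mul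
      ((innerSL ℝ v).hasFDerivAt.const_mul 2)
    have h4 : fderiv ℝ (fun y : ℂ => G (‖y‖ ^ 2) * (2 * inner ℝ v y)) z = _ := h3.fderiv
    rw [h4]
    simp only [add_apply, smul_apply, innerSL_apply_apply,
      smul_eq_mul, Function.comp_apply, real_inner_self_eq_norm_sq, nsmul_eq_mul, Nat.cast_ofNat,
      real_inner_comm v z]
    ring
  unfold lap
  simp only [h1, h2]
  have h5 : ‖z‖ ^ 2 = z.re ^ 2 + z.im ^ 2 := by rw [Complex.sq_norm, Complex.normSq_apply]; ring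
  simp only [Complex.inner, map_one, mul_one, norm_one, Complex.norm_I, Complex.conj_I, Complex.mul_re,
    Complex.neg_re, Complex.I_re, Complex.neg_im, Complex.I_im]
  generalize G (‖z‖ ^ 2) = A
  rw [h5]
  ring

/-- the one-dimensional profiles -/
theorem tmol_prof : ∃ q H G : ℝ → ℝ, ContDiff ℝ (⊤ : ℕ∞) q ∧ ContDiff ℝ (⊤ : ℕ∞) H ∧ (∀ s, 0 ≤ q s) ∧
    (∀ s, 1 ≤ s → q s = 0) ∧ (∀ s, 1 ≤ s → H s = 0) ∧ (∃ s, 0 ≤ s ∧ q s ≠ 0) ∧ (∀ s, HasDerivAt H (G s) s) ∧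
    ∀ s, ∃ G', HasDerivAt G G' s ∧ G s + s * G' = q s - 4 * q (4 * s) := by
  set p : ℝ → ℝ := fun s => Real.smoothTransition (2 * s - 1) with hp
  have hpc : ContDiff ℝ (⊤ : ℕ∞) p := Real.smoothTransition.contDiff.comp (by fun_prop)
  have hp1 : ∀ s, 1 ≤ s → p s = 1 := fun s hs => Real.smoothTransition.one_of_one_le (by linarith)
  have hp0 : ∀ s, s ≤ 1 / 2 → p s = 0 := fun s hs => Real.smoothTransition.zero_of_nonpos (by linarith)
  have hpm : Monotone p := fun a b h => Real.smoothTransition.monotone (by linarith)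
  obtain ⟨hpd, hq⟩ := contDiff_infty_iff_deriv.1 hpc
  set G : ℝ → ℝ := fun s => (p s - p (4 * s)) / s with hG
  have hG0 : ∀ s, s ≤ 1 / 8 → G s = 0 := fun s hs => by
    simp only [hG]; rw [hp0 s (by linarith), hp0 (4 * s) (by linarith)]; simp
  have hG1 : ∀ s, 1 ≤ s → G s = 0 := fun s hs => by
    simp only [hG]; rw [hp1 s hs, hp1 (4 * s) (by linarith)]; simp
  have hm : ContDiff ℝ (⊤ : ℕ∞) fun s => p s - p (4 * s) := hpc.sub (hpc.comp (by fun_prop))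
  have hGc : ContDiff ℝ (⊤ : ℕ∞) G := by
    refine contDiff_iff_contDiffAt.2 fun s => ?_
    by_cases hs : s = 0
    · refine (contDiffAt_const (c := (0:ℝ))).congr_of_eventuallyEq ?_
      filter_upwards [Iic_mem_nhds (show s < 1 / 8 by rw [hs]; norm_num)] with t ht using hG0 t ht
    · exact hm.contDiffAt.div contDiffAt_id hs
  have hH : ∀ s, HasDerivAt (fun s => ∫ t in (1:ℝ)..s, G t) (G s) s := fun s =>
    (hGc.continuous.integral_hasStrictDerivAt 1 s).hasDerivAt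
  refine ⟨deriv p, fun s => ∫ t in (1:ℝ)..s, G t, G, hq, ?_, fun s => hpm.deriv_nonneg, fun s hs => ?_,
    fun s hs => ?_, ?_, hH, fun s => ?_⟩
  · refine contDiff_infty_iff_deriv.2 ⟨fun s => (hH s).differentiableAt, ?_⟩
    rw [show deriv (fun s => ∫ t in (1:ℝ)..s, G t) = G from funext fun s => (hH s).deriv]
    exact hGc
  · refine IsLocalMax.deriv_eq_zero (Eventually.of_forall fun t => ?_)
    rw [hp1 s hs]
    exact Real.smoothTransition.le_one _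
  · refine (intervalIntegral.integral_congr (g := fun _ => (0:ℝ)) ?_).trans intervalIntegral.integral_zero
    intro t ht
    rw [uIcc_of_le hs] at ht
    exact hG1 t ht.1
  · obtain ⟨s, hs, h⟩ := exists_deriv_eq_slope p (show (0:ℝ) < 1 by norm_num) hpc.continuous.continuousOn
      hpd.differentiableOn
    refine ⟨s, hs.1.le, ?_⟩
    rw [h, hp1 1 le_rfl, hp0 0 (by norm_num)]
    norm_num
  · have h1 := (hGc.differentiable (by simp) s).hasDerivAt
    refine ⟨_, h1, ?_⟩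
    have h2 := (hasDerivAt_id s).mul h1
    have h3 := (hpd s).hasDerivAt.sub ((hpd (4 * s)).hasDerivAt.comp s ((hasDerivAt_id s).const_mul 4))
    have h4 : (id * G : ℝ → ℝ) = p - p ∘ fun y => 4 * id y := by
      funext t
      by_cases ht : t = 0
      · simp [ht]
      · simp only [hG, Pi.mul_apply, id, Pi.sub_apply, Function.comp_apply]
        field_simp
    rw [h4] at h2
    have h5 := h2.unique h3
    simp only [id] at h5
    linarith

/-- A radial mollifier `φ` and a compactly supported solution of `Δ η = φ - 4 φ(2·)`.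
Recipe: `φ z = h (‖z‖²)` with `h` smooth, `≥ 0`, constant near `0`, zero on `[1,∞)` (normalise `π ∫₀^∞ h = 1` through polar
coordinates, or normalise by `∫ φ` and get `∫₀^∞ k = 0` from the substitution `σ ↦ 4σ`). `Δ (H(‖z‖²)) = 4 (σ H')'`;
`k σ = h σ - 4 h (4σ)`, `m σ = ¼∫₀^σ k` is linear near `0` (also for `σ<0`) and `0` for `σ ≥ 1`, so `H' = m σ / σ` is smooth,
`H σ = ∫₁^σ H'`. -/
theorem exists_mol : ∃ φ η : ℂ → ℝ, ContDiff ℝ (⊤ : ℕ∞) φ ∧ ContDiff ℝ (⊤ : ℕ∞) η ∧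
    (∀ z, 1 ≤ ‖z‖ → φ z = 0) ∧ (∀ z, 1 ≤ ‖z‖ → η z = 0) ∧ (∀ z, 0 ≤ φ z) ∧ (∫ z, φ z = 1) ∧
    (∀ z, φ (-z) = φ z) ∧ (∀ z, η (-z) = η z) ∧ ∀ z, lap η z = φ z - 4 * φ (2 * z) := by
  obtain ⟨q, H, G, hq, hH, hq0, hq1, hH1, ⟨s, hs0, hs⟩, hd, hG⟩ := tmol_prof
  have hN : ContDiff ℝ (⊤ : ℕ∞) fun z : ℂ => ‖z‖ ^ 2 := contDiff_norm_sq ℝ
  have hsq : ∀ z : ℂ, 1 ≤ ‖z‖ → 1 ≤ ‖z‖ ^ 2 := fun z hz => one_le_pow₀ hz
  have hc : 0 < ∫ z : ℂ, q (‖z‖ ^ 2) := by
    refine (hq.comp hN).continuous.integral_pos_of_hasCompactSupport_nonneg_nonzero (x := (√s : ℝ))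
      (HasCompactSupport.intro (isCompact_closedBall (0 : ℂ) 1) fun z hz => ?_) (fun z => hq0 _) ?_
    · exact hq1 _ (hsq z (by simpa using (not_le.1 (mt mem_closedBall_zero_iff.2 hz)).le))
    · simpa [Real.sq_sqrt hs0] using hs
  generalize hcc : ∫ z : ℂ, q (‖z‖ ^ 2) = c at hc
  refine ⟨fun z => q (‖z‖ ^ 2) / c, fun z => H (‖z‖ ^ 2) / (4 * c), (hq.comp hN).div_const c,
    (hH.comp hN).div_const _, fun z hz => by simp [hq1 _ (hsq z hz)], fun z hz => by simp [hH1 _ (hsq z hz)],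
    fun z => div_nonneg (hq0 _) hc.le, by rw [integral_div, hcc, div_self hc.ne'], fun z => by simp,
    fun z => by simp, fun z => ?_⟩
  obtain ⟨G', h1, h2⟩ := hG (‖z‖ ^ 2)
  rw [tmol_lap (H := fun s => H s / (4 * c)) (fun s => (hd s).div_const _) z (h1.div_const _)]
  have h3 : ‖2 * z‖ ^ 2 = 4 * ‖z‖ ^ 2 := by rw [norm_mul, mul_pow]; norm_num
  simp only [h3]
  field_simp
  linarith

end Crest.Agent.R135
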