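import Crest.Agent.R135.Defs
import Crest.Agent.R135.TLip
import Crest.Agent.R135.TLip2
import Crest.Agent.R135.TMol
set_option autoImplicit false
open MeasureTheory Metric Set Filter Topology
open scoped ENNReal NNReal Real ComplexConjugate

namespace Crest.Agent.R135

/-! Interior estimates for `C¹` functions with bounded weak Laplacian. With `φ, η` of `exists_mol`, `φ_t z = t⁻² φ(z/t)`,
`η_t z = η(z/t)`: `Δ η_t = φ_t - φ_{t/2}`. For a direction `d` put `m_t(p) = ∫ φ_t(z-p) ∂_d u(z) dz`. Then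
`m_t - m_{t/2} = ∫ Δη_t(z-p) ∂_d u = -∫ u ∂_dΔη_t = -∫ u Δ(∂_d η_t) = ∫ ⟪∇u, ∇(∂_d η_t)⟫`, so `|m_t - m_{t/2}| ≤ A ‖∂_dη_t‖₁ ≤ C A t`;
`m_t(p) → ∂_d u(p)` by continuity, telescoping gives `|∂_d u(p) - m_t(p)| ≤ 2 C A t`; and Cauchy–Schwarz bounds `m_t`. -/

/-- hypothesis: weak Laplacian bounded by `A` -/
def WL (W : Set ℂ) (u : ℂ → ℝ) (A : ℝ) : Prop :=
  ∀ ψ : ℂ → ℝ, ContDiff ℝ (⊤ : ℕ∞) ψ → HasCompactSupport ψ → tsupport ψ ⊆ W →
    |∫ z, inner ℝ (gradient u z) (gradient ψ z)| ≤ A * ∫ z, |ψ z|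

theorem treg_cv (f : ℂ → ℝ) (p : ℂ) {t : ℝ} (ht : 0 < t) : ∫ z, f z = t ^ 2 * ∫ w, f (p + t • w) := by
  rw [Measure.integral_comp_smul volume (fun y => f (p + y)) t, integral_add_left_eq_self, Complex.finrank_real_complex,
    abs_of_pos (by positivity), smul_eq_mul, mul_inv_cancel_left₀ (by positivity)]

theorem treg_back (p w : ℂ) {t : ℝ} (ht : 0 < t) : t⁻¹ • (p + t • w - p) = w := by
  rw [add_sub_cancel_left, inv_smul_smul₀ ht.ne']

theorem treg_int {f : ℂ → ℝ} {p : ℂ} {r : ℝ} (hf : ContinuousOn f (closedBall p r))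
    (h0 : ∀ z ∉ closedBall p r, f z = 0) : Integrable f :=
  (hf.integrableOn_compact (isCompact_closedBall p r)).integrable_of_forall_notMem_eq_zero h0

/-- smooth and supported in the closed unit ball -/
def treg_S (ψ : ℂ → ℝ) : Prop := ContDiff ℝ (⊤ : ℕ∞) ψ ∧ tsupport ψ ⊆ closedBall 0 1

theorem treg_S_of {ψ : ℂ → ℝ} (h : ContDiff ℝ (⊤ : ℕ∞) ψ) (h0 : ∀ z, 1 ≤ ‖z‖ → ψ z = 0) : treg_S ψ :=
  ⟨h, closure_minimal (fun z hz => mem_closedBall_zero_iff.2 (not_lt.1 fun h1 => hz (h0 z h1.le))) isClosed_closedBall⟩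

theorem treg_S.der {ψ : ℂ → ℝ} (h : treg_S ψ) (d : ℂ) : treg_S fun w => fderiv ℝ ψ w d :=
  ⟨(h.1.fderiv_right (m := (⊤ : ℕ∞)) le_rfl).clm_apply contDiff_const, (tsupport_fderiv_apply_subset ℝ d).trans h.2⟩

theorem treg_S.scale {ψ : ℂ → ℝ} (h : treg_S ψ) (p : ℂ) {t : ℝ} (ht : 0 < t) :
    ContDiff ℝ (⊤ : ℕ∞) (fun z => ψ (t⁻¹ • (z - p))) ∧ HasCompactSupport (fun z => ψ (t⁻¹ • (z - p))) ∧
      tsupport (fun z => ψ (t⁻¹ • (z - p))) ⊆ closedBall p t ∧ ∀ G : ℂ → ℂ,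
        ∫ z, inner ℝ (G z) (gradient (fun z => ψ (t⁻¹ • (z - p))) z) =
          t * ∫ w, inner ℝ (G (p + t • w)) (gradient ψ w) := by
  have hs : tsupport (fun z => ψ (t⁻¹ • (z - p))) ⊆ closedBall p t := by
    refine closure_minimal (fun z hz => ?_) isClosed_closedBall
    have h1 := h.2 (subset_tsupport ψ hz)
    rwa [mem_closedBall_zero_iff, norm_smul, norm_inv, Real.norm_of_nonneg ht.le, inv_mul_le_iff₀ ht, mul_one,
      ← mem_closedBall_iff_norm] at h1
  refine ⟨h.1.comp ((contDiff_id.sub contDiff_const).const_smul _),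
    (isCompact_closedBall p t).of_isClosed_subset (isClosed_tsupport _) hs, hs, fun G => ?_⟩
  have e : ∀ z v, inner ℝ v (gradient (fun z => ψ (t⁻¹ • (z - p))) z) =
      t⁻¹ * inner ℝ v (gradient ψ (t⁻¹ • (z - p))) := fun z v => by
    have h1 : HasFDerivAt (fun z : ℂ => t⁻¹ • (z - p)) (t⁻¹ • ContinuousLinearMap.id ℝ ℂ) z :=
      ((hasFDerivAt_id z).sub_const p).const_smul t⁻¹
    have h2 := ((h.1.differentiable (by simp) (t⁻¹ • (z - p))).hasFDerivAt.comp z h1).fderiv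
    rw [real_inner_comm, inner_gradient, real_inner_comm, inner_gradient]
    refine (congrArg (fun L : ℂ →L[ℝ] ℝ => L v) h2).trans ?_
    simp only [ContinuousLinearMap.comp_apply, smul_apply, ContinuousLinearMap.id_apply, map_smul,
      smul_eq_mul]
  rw [treg_cv _ p ht]
  simp only [e, treg_back p _ ht, integral_const_mul]
  field_simp

theorem treg_ptw {η : ℂ → ℝ} (h : ContDiff ℝ (⊤ : ℕ∞) η) (w F d : ℂ) :
    lap η w * inner ℝ F d = inner ℝ F (gradient (fun y => fderiv ℝ η y d) w) +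
      inner ℝ (Complex.I * F) (gradient (fun y => fderiv ℝ η y (Complex.I * d)) w) := by
  have hd : DifferentiableAt ℝ (fderiv ℝ η) w :=
    (h.fderiv_right (m := (⊤ : ℕ∞)) le_rfl).differentiable (by simp) w
  have e : ∀ a v : ℂ, fderiv ℝ (fun y => fderiv ℝ η y a) w v = fderiv ℝ (fderiv ℝ η) w v a := fun a v => by
    rw [fderiv_clm_apply hd (differentiableAt_const a)]
    simp
  have hs := (h.contDiffAt (x := w)).isSymmSndFDerivAt (by rw [minSmoothness_of_isRCLikeNormedField]; exact WithTop.coe_le_coe.2 le_top) 1 Complex.I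
  rw [lap, real_inner_comm (gradient _ _) F, inner_gradient, real_inner_comm (gradient _ _), inner_gradient, e, e, e, e]
  generalize fderiv ℝ (fderiv ℝ η) w = B at hs
  have e1 : ∀ z : ℂ, z = z.re • (1 : ℂ) + z.im • Complex.I := fun z => by simp
  have e2 : ∀ x y : ℂ, B x y = x.re * y.re * B 1 1 + x.re * y.im * B 1 Complex.I + x.im * y.re * B Complex.I 1 +
      x.im * y.im * B Complex.I Complex.I := fun x y => by
    conv_lhs => rw [e1 x, e1 y]
    simp only [map_add, map_smul, add_apply, smul_apply, smul_eq_mul]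
    ring
  rw [e2 F d, e2 (Complex.I * F) (Complex.I * d), hs]
  simp only [Complex.inner, Complex.mul_re, Complex.mul_im, Complex.conj_re, Complex.conj_im, Complex.I_re, Complex.I_im]
  ring

theorem treg_mem {p w : ℂ} {t τ : ℝ} (h0 : 0 ≤ τ) (hτ : τ ≤ t) (hw : w ∈ closedBall (0 : ℂ) 1) :
    p + τ • w ∈ closedBall p t := by
  rw [mem_closedBall_iff_norm, add_sub_cancel_left, norm_smul, Real.norm_of_nonneg h0]
  exact (mul_le_of_le_one_right h0 (mem_closedBall_zero_iff.1 hw)).trans hτ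

theorem treg_step {φ η : ℂ → ℝ} (hφ : ContDiff ℝ (⊤ : ℕ∞) φ) (hφ0 : ∀ z, 1 ≤ ‖z‖ → φ z = 0) (hη : treg_S η)
    (hl : ∀ z, lap η z = φ z - 4 * φ (2 * z)) {W : Set ℂ} (hW : IsOpen W) {u : ℂ → ℝ} (hu : ContDiffOn ℝ 1 u W)
    {A : ℝ} (hA : WL W u A) {p : ℂ} {t : ℝ} (ht : 0 < t) (hp : closedBall p t ⊆ W) (d : ℂ) :
    |(∫ w, φ w * inner ℝ (gradient u (p + t • w)) d) - ∫ w, φ w * inner ℝ (gradient u (p + (t / 2) • w)) d| ≤
      A * (∫ w, |fderiv ℝ η w d|) * t := by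
  have hG : ContinuousOn (fun w : ℂ => gradient u (p + t • w)) (closedBall 0 1) :=
    (continuousOn_gradient hW hu).comp (by fun_prop) fun w hw => hp (treg_mem ht.le le_rfl hw)
  have hn : ∀ z ∉ closedBall (0 : ℂ) 1, 1 ≤ ‖z‖ := fun z hz => (not_le.1 fun h => hz (mem_closedBall_zero_iff.2 h)).le
  have hφc := hφ.continuous
  have e1 : ∫ w, φ w * inner ℝ (gradient u (p + (t / 2) • w)) d =
      ∫ w, 4 * φ (2 * w) * inner ℝ (gradient u (p + t • w)) d := by
    rw [treg_cv _ 0 two_pos, ← integral_const_mul]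
    congr 1
    funext w
    rw [zero_add, smul_smul, div_mul_cancel₀ _ (two_ne_zero' ℝ), show (2 : ℝ) • w = 2 * w by simp]
    ring
  have i1 : Integrable fun w => φ w * inner ℝ (gradient u (p + t • w)) d :=
    treg_int (hφc.continuousOn.mul (ContinuousOn.inner (𝕜 := ℝ) hG continuousOn_const)) fun z hz => by rw [hφ0 z (hn z hz), zero_mul]
  have i2 : Integrable fun w => 4 * φ (2 * w) * inner ℝ (gradient u (p + t • w)) d :=
    treg_int (ContinuousOn.mul (Continuous.continuousOn (by fun_prop)) (ContinuousOn.inner (𝕜 := ℝ) hG continuousOn_const)) fun z hz => by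
      rw [hφ0 (2 * z) (by rw [norm_mul, Complex.norm_two]; linarith [hn z hz]), mul_zero, zero_mul]
  have i3 : ∀ (c : ℂ) (ψ : ℂ → ℝ), treg_S ψ →
      Integrable fun w => inner ℝ (c * gradient u (p + t • w)) (gradient ψ w) := fun c ψ hψ =>
    treg_int (ContinuousOn.inner (𝕜 := ℝ) (continuousOn_const.mul hG)
      ((continuousOn_gradient isOpen_univ (hψ.1.of_le (by simp)).contDiffOn).mono (subset_univ _))) fun z hz => by
        rw [real_inner_comm, inner_gradient, fderiv_of_notMem_tsupport ℝ fun h => hz (hψ.2 h)]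
        rfl
  obtain ⟨a1, a2, a3, a4⟩ := (hη.der d).scale p ht
  obtain ⟨b1, b2, b3, b4⟩ := (hη.der (Complex.I * d)).scale p ht
  have h1 := hA _ a1 a2 (a3.trans hp)
  have h2 := integral_curl_eq_zero hW (locLip_of_contDiffOn hW hu) b1 b2 (b3.trans hp)
  rw [b4 fun z => Complex.I * gradient u z, mul_eq_zero, or_iff_right ht.ne'] at h2
  rw [a4, treg_cv (fun z => |fderiv ℝ η (t⁻¹ • (z - p)) d|) p ht, abs_mul, abs_of_pos ht] at h1
  simp only [treg_back p _ ht] at h1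
  rw [e1, ← integral_sub i1 i2]
  simp only [← sub_mul, ← hl, treg_ptw hη.1]
  rw [integral_add (by simpa only [one_mul] using i3 1 _ (hη.der d)) (i3 _ _ (hη.der _)), h2, add_zero]
  exact le_of_mul_le_mul_left (h1.trans (le_of_eq (by ring))) ht

theorem treg_core : ∃ (φ : ℂ → ℝ) (c : ℝ), 0 ≤ c ∧ ContDiff ℝ (⊤ : ℕ∞) φ ∧ (∀ z, 1 ≤ ‖z‖ → φ z = 0) ∧
    ∀ (W : Set ℂ) (u : ℂ → ℝ) (A : ℝ) (p : ℂ) (t : ℝ) (d : ℂ), IsOpen W → ContDiffOn ℝ 1 u W → WL W u A → 0 ≤ A →
      0 < t → closedBall p t ⊆ W → d = 1 ∨ d = Complex.I →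
      |inner ℝ (gradient u p) d - t⁻¹ ^ 2 * ∫ z, φ (t⁻¹ • (z - p)) * inner ℝ (gradient u z) d| ≤ c * (A * t) := by
  obtain ⟨φ, η, hφ, hη, hφ0, hη0, hφn, hφ1, -, -, hl⟩ := exists_mol
  have c0 : ∀ d, 0 ≤ ∫ w, |fderiv ℝ η w d| := fun d => integral_nonneg fun _ => abs_nonneg _
  refine ⟨φ, 2 * ((∫ w, |fderiv ℝ η w 1|) + ∫ w, |fderiv ℝ η w Complex.I|), by linarith [c0 1, c0 Complex.I], hφ, hφ0,
    fun W u A p t d hW hu hA hA0 ht hp hd => ?_⟩
  set m : ℝ → ℝ := fun τ => ∫ w, φ w * inner ℝ (gradient u (p + τ • w)) d with hm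
  set B : ℝ := A * ∫ w, |fderiv ℝ η w d| with hB
  have hB0 : 0 ≤ B := mul_nonneg hA0 (c0 d)
  have hτ : ∀ n : ℕ, 0 < t / 2 ^ n ∧ t / 2 ^ n ≤ t := fun n =>
    ⟨by positivity, div_le_self ht.le (one_le_pow₀ one_le_two)⟩
  have h1 : ∀ n : ℕ, |m (t / 2 ^ n) - m t| ≤ 2 * B * t - 2 * B * (t / 2 ^ n) := fun n => by
    induction n with
    | zero => simp
    | succ n ih =>
      have h2 := treg_step hφ hφ0 (treg_S_of hη hη0) hl hW hu hA (hτ n).1
        ((closedBall_subset_closedBall (hτ n).2).trans hp) d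
      rw [pow_succ, ← div_div]
      refine (abs_sub_le _ (m (t / 2 ^ n)) _).trans ?_
      rw [abs_sub_comm]
      linarith
  have h2 : Tendsto (fun n : ℕ => m (t / 2 ^ n)) atTop (𝓝 (inner ℝ (gradient u p) d)) := by
    have hG := (continuousOn_gradient hW hu)
    obtain ⟨M, hM⟩ := (isCompact_closedBall p t).exists_bound_of_continuousOn (hG.mono hp)
    have h3 := tendsto_integral_of_dominated_convergence (μ := volume)
      (F := fun (n : ℕ) w => φ w * inner ℝ (gradient u (p + (t / 2 ^ n) • w)) d)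
      (f := fun w => φ w * inner ℝ (gradient u p) d) (fun w => φ w * (M * ‖d‖))
      (fun n => (hφ.continuous.measurable.mul
        (((measurable_gradient u).comp (by fun_prop)).inner measurable_const)).aestronglyMeasurable)
      ((integrable_of_integral_eq_one hφ1).mul_const _) (fun n => Eventually.of_forall fun w => ?_)
      (Eventually.of_forall fun w => ?_)
    · rwa [integral_mul_const, hφ1, one_mul] at h3
    · rw [norm_mul, Real.norm_of_nonneg (hφn w)]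
      rcases le_total 1 ‖w‖ with h | h
      · rw [hφ0 w h, zero_mul, zero_mul]
      · exact mul_le_mul_of_nonneg_left ((norm_inner_le_norm _ _).trans (mul_le_mul_of_nonneg_right
          (hM _ (treg_mem (hτ n).1.le (hτ n).2 (mem_closedBall_zero_iff.2 h))) (norm_nonneg _))) (hφn w)
    · have h4 : Tendsto (fun n : ℕ => p + (t / 2 ^ n) • w) atTop (𝓝 p) := by
        simpa using ((tendsto_const_nhds (x := t)).div_atTop
          (tendsto_pow_atTop_atTop_of_one_lt one_lt_two) |>.smul_const w).const_add p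
      exact (((hG.continuousAt (hW.mem_nhds (hp (mem_closedBall_self ht.le)))).tendsto.comp h4).inner
        tendsto_const_nhds).const_mul _
  have h3 : |inner ℝ (gradient u p) d - m t| ≤ 2 * B * t :=
    le_of_tendsto' (h2.sub_const (m t)).abs fun n => (h1 n).trans
      (sub_le_self _ (mul_nonneg (by linarith) (hτ n).1.le))
  rw [treg_cv _ p ht, ← mul_assoc, ← mul_pow, inv_mul_cancel₀ ht.ne', one_pow, one_mul]
  simp only [treg_back p _ ht]
  refine h3.trans ?_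
  have h4 := mul_nonneg (mul_nonneg hA0 ht.le) (c0 1)
  have h5 := mul_nonneg (mul_nonneg hA0 ht.le) (c0 Complex.I)
  rw [hB]
  rcases hd with rfl | rfl <;> linarith

theorem treg_cs {u k : ℂ → ℝ} {S W : Set ℂ} (hSW : S ⊆ W) {M r E : ℝ} (hr : 0 ≤ r) (hE : 0 ≤ E)
    (hk : ∀ z, |k z| ≤ M) (h0 : ∀ z ∉ S, k z = 0) (hV : volume S ≤ ENNReal.ofReal (r ^ 2))
    (hD : Dir u W ≤ ENNReal.ofReal E) {d : ℂ} (hd : d = 1 ∨ d = Complex.I) :
    |∫ z, k z * inner ℝ (gradient u z) d| ≤ M * r * √E := by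
  have hM : 0 ≤ M := (abs_nonneg _).trans (hk 0)
  have hd1 : ‖d‖ = 1 := by rcases hd with rfl | rfl <;> simp
  have h1 := ENNReal.lintegral_mul_le_Lp_mul_Lq (volume.restrict S) Real.HolderConjugate.two_two
    (f := fun z => ‖gradient u z‖ₑ) (g := fun _ => 1) (measurable_gradient u).enorm.aemeasurable aemeasurable_const
  simp only [Pi.mul_apply, mul_one, ENNReal.rpow_ofNat, one_pow, setLIntegral_one] at h1
  have h2 : ∫⁻ z in S, ‖gradient u z‖ₑ ≤ ENNReal.ofReal (√E * r) := by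
    refine h1.trans ((mul_le_mul' (ENNReal.rpow_le_rpow ((lintegral_mono_set hSW).trans hD) (by norm_num))
      (ENNReal.rpow_le_rpow hV (by norm_num))).trans (le_of_eq ?_))
    rw [ENNReal.ofReal_rpow_of_nonneg hE (by norm_num), ENNReal.ofReal_rpow_of_nonneg (sq_nonneg r) (by norm_num),
      ← Real.sqrt_eq_rpow, ← Real.sqrt_eq_rpow, Real.sqrt_sq hr, ENNReal.ofReal_mul (Real.sqrt_nonneg _)]
  rw [← ENNReal.ofReal_le_ofReal_iff (by positivity), ← Real.norm_eq_abs, ofReal_norm,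
    ← setIntegral_eq_integral_of_forall_compl_eq_zero (s := S) fun z hz => by rw [h0 z hz, zero_mul]]
  refine (enorm_integral_le_lintegral_enorm _).trans ((lintegral_mono (g := fun z => ENNReal.ofReal M * ‖gradient u z‖ₑ)
    fun z => ?_).trans ?_)
  · beta_reduce
    rw [← ofReal_norm, ← ofReal_norm, ← ENNReal.ofReal_mul hM, norm_mul]
    refine ENNReal.ofReal_le_ofReal (mul_le_mul (hk z) ((norm_inner_le_norm _ _).trans ?_) (norm_nonneg _) hM)
    rw [hd1, mul_one]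
  · rw [lintegral_const_mul' _ _ ENNReal.ofReal_ne_top, mul_assoc, mul_comm r, ENNReal.ofReal_mul hM]
    exact mul_le_mul' le_rfl h2

theorem treg_vol (p : ℂ) {t : ℝ} (ht : 0 < t) : volume (ball p t) ≤ ENNReal.ofReal ((2 * t) ^ 2) := by
  rw [Complex.volume_ball, ← ENNReal.ofReal_pow ht.le, ← ENNReal.ofReal_coe_nnreal, ← ENNReal.ofReal_mul (sq_nonneg t),
    NNReal.coe_real_pi]
  exact ENNReal.ofReal_le_ofReal (by nlinarith [Real.pi_le_four, sq_nonneg t])

theorem treg_zero {φ : ℂ → ℝ} (hφ0 : ∀ z, 1 ≤ ‖z‖ → φ z = 0) {p z : ℂ} {t : ℝ} (ht : 0 < t) (hz : z ∉ ball p t) :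
    φ (t⁻¹ • (z - p)) = 0 := by
  refine hφ0 _ ?_
  rw [norm_smul, norm_inv, Real.norm_of_nonneg ht.le, le_inv_mul_iff₀ ht, mul_one]
  exact not_lt.1 fun h => hz (mem_ball_iff_norm.2 h)

theorem treg_norm {G : ℂ} {b : ℝ} (h : ∀ d : ℂ, d = 1 ∨ d = Complex.I → |inner ℝ G d| ≤ b) : ‖G‖ ≤ 2 * b := by
  have h1 := h 1 (Or.inl rfl)
  have h2 := h Complex.I (Or.inr rfl)
  simp only [Complex.inner, Complex.mul_re, Complex.conj_re, Complex.conj_im, Complex.I_re, Complex.I_im,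
    one_mul, zero_mul, zero_sub, neg_neg] at h1 h2
  linarith [Complex.norm_le_abs_re_add_abs_im G]

theorem grad_bound : ∃ C : ℝ, 0 ≤ C ∧ ∀ (u : ℂ → ℝ) (z : ℂ) (s A E : ℝ), 0 < s → 0 ≤ A → 0 ≤ E →
    ContDiffOn ℝ 1 u (ball z s) → WL (ball z s) u A → Dir u (ball z s) ≤ ENNReal.ofReal E →
    ‖gradient u z‖ ≤ C * (√E / s + A * s) := by
  obtain ⟨φ, c, hc, hφ, hφ0, H⟩ := treg_core
  obtain ⟨M, hM⟩ := (treg_S_of hφ hφ0).scale 0 one_pos |>.2.1.exists_bound_of_continuous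
    ((treg_S_of hφ hφ0).scale 0 one_pos).1.continuous
  simp only [inv_one, sub_zero, one_smul, Real.norm_eq_abs] at hM
  have hM0 : 0 ≤ M := (abs_nonneg _).trans (hM 0)
  refine ⟨2 * (4 * M + c), by positivity, fun u z s A E hs hA hE hu hL hD => ?_⟩
  rw [mul_assoc]
  refine treg_norm fun d hd => ?_
  have ht : 0 < s / 2 := half_pos hs
  have h1 := H _ u A z (s / 2) d isOpen_ball hu hL hA ht (closedBall_subset_ball (half_lt_self hs)) hd
  have h2 := treg_cs (k := fun y => φ ((s / 2)⁻¹ • (y - z))) (ball_subset_ball (half_le_self hs.le))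
    (by positivity) hE (fun y => hM _) (fun y hy => treg_zero hφ0 ht hy) (treg_vol z ht) hD hd
  have h3 := mul_le_mul_of_nonneg_left h2 (sq_nonneg (s / 2)⁻¹)
  rw [← abs_of_nonneg (sq_nonneg (s / 2)⁻¹), ← abs_mul, abs_of_nonneg (sq_nonneg (s / 2)⁻¹),
    show (s / 2)⁻¹ ^ 2 * (M * (2 * (s / 2)) * √E) = 4 * M * (√E / s) by field_simp; ring] at h3
  have h4 := (abs_sub_abs_le_abs_sub _ _).trans h1
  have h5 : 0 ≤ M * (A * s) := by positivity
  have h6 : 0 ≤ c * (A * s) := by positivity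
  have h7 : 0 ≤ c * (√E / s) := by positivity
  linarith

theorem grad_equi : ∃ C : ℝ, 0 ≤ C ∧ ∀ (u : ℂ → ℝ) (z : ℂ) (s A E t : ℝ), 0 < t → t ≤ s / 4 → 0 ≤ A → 0 ≤ E →
    ContDiffOn ℝ 1 u (ball z s) → WL (ball z s) u A → Dir u (ball z s) ≤ ENNReal.ofReal E →
    ∀ p ∈ ball z (s / 2), ∀ q ∈ ball z (s / 2),
      ‖gradient u p - gradient u q‖ ≤ C * (√E * ‖p - q‖ / t ^ 2 + A * t) := by
  obtain ⟨φ, c, hc, hφ, hφ0, H⟩ := treg_core
  obtain ⟨L, hL⟩ := ContDiff.lipschitzWith_of_hasCompactSupport ((treg_S_of hφ hφ0).scale 0 one_pos).2.1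
    ((treg_S_of hφ hφ0).scale 0 one_pos).1 (by simp)
  simp only [inv_one, sub_zero, one_smul] at hL
  refine ⟨2 * (3 * L + 2 * c), by positivity, fun u z s A E t ht hts hA hE hu hW hD p hp q hq => ?_⟩
  rw [mul_assoc]
  refine treg_norm fun d hd => ?_
  have hsub : ∀ y ∈ ball z (s / 2), closedBall y t ⊆ ball z s := fun y hy =>
    closedBall_subset_ball' (by linarith [mem_ball.1 hy])
  have hi : ∀ y ∈ ball z (s / 2), Integrable fun x => φ (t⁻¹ • (x - y)) * inner ℝ (gradient u x) d := fun y hy =>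
    treg_int (((treg_S_of hφ hφ0).scale y ht).1.continuous.continuousOn.mul
      (ContinuousOn.inner (𝕜 := ℝ) ((continuousOn_gradient isOpen_ball hu).mono (hsub y hy)) continuousOn_const)) fun x hx => by
        rw [treg_zero hφ0 ht fun h => hx (ball_subset_closedBall h), zero_mul]
  have h1 := H _ u A p t d isOpen_ball hu hW hA ht (hsub p hp) hd
  have h2 := H _ u A q t d isOpen_ball hu hW hA ht (hsub q hq) hd
  have h3 := treg_cs (k := fun x => φ (t⁻¹ • (x - p)) - φ (t⁻¹ • (x - q))) (M := L * (t⁻¹ * ‖p - q‖)) (r := 3 * t)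
    (union_subset (ball_subset_closedBall.trans (hsub p hp))
      (ball_subset_closedBall.trans (hsub q hq))) (by positivity) hE (fun x => by
        refine (hL.dist_le_mul _ _).trans (le_of_eq ?_)
        rw [dist_eq_norm, ← smul_sub, sub_sub_sub_cancel_left, norm_smul, norm_inv, Real.norm_of_nonneg ht.le,
          norm_sub_rev])
    (fun x hx => by rw [treg_zero hφ0 ht fun h => hx (Or.inl h), treg_zero hφ0 ht fun h => hx (Or.inr h), sub_zero])
    ((measure_union_le _ _).trans ((add_le_add (treg_vol p ht) (treg_vol q ht)).trans (by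
      rw [← ENNReal.ofReal_add (sq_nonneg _) (sq_nonneg _)]
      exact ENNReal.ofReal_le_ofReal (by nlinarith [sq_nonneg t])))) hD hd
  simp only [sub_mul] at h3
  rw [integral_sub (hi p hp) (hi q hq)] at h3
  have h4 := mul_le_mul_of_nonneg_left h3 (sq_nonneg t⁻¹)
  rw [← abs_of_nonneg (sq_nonneg t⁻¹), ← abs_mul, abs_of_nonneg (sq_nonneg t⁻¹), mul_sub,
    show t⁻¹ ^ 2 * (L * (t⁻¹ * ‖p - q‖) * (3 * t) * √E) = 3 * L * (√E * ‖p - q‖ / t ^ 2) by field_simp] at h4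
  have h5 : 0 ≤ (L : ℝ) * (A * t) := by positivity
  have h6 : 0 ≤ c * (√E * ‖p - q‖ / t ^ 2) := by positivity
  rw [inner_sub_left]
  rw [abs_le] at h1 h2 h4 ⊢
  constructor <;> linarith [h1.1, h1.2, h2.1, h2.2, h4.1, h4.2]

end Crest.Agent.R135
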