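import Crest.Agent.R135.Defs
import Crest.Agent.R135.TMol
set_option autoImplicit false
open MeasureTheory Metric Set Filter Topology
open scoped ENNReal NNReal Real ComplexConjugate Convolution

namespace Crest.Agent.R135

/-! Auxiliary lemmas for Weyl's lemma (`weyl_field`). -/

theorem wy_inner_grad (w : ℂ → ℝ) (z d : ℂ) : inner ℝ d (gradient w z) = fderiv ℝ w z d := by
  rw [real_inner_comm]
  simp [gradient, InnerProductSpace.toDual_symm_apply]

theorem wy_fderiv_apply (L : ℂ →L[ℝ] ℝ) (d : ℂ) : L d = d.re * L 1 + d.im * L Complex.I := by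
  conv_lhs => rw [show d = d.re • (1 : ℂ) + d.im • Complex.I by
    apply Complex.ext <;> simp]
  simp only [map_add, map_smul, smul_eq_mul]

theorem wy_int {W : Set ℂ} {f : ℂ → ℂ} (hf : LocallyIntegrableOn f W) {g : ℂ → ℝ} (hg : Continuous g)
    (hc : HasCompactSupport g) (hs : tsupport g ⊆ W) : Integrable fun z => g z • f z := by
  have h1 : IntegrableOn (fun z => g z • f z) (tsupport g) :=
    IntegrableOn.continuousOn_smul (hf.integrableOn_compact_subset hs hc) hg.continuousOn hc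
  refine (integrableOn_iff_integrable_of_support_subset ?_).1 h1
  intro z hz
  apply subset_tsupport
  intro h0
  apply hz
  simp [h0]

/-- test functions -/
structure WyT (W : Set ℂ) (ψ : ℂ → ℝ) : Prop where
  sm : ContDiff ℝ (⊤ : ℕ∞) ψ
  cs : HasCompactSupport ψ
  sub : tsupport ψ ⊆ W

theorem WyT.der {W : Set ℂ} {ψ : ℂ → ℝ} (h : WyT W ψ) (d : ℂ) : WyT W fun z => fderiv ℝ ψ z d := by
  refine ⟨?_, h.cs.fderiv_apply ℝ d, (tsupport_fderiv_apply_subset ℝ d).trans h.sub⟩
  exact (h.sm.fderiv_right (m := (⊤ : ℕ∞)) (by simp)).clm_apply contDiff_const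

/-- weak Cauchy–Riemann equation -/
def WyCR (W : Set ℂ) (f : ℂ → ℂ) : Prop :=
  ∀ ψ : ℂ → ℝ, WyT W ψ →
    (∫ z, fderiv ℝ ψ z 1 • f z) + Complex.I * ∫ z, fderiv ℝ ψ z Complex.I • f z = 0

theorem wy_cr {W : Set ℂ} {F : ℂ → ℂ} (hF : LocallyIntegrableOn F W)
    (hdiv : ∀ ψ : ℂ → ℝ, ContDiff ℝ (⊤ : ℕ∞) ψ → HasCompactSupport ψ → tsupport ψ ⊆ W →
      ∫ z, inner ℝ (F z) (gradient ψ z) = 0)
    (hcurl : ∀ ψ : ℂ → ℝ, ContDiff ℝ (⊤ : ℕ∞) ψ → HasCompactSupport ψ → tsupport ψ ⊆ W →
      ∫ z, inner ℝ (Complex.I * F z) (gradient ψ z) = 0)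
    (hf : LocallyIntegrableOn (fun z => conj (F z)) W) : WyCR W fun z => conj (F z) := by
  intro ψ hψ
  have i1 := wy_int hf (hψ.der 1).sm.continuous (hψ.der 1).cs (hψ.der 1).sub
  have i2 := wy_int hf (hψ.der Complex.I).sm.continuous (hψ.der Complex.I).cs (hψ.der Complex.I).sub
  rw [← integral_const_mul, ← integral_add i1 (i2.const_mul _)]
  have i3 := i1.add (i2.const_mul Complex.I)
  apply Complex.ext
  · have := (Complex.reCLM.integral_comp_comm i3).symm
    simp only [Complex.reCLM_apply] at this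
    refine this.trans ?_
    rw [Complex.zero_re, ← hdiv ψ hψ.sm hψ.cs hψ.sub]
    refine integral_congr_ae (Eventually.of_forall fun z => ?_)
    simp only [wy_inner_grad]
    rw [wy_fderiv_apply (fderiv ℝ ψ z) (F z)]
    simp
    ring
  · have := (Complex.imCLM.integral_comp_comm i3).symm
    simp only [Complex.imCLM_apply] at this
    refine this.trans ?_
    rw [Complex.zero_im, ← hcurl ψ hψ.sm hψ.cs hψ.sub]
    refine integral_congr_ae (Eventually.of_forall fun z => ?_)
    simp only [wy_inner_grad]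
    rw [wy_fderiv_apply (fderiv ℝ ψ z) (Complex.I * F z)]
    simp
    ring

theorem wy_symm {ψ : ℂ → ℝ} (h : ContDiff ℝ (⊤ : ℕ∞) ψ) (z a b : ℂ) :
    fderiv ℝ (fun y => fderiv ℝ ψ y a) z b = fderiv ℝ (fun y => fderiv ℝ ψ y b) z a := by
  have hd : DifferentiableAt ℝ (fderiv ℝ ψ) z :=
    ((h.fderiv_right (m := (⊤ : ℕ∞)) (by simp)).differentiable (by simp)) z
  have key : ∀ c d : ℂ, fderiv ℝ (fun y => fderiv ℝ ψ y c) z d = fderiv ℝ (fderiv ℝ ψ) z d c := by
    intro c d
    rw [fderiv_clm_apply hd (differentiableAt_const c)]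
    simp
  rw [key, key]
  exact (h.contDiffAt.isSymmSndFDerivAt (by
    simp only [minSmoothness_of_isRCLikeNormedField]
    exact WithTop.coe_le_coe.2 le_top)).eq b a

/-- weak harmonicity -/
theorem wy_harm {W : Set ℂ} {f : ℂ → ℂ} (hf : LocallyIntegrableOn f W) (h : WyCR W f) {ψ : ℂ → ℝ}
    (hψ : WyT W ψ) : ∫ z, lap ψ z • f z = 0 := by
  have h1 := h _ (hψ.der 1)
  have h2 := h _ (hψ.der Complex.I)
  have i1 := wy_int hf ((hψ.der 1).der 1).sm.continuous ((hψ.der 1).der 1).cs ((hψ.der 1).der 1).sub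
  have i2 := wy_int hf ((hψ.der Complex.I).der Complex.I).sm.continuous
    ((hψ.der Complex.I).der Complex.I).cs ((hψ.der Complex.I).der Complex.I).sub
  have e : (fun z => fderiv ℝ (fun y => fderiv ℝ ψ y Complex.I) z 1 • f z) =
      fun z => fderiv ℝ (fun y => fderiv ℝ ψ y 1) z Complex.I • f z := by
    funext z; rw [wy_symm hψ.sm]
  rw [e] at h2
  simp only [lap, add_smul]
  rw [integral_add i1 i2]
  have hI : Complex.I * Complex.I = -1 := Complex.I_mul_I
  linear_combination h1 - Complex.I * h2 + (∫ z, fderiv ℝ (fun y => fderiv ℝ ψ y Complex.I) z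
    Complex.I • f z) * hI

/-- rescaled and reflected kernel -/
noncomputable def wyK (φ : ℂ → ℝ) (t : ℝ) (p z : ℂ) : ℝ := φ (t⁻¹ • (p - z))

theorem wyK_fderiv {φ : ℂ → ℝ} (hφ : Differentiable ℝ φ) (t : ℝ) (p z d : ℂ) :
    fderiv ℝ (wyK φ t p) z d = -t⁻¹ * fderiv ℝ φ (t⁻¹ • (p - z)) d := by
  have h1 : HasFDerivAt (fun z : ℂ => t⁻¹ • (p - z)) (t⁻¹ • (-ContinuousLinearMap.id ℝ ℂ)) z := by
    have := ((hasFDerivAt_id (𝕜 := ℝ) z).const_sub p).const_smul t⁻¹
    exact this
  have h2 := (hφ (t⁻¹ • (p - z))).hasFDerivAt.comp z h1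
  have : fderiv ℝ (wyK φ t p) z = _ := h2.fderiv
  rw [this]
  simp only [ContinuousLinearMap.comp_apply, ContinuousLinearMap.smul_apply,
    ContinuousLinearMap.neg_apply, ContinuousLinearMap.id_apply, map_smul, map_neg, smul_eq_mul]
  ring

theorem wyK_test {W : Set ℂ} {φ : ℂ → ℝ} (hφ : ContDiff ℝ (⊤ : ℕ∞) φ) (h0 : ∀ z, 1 ≤ ‖z‖ → φ z = 0)
    {t : ℝ} (ht : 0 < t) {p : ℂ} (hp : closedBall p t ⊆ W) : WyT W (wyK φ t p) := by
  have hs : Function.support (wyK φ t p) ⊆ closedBall p t := by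
    intro z hz
    by_contra hn
    apply hz
    apply h0
    rw [mem_closedBall, dist_comm, dist_eq_norm, not_le] at hn
    rw [norm_smul, Real.norm_eq_abs, abs_of_pos (inv_pos.2 ht), ← div_eq_inv_mul, le_div_iff₀ ht]
    linarith
  have hts : tsupport (wyK φ t p) ⊆ closedBall p t := closure_minimal hs isClosed_closedBall
  refine ⟨?_, (isCompact_closedBall p t).of_isClosed_subset (isClosed_tsupport _) hts, hts.trans hp⟩
  unfold wyK
  exact hφ.comp ((contDiff_const.sub contDiff_id).const_smul _)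

theorem wyK_lap {η : ℂ → ℝ} (hη : ContDiff ℝ (⊤ : ℕ∞) η) (t : ℝ) (p z : ℂ) :
    lap (wyK η t p) z = t⁻¹ ^ 2 * lap η (t⁻¹ • (p - z)) := by
  have hd : Differentiable ℝ η := hη.differentiable (by simp)
  have key : ∀ d : ℂ, fderiv ℝ (fun y => fderiv ℝ (wyK η t p) y d) z d =
      t⁻¹ ^ 2 * fderiv ℝ (fun y => fderiv ℝ η y d) (t⁻¹ • (p - z)) d := by
    intro d
    have hd' : Differentiable ℝ fun y => fderiv ℝ η y d :=
      ((hη.fderiv_right (m := (⊤ : ℕ∞)) (by simp)).clm_apply contDiff_const).differentiable (by simp)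
    have e : (fun y => fderiv ℝ (wyK η t p) y d) =
        fun y => -t⁻¹ * wyK (fun y => fderiv ℝ η y d) t p y := by
      funext y; rw [wyK_fderiv hd]; rfl
    have hk : DifferentiableAt ℝ (wyK (fun y => fderiv ℝ η y d) t p) z := by
      unfold wyK
      exact (hd'.comp (((differentiable_const p).sub differentiable_id).const_smul (t⁻¹ : ℝ))) z
    rw [e, fderiv_const_mul hk]
    simp only [ContinuousLinearMap.smul_apply, smul_eq_mul]
    rw [wyK_fderiv hd']
    ring
  simp only [lap, key]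
  ring

/-- mollification at scale `t` -/
noncomputable def wyM (φ : ℂ → ℝ) (f : ℂ → ℂ) (t : ℝ) (p : ℂ) : ℂ :=
  ∫ z, (t⁻¹ ^ 2 * wyK φ t p z) • f z

theorem wyM_half {W : Set ℂ} {f : ℂ → ℂ} (hf : LocallyIntegrableOn f W) (h : WyCR W f)
    {φ η : ℂ → ℝ} (hφ : ContDiff ℝ (⊤ : ℕ∞) φ) (hη : ContDiff ℝ (⊤ : ℕ∞) η)
    (h0 : ∀ z, 1 ≤ ‖z‖ → φ z = 0) (h0' : ∀ z, 1 ≤ ‖z‖ → η z = 0)
    (hl : ∀ z, lap η z = φ z - 4 * φ (2 * z)) {t : ℝ} (ht : 0 < t) {p : ℂ}
    (hp : closedBall p t ⊆ W) : wyM φ f (t / 2) p = wyM φ f t p := by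
  have T1 := wyK_test hφ h0 ht hp
  have T2 := wyK_test hφ h0 (half_pos ht) ((closedBall_subset_closedBall (half_le_self ht.le)).trans hp)
  have i1 : Integrable fun z => t⁻¹ ^ 2 • wyK φ t p z • f z :=
    (wy_int hf T1.sm.continuous T1.cs T1.sub).smul (t⁻¹ ^ 2)
  have i2 : Integrable fun z => (t / 2)⁻¹ ^ 2 • wyK φ (t / 2) p z • f z :=
    (wy_int hf T2.sm.continuous T2.cs T2.sub).smul ((t / 2)⁻¹ ^ 2)
  have key := wy_harm hf h (wyK_test hη h0' ht hp)
  symm
  rw [← sub_eq_zero, ← key]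
  unfold wyM
  simp only [mul_smul]
  rw [← integral_sub i1 i2]
  refine integral_congr_ae (Eventually.of_forall fun z => ?_)
  simp only [Pi.smul_apply, wyK_lap hη, hl, ← mul_smul, ← sub_smul, wyK]
  congr 1
  have e : (t / 2)⁻¹ • (p - z) = 2 * (t⁻¹ • (p - z)) := by
    simp only [Complex.real_smul]
    push_cast
    field_simp
  rw [e]
  field_simp
  ring

theorem wyM_congr {f g : ℂ → ℂ} {φ : ℂ → ℝ} (h0 : ∀ z, 1 ≤ ‖z‖ → φ z = 0) {t : ℝ} (ht : 0 < t)
    {p : ℂ} (hfg : EqOn f g (closedBall p t)) : wyM φ f t p = wyM φ g t p := by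
  unfold wyM
  refine integral_congr_ae (Eventually.of_forall fun z => ?_)
  by_cases hz : z ∈ closedBall p t
  · simp only [hfg hz]
  · have : wyK φ t p z = 0 := by
      apply h0
      rw [mem_closedBall, dist_comm, dist_eq_norm, not_le] at hz
      rw [norm_smul, Real.norm_eq_abs, abs_of_pos (inv_pos.2 ht), ← div_eq_inv_mul, le_div_iff₀ ht]
      linarith
    simp [this]

theorem wyM_hasFDeriv {g : ℂ → ℂ} (hg : LocallyIntegrable g) {φ : ℂ → ℝ} (hφ : ContDiff ℝ (⊤ : ℕ∞) φ)
    (h0 : ∀ z, 1 ≤ ‖z‖ → φ z = 0) {t : ℝ} (ht : 0 < t) (p : ℂ) :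
    DifferentiableAt ℝ (wyM φ g t) p ∧ ∀ d : ℂ, fderiv ℝ (wyM φ g t) p d =
      -(t⁻¹ ^ 2 : ℝ) * ∫ z, fderiv ℝ (wyK φ t p) z d • g z := by
  set k : ℂ → ℝ := fun y => t⁻¹ ^ 2 * φ (t⁻¹ • y) with hk
  have hks : ContDiff ℝ (⊤ : ℕ∞) k := contDiff_const.mul (hφ.comp (contDiff_id.const_smul _))
  have hkc : HasCompactSupport k := by
    refine HasCompactSupport.intro (isCompact_closedBall (0 : ℂ) t) fun y hy => ?_
    have : φ (t⁻¹ • y) = 0 := by
      apply h0
      rw [mem_closedBall, dist_zero_right, not_le] at hy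
      rw [norm_smul, Real.norm_eq_abs, abs_of_pos (inv_pos.2 ht), ← div_eq_inv_mul, le_div_iff₀ ht]
      linarith
    simp only [hk, this, mul_zero]
  set L : ℂ →L[ℝ] ℝ →L[ℝ] ℂ := (ContinuousLinearMap.lsmul ℝ ℝ).flip with hL
  have e : wyM φ g t = g ⋆[L, volume] k := by
    funext q
    simp [wyM, convolution_def, hL, hk, wyK]
  have hd := hkc.hasFDerivAt_convolution_right L hg (hks.of_le (by simp)) p
  rw [e]
  refine ⟨hd.differentiableAt, fun d => ?_⟩
  rw [hd.fderiv, convolution_precompR_apply L hg (hkc.fderiv ℝ)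
    (hks.continuous_fderiv (by simp)) p d, convolution_def, ← integral_const_mul]
  refine integral_congr_ae (Eventually.of_forall fun z => ?_)
  have hφd : Differentiable ℝ φ := hφ.differentiable (by simp)
  have h1 : HasFDerivAt (fun y : ℂ => t⁻¹ • y) (t⁻¹ • ContinuousLinearMap.id ℝ ℂ) (p - z) :=
    (hasFDerivAt_id (𝕜 := ℝ) (p - z)).const_smul t⁻¹
  have h2 := ((hφd (t⁻¹ • (p - z))).hasFDerivAt.comp (p - z) h1).const_mul (t⁻¹ ^ 2)
  have h3 : fderiv ℝ k (p - z) = _ := h2.fderiv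
  simp only [hL, ContinuousLinearMap.flip_apply, ContinuousLinearMap.lsmul_apply, h3,
    wyK_fderiv hφd, ContinuousLinearMap.smul_apply, ContinuousLinearMap.comp_apply,
    ContinuousLinearMap.id_apply, map_smul, smul_eq_mul]
  simp only [Complex.real_smul (z := g z)]
  push_cast
  ring

theorem wyM_ae {g : ℂ → ℂ} (hg : LocallyIntegrable g) {φ : ℂ → ℝ} (hφ : Continuous φ)
    (h0 : ∀ z, 1 ≤ ‖z‖ → φ z = 0) (h1 : ∫ z, φ z = 1) :
    ∀ᵐ p, Tendsto (fun t => wyM φ g t p) (𝓝[>] 0) (𝓝 (g p)) := by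
  have hc : HasCompactSupport φ := HasCompactSupport.intro (isCompact_closedBall (0 : ℂ) 1) fun y hy =>
    h0 y (by rw [mem_closedBall, dist_zero_right, not_le] at hy; exact hy.le)
  obtain ⟨B, hB⟩ := hφ.bounded_above_of_compact_support hc
  filter_upwards [(Besicovitch.vitaliFamily volume).ae_tendsto_average_norm_sub hg] with p hp
  have := hp.comp (Besicovitch.tendsto_filterAt volume p)
  apply tendsto_integral_smul_of_tendsto_average_norm_sub (B * π) this
  · filter_upwards with t using hg.integrableOn_isCompact (isCompact_closedBall _ _)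
  · refine tendsto_const_nhds.congr' ?_
    filter_upwards [self_mem_nhdsWithin] with t ht
    have ht' : (0 : ℝ) < t := ht
    rw [integral_const_mul]
    have e1 : ∫ z, wyK φ t p z = ∫ z, φ (t⁻¹ • z) :=
      integral_sub_left_eq_self (fun z => φ (t⁻¹ • z)) volume p
    rw [e1, Measure.integral_comp_inv_smul_of_nonneg volume φ ht'.le, h1]
    simp only [Complex.finrank_real_complex, smul_eq_mul, mul_one]
    field_simp
  · filter_upwards [self_mem_nhdsWithin] with t ht
    have ht' : (0 : ℝ) < t := ht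
    intro z hz
    by_contra hn
    apply hz
    have : wyK φ t p z = 0 := by
      apply h0
      rw [mem_closedBall, dist_comm, dist_eq_norm, not_le] at hn
      rw [norm_smul, Real.norm_eq_abs, abs_of_pos (inv_pos.2 ht'), ← div_eq_inv_mul, le_div_iff₀ ht']
      linarith
    simp [this]
  · filter_upwards [self_mem_nhdsWithin] with t ht z
    have ht' : (0 : ℝ) < t := ht
    have hv : volume.real (closedBall p t) = π * t ^ 2 := by
      rw [Measure.real, Complex.volume_closedBall]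
      simp only [ENNReal.toReal_mul, ENNReal.toReal_pow, ENNReal.toReal_ofReal ht'.le,
        ENNReal.coe_toReal, NNReal.coe_real_pi]
      ring
    rw [hv, abs_mul, abs_of_nonneg (by positivity)]
    have hb : |wyK φ t p z| ≤ B := by simpa [wyK] using hB (t⁻¹ • (p - z))
    have hpi := Real.pi_pos
    calc t⁻¹ ^ 2 * |wyK φ t p z| ≤ t⁻¹ ^ 2 * B := by gcongr
      _ = B * π / (π * t ^ 2) := by field_simp

/-- Weyl's lemma for the weak Cauchy–Riemann equation -/
theorem wy_main {W : Set ℂ} (hW : IsOpen W) {f : ℂ → ℂ} (hf : LocallyIntegrableOn f W) (h : WyCR W f) :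
    ∃ g : ℂ → ℂ, DifferentiableOn ℂ g W ∧ ∀ᵐ z, z ∈ W → g z = f z := by
  obtain ⟨φ, η, hφ, hη, h0, h0', -, h1, -, -, hl⟩ := exists_mol
  set s : ℕ → ℝ := fun n => 1 / 2 ^ n with hs
  have hs0 : ∀ n, 0 < s n := fun n => by positivity
  have hst : Tendsto s atTop (𝓝 0) := by
    have := tendsto_pow_atTop_nhds_zero_of_lt_one (r := (1 / 2 : ℝ)) (by norm_num) (by norm_num)
    simpa [hs] using this
  set g : ℂ → ℂ := fun p => limUnder atTop fun n => wyM φ f (s n) p with hg
  have loc : ∀ x ∈ W, ∃ r : ℝ, 0 < r ∧ DifferentiableOn ℂ g (ball x r) ∧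
      ∀ᵐ z, z ∈ ball x r → g z = f z := by
    intro x hx
    obtain ⟨ε, hε, hb⟩ := Metric.isOpen_iff.1 hW x hx
    obtain ⟨N, hN⟩ := ((tendsto_order.1 hst).2 (ε / 3) (by positivity)).exists
    have hr := hs0 N
    have hsub : closedBall x (2 * s N) ⊆ W := (closedBall_subset_ball (by linarith)).trans hb
    have hsN : ∀ n, N ≤ n → s n ≤ s N := fun n hn => by
      simp only [hs]; gcongr; norm_num
    have hball : ∀ p ∈ ball x (s N), ∀ t, t ≤ s N → closedBall p t ⊆ closedBall x (2 * s N) := by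
      intro p hp t ht
      apply closedBall_subset_closedBall'
      have := mem_ball.1 hp
      linarith
    have hconst : ∀ p ∈ ball x (s N), ∀ n, N ≤ n → wyM φ f (s n) p = wyM φ f (s N) p := by
      intro p hp n hn
      induction n, hn using Nat.le_induction with
      | base => rfl
      | succ n hn ih =>
        rw [← ih, show s (n + 1) = s n / 2 by simp only [hs]; ring]
        exact wyM_half hf h hφ hη h0 h0' hl (hs0 n) ((hball p hp _ (hsN n hn)).trans hsub)
    set f' : ℂ → ℂ := (closedBall x (2 * s N)).indicator f with hf'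
    have hfi : LocallyIntegrable f' :=
      ((integrable_indicator_iff measurableSet_closedBall).2
        (hf.integrableOn_compact_subset hsub (isCompact_closedBall _ _))).locallyIntegrable
    have hff : ∀ p ∈ ball x (s N), ∀ n, N ≤ n → wyM φ f (s n) p = wyM φ f' (s n) p := by
      intro p hp n hn
      refine wyM_congr h0 (hs0 n) fun z hz => ?_
      simp only [hf', indicator_of_mem (hball p hp _ (hsN n hn) hz)]
    have hgl : ∀ p ∈ ball x (s N), g p = wyM φ f (s N) p := by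
      intro p hp
      apply Tendsto.limUnder_eq
      refine tendsto_const_nhds.congr' ?_
      filter_upwards [eventually_ge_atTop N] with n hn using (hconst p hp n hn).symm
    refine ⟨s N, hr, ?_, ?_⟩
    · refine DifferentiableOn.congr (f := wyM φ f' (s N)) (fun p hp => ?_)
        fun p hp => (hgl p hp).trans (hff p hp N le_rfl)
      obtain ⟨d1, d2⟩ := wyM_hasFDeriv hfi hφ h0 hr p
      refine (differentiableAt_complex_iff_differentiableAt_real.2 ⟨d1, ?_⟩).differentiableWithinAt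
      have T := wyK_test hφ h0 hr (hball p hp _ le_rfl)
      have hcr := h _ (wyK_test hφ h0 hr ((hball p hp _ le_rfl).trans hsub))
      have ee : ∀ d : ℂ, ∫ z, fderiv ℝ (wyK φ (s N) p) z d • f' z =
          ∫ z, fderiv ℝ (wyK φ (s N) p) z d • f z := by
        intro d
        refine integral_congr_ae (Eventually.of_forall fun z => ?_)
        by_cases hz : z ∈ closedBall x (2 * s N)
        · simp only [hf', indicator_of_mem hz]
        · have : fderiv ℝ (wyK φ (s N) p) z d = 0 :=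
            image_eq_zero_of_notMem_tsupport (f := fun z => fderiv ℝ (wyK φ (s N) p) z d)
              fun hm => hz ((T.der d).sub hm)
          simp [this]
      rw [d2, d2, ee, ee, smul_eq_mul]
      have hI : Complex.I * Complex.I = -1 := Complex.I_mul_I
      linear_combination (((s N)⁻¹ ^ 2 : ℝ) : ℂ) * Complex.I * hcr - (((s N)⁻¹ ^ 2 : ℝ) : ℂ) *
        (∫ z, fderiv ℝ (wyK φ (s N) p) z Complex.I • f z) * hI
    · filter_upwards [wyM_ae hfi hφ.continuous h0 h1] with p hp hpb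
      have t1 : Tendsto s atTop (𝓝[>] 0) :=
        tendsto_nhdsWithin_iff.2 ⟨hst, Eventually.of_forall hs0⟩
      have t2 := hp.comp t1
      have t3 : Tendsto (fun n => wyM φ f' (s n) p) atTop (𝓝 (g p)) := by
        refine tendsto_const_nhds.congr' ?_
        filter_upwards [eventually_ge_atTop N] with n hn
        rw [hgl p hpb, ← hconst p hpb n hn, hff p hpb n hn]
      have := tendsto_nhds_unique t3 t2
      rw [this, hf', indicator_of_mem (hball p hpb 0 hr.le (mem_closedBall_self le_rfl))]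
  refine ⟨g, fun x hx => ?_, ?_⟩
  · obtain ⟨r, hr, hd, -⟩ := loc x hx
    exact (hd.differentiableAt (ball_mem_nhds x hr)).differentiableWithinAt
  · rw [ae_iff]
    refine measure_null_of_locally_null _ fun x hx => ?_
    simp only [mem_setOf_eq, Classical.not_imp] at hx
    obtain ⟨r, hr, -, ha⟩ := loc x hx.1
    refine ⟨{z | ¬ (z ∈ ball x r → g z = f z)}, ?_, ae_iff.1 ha⟩
    filter_upwards [self_mem_nhdsWithin, mem_nhdsWithin_of_mem_nhds (ball_mem_nhds x hr)] with z hz hzb
    simp only [mem_setOf_eq, Classical.not_imp] at hz ⊢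
    exact ⟨hzb, hz.2⟩

end Crest.Agent.R135
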