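import Crest.Agent.R135.Defs
import Crest.Agent.R135.TLip
import Crest.Agent.R135.TLip2
import Crest.Agent.R135.TMol
import Crest.Agent.R135.TReg
import Crest.Agent.R135.TPolar
import Crest.Agent.R135.TWeylAux
set_option autoImplicit false
open MeasureTheory Metric Set Filter Topology
open scoped ENNReal NNReal Real ComplexConjugate

namespace Crest.Agent.R135

/-- Weyl's lemma for divergence- and curl-free fields. Recipe: the components of `F` are weakly harmonic
(`∫ F_j Δψ = 0`: write `∇∂₁ψ`, `∇∂₂ψ` as test gradients), so `F * φ_t = F * φ_{t/2}` on `{dist(·, Wᶜ) > t}` (`exists_mol`); the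
common value `conj h` is smooth, equals `F` a.e. (`ContDiffBump.ae_convolution_tendsto_right_of_locallyIntegrable` or: `∫ (F*φ_t) ψ → ∫ F ψ` for
test `ψ` and `IsOpen.ae_eq_zero_of_integral_contDiff_smul_eq_zero`), and satisfies Cauchy–Riemann pointwise. -/
theorem weyl_field {W : Set ℂ} (hW : IsOpen W) {F : ℂ → ℂ} (hF : LocallyIntegrableOn F W)
    (hdiv : ∀ ψ : ℂ → ℝ, ContDiff ℝ (⊤ : ℕ∞) ψ → HasCompactSupport ψ → tsupport ψ ⊆ W →
      ∫ z, inner ℝ (F z) (gradient ψ z) = 0)
    (hcurl : ∀ ψ : ℂ → ℝ, ContDiff ℝ (⊤ : ℕ∞) ψ → HasCompactSupport ψ → tsupport ψ ⊆ W →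
      ∫ z, inner ℝ (Complex.I * F z) (gradient ψ z) = 0) :
    ∃ h : ℂ → ℂ, DifferentiableOn ℂ h W ∧ ∀ᵐ z, z ∈ W → h z = conj (F z) := by
  have hf : LocallyIntegrableOn (fun z => conj (F z)) W := by
    intro x hx
    obtain ⟨s, hs, hi⟩ := hF x hx
    exact ⟨s, hs, Complex.conjCLE.toContinuousLinearMap.integrable_comp hi⟩
  exact wy_main hW hf (wy_cr hF hdiv hcurl hf)

/-- weakly harmonic `C¹` functions are smooth with anti-holomorphic gradient -/
theorem weyl_c1 {W : Set ℂ} (hW : IsOpen W) {u : ℂ → ℝ} (hu : ContDiffOn ℝ 1 u W) (h : WL W u 0) :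
    DifferentiableOn ℂ (fun z => conj (gradient u z)) W ∧ ContDiffOn ℝ (⊤ : ℕ∞) u W := by
  have hc := continuousOn_gradient hW hu
  obtain ⟨g, hg, hae⟩ := weyl_field hW (hc.locallyIntegrableOn hW.measurableSet)
    (fun ψ h1 h2 h3 => by simpa using h ψ h1 h2 h3)
    (fun ψ h1 h2 h3 => integral_curl_eq_zero hW (locLip_of_contDiffOn hW hu) h1 h2 h3)
  have heq : EqOn g (fun z => conj (gradient u z)) W :=
    Measure.eqOn_open_of_ae_eq (μ := volume) ((ae_restrict_iff' hW.measurableSet).2 hae) hW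
      hg.continuousOn (Complex.continuous_conj.comp_continuousOn hc)
  have hd : DifferentiableOn ℂ (fun z => conj (gradient u z)) W := hg.congr fun z hz => (heq hz).symm
  refine ⟨hd, (contDiffOn_infty_iff_fderiv_of_isOpen hW).2 ⟨hu.differentiableOn (by simp), ?_⟩⟩
  have h1 : ContDiffOn ℝ (⊤ : ℕ∞) (fun z => conj (gradient u z)) W :=
    (hd.contDiffOn hW).restrict_scalars ℝ
  have h2 : ContDiffOn ℝ (⊤ : ℕ∞) (gradient u) W := by
    have := Complex.conjCLE.contDiff.comp_contDiffOn h1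
    refine this.congr fun z _ => ?_
    simp
  have h3 := (InnerProductSpace.toDual ℝ ℂ).contDiff.comp_contDiffOn h2
  refine h3.congr fun z _ => ?_
  simp [gradient]

/-- an entire function with sub-quadratic `L²` growth vanishes (mean value on discs / Cauchy estimate averaged over radii) -/
theorem entire_zero_of_growth {h : ℂ → ℂ} (hd : Differentiable ℂ h) {A : ℝ}
    (hg : ∀ R : ℝ, 1 ≤ R → ∫⁻ z in ball (0 : ℂ) R, ‖h z‖ₑ ^ 2 ≤ ENNReal.ofReal (A * R)) : ∀ z, h z = 0 := by
  intro z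
  have hm : Measurable fun z => ‖h z‖ₑ ^ 2 := hd.continuous.measurable.enorm.pow_const 2
  -- circle means
  have circ : ∀ ρ : ℝ, ENNReal.ofReal (2 * π * ‖h z‖ ^ 2) ≤
      ∫⁻ φ in Ioo (-π) π, ‖h (circleMap z ρ φ)‖ₑ ^ 2 := by
    intro ρ
    have h1 : Real.circleAverage (fun w => h w ^ 2) z ρ = h z ^ 2 :=
      ((hd.pow 2).diffContOnCl).circleAverage
    rw [Real.circleAverage_def] at h1
    have h2 := circle_shift' z ρ 0 (fun w => h w ^ 2)
    rw [zero_add] at h2
    rw [h2] at h1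
    have hpi := Real.pi_pos
    have h3 : 2 * π * ‖h z‖ ^ 2 = ‖∫ φ in (-π)..π, h (circleMap z ρ φ) ^ 2‖ := by
      rw [← norm_pow, ← h1, norm_smul, Real.norm_eq_abs, abs_of_pos (by positivity)]
      field_simp
    rw [h3, intervalIntegral.integral_of_le (by linarith), integral_Ioc_eq_integral_Ioo,
      ofReal_norm_eq_enorm]
    refine (enorm_integral_le_lintegral_enorm _).trans (le_of_eq ?_)
    simp only [enorm_pow]
  have disc : ∀ R : ℝ, 0 < R → ENNReal.ofReal (π * R ^ 2 * ‖h z‖ ^ 2) ≤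
      ∫⁻ w in ball z R, ‖h w‖ₑ ^ 2 := by
    intro R hR
    rw [lintegral_ball_polar z R _ hm]
    have e : ENNReal.ofReal (π * R ^ 2 * ‖h z‖ ^ 2) =
        ∫⁻ ρ in Ioo 0 R, ENNReal.ofReal (ρ * (2 * π * ‖h z‖ ^ 2)) := by
      rw [← ofReal_integral_eq_lintegral_ofReal]
      · rw [← integral_Ioc_eq_integral_Ioo, ← intervalIntegral.integral_of_le hR.le,
          intervalIntegral.integral_mul_const, integral_id]
        congr 1
        ring
      · exact ((continuous_id.mul continuous_const).integrableOn_Icc (a := 0) (b := R)).mono_set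
          Ioo_subset_Icc_self
      · filter_upwards [ae_restrict_mem measurableSet_Ioo] with ρ hρ
        have := hρ.1
        have := Real.pi_pos
        positivity
    rw [e]
    refine setLIntegral_mono' measurableSet_Ioo fun ρ hρ => ?_
    rw [ENNReal.ofReal_mul hρ.1.le]
    gcongr
    exact circ ρ
  have bound : ∀ R : ℝ, 1 ≤ R → π * R ^ 2 * ‖h z‖ ^ 2 ≤ |A| * (R + ‖z‖) := by
    intro R hR
    have hz := norm_nonneg z
    have h1 := (disc R (by linarith)).trans ((lintegral_mono_set (ball_subset_ball' (y := (0 : ℂ))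
      (ε₂ := R + ‖z‖) (by simp))).trans (hg _ (by linarith)))
    have h2 : ENNReal.ofReal (A * (R + ‖z‖)) ≤ ENNReal.ofReal (|A| * (R + ‖z‖)) := by
      gcongr
      exact le_abs_self A
    exact (ENNReal.ofReal_le_ofReal_iff (by positivity)).1 (h1.trans h2)
  by_contra hne
  have hp : 0 < ‖h z‖ ^ 2 := by positivity
  set c := ‖h z‖ ^ 2 with hc
  set R : ℝ := 1 + |A| * (1 + ‖z‖) / c with hR
  have hz := norm_nonneg z
  have hA := abs_nonneg A
  have hq : 0 ≤ |A| * (1 + ‖z‖) / c := by positivity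
  have h1 := bound R (by linarith)
  have h2 : R * c = c + |A| * (1 + ‖z‖) := by rw [hR]; field_simp
  have h3 : |A| * (R + ‖z‖) ≤ R * (|A| * (1 + ‖z‖)) := by
    have : |A| * ‖z‖ ≤ R * (|A| * ‖z‖) := le_mul_of_one_le_left (by positivity) (by linarith)
    nlinarith
  have h4 : R ^ 2 * c ≤ π * R ^ 2 * c := by
    have := Real.pi_gt_three
    have : 0 ≤ R ^ 2 * c := by positivity
    nlinarith
  have h5 : R ^ 2 * c = R * c + R * (|A| * (1 + ‖z‖)) + (R - 1) * c - (R - 1) * c := by
    rw [pow_two, mul_assoc, h2]; nlinarith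
  have h6 : 0 < R * c := by positivity
  nlinarith

/-- real potential of a holomorphic function on a disc (`DifferentiableOn.isExactOn_ball`, real part) -/
theorem exists_potential {x : ℂ} {r : ℝ} {h : ℂ → ℂ} (hd : DifferentiableOn ℂ h (ball x r)) :
    ∃ v : ℂ → ℝ, ∀ z ∈ ball x r, HasGradientAt v (conj (h z)) z := by
  obtain ⟨g, hg⟩ := hd.isExactOn_ball
  refine ⟨fun z => (g z).re, fun z hz => ?_⟩
  have h1 := Complex.reCLM.hasFDerivAt.comp z ((hg z hz).hasFDerivAt.restrictScalars ℝ)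
  rw [hasGradientAt_iff_hasFDerivAt]
  have e : InnerProductSpace.toDual ℝ ℂ (conj (h z)) = Complex.reCLM.comp
      ((ContinuousLinearMap.toSpanSingleton ℂ (h z)).restrictScalars ℝ) := by
    refine ContinuousLinearMap.ext fun d => ?_
    simp [mul_comm]
  rw [e]
  exact h1

end Crest.Agent.R135
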