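import Crest.Agent.R135.Defs
import Crest.Agent.R135.MBasic
import Crest.Agent.R135.TLip2
import Crest.Agent.R135.TReg
import Crest.Agent.R135.TWeyl
set_option autoImplicit false
open MeasureTheory Metric Set Filter Topology
open scoped ENNReal NNReal Real ComplexConjugate

namespace Crest.Agent.R135

variable {U K : Set ℂ} {a b : ℝ} {u : ℂ → ℝ}

theorem mela_Dir (v : ℂ → ℝ) (S : Set ℂ) : Dir v S = ∫⁻ z in S, ENNReal.ofReal (‖gradient v z‖ ^ 2) := by
  simp only [Dir, ENNReal.ofReal_pow (norm_nonneg _), ofReal_norm]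

theorem mela_iff {v : ℂ → ℝ} {S : Set ℂ} : Dir v S < ⊤ ↔ IntegrableOn (fun z => ‖gradient v z‖ ^ 2) S := by
  rw [mela_Dir, IntegrableOn, ← lintegral_ofReal_ne_top_iff_integrable
    ((measurable_gradient v).norm.pow_const 2).aestronglyMeasurable (Eventually.of_forall fun z => by positivity),
    lt_top_iff_ne_top]

theorem mela_toReal (v : ℂ → ℝ) (S : Set ℂ) : (Dir v S).toReal = ∫ z in S, ‖gradient v z‖ ^ 2 := by
  rw [mela_Dir, integral_eq_lintegral_of_nonneg_ae (Eventually.of_forall fun z => by positivity)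
    ((measurable_gradient v).norm.pow_const 2).aestronglyMeasurable]

/-- Cauchy–Schwarz integrability -/
theorem integrableOn_inner {v w : ℂ → ℝ} {S : Set ℂ} (hv : Dir v S < ⊤) (hw : Dir w S < ⊤) :
    IntegrableOn (fun z => inner ℝ (gradient v z) (gradient w z)) S := by
  refine Integrable.mono' ((mela_iff.1 hv).add (mela_iff.1 hw))
    ((measurable_gradient v).inner (measurable_gradient w)).aestronglyMeasurable
    (Eventually.of_forall fun z => ?_)
  have h1 := norm_inner_le_norm (𝕜 := ℝ) (gradient v z) (gradient w z)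
  simp only [Pi.add_apply]
  nlinarith [sq_nonneg (‖gradient v z‖ - ‖gradient w z‖), mul_nonneg (norm_nonneg (gradient v z))
    (norm_nonneg (gradient w z))]

/-- expansion of the energy of `v + w` when both are a.e. differentiable on `S` -/
theorem Dir_add_toReal {v w : ℂ → ℝ} {S : Set ℂ} (hS : MeasurableSet S) (hv : Dir v S < ⊤) (hw : Dir w S < ⊤)
    (hd : ∀ᵐ z, z ∈ S → DifferentiableAt ℝ v z ∧ DifferentiableAt ℝ w z) :
    Dir (fun z => v z + w z) S < ⊤ ∧ (Dir (fun z => v z + w z) S).toReal =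
      (Dir v S).toReal + 2 * (∫ z in S, inner ℝ (gradient v z) (gradient w z)) + (Dir w S).toReal := by
  have e : (fun z => ‖gradient (fun z => v z + w z) z‖ ^ 2) =ᵐ[volume.restrict S] fun z =>
      ‖gradient v z‖ ^ 2 + 2 * inner ℝ (gradient v z) (gradient w z) + ‖gradient w z‖ ^ 2 := by
    filter_upwards [(ae_restrict_iff' hS).2 hd] with z hz
    rw [← norm_add_sq_real]
    simp only [gradient, fderiv_fun_add hz.1 hz.2, map_add]
  have i1 := mela_iff.1 hv
  have i2 := (integrableOn_inner hv hw).const_mul 2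
  have i3 := mela_iff.1 hw
  have i12 : Integrable (fun z => ‖gradient v z‖ ^ 2 + 2 * inner ℝ (gradient v z) (gradient w z))
    (volume.restrict S) := i1.add i2
  refine ⟨mela_iff.2 ((i12.add i3).congr e.symm), ?_⟩
  simp only [mela_toReal]
  rw [integral_congr_ae e, integral_add i12 i3, integral_add i1 i2, integral_const_mul]

theorem mela_grad (t : ℝ) (w : ℂ → ℝ) (z : ℂ) : gradient (fun z => t * w z) z = t • gradient w z := by
  have e : (fun z => t * w z) = t • w := rfl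
  simp only [gradient, e, fderiv_const_smul_field, Pi.smul_apply, map_smul]

theorem mela_lip {W : Set ℂ} {w : ℂ → ℝ} (t : ℝ) (h : LocallyLipschitzOn W w) :
    LocallyLipschitzOn W fun z => t * w z := fun z hz => by
  obtain ⟨L, s, hs, hL⟩ := h hz
  exact ⟨_, s, hs, (lipschitzWith_smul t).comp_lipschitzOnWith hL⟩

theorem mela_exp {v w : ℂ → ℝ} {S : Set ℂ} (hS : MeasurableSet S) (hv : Dir v S < ⊤) (hw : Dir w S < ⊤)
    (hd : ∀ᵐ z, z ∈ S → DifferentiableAt ℝ v z ∧ DifferentiableAt ℝ w z) (t : ℝ) :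
    Dir (fun z => v z + t * w z) S < ⊤ ∧ (Dir (fun z => v z + t * w z) S).toReal =
      (Dir v S).toReal + 2 * t * (∫ z in S, inner ℝ (gradient v z) (gradient w z)) +
        t ^ 2 * (Dir w S).toReal := by
  have e : ∀ z, ‖gradient (fun z => t * w z) z‖ ^ 2 = t ^ 2 * ‖gradient w z‖ ^ 2 := fun z => by
    rw [mela_grad, norm_smul, mul_pow, Real.norm_eq_abs, sq_abs]
  have h1 : Dir (fun z => t * w z) S < ⊤ := by
    rw [mela_iff]
    simp only [e]
    exact (mela_iff.1 hw).const_mul _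
  obtain ⟨h2, h3⟩ := Dir_add_toReal hS hv h1 (hd.mono fun z hz hs => ⟨(hz hs).1, (hz hs).2.const_mul t⟩)
  refine ⟨h2, ?_⟩
  rw [h3, mela_toReal (fun z => t * w z), mela_toReal w]
  simp only [e]
  simp only [mela_grad, real_inner_smul_right, integral_const_mul, mul_assoc]

theorem mela_alg {J D I : ℝ} (hD : 0 ≤ D) (h : ∀ t : ℝ, 0 ≤ 2 * t * J + t ^ 2 * D + |t| * I) : |J| ≤ I / 2 := by
  refine le_of_forall_pos_le_add fun ε hε => ?_
  have ht : 0 < ε / (D + 1) := by positivity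
  have h0 : ε / (D + 1) * D ≤ ε := by
    rw [div_mul_eq_mul_div, div_le_iff₀ (by positivity)]
    nlinarith
  generalize ε / (D + 1) = t at ht h0
  have h1 := h t
  have h2 := h (-t)
  rw [abs_of_pos ht] at h1
  rw [abs_neg, abs_of_pos ht] at h2
  have h3 : 0 ≤ 2 * J + t * D + I := le_of_mul_le_mul_left (by linarith) ht
  have h4 : 0 ≤ -(2 * J) + t * D + I := le_of_mul_le_mul_left (by linarith) ht
  rw [abs_le]
  constructor <;> linarith

/-- Euler–Lagrange inequality: compare with `u + tψ`, same `K`; `min |tψ| b ≤ |t| |ψ|`; `t → 0±`. -/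
theorem MS.el (h : MS U a b K u) {x : ℂ} {ρ : ℝ} (hB : closedBall x ρ ⊆ U) {ψ : ℂ → ℝ}
    (hψ : LocallyLipschitzOn (U \ K) ψ) (h0 : ∀ z ∈ (U \ K) \ closedBall x ρ, ψ z = 0)
    (hD : Dir ψ (closedBall x ρ) < ⊤) {I : ℝ} (hI0 : 0 ≤ I)
    (hI : ENNReal.ofReal a * ∫⁻ z in closedBall x ρ, ‖ψ z‖ₑ ≤ ENNReal.ofReal I) :
    |∫ z in closedBall x ρ, inner ℝ (gradient u z) (gradient ψ z)| ≤ I / 2 := by
  have hW : IsOpen (U \ K) := h.isOpen.sdiff h.closed
  have hu := locLip_of_contDiffOn hW h.c1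
  have hd : ∀ᵐ z, z ∈ closedBall x ρ → DifferentiableAt ℝ u z ∧ DifferentiableAt ℝ ψ z := by
    filter_upwards [ae_diff_of_locLip hW hu, ae_diff_of_locLip hW hψ, h.ae_not_mem] with z h1 h2 h3 hz
    exact ⟨h1 ⟨hB hz, h3 (hB hz)⟩, h2 ⟨hB hz, h3 (hB hz)⟩⟩
  refine mela_alg (D := (Dir ψ (closedBall x ρ)).toReal) ENNReal.toReal_nonneg fun t => ?_
  obtain ⟨h1, h2⟩ := mela_exp measurableSet_closedBall (h.Dir_lt_top hB) hD hd t
  have h3 := h.min K (fun z => u z + t * ψ z) x ρ hB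
    ⟨h.closed, rfl, fun z hz => by simp [h0 z hz], hu.add (mela_lip t hψ)⟩
    fun Λ hΛ => ⟨Λ, hΛ, fun _ _ => rfl⟩
  have h4 : Err a b u (fun z => u z + t * ψ z) (closedBall x ρ) ≤ ENNReal.ofReal (|t| * I) := by
    rw [ENNReal.ofReal_mul (abs_nonneg t)]
    refine le_trans ?_ (mul_le_mul_right hI _)
    rw [mul_left_comm, ← lintegral_const_mul' _ _ ENNReal.ofReal_ne_top]
    refine mul_le_mul_right (lintegral_mono fun z => ?_) _
    rw [← ofReal_norm, ← ENNReal.ofReal_mul (abs_nonneg t)]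
    refine ENNReal.ofReal_le_ofReal ((min_le_left _ _).trans_eq ?_)
    rw [add_sub_cancel_left, abs_mul, Real.norm_eq_abs]
  have h5 : Dir u (closedBall x ρ) ≤ Dir (fun z => u z + t * ψ z) (closedBall x ρ) + ENNReal.ofReal (|t| * I) := by
    have h6 := h3.trans (add_le_add le_rfl h4)
    rw [En, En, add_right_comm] at h6
    exact ENNReal.le_of_add_le_add_right (h.H1_lt_top hB).ne h6
  have h7 := ENNReal.toReal_mono (ENNReal.add_ne_top.2 ⟨h1.ne, ENNReal.ofReal_ne_top⟩) h5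
  rw [ENNReal.toReal_add h1.ne ENNReal.ofReal_ne_top, ENNReal.toReal_ofReal (by positivity), h2] at h7
  linarith

theorem melb_fin {ψ : ℂ → ℝ} (h : ContDiff ℝ 1 ψ) (hc : HasCompactSupport ψ) : Dir ψ univ < ⊤ := by
  have h1 : Continuous (gradient ψ) :=
    continuousOn_univ.1 (continuousOn_gradient isOpen_univ h.contDiffOn)
  have h2 : HasCompactSupport (gradient ψ) :=
    (hc.fderiv ℝ).comp_left (g := (InnerProductSpace.toDual ℝ ℂ).symm) (map_zero _)
  have h3 := (h1.memLp_of_hasCompactSupport (μ := volume) (p := 2) h2).2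
  rw [eLpNorm_lt_top_iff_lintegral_rpow_enorm_lt_top (by norm_num) (by norm_num)] at h3
  simpa [Dir] using h3

theorem melb_zero {ψ : ℂ → ℝ} {y : ℂ} (h : ψ =ᶠ[𝓝 y] 0) : gradient ψ y = 0 :=
  h.gradient_eq.trans (gradient_fun_const y (0 : ℝ))

theorem MS.WL (h : MS U a b K u) {z : ℂ} {s : ℝ} (hB : ball z s ⊆ U) : WL (ball z s) u (a / 2) := by
  intro ψ hψ hc hs
  obtain ⟨r, hr, hs'⟩ := exists_lt_subset_ball (isClosed_tsupport ψ) hs
  have h1 : ContDiff ℝ 1 ψ := hψ.of_le (by simp)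
  have hz : ∀ y ∉ closedBall z r, y ∉ tsupport ψ := fun y hy hy' => hy (ball_subset_closedBall (hs' hy'))
  have h2 := h.el (x := z) (ρ := r) ((closedBall_subset_ball hr).trans hB) h1.locallyLipschitz.locallyLipschitzOn
    (fun y hy => image_eq_zero_of_notMem_tsupport (hz y hy.2))
    ((lintegral_mono_set (subset_univ _)).trans_lt (melb_fin h1 hc)) (I := a * ∫ y, |ψ y|)
    (mul_nonneg h.a0 (integral_nonneg fun _ => abs_nonneg _)) (by
      rw [ENNReal.ofReal_mul h.a0]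
      gcongr
      exact (setLIntegral_le_lintegral _ _).trans_eq
        (ofReal_integral_norm_eq_lintegral_enorm (h1.continuous.integrable_of_hasCompactSupport hc)).symm)
  rw [setIntegral_eq_integral_of_forall_compl_eq_zero fun y hy => by
    rw [melb_zero (notMem_tsupport_iff_eventuallyEq.1 (hz y hy)), inner_zero_right]] at h2
  linarith

theorem Glob.orth (h : Glob K u) : Orth K (gradient u) := by
  intro ψ hψ
  obtain ⟨R, hR⟩ := hψ.supp
  have h2 := h.ms.el (x := 0) (ρ := R) (subset_univ _) (ψ := ψ) (by rw [← compl_eq_univ_sdiff]; exact hψ.lip)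
    (fun y hy => hR y hy.1.2 (not_le.1 (mt mem_closedBall_zero_iff.2 hy.2)).le)
    ((lintegral_mono_set (subset_univ _)).trans_lt hψ.fin) le_rfl (by simp)
  rw [setIntegral_eq_integral_of_ae_compl_eq_zero, zero_div] at h2
  · exact abs_nonpos_iff.1 h2
  filter_upwards [h.ms.ae_not_mem] with y hy hy'
  rw [melb_zero (ψ := ψ), inner_zero_right]
  filter_upwards [h.ms.closed.isOpen_compl.mem_nhds (hy (mem_univ y)),
    isClosed_closedBall.isOpen_compl.mem_nhds hy'] with w hw hw'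
  exact hR w hw (not_le.1 (mt mem_closedBall_zero_iff.2 hw')).le

theorem mela_zero {ψ : ℂ → ℝ} {z G : ℂ} (e : ψ =ᶠ[𝓝 z] fun _ => 0) : inner ℝ G (gradient ψ z) = 0 := by
  simp [gradient, e.fderiv_eq]

/-- adding a crack `K' \ K` of length `≤ σ` (`Adm` is trivial for `K' ⊇ K`); optimise the quadratic in `t` -/
theorem Glob.el_add (h : Glob K u) {K' : Set ℂ} (hK' : IsClosed K') (hs : K ⊆ K') (hb : Bornology.IsBounded (K' \ K))
    {σ : ℝ} (hσ : 0 ≤ σ) (hl : H1 (K' \ K) ≤ ENNReal.ofReal σ) {ψ : ℂ → ℝ} (hψ : Tst K' ψ) :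
    (∫ z, inner ℝ (gradient u z) (gradient ψ z)) ^ 2 ≤ σ * (Dir ψ univ).toReal := by
  obtain ⟨R₁, hR₁⟩ := hψ.supp
  obtain ⟨R₂, hR₂⟩ := hb.subset_closedBall 0
  obtain ⟨R, hR, hR'⟩ : ∃ R : ℝ, K' \ K ⊆ closedBall 0 R ∧ ∀ z ∉ K', z ∉ closedBall (0 : ℂ) R → ψ z = 0 :=
    ⟨max R₁ R₂, hR₂.trans (closedBall_subset_closedBall (le_max_right _ _)), fun z hz hz' =>
      hR₁ z hz ((le_max_left _ _).trans (not_le.1 (mt mem_closedBall_zero_iff.2 hz')).le)⟩
  have hU : ∀ A : Set ℂ, univ \ A = Aᶜ := fun A => (compl_eq_univ_sdiff A).symm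
  have hu : LocallyLipschitzOn K'ᶜ u :=
    (locLip_of_contDiffOn (isOpen_univ.sdiff h.ms.closed) h.ms.c1).mono fun z hz => ⟨trivial, fun h' => hz (hs h')⟩
  have hn : ∀ᵐ z, z ∉ K' := by
    filter_upwards [measure_eq_zero_iff_ae_notMem.1 h.vol_zero,
      measure_eq_zero_iff_ae_notMem.1 (vol_zero_of_H1 (hl.trans_lt ENNReal.ofReal_lt_top))] with z h1 h2 h3
    exact h2 ⟨h3, h1⟩
  have hd : ∀ᵐ z, z ∈ closedBall (0 : ℂ) R → DifferentiableAt ℝ u z ∧ DifferentiableAt ℝ ψ z := by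
    filter_upwards [ae_diff_of_locLip hK'.isOpen_compl hu, ae_diff_of_locLip hK'.isOpen_compl hψ.lip, hn]
      with z h1 h2 h3 _
    exact ⟨h1 h3, h2 h3⟩
  have hle : Dir ψ (closedBall 0 R) ≤ Dir ψ univ := lintegral_mono_set (subset_univ _)
  have hD := hle.trans_lt hψ.fin
  have hJ : ∫ z in closedBall (0 : ℂ) R, inner ℝ (gradient u z) (gradient ψ z) =
      ∫ z, inner ℝ (gradient u z) (gradient ψ z) := by
    refine setIntegral_eq_integral_of_ae_compl_eq_zero ?_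
    filter_upwards [hn] with z h1 h2
    have e : ψ =ᶠ[𝓝 z] fun _ => 0 := by
      filter_upwards [hK'.isOpen_compl.mem_nhds h1, isClosed_closedBall.isOpen_compl.mem_nhds h2]
        with y hy hy' using hR' y hy hy'
    rw [mela_zero e]
  have key : ∀ t : ℝ, 0 ≤ (Dir ψ (closedBall 0 R)).toReal * (t * t) +
      (2 * ∫ z, inner ℝ (gradient u z) (gradient ψ z)) * t + σ := by
    intro t
    have hB : closedBall (0 : ℂ) R ⊆ univ := subset_univ _
    obtain ⟨h1, h2⟩ := mela_exp measurableSet_closedBall (h.ms.Dir_lt_top hB) hD hd t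
    have h3 := h.ms.min K' (fun z => u z + t * ψ z) 0 R hB
      ⟨hK', Subset.antisymm (fun z hz => ⟨by_contra fun h' => hz.2 (hR ⟨hz.1, h'⟩), hz.2⟩)
        (sdiff_subset_sdiff_left hs), fun z hz => by simp [hR' z hz.1.2 hz.2], by
          rw [hU]; exact hu.add (mela_lip t hψ.lip)⟩
      fun Λ hΛ => ⟨Λ, fun z hz => hΛ z ⟨trivial, fun h' => hz.2 (hs h')⟩, fun _ _ => rfl⟩
    have h4 : H1 (K' ∩ closedBall 0 R) ≤ H1 (K ∩ closedBall 0 R) + ENNReal.ofReal σ := by
      refine le_trans (measure_mono fun z hz => ?_) ((measure_union_le _ _).trans (add_le_add le_rfl hl))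
      by_cases h' : z ∈ K
      · exact Or.inl ⟨h', hz.2⟩
      · exact Or.inr ⟨hz.1, h'⟩
    have h5 : Dir u (closedBall 0 R) ≤ Dir (fun z => u z + t * ψ z) (closedBall 0 R) + ENNReal.ofReal σ := by
      rw [En, En, Err, ENNReal.ofReal_zero, zero_mul, add_zero] at h3
      have h6 := h3.trans (add_le_add le_rfl h4)
      rw [← add_assoc, add_right_comm] at h6
      exact ENNReal.le_of_add_le_add_right (h.ms.H1_lt_top hB).ne h6
    have h7 := ENNReal.toReal_mono (ENNReal.add_ne_top.2 ⟨h1.ne, ENNReal.ofReal_ne_top⟩) h5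
    rw [ENNReal.toReal_add h1.ne ENNReal.ofReal_ne_top, ENNReal.toReal_ofReal hσ, h2, hJ] at h7
    linarith
  have h8 := discrim_le_zero key
  have h9 := mul_le_mul_of_nonneg_left (ENNReal.toReal_mono hψ.fin.ne hle) hσ
  rw [discrim] at h8
  linarith

theorem Tst.of_smooth (K : Set ℂ) {ψ : ℂ → ℝ} (h : ContDiff ℝ 1 ψ) (hc : HasCompactSupport ψ) : Tst K ψ := by
  obtain ⟨R, -, hR⟩ := hc.exists_pos_le_norm
  exact ⟨h.locallyLipschitz.locallyLipschitzOn, ⟨R, fun z _ hz => hR z hz⟩, melb_fin h hc⟩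

theorem Glob.harm (h : Glob K u) :
    DifferentiableOn ℂ (fun z => conj (gradient u z)) Kᶜ ∧ ContDiffOn ℝ (⊤ : ℕ∞) u Kᶜ := by
  refine weyl_c1 h.ms.closed.isOpen_compl (by rw [compl_eq_univ_sdiff]; exact h.ms.c1) fun ψ hψ hc _ => ?_
  rw [h.orth ψ (Tst.of_smooth K (hψ.of_le (by simp)) hc), abs_zero, zero_mul]

theorem melb_data (h : MS U a b K u) {z : ℂ} {s : ℝ} (hs : 0 < s) (hB : closedBall z s ⊆ U)
    (hd : Disjoint (ball z s) K) : 0 ≤ 9 * (s + a * b * s ^ 2) ∧ ContDiffOn ℝ 1 u (ball z s) ∧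
      Dir u (ball z s) ≤ ENNReal.ofReal (9 * (s + a * b * s ^ 2)) ∧
      √(9 * (s + a * b * s ^ 2)) = 3 * √(s + a * b * s ^ 2) := by
  have hab : 0 ≤ a * b * s ^ 2 := by have := h.a0; have := h.b0; positivity
  refine ⟨by positivity, h.c1.mono fun y hy => ⟨hB (ball_subset_closedBall hy), disjoint_left.1 hd hy⟩, ?_, ?_⟩
  · rw [← Dir_closedBall]
    refine (le_self_add.trans (h.upper hs.le hB)).trans (ENNReal.ofReal_le_ofReal ?_)
    nlinarith [Real.pi_le_four, Real.pi_pos]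
  · rw [Real.sqrt_mul (by norm_num), show (9 : ℝ) = 3 ^ 2 by norm_num, Real.sqrt_sq (by norm_num)]

theorem MS.grad_le : ∃ C : ℝ, 0 ≤ C ∧ ∀ (U K : Set ℂ) (a b : ℝ) (u : ℂ → ℝ), MS U a b K u → ∀ (z : ℂ) (s : ℝ), 0 < s →
    closedBall z s ⊆ U → Disjoint (ball z s) K →
    ‖gradient u z‖ ≤ C * (√(s + a * b * s ^ 2) / s + a * s) := by
  obtain ⟨C, hC, H⟩ := grad_bound
  refine ⟨3 * C, by positivity, fun U K a b u h z s hs hB hd => ?_⟩
  obtain ⟨h1, h2, h3, h4⟩ := melb_data h hs hB hd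
  have ha := h.a0
  refine (H u z s (a / 2) _ hs (by positivity) h1 h2 (h.WL (ball_subset_closedBall.trans hB)) h3).trans ?_
  rw [h4, mul_comm 3 C, mul_assoc C, mul_add 3, mul_div_assoc]
  exact mul_le_mul_of_nonneg_left (by nlinarith [mul_nonneg ha hs.le]) hC

theorem MS.grad_equi : ∃ C : ℝ, 0 ≤ C ∧ ∀ (U K : Set ℂ) (a b : ℝ) (u : ℂ → ℝ), MS U a b K u → ∀ (z : ℂ) (s t : ℝ),
    0 < t → t ≤ s / 4 → closedBall z s ⊆ U → Disjoint (ball z s) K → ∀ p ∈ ball z (s / 2), ∀ q ∈ ball z (s / 2),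
    ‖gradient u p - gradient u q‖ ≤ C * (√(s + a * b * s ^ 2) * ‖p - q‖ / t ^ 2 + a * t) := by
  obtain ⟨C, hC, H⟩ := R135.grad_equi
  refine ⟨3 * C, by positivity, fun U K a b u h z s t ht hts hB hd p hp q hq => ?_⟩
  obtain ⟨h1, h2, h3, h4⟩ := melb_data h (by linarith) hB hd
  have ha := h.a0
  refine (H u z s (a / 2) _ t ht hts (by positivity) h1 h2 (h.WL (ball_subset_closedBall.trans hB)) h3
    p hp q hq).trans ?_
  rw [h4, mul_comm 3 C, mul_assoc C, mul_add 3, mul_assoc 3, mul_div_assoc 3]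
  exact mul_le_mul_of_nonneg_left (by nlinarith [mul_nonneg ha ht.le]) hC

end Crest.Agent.R135
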