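import Crest.Agent.R135.Defs
import Crest.Agent.R135.MEL
set_option autoImplicit false
open MeasureTheory Metric Set Filter Topology
open scoped ENNReal NNReal Real ComplexConjugate

namespace Crest.Agent.R135

theorem ccv_lim {E : Type} [NormedAddCommGroup E] [ProperSpace E] {F : Ultrafilter ℕ} {f : ℕ → E} {B : ℝ}
    (h : ∀ᶠ k in (F : Filter ℕ), ‖f k‖ ≤ B) : Tendsto f F (𝓝 (limUnder (F : Filter ℕ) f)) := by
  obtain ⟨x, -, hx⟩ := (isCompact_closedBall (0 : E) B).ultrafilter_le_nhds (F.map f)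
    (le_principal_iff.2 (h.mono fun k hk => mem_closedBall_zero_iff.2 hk))
  exact tendsto_nhds_limUnder ⟨x, hx⟩

theorem ccv_loc {E : Type} [PseudoMetricSpace E] {F : Filter ℕ} [F.NeBot] {f : ℕ → ℂ → E} {g : ℂ → E} {W : Set ℂ}
    (hp : ∀ y ∈ W, Tendsto (fun k => f k y) F (𝓝 (g y)))
    (he : ∀ z ∈ W, ∃ s M : ℝ, 0 < s ∧ ball z s ⊆ W ∧ ∀ ε : ℝ, 0 < ε → ∀ᶠ k in F, ∀ p ∈ ball z s, ∀ q ∈ ball z s,
      dist (f k p) (f k q) ≤ M * dist p q + ε) :
    TendstoLocallyUniformlyOn f g F W ∧ ContinuousOn g W := by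
  have key : ∀ z ∈ W, ∀ ε : ℝ, 0 < ε → ∃ t ∈ 𝓝 z, (∀ y ∈ t, dist (g y) (g z) ≤ ε) ∧
      ∀ᶠ k in F, ∀ y ∈ t, dist (f k y) (f k z) ≤ ε := by
    intro z hz ε hε
    obtain ⟨s, M, hs, hb, H⟩ := he z hz
    have hc : Tendsto (fun y => M * dist y z) (𝓝 z) (𝓝 (M * dist z z)) :=
      (continuous_const.mul (continuous_id.dist continuous_const)).tendsto z
    rw [dist_self, mul_zero] at hc
    have ev : ∀ᶠ k in F, ∀ y ∈ ball z s ∩ {y | M * dist y z ≤ ε / 2}, dist (f k y) (f k z) ≤ ε :=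
      (H _ (half_pos hε)).mono fun k hk y hy => by
        linarith [hk y hy.1 z (mem_ball_self hs), show M * dist y z ≤ ε / 2 from hy.2]
    exact ⟨_, inter_mem (ball_mem_nhds z hs) (hc.eventually (ge_mem_nhds (half_pos hε))), fun y hy =>
      le_of_tendsto ((hp y (hb hy.1)).dist (hp z hz)) (ev.mono fun k hk => hk y hy), ev⟩
  refine ⟨Metric.tendstoLocallyUniformlyOn_iff.2 fun ε hε z hz => ?_, fun z hz => ?_⟩
  · obtain ⟨t, ht, h1, h2⟩ := key z hz (ε / 3) (by positivity)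
    refine ⟨t, mem_nhdsWithin_of_mem_nhds ht, ?_⟩
    filter_upwards [h2, Metric.tendsto_nhds.1 (hp z hz) (ε / 3) (by positivity)] with k e1 e2 y hy
    linarith [dist_triangle4 (g y) (g z) (f k z) (f k y), h1 y hy, e1 y hy, dist_comm (g z) (f k z),
      dist_comm (f k z) (f k y)]
  · refine (Metric.continuousAt_iff'.2 fun ε hε => ?_).continuousWithinAt
    obtain ⟨t, ht, h1, -⟩ := key z hz (ε / 2) (by positivity)
    filter_upwards [ht] with y hy using (h1 y hy).trans_lt (half_lt_self hε)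

theorem ccv_abs {F : Ultrafilter ℕ} {u : ℕ → ℂ → ℝ} {W : Set ℂ} (hW : IsOpen W)
    (h : ∀ z ∈ W, ∃ s M M' : ℝ, 0 < s ∧ ball z s ⊆ W ∧
      (∀ᶠ k in (F : Filter ℕ), ∀ y ∈ ball z s, DifferentiableAt ℝ (u k) y ∧ ‖gradient (u k) y‖ ≤ M) ∧
      ∀ ε : ℝ, 0 < ε → ∀ᶠ k in (F : Filter ℕ), ∀ p ∈ ball z s, ∀ q ∈ ball z s,
        dist (gradient (u k) p) (gradient (u k) q) ≤ M' * dist p q + ε) :
    ∃ u' : ℂ → ℝ, ContDiffOn ℝ 1 u' W ∧ TendstoLocallyUniformlyOn (fun k => gradient (u k)) (gradient u') F W ∧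
      ∃ Λ : ℕ → ℂ → ℝ, (∀ k, LC W (Λ k)) ∧ TendstoLocallyUniformlyOn (fun k z => u k z - Λ k z) u' F W := by
  set G : ℂ → ℂ := fun y => limUnder (F : Filter ℕ) fun k => gradient (u k) y with hG
  obtain ⟨g1, g2⟩ := ccv_loc (F := F) (f := fun k => gradient (u k)) (g := G) (W := W) (fun y hy => by
    obtain ⟨s, M, M', hs, -, h1, -⟩ := h y hy
    exact ccv_lim (h1.mono fun k hk => (hk y (mem_ball_self hs)).2)) fun z hz => by
    obtain ⟨s, M, M', hs, hb, -, h1⟩ := h z hz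
    exact ⟨s, M', hs, hb, h1⟩
  set β : ℂ → ℂ := fun z => Classical.epsilon (· ∈ connectedComponentIn W z) with hβ
  have hβ1 : ∀ z ∈ W, β z ∈ connectedComponentIn W z := fun z hz =>
    Classical.epsilon_spec (p := (· ∈ connectedComponentIn W z)) ⟨z, mem_connectedComponentIn hz⟩
  have hβ2 : ∀ z s, 0 < s → ball z s ⊆ W → ∀ y ∈ ball z s, β y = β z := fun z s hs hb y hy => by
    simp only [hβ, ← connectedComponentIn_eq
      ((convex_ball z s).isPreconnected.subset_connectedComponentIn (mem_ball_self hs) hb hy)]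
  have lip : ∀ z ∈ W, ∃ s M : ℝ, 0 < s ∧ ball z s ⊆ W ∧ ∀ᶠ k in (F : Filter ℕ),
      (∀ y ∈ ball z s, DifferentiableAt ℝ (u k) y) ∧
        ∀ p ∈ ball z s, ∀ q ∈ ball z s, ‖u k p - u k q‖ ≤ M * ‖p - q‖ := fun z hz => by
    obtain ⟨s, M, M', hs, hb, h1, -⟩ := h z hz
    refine ⟨s, M, hs, hb, h1.mono fun k hk => ⟨fun y hy => (hk y hy).1, fun p hp q hq =>
      (convex_ball z s).norm_image_sub_le_of_norm_fderiv_le (fun y hy => (hk y hy).1) (fun y hy => ?_) hq hp⟩⟩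
    simpa only [gradient, LinearIsometryEquiv.norm_map] using (hk y hy).2
  have bd : ∀ z ∈ W, ∃ B : ℝ, ∀ᶠ k in (F : Filter ℕ), ‖u k z - u k (β z)‖ ≤ B := fun z hz => by
    refine (isPreconnected_connectedComponentIn (x := z) (F := W)).induction₂
      (fun p q => ∃ B : ℝ, ∀ᶠ k in (F : Filter ℕ), ‖u k p - u k q‖ ≤ B) (fun p hp => ?_) ?_ ?_
      (mem_connectedComponentIn hz) (hβ1 z hz)
    · obtain ⟨s, M, hs, -, h1⟩ := lip p (connectedComponentIn_subset _ _ hp)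
      filter_upwards [mem_nhdsWithin_of_mem_nhds (ball_mem_nhds p hs)] with q hq
      exact ⟨_, h1.mono fun k hk => hk.2 p (mem_ball_self hs) q hq⟩
    · rintro p q r - - - ⟨B, h1⟩ ⟨B', h2⟩
      refine ⟨B + B', ?_⟩
      filter_upwards [h1, h2] with k e1 e2 using (norm_sub_le_norm_sub_add_norm_sub _ _ _).trans (add_le_add e1 e2)
    · rintro p q - - ⟨B, h1⟩
      exact ⟨B, h1.mono fun k hk => by rwa [norm_sub_rev]⟩
  set u' : ℂ → ℝ := fun y => limUnder (F : Filter ℕ) fun k => u k y - u k (β y) with hu'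
  have pt : ∀ y ∈ W, Tendsto (fun k => u k y - u k (β y)) F (𝓝 (u' y)) := fun y hy => by
    obtain ⟨B, hB⟩ := bd y hy
    exact ccv_lim hB
  obtain ⟨v1, -⟩ := ccv_loc (F := F) (f := fun k y => u k y - u k (β y)) pt fun z hz => by
    obtain ⟨s, M, hs, hb, h1⟩ := lip z hz
    refine ⟨s, M, hs, hb, fun ε hε => h1.mono fun k hk p hp q hq => ?_⟩
    rw [hβ2 z s hs hb p hp, hβ2 z s hs hb q hq, dist_sub_right, dist_eq_norm, dist_eq_norm]
    linarith [hk.2 p hp q hq]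
  have der : ∀ z ∈ W, HasFDerivAt u' (InnerProductSpace.toDual ℝ ℂ (G z)) z := fun z hz => by
    obtain ⟨s, M, hs, hb, h1⟩ := lip z hz
    have t1 := tendstoLocallyUniformlyOn_iff_filter.1 g1 z hz
    rw [hW.nhdsWithin_eq hz] at t1
    refine hasFDerivAt_of_tendstoUniformlyOnFilter (l := (F : Filter ℕ)) (f := fun k y => u k y - u k (β y))
      (f' := fun k => InnerProductSpace.toDual ℝ ℂ ∘ gradient (u k))
      (g' := InnerProductSpace.toDual ℝ ℂ ∘ G)
      ((InnerProductSpace.toDual ℝ ℂ).isometry.uniformContinuous.comp_tendstoUniformlyOnFilter t1) ?_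
      (eventually_of_mem (hW.mem_nhds hz) pt)
    filter_upwards [h1.prod_mk (ball_mem_nhds z hs)] with n hn
    have e : (fun y => u n.1 y - u n.1 (β y)) =ᶠ[𝓝 n.2] fun y => u n.1 y - u n.1 (β z) := by
      filter_upwards [isOpen_ball.mem_nhds hn.2] with y hy
      rw [hβ2 z s hs hb y hy]
    exact (((hn.1.1 n.2 hn.2).hasGradientAt.hasFDerivAt).sub_const _).congr_of_eventuallyEq e
  refine ⟨u', ?_, g1.congr_right fun z hz => (hasGradientAt_iff_hasFDerivAt.2 (der z hz)).gradient.symm,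
    fun k y => u k (β y), fun k z hz => ?_, v1⟩
  · rw [show (1 : WithTop ℕ∞) = 0 + 1 from (zero_add _).symm, contDiffOn_succ_iff_fderiv_of_isOpen hW]
    refine ⟨fun z hz => (der z hz).differentiableAt.differentiableWithinAt, by simp, contDiffOn_zero.2 ?_⟩
    exact ((InnerProductSpace.toDual ℝ ℂ).continuous.comp_continuousOn g2).congr fun z hz => (der z hz).fderiv
  · obtain ⟨s, M, hs, hb, -⟩ := lip z hz
    filter_upwards [ball_mem_nhds z hs] with y hy
    rw [hβ2 z s hs hb y hy]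


/-- Soft compactness along an ultrafilter. `K' = {z | ∀ η>0, ∀ᶠ k, ∃ y ∈ K k, dist y z < η}` (closed; `Khi` by compactness of closed balls:
`IsCompact.ultrafilter_le_nhds`). Near `z ∉ K'` a ball misses `K k` and lies in `U k` eventually; `MS.grad_le` bounds and `MS.grad_equi` (error `a k t`) make
`gradient (u k)` converge locally uniformly to `G z = lim (F.map fun k => gradient (u k) z)`, `G` continuous. `Λ k z = u k (β z)`, `β z` a chosen point of
`connectedComponentIn K'ᶜ z` (open). The set of points of the component where `u k · - u k β` is eventually bounded is clopen, so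
`u' z = lim (u k z - Λ k z)` exists; local equi-Lipschitz bounds give locally uniform convergence;
`hasFDerivAt_of_tendstoUniformlyOnFilter` (or `hasFDerivAt_of_tendstoLocallyUniformlyOn` on a small ball) gives `gradient u' = G`. -/
theorem exists_cv {U : ℕ → Set ℂ} {a b : ℕ → ℝ} {K : ℕ → Set ℂ} {u : ℕ → ℂ → ℝ} (h : Sq U a b K u) (F : Ultrafilter ℕ)
    (hF : (F : Filter ℕ) ≤ atTop) : ∃ (K' : Set ℂ) (u' : ℂ → ℝ), Cv F K u K' u' := by
  set K' : Set ℂ := {z | ∀ η : ℝ, 0 < η → ∀ᶠ k in (F : Filter ℕ), ∃ y ∈ K k, dist y z < η} with hK'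
  have far : ∀ z ∉ K', ∃ η : ℝ, 0 < η ∧ ball z η ⊆ K'ᶜ ∧ ∀ᶠ k in (F : Filter ℕ), Disjoint (ball z η) (K k) := by
    intro z hz
    obtain ⟨η, hη⟩ := not_forall.1 hz
    obtain ⟨hη, h1⟩ := Classical.not_imp.1 hη
    refine ⟨η, hη, fun w hw hw' => h1 ?_, (Ultrafilter.eventually_not.2 h1).mono fun k hk =>
      disjoint_left.2 fun y hy hy' => hk ⟨y, hy', hy⟩⟩
    refine (hw' (η - dist w z) (sub_pos.2 hw)).mono fun k ⟨y, hy, h2⟩ => ⟨y, hy, ?_⟩
    linarith [dist_triangle y w z]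
  have hW : IsOpen K'ᶜ := Metric.isOpen_iff.2 fun z hz => (far z hz).imp fun η h1 => ⟨h1.1, h1.2.1⟩
  obtain ⟨C1, hC1, H1⟩ := MS.grad_le
  obtain ⟨C2, hC2, H2⟩ := MS.grad_equi
  obtain ⟨u', h1, h2, h3⟩ := ccv_abs (F := F) (u := u) hW fun z hz => by
    obtain ⟨η, hη, hb, hd⟩ := far z hz
    have ev : ∀ᶠ k in (F : Filter ℕ), Disjoint (ball z η) (K k) ∧ closedBall z η ⊆ U k ∧ a k ≤ 1 ∧
        a k * b k ≤ 1 := by
      filter_upwards [hd, hF (h.big (‖z‖ + η + 1)), hF (h.a0.eventually (ge_mem_nhds one_pos)),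
        hF (h.ab0.eventually (ge_mem_nhds one_pos))] with k e1 e2 e3 e4
      refine ⟨e1, fun y hy => e2 (mem_ball_zero_iff.2 ?_), e3, e4⟩
      linarith [norm_le_norm_add_norm_sub' y z, mem_closedBall_iff_norm.1 hy]
    refine ⟨η / 2, C1 * (√(η / 2 + (η / 2) ^ 2) / (η / 2) + η / 2), C2 * √(η + η ^ 2) / (η / 4) ^ 2,
      half_pos hη, (ball_subset_ball (half_le_self hη.le)).trans hb, ev.mono fun k hk y hy => ?_,
      fun ε hε => ?_⟩
    · have ms := (h.abs k).ms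
      have s1 : ball y (η / 2) ⊆ ball z η := ball_subset_ball' (by linarith [mem_ball.1 hy])
      have s2 : closedBall y (η / 2) ⊆ closedBall z η :=
        closedBall_subset_closedBall' (by linarith [mem_ball.1 hy])
      have hy' : y ∈ U k \ K k := ⟨hk.2.1 (s2 (mem_closedBall_self (half_pos hη).le)),
        disjoint_left.1 hk.1 (s1 (mem_ball_self (half_pos hη)))⟩
      refine ⟨(ms.c1.contDiffAt ((ms.isOpen.sdiff ms.closed).mem_nhds hy')).differentiableAt one_ne_zero,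
        (H1 _ _ _ _ _ ms y _ (half_pos hη) (s2.trans hk.2.1) (hk.1.mono_left s1)).trans ?_⟩
      have e1 := mul_le_of_le_one_left (sq_nonneg (η / 2)) hk.2.2.2
      have e2 := mul_le_of_le_one_left (half_pos hη).le hk.2.2.1
      gcongr
    · have : Tendsto (fun k => C2 * (a k * (η / 4))) atTop (𝓝 (C2 * (0 * (η / 4)))) :=
        (h.a0.mul_const _).const_mul _
      rw [zero_mul, mul_zero] at this
      filter_upwards [ev, hF (this.eventually (ge_mem_nhds hε))] with k hk e p hp q hq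
      rw [dist_eq_norm, dist_eq_norm]
      refine (H2 _ _ _ _ _ (h.abs k).ms z η (η / 4) (by positivity) le_rfl hk.2.1 hk.1 p hp q hq).trans ?_
      have e1 := mul_le_of_le_one_left (sq_nonneg η) hk.2.2.2
      rw [mul_add]
      refine add_le_add ?_ e
      calc _ ≤ C2 * (√(η + η ^ 2) * ‖p - q‖ / (η / 4) ^ 2) := by gcongr
        _ = _ := by ring
  refine ⟨K', u', isOpen_compl_iff.1 hW, h1, fun z hz => hz, fun R η hη => ?_, h2, h3⟩
  by_contra hc
  have e := (Ultrafilter.eventually_not.2 hc).mono fun k hk => show ∃ y, y ∈ K k ∩ ball (0 : ℂ) R ∧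
      ∀ z ∈ K', η ≤ dist y z by
    by_contra h4
    exact hk fun y hy => by
      by_contra h5
      exact h4 ⟨y, hy, fun z hz => not_lt.1 fun h6 => h5 ⟨z, hz, h6⟩⟩
  obtain ⟨y, hy⟩ := e.choice
  have hl := ccv_lim (F := F) (f := y) (B := R) (hy.mono fun k hk => (mem_ball_zero_iff.1 hk.1.2).le)
  generalize limUnder (F : Filter ℕ) y = z at hl
  have hz : z ∈ K' := fun η' hη' => by
    filter_upwards [hy, Metric.tendsto_nhds.1 hl η' hη'] with k e1 e2 using ⟨y k, e1.1.1, e2⟩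
  obtain ⟨k, e1, e2⟩ := (hy.and (Metric.tendsto_nhds.1 hl η hη)).exists
  exact (e1.2 z hz).not_gt e2

end Crest.Agent.R135
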