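import Crest.Agent.R135.Defs
set_option autoImplicit false
open MeasureTheory Metric Set Filter Topology
open scoped ENNReal NNReal Real ComplexConjugate

namespace Crest.Agent.R135

/-- the index of the square of side `1/k` containing `z` -/
noncomputable def eilA_cell (k : ℕ) (z : ℂ) : ℤ × ℤ := (⌊(k : ℝ) * z.re⌋, ⌊(k : ℝ) * z.im⌋)

theorem eilA_meas (k : ℕ) : Measurable (eilA_cell k) :=
  (Int.measurable_floor.comp (Complex.measurable_re.const_mul _)).prodMk
    (Int.measurable_floor.comp (Complex.measurable_im.const_mul _))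

theorem eilA_floor {a b : ℝ} (h : a ≠ b) : ∀ᶠ k : ℕ in atTop, ⌊(k : ℝ) * a⌋ ≠ ⌊(k : ℝ) * b⌋ := by
  have hp : 0 < |a - b| := abs_pos.2 (sub_ne_zero.2 h)
  filter_upwards [(tendsto_natCast_atTop_atTop (R := ℝ)).eventually_ge_atTop (|a - b|)⁻¹] with k hk e
  have h1 := Int.abs_sub_lt_one_of_floor_eq_floor e
  rw [← mul_sub, abs_mul, abs_of_nonneg (Nat.cast_nonneg k)] at h1
  have h2 := mul_le_mul_of_nonneg_right hk hp.le
  rw [inv_mul_cancel₀ hp.ne'] at h2
  linarith

theorem eilA_sep {z w : ℂ} (h : z ≠ w) : ∀ᶠ k : ℕ in atTop, eilA_cell k z ≠ eilA_cell k w := by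
  by_cases h1 : z.re = w.re
  · have h2 : z.im ≠ w.im := fun h2 => h (Complex.ext h1 h2)
    filter_upwards [eilA_floor h2] with k hk e using hk (congrArg Prod.snd e)
  · filter_upwards [eilA_floor h1] with k hk e using hk (congrArg Prod.fst e)

theorem eilA_inj (F : Finset ℂ) : ∀ᶠ k : ℕ in atTop, Set.InjOn (eilA_cell k) F := by
  have : ∀ᶠ k : ℕ in atTop, ∀ z ∈ F, ∀ w ∈ F, eilA_cell k z = eilA_cell k w → z = w := by
    rw [Filter.eventually_all_finset]
    intro z _
    rw [Filter.eventually_all_finset]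
    intro w _
    by_cases h : z = w
    · exact Eventually.of_forall fun _ _ => h
    · filter_upwards [eilA_sep h] with k hk e using absurd e hk
  filter_upwards [this] with k hk z hz w hw e using hk z hz w hw e

theorem eilA_encard {T : Set ℂ} {c : ℝ≥0∞} (h : ∀ F : Finset ℂ, (F : Set ℂ) ⊆ T → (F.card : ℝ≥0∞) ≤ c) :
    (T.encard : ℝ≥0∞) ≤ c := by
  rcases T.finite_or_infinite with hT | hT
  · have := h hT.toFinset (by simp)
    rw [hT.encard_eq_coe_toFinset_card]
    simpa using this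
  · have : c = ⊤ := by
      refine ENNReal.eq_top_of_forall_nnreal_le fun r => ?_
      obtain ⟨n, hn⟩ := exists_nat_ge r
      obtain ⟨F, hF, rfl⟩ := hT.exists_subset_card_eq n
      refine le_trans ?_ (h F hF)
      exact_mod_cast hn
    rw [this]
    exact le_top

/-- Eilenberg inequality. Recipe: for level `k` partition `ℂ` into the half-open dyadic squares `Q` (countable, measurable,
diameter `→ 0`). `vol (f '' (S ∩ Q)) ≤ H1 (S ∩ Q)` (`LipschitzWith.hausdorffMeasure_image_le`, `hausdorffMeasure_real`).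
`N_k t = ∑' Q, indicator (toMeasurable vol (f '' (S ∩ Q))) 1 t` is measurable with `∫⁻ N_k ≤ ∑' H1 (S ∩ Q) = H1 S`;
`N = liminf N_k` (Fatou `lintegral_liminf_le`); any `m` distinct points of the fibre lie in distinct squares for large `k`. -/
theorem eil (f : ℂ → ℝ) (hf : LipschitzWith 1 f) (S : Set ℂ) (hS : MeasurableSet S) :
    ∃ N : ℝ → ℝ≥0∞, Measurable N ∧ (∀ t, ((S ∩ f ⁻¹' {t}).encard : ℝ≥0∞) ≤ N t) ∧ ∫⁻ t, N t ≤ H1 S := by
  classical
  set A : ℕ → ℤ × ℤ → Set ℝ := fun k i => toMeasurable volume (f '' (S ∩ eilA_cell k ⁻¹' {i})) with hA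
  set M : ℕ → ℝ → ℝ≥0∞ := fun k t => ∑' i, (A k i).indicator 1 t with hM
  have mA : ∀ k i, Measurable ((A k i).indicator (1 : ℝ → ℝ≥0∞)) := fun k i =>
    measurable_one.indicator (measurableSet_toMeasurable _ _)
  have mM : ∀ k, Measurable (M k) := fun k => Measurable.ennreal_tsum (mA k)
  have iM : ∀ k, ∫⁻ t, M k t ≤ H1 S := fun k => by
    have mQ : ∀ i, MeasurableSet (S ∩ eilA_cell k ⁻¹' {i}) := fun i =>
      hS.inter (eilA_meas k (measurableSet_singleton i))
    have hU : S = ⋃ i, S ∩ eilA_cell k ⁻¹' {i} := by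
      ext z
      simp
    have hd : Pairwise (Function.onFun Disjoint fun i => S ∩ eilA_cell k ⁻¹' {i}) := fun i j hij =>
      Set.disjoint_left.2 fun z h1 h2 => hij (h1.2.symm.trans h2.2)
    simp only [hM]
    rw [lintegral_tsum fun i => (mA k i).aemeasurable]
    conv_rhs => rw [hU, measure_iUnion hd mQ]
    refine ENNReal.tsum_le_tsum fun i => ?_
    rw [lintegral_indicator_one (measurableSet_toMeasurable _ _), measure_toMeasurable,
      ← MeasureTheory.hausdorffMeasure_real]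
    simpa using hf.hausdorffMeasure_image_le zero_le_one (S ∩ eilA_cell k ⁻¹' {i})
  refine ⟨fun t => liminf (fun k => M k t) atTop, Measurable.liminf mM, fun t => ?_, ?_⟩
  · refine eilA_encard fun F hF => le_liminf_of_le (by isBoundedDefault) ?_
    filter_upwards [eilA_inj F] with k hk
    rw [← Finset.card_image_of_injOn hk]
    refine le_trans ?_ (ENNReal.sum_le_tsum (F.image (eilA_cell k)))
    rw [Finset.card_eq_sum_ones, Nat.cast_sum]
    refine Finset.sum_le_sum fun i hi => ?_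
    obtain ⟨z, hz, rfl⟩ := Finset.mem_image.1 hi
    have hm : t ∈ A k (eilA_cell k z) :=
      subset_toMeasurable _ _ ⟨z, ⟨(hF hz).1, rfl⟩, (hF hz).2⟩
    simp [Set.indicator_of_mem hm]
  · exact (lintegral_liminf_le mM).trans (liminf_le_of_frequently_le' (Frequently.of_forall iM))

/-- `eil` for `f = dist · x`. -/
theorem eil_sphere (x : ℂ) (S : Set ℂ) (hS : MeasurableSet S) :
    ∃ N : ℝ → ℝ≥0∞, Measurable N ∧ (∀ t, ((S ∩ sphere x t).encard : ℝ≥0∞) ≤ N t) ∧ ∫⁻ t, N t ≤ H1 S :=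
  eil (fun z => dist z x) (LipschitzWith.dist_left x) S hS

theorem ae_finite_sphere (x : ℂ) (S : Set ℂ) (hS : MeasurableSet S) (h : H1 S < ⊤) :
    ∀ᵐ ρ : ℝ, (S ∩ sphere x ρ).Finite := by
  obtain ⟨N, hN, h1, h2⟩ := eil_sphere x S hS
  filter_upwards [ae_lt_top hN (h2.trans_lt h).ne] with ρ hρ
  have := (h1 ρ).trans_lt hρ
  rw [← encard_lt_top_iff, lt_top_iff_ne_top]
  intro e
  rw [e] at this
  simp at this

/-- Chebyshev form (outer measure on the left: use the measurable superset `{m ≤ N}`). -/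
theorem eil_count (x : ℂ) (S : Set ℂ) (hS : MeasurableSet S) (m : ℕ) :
    (m : ℝ≥0∞) * volume {ρ : ℝ | (m : ℕ∞) ≤ (S ∩ sphere x ρ).encard} ≤ H1 S := by
  obtain ⟨N, hN, h1, h2⟩ := eil_sphere x S hS
  refine le_trans ?_ ((mul_meas_ge_le_lintegral hN m).trans h2)
  refine mul_le_mul_right (measure_mono fun ρ hρ => le_trans ?_ (h1 ρ)) _
  exact_mod_cast ENat.toENNReal_mono hρ

/-- If every sphere of radius in `(0,t)` meets `S` at least `n` times, the radii with `n+1` points have small measure. -/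
theorem eil_excess (x : ℂ) (S : Set ℂ) (hS : MeasurableSet S) (n : ℕ) (t : ℝ)
    (h : ∀ ρ ∈ Ioo 0 t, (n : ℕ∞) ≤ (S ∩ sphere x ρ).encard) :
    (n : ℝ≥0∞) * ENNReal.ofReal t +
      volume {ρ : ℝ | ρ ∈ Ioo 0 t ∧ ((n + 1 : ℕ) : ℕ∞) ≤ (S ∩ sphere x ρ).encard} ≤ H1 (S ∩ ball x t) := by
  obtain ⟨N, hN, h1, h2⟩ := eil_sphere x (S ∩ ball x t) (hS.inter measurableSet_ball)
  have e : ∀ ρ ∈ Ioo 0 t, S ∩ ball x t ∩ sphere x ρ = S ∩ sphere x ρ := fun ρ hρ => by
    rw [inter_assoc, inter_eq_right.2 (sphere_subset_ball hρ.2)]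
  set B : Set ℝ := Ioo 0 t ∩ {ρ | ((n + 1 : ℕ) : ℝ≥0∞) ≤ N ρ} with hB
  have mB : MeasurableSet B := measurableSet_Ioo.inter (measurableSet_le measurable_const hN)
  have a1 : volume {ρ : ℝ | ρ ∈ Ioo 0 t ∧ ((n + 1 : ℕ) : ℕ∞) ≤ (S ∩ sphere x ρ).encard} ≤ volume B := by
    refine measure_mono fun ρ hρ => ⟨hρ.1, le_trans ?_ (h1 ρ)⟩
    rw [e ρ hρ.1]
    exact_mod_cast ENat.toENNReal_mono hρ.2
  have a2 : ∀ ρ, (Ioo 0 t).indicator (fun _ => (n : ℝ≥0∞)) ρ + B.indicator 1 ρ ≤ N ρ := by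
    intro ρ
    by_cases hb : ρ ∈ B
    · rw [indicator_of_mem hb.1, indicator_of_mem hb]
      have : ((n + 1 : ℕ) : ℝ≥0∞) ≤ N ρ := hb.2
      simpa using this
    · rw [indicator_of_notMem hb, add_zero]
      by_cases hρ : ρ ∈ Ioo 0 t
      · rw [indicator_of_mem hρ]
        refine le_trans ?_ (h1 ρ)
        rw [e ρ hρ]
        exact_mod_cast ENat.toENNReal_mono (h ρ hρ)
      · rw [indicator_of_notMem hρ]; exact zero_le
  have a3 := lintegral_mono (μ := volume) a2
  rw [lintegral_add_left (measurable_const.indicator measurableSet_Ioo), lintegral_indicator_const measurableSet_Ioo,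
    lintegral_indicator_one mB, Real.volume_Ioo, sub_zero] at a3
  exact (add_le_add le_rfl a1).trans (a3.trans h2)

/-- lower-integral form on an annulus -/
theorem eil_lintegral (x : ℂ) (S : Set ℂ) (hS : MeasurableSet S) (s t : ℝ) (f : ℝ → ℝ≥0∞)
    (h : ∀ᵐ ρ : ℝ, ρ ∈ Ico s t → f ρ ≤ ((S ∩ sphere x ρ).encard : ℝ≥0∞)) :
    ∫⁻ ρ in Ico s t, f ρ ≤ H1 (S ∩ (ball x t \ ball x s)) := by
  obtain ⟨N, hN, h1, h2⟩ := eil_sphere x (S ∩ (ball x t \ ball x s))
    (hS.inter (measurableSet_ball.diff measurableSet_ball))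
  refine le_trans ?_ ((setLIntegral_le_lintegral (Ico s t) N).trans h2)
  refine lintegral_mono_ae ((ae_restrict_iff' measurableSet_Ico).2 ?_)
  filter_upwards [h] with ρ hρ hm
  refine (hρ hm).trans (le_trans (le_of_eq ?_) (h1 ρ))
  rw [inter_assoc, inter_eq_right (s := ball x t \ ball x s).2]
  intro z hz
  rw [mem_sphere] at hz
  exact ⟨by rw [mem_ball, hz]; exact hm.2, by rw [mem_ball, hz]; exact not_lt.2 hm.1⟩

end Crest.Agent.R135
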