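import Crest.Agent.R135.Defs
set_option autoImplicit false
open MeasureTheory Metric Set Filter Topology
open scoped ENNReal NNReal Real ComplexConjugate

namespace Crest.Agent.R135

/-! One-dimensional lemmas with finitely many exceptional points
(`intervalIntegral.integral_eq_sub_of_hasDerivAt_of_le`-type FTC off a countable set: `integral_eq_of_hasDerivAt_off_countable_of_le`). -/

theorem osc_le {g p : ℝ → ℝ} {s t : ℝ} (hst : s ≤ t) (hd : ∀ φ ∈ Icc s t, HasDerivAt g (p φ) φ)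
    (hp : IntervalIntegrable p volume s t) : |g t - g s| ≤ ∫ φ in s..t, |p φ| := by
  rw [← intervalIntegral.integral_eq_sub_of_hasDerivAt (fun φ h => hd φ (uIcc_of_le hst ▸ h)) hp]
  exact intervalIntegral.abs_integral_le_integral_abs hst

/-- bounded off a finite set (induct on the finite set / sort it, use `osc_le` inside each gap) -/
theorem bdd_off_finite {g p : ℝ → ℝ} {s t : ℝ} (hst : s ≤ t) {P : Set ℝ} (hP : P.Finite)
    (hd : ∀ φ ∈ Ioo s t \ P, HasDerivAt g (p φ) φ) (hp : IntervalIntegrable p volume s t) :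
    ∃ M : ℝ, ∀ φ ∈ Ioo s t \ P, |g φ| ≤ M := by
  induction P, hP using Set.Finite.induction_on generalizing s t with
  | empty =>
    have key : ∀ x ∈ Ioo s t, ∀ y ∈ Ioo s t, x ≤ y → |g y - g x| ≤ ∫ φ in s..t, |p φ| :=
      fun x hx y hy hxy => (osc_le hxy
        (fun φ h => hd φ ⟨⟨hx.1.trans_le h.1, h.2.trans_lt hy.2⟩, notMem_empty _⟩)
        (hp.mono_set (by
          rw [uIcc_of_le hst, uIcc_of_le hxy]; exact Icc_subset_Icc hx.1.le hy.2.le))).trans
        (intervalIntegral.integral_mono_interval hx.1.le hxy hy.2.le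
          (Eventually.of_forall fun _ => abs_nonneg _) hp.abs)
    refine ⟨|g ((s + t) / 2)| + ∫ φ in s..t, |p φ|, fun φ hφ => ?_⟩
    have hm : (s + t) / 2 ∈ Ioo s t := ⟨by linarith [hφ.1.1, hφ.1.2], by linarith [hφ.1.1, hφ.1.2]⟩
    have h1 := abs_sub_abs_le_abs_sub (g φ) (g ((s + t) / 2))
    rcases le_total φ ((s + t) / 2) with h | h
    · linarith [key _ hφ.1 _ hm h, abs_sub_comm (g φ) (g ((s + t) / 2))]
    · linarith [key _ hm _ hφ.1 h]
  | @insert a Q _ _ ih =>
    by_cases ha : a ∈ Ioo s t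
    · obtain ⟨M₁, h₁⟩ := ih ha.1.le
        (fun φ h => hd φ ⟨⟨h.1.1, h.1.2.trans ha.2⟩, fun h' => h'.elim h.1.2.ne h.2⟩)
        (hp.mono_set (by rw [uIcc_of_le hst, uIcc_of_le ha.1.le]; exact Icc_subset_Icc_right ha.2.le))
      obtain ⟨M₂, h₂⟩ := ih ha.2.le
        (fun φ h => hd φ ⟨⟨ha.1.trans h.1.1, h.1.2⟩, fun h' => h'.elim h.1.1.ne' h.2⟩)
        (hp.mono_set (by rw [uIcc_of_le hst, uIcc_of_le ha.2.le]; exact Icc_subset_Icc_left ha.1.le))
      refine ⟨max M₁ M₂, fun φ h => ?_⟩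
      have hQ : φ ∉ Q := fun h' => h.2 (Or.inr h')
      rcases lt_trichotomy φ a with h' | h' | h'
      · exact (h₁ φ ⟨⟨h.1.1, h'⟩, hQ⟩).trans (le_max_left _ _)
      · exact absurd (Or.inl h') h.2
      · exact (h₂ φ ⟨⟨h', h.1.2⟩, hQ⟩).trans (le_max_right _ _)
    · obtain ⟨M, h⟩ := ih hst (fun φ h => hd φ ⟨h.1, fun h' => h'.elim (fun e => ha (e ▸ h.1)) h.2⟩) hp
      exact ⟨M, fun φ h' => h φ ⟨h'.1, fun h'' => h'.2 (Or.inr h'')⟩⟩

/-- integration by parts: `g V` (set to `0` on `P ∪ {s,t}`) is continuous since `g` is bounded and `V` vanishes there -/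
theorem ibp_finite {g p V q : ℝ → ℝ} {s t : ℝ} (hst : s ≤ t) {P : Set ℝ} (hP : P.Finite)
    (hd : ∀ φ ∈ Ioo s t \ P, HasDerivAt g (p φ) φ) (hp : IntervalIntegrable p volume s t)
    (hV : ContinuousOn V (Icc s t)) (hV0 : ∀ φ ∈ P ∩ Icc s t, V φ = 0) (hs : V s = 0) (ht : V t = 0)
    (hVd : ∀ φ ∈ Ioo s t \ P, HasDerivAt V (q φ) φ) (hq : IntervalIntegrable q volume s t) :
    IntervalIntegrable (fun φ => g φ * q φ) volume s t ∧
      ∫ φ in s..t, g φ * q φ = - ∫ φ in s..t, p φ * V φ := by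
  obtain ⟨M, hM⟩ := bdd_off_finite hst hP hd hp
  have hO : IsOpen (Ioo s t \ P) := isOpen_Ioo.sdiff hP.isClosed
  have i1 : IntervalIntegrable (fun φ => g φ * q φ) volume s t := by
    rw [intervalIntegrable_iff_integrableOn_Ioo_of_le hst] at hq ⊢
    have e : (Ioo s t \ P : Set ℝ) =ᵐ[volume] Ioo s t := sdiff_null_ae_eq_self (hP.measure_zero _)
    refine (integrableOn_congr_set_ae e).1 (Integrable.bdd_mul (c := M) (hq.mono_set sdiff_subset)
      (ContinuousOn.aestronglyMeasurable (fun φ h => (hd φ h).continuousAt.continuousWithinAt)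
        hO.measurableSet) ?_)
    exact (ae_restrict_mem hO.measurableSet).mono hM
  have i2 : IntervalIntegrable (fun φ => p φ * V φ) volume s t :=
    hp.mul_continuousOn (by rwa [uIcc_of_le hst])
  refine ⟨i1, ?_⟩
  set W : ℝ → ℝ := (Ioo s t \ P).indicator fun φ => g φ * V φ with hW
  have hD : ∀ φ ∈ Ioo s t \ P, HasDerivAt W (p φ * V φ + g φ * q φ) φ := fun φ h =>
    ((hd φ h).mul (hVd φ h)).congr_of_eventuallyEq
      (by filter_upwards [hO.mem_nhds h] with y hy using indicator_of_mem hy _)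
  have hC : ContinuousOn W (Icc s t) := fun φ h => by
    by_cases h' : φ ∈ Ioo s t \ P
    · exact (hD φ h').continuousAt.continuousWithinAt
    have h0 : V φ = 0 := by
      by_cases hP' : φ ∈ P
      · exact hV0 φ ⟨hP', h⟩
      rcases eq_endpoints_or_mem_Ioo_of_mem_Icc h with rfl | rfl | h''
      exacts [hs, ht, absurd ⟨h'', hP'⟩ h']
    have h1 : Tendsto (fun y => |M| * |V y|) (𝓝[Icc s t] φ) (𝓝 0) := by
      simpa [h0] using (hV φ h).tendsto.abs.const_mul |M|
    rw [ContinuousWithinAt, hW, indicator_of_notMem h']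
    refine squeeze_zero_norm (fun y => ?_) h1
    by_cases hy : y ∈ Ioo s t \ P
    · rw [indicator_of_mem hy, Real.norm_eq_abs, abs_mul]
      exact mul_le_mul_of_nonneg_right ((hM y hy).trans (le_abs_self M)) (abs_nonneg _)
    · rw [indicator_of_notMem hy, norm_zero]
      positivity
  have key := integral_eq_of_hasDerivAt_off_countable_of_le W _ hst hP.countable hC hD (i2.add i1)
  rw [intervalIntegral.integral_add i2 i1, hW, indicator_of_notMem fun h => lt_irrefl _ h.1.2,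
    indicator_of_notMem fun h => lt_irrefl _ h.1.1] at key
  linarith

theorem tone_cs {p : ℝ → ℝ} {a b : ℝ} (hab : a ≤ b) (h1 : IntervalIntegrable p volume a b)
    (h2 : IntervalIntegrable (fun φ => p φ ^ 2) volume a b) :
    (∫ φ in a..b, p φ) ^ 2 ≤ (b - a) * ∫ φ in a..b, p φ ^ 2 := by
  rcases hab.eq_or_lt with rfl | hlt
  · simp
  have hl : 0 < b - a := sub_pos.2 hlt
  set c := (∫ φ in a..b, p φ) / (b - a) with hc
  have h3 : 0 ≤ ∫ φ in a..b, (p φ ^ 2 - 2 * c * p φ + c ^ 2) :=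
    intervalIntegral.integral_nonneg hab fun φ _ => by nlinarith [sq_nonneg (p φ - c)]
  rw [intervalIntegral.integral_add (h2.sub (h1.const_mul _)) intervalIntegrable_const,
    intervalIntegral.integral_sub h2 (h1.const_mul _), intervalIntegral.integral_const_mul,
    intervalIntegral.integral_const, smul_eq_mul] at h3
  have h4 : ∫ φ in a..b, p φ = c * (b - a) := by rw [hc]; field_simp
  rw [h4] at h3 ⊢
  nlinarith [mul_nonneg hl.le h3]

theorem tone_half {G q w : ℝ → ℝ} {a b A : ℝ} (hab : a ≤ b) (hG : ContinuousOn G (Ioo a b)) (hw : Continuous w)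
    (hb : ∀ φ ∈ Ioo a b, G φ ^ 2 ≤ w φ * A) (hqm : Measurable q)
    (hq : IntervalIntegrable (fun φ => q φ ^ 2) volume a b) :
    IntervalIntegrable (fun φ => G φ * q φ) volume a b ∧
      |∫ φ in a..b, G φ * q φ| ≤ 3 / 8 * (∫ φ in a..b, w φ) * A + 2 / 3 * ∫ φ in a..b, q φ ^ 2 := by
  have hwi : IntervalIntegrable (fun φ => 3 / 8 * (w φ * A)) volume a b :=
    Continuous.intervalIntegrable (by fun_prop) _ _
  have hD := hwi.add (hq.const_mul (2 / 3))
  have hle : ∀ φ ∈ Ioo a b, ‖G φ * q φ‖ ≤ 3 / 8 * (w φ * A) + 2 / 3 * q φ ^ 2 := fun φ hφ => by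
    rw [Real.norm_eq_abs, abs_le]
    constructor <;> nlinarith [hb φ hφ, sq_nonneg (3 * G φ - 4 * q φ), sq_nonneg (3 * G φ + 4 * q φ)]
  refine ⟨(intervalIntegrable_iff_integrableOn_Ioo_of_le hab).2
    (((intervalIntegrable_iff_integrableOn_Ioo_of_le hab).1 hD).mono'
      ((hG.aestronglyMeasurable measurableSet_Ioo).mul hqm.aestronglyMeasurable)
      ((ae_restrict_mem measurableSet_Ioo).mono hle)), ?_⟩
  have h1 := intervalIntegral.norm_integral_le_of_norm_le (f := fun φ => G φ * q φ) hab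
    ((Measure.ae_ne volume b).mono fun φ hφ h => hle φ ⟨h.1, h.2.lt_of_ne hφ⟩) hD
  rw [intervalIntegral.integral_add hwi (hq.const_mul _), intervalIntegral.integral_const_mul,
    intervalIntegral.integral_const_mul, intervalIntegral.integral_mul_const, ← mul_assoc] at h1
  exact h1

/-- crude Poincaré on an arc of length `≤ 15/4`: `|g φ - g m|² ≤ |φ - m| ∫ p²` on each half, so `‖g - g m‖₂ ≤ L/√8 ‖p‖₂`. -/
theorem arc_poincare {g p q : ℝ → ℝ} {s t : ℝ} (hst : s < t) (hL : t - s ≤ 15 / 4)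
    (hd : ∀ φ ∈ Ioo s t, HasDerivAt g (p φ) φ) (hpm : Measurable p) (hqm : Measurable q)
    (hp : IntervalIntegrable (fun φ => p φ ^ 2) volume s t) (hq : IntervalIntegrable (fun φ => q φ ^ 2) volume s t) :
    IntervalIntegrable (fun φ => (g φ - g ((s + t) / 2)) * q φ) volume s t ∧
      |∫ φ in s..t, (g φ - g ((s + t) / 2)) * q φ| ≤ 2 / 3 * ∫ φ in s..t, (p φ ^ 2 + q φ ^ 2) := by
  set m := (s + t) / 2 with hm
  have hsm : s < m := by rw [hm]; linarith
  have hmt : m < t := by rw [hm]; linarith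
  have hp1 : IntervalIntegrable p volume s t :=
    (hp.add (intervalIntegrable_const (c := (1 : ℝ)))).mono_fun' hpm.aestronglyMeasurable
      (Eventually.of_forall fun φ => by
        show ‖p φ‖ ≤ p φ ^ 2 + 1
        rw [Real.norm_eq_abs, ← sq_abs]
        nlinarith [abs_nonneg (p φ)])
  have sub : ∀ {a b : ℝ}, a ∈ Icc s t → b ∈ Icc s t → uIcc a b ⊆ uIcc s t := fun ha hb =>
    uIcc_subset_uIcc (by rwa [uIcc_of_le hst.le]) (by rwa [uIcc_of_le hst.le])
  have ms : s ∈ Icc s t := left_mem_Icc.2 hst.le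
  have mt : t ∈ Icc s t := right_mem_Icc.2 hst.le
  have mm : m ∈ Icc s t := ⟨hsm.le, hmt.le⟩
  have key : ∀ a b : ℝ, s < a → a ≤ b → b < t → (g b - g a) ^ 2 ≤ (b - a) * ∫ φ in a..b, p φ ^ 2 := by
    intro a b ha hab hb
    have hs := sub ⟨ha.le, (hab.trans hb.le)⟩ ⟨ha.le.trans hab, hb.le⟩
    rw [← intervalIntegral.integral_eq_sub_of_hasDerivAt (fun x hx => hd x (by
      rw [uIcc_of_le hab] at hx
      exact ⟨ha.trans_le hx.1, hx.2.trans_lt hb⟩)) (hp1.mono_set hs)]
    exact tone_cs hab (hp1.mono_set hs) (hp.mono_set hs)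
  have hc : ContinuousOn (fun φ => g φ - g m) (Ioo s t) := fun φ hφ =>
    ((hd φ hφ).continuousAt.sub continuousAt_const).continuousWithinAt
  have p2 : 0 ≤ᵐ[volume] fun φ => p φ ^ 2 := Eventually.of_forall fun φ => sq_nonneg _
  obtain ⟨i1, b1⟩ := tone_half (w := fun φ => m - φ) (A := ∫ φ in s..m, p φ ^ 2) hsm.le
    (hc.mono (Ioo_subset_Ioo_right hmt.le)) (by fun_prop) (fun φ hφ => by
      rw [← neg_sub, neg_sq]
      exact (key φ m hφ.1 hφ.2.le hmt).trans (mul_le_mul_of_nonneg_left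
        (intervalIntegral.integral_mono_interval hφ.1.le hφ.2.le le_rfl (ae_restrict_of_ae p2)
          (hp.mono_set (sub ms mm))) (sub_nonneg.2 hφ.2.le))) hqm (hq.mono_set (sub ms mm))
  obtain ⟨i2, b2⟩ := tone_half (w := fun φ => φ - m) (A := ∫ φ in m..t, p φ ^ 2) hmt.le
    (hc.mono (Ioo_subset_Ioo_left hsm.le)) (by fun_prop) (fun φ hφ =>
      (key m φ hsm hφ.1.le hφ.2).trans (mul_le_mul_of_nonneg_left
        (intervalIntegral.integral_mono_interval le_rfl hφ.1.le hφ.2.le (ae_restrict_of_ae p2)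
          (hp.mono_set (sub mm mt))) (sub_nonneg.2 hφ.1.le))) hqm (hq.mono_set (sub mm mt))
  have w1 : ∫ φ in s..m, (m - φ) = (t - s) ^ 2 / 8 := by
    rw [intervalIntegral.integral_sub intervalIntegrable_const intervalIntegral.intervalIntegrable_id,
      integral_id, intervalIntegral.integral_const, smul_eq_mul, hm]
    ring
  have w2 : ∫ φ in m..t, (φ - m) = (t - s) ^ 2 / 8 := by
    rw [intervalIntegral.integral_sub intervalIntegral.intervalIntegrable_id intervalIntegrable_const,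
      integral_id, intervalIntegral.integral_const, smul_eq_mul, hm]
    ring
  have hw : 3 / 8 * ((t - s) ^ 2 / 8) ≤ 2 / 3 := by nlinarith
  have n1 : 0 ≤ ∫ φ in s..m, p φ ^ 2 := intervalIntegral.integral_nonneg hsm.le fun _ _ => sq_nonneg _
  have n2 : 0 ≤ ∫ φ in m..t, p φ ^ 2 := intervalIntegral.integral_nonneg hmt.le fun _ _ => sq_nonneg _
  rw [w1] at b1
  rw [w2] at b2
  refine ⟨i1.trans i2, ?_⟩
  rw [← intervalIntegral.integral_add_adjacent_intervals i1 i2, intervalIntegral.integral_add hp hq,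
    ← intervalIntegral.integral_add_adjacent_intervals (hp.mono_set (sub ms mm)) (hp.mono_set (sub mm mt)),
    ← intervalIntegral.integral_add_adjacent_intervals (hq.mono_set (sub ms mm)) (hq.mono_set (sub mm mt))]
  refine (abs_add_le _ _).trans ?_
  linarith [mul_le_mul_of_nonneg_right hw n1, mul_le_mul_of_nonneg_right hw n2]

theorem tone_leb {F : ℝ → ℂ} (hF : Integrable F) : ∀ᵐ ρ : ℝ,
    Tendsto (fun d : ℝ => d⁻¹ * ∫ r in (ρ - d)..ρ, ‖F r - F ρ‖) (𝓝[>] 0) (𝓝 0) := by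
  filter_upwards [IsUnifLocDoublingMeasure.ae_tendsto_average_norm_sub volume hF.locallyIntegrable 1] with ρ hρ
  have h1 : Tendsto (fun d : ℝ => d / 2) (𝓝[>] 0) (𝓝[>] 0) :=
    tendsto_nhdsWithin_iff.2 ⟨by
      simpa using ((continuous_id.div_const (2 : ℝ)).tendsto 0).mono_left nhdsWithin_le_nhds,
      eventually_mem_nhdsWithin.mono fun d hd => show (0 : ℝ) < d / 2 from half_pos hd⟩
  refine (hρ (fun d : ℝ => ρ - d / 2) (fun d => d / 2) h1 (eventually_mem_nhdsWithin.mono fun d hd => ?_)).congr'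
    (eventually_mem_nhdsWithin.mono fun d hd => ?_)
  · have : (0 : ℝ) < d := hd
    rw [mem_closedBall, Real.dist_eq, one_mul, sub_sub_cancel, abs_of_pos (half_pos this)]
  · have : (0 : ℝ) < d := hd
    have e : closedBall (ρ - d / 2) (d / 2) = Icc (ρ - d) ρ := by
      rw [Real.closedBall_eq_Icc]
      congr 1 <;> ring
    simp only
    rw [e, setAverage_eq, Real.volume_real_Icc_of_le (by linarith), sub_sub_cancel, smul_eq_mul,
      integral_Icc_eq_integral_Ioc, intervalIntegral.integral_of_le (by linarith)]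

/-- Lebesgue points: averages against smooth bumps control the function a.e. Recipe: approximate the normalised indicator of
`[ρ-h, ρ]` in a dominated way by smooth bumps supported in `(ρ-h, ρ)`, so `|⨍_{ρ-h}^{ρ} f| ≤ C ρ`, then Lebesgue differentiation of
`r ↦ ∫₀^r f` (`IntervalIntegrable.ae_hasDerivAt_integral` or `LocallyIntegrable.ae_hasDerivAt_integral`). -/
theorem ae_le_of_bumps {f : ℝ → ℂ} {R C : ℝ} (hf : ∀ s ∈ Ioo 0 R, IntervalIntegrable f volume s R)
    (h : ∀ (s t : ℝ) (ζ : ℝ → ℝ), 0 < s → s < t → t < R → ContDiff ℝ (⊤ : ℕ∞) ζ → Antitone ζ → (∀ r ≤ s, ζ r = 1) →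
      (∀ r, t ≤ r → ζ r = 0) → ‖∫ r in s..t, ((deriv ζ r : ℝ) : ℂ) * f r‖ ≤ C * t) :
    ∀ᵐ ρ : ℝ, ρ ∈ Ioo 0 R → ‖f ρ‖ ≤ C * ρ := by
  have hS : ContDiff ℝ (⊤ : ℕ∞) Real.smoothTransition := Real.smoothTransition.contDiff
  have hS' : Continuous (deriv Real.smoothTransition) := hS.continuous_deriv (by simp)
  obtain ⟨M, hM⟩ := (isCompact_Icc (a := (0 : ℝ)) (b := 1)).exists_bound_of_continuousOn hS'.continuousOn
  have main : ∀ s₀ : ℝ, ∀ᵐ ρ : ℝ, 0 < s₀ → ρ ∈ Ioo s₀ R → ‖f ρ‖ ≤ C * ρ := by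
    intro s₀
    by_cases hs : s₀ ∈ Ioo 0 R
    swap
    · exact Eventually.of_forall fun ρ h0 hρ => (hs ⟨h0, hρ.1.trans hρ.2⟩).elim
    have hF : Integrable ((Ioc s₀ R).indicator f) :=
      (integrable_indicator_iff measurableSet_Ioc).2 (hf s₀ hs).1
    filter_upwards [tone_leb hF] with ρ hρ _ hρR
    have lim : Tendsto (fun d : ℝ => C * ρ + M * (d⁻¹ * ∫ r in (ρ - d)..ρ,
        ‖(Ioc s₀ R).indicator f r - (Ioc s₀ R).indicator f ρ‖)) (𝓝[>] 0) (𝓝 (C * ρ + M * 0)) :=
      (hρ.const_mul M).const_add _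
    rw [mul_zero, add_zero] at lim
    refine ge_of_tendsto lim ?_
    filter_upwards [Ioo_mem_nhdsGT (sub_pos.2 hρR.1)] with d hd
    have d0 : 0 < d := hd.1
    have l1 : s₀ < ρ - d := by linarith [hd.2]
    have l2 : ρ - d < ρ := by linarith
    set ζ : ℝ → ℝ := fun r => Real.smoothTransition ((ρ - r) / d) with hζ
    have hζc : ContDiff ℝ (⊤ : ℕ∞) ζ := hS.comp (by fun_prop)
    have hζ' : Continuous (deriv ζ) := hζc.continuous_deriv (by simp)
    have hder : ∀ r, deriv ζ r = deriv Real.smoothTransition ((ρ - r) / d) * (-1 / d) := fun r =>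
      (((hS.differentiable (by simp)) _).hasDerivAt.comp r
        (((hasDerivAt_id r).const_sub ρ).div_const d)).deriv
    have z1 : ∀ r ≤ ρ - d, ζ r = 1 := fun r hr =>
      Real.smoothTransition.one_of_one_le ((one_le_div d0).2 (by linarith))
    have z0 : ∀ r, ρ ≤ r → ζ r = 0 := fun r hr =>
      Real.smoothTransition.zero_of_nonpos (div_nonpos_of_nonpos_of_nonneg (by linarith) d0.le)
    have h1 := h (ρ - d) ρ ζ (hs.1.trans l1) l2 hρR.2 hζc
      (fun a b hab => Real.smoothTransition.monotone (by gcongr)) z1 z0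
    have hfi : IntervalIntegrable f volume (ρ - d) ρ := (hf s₀ hs).mono_set
      (uIcc_subset_uIcc (by rw [uIcc_of_le hs.2.le]; exact ⟨l1.le, (l2.trans hρR.2).le⟩)
        (by rw [uIcc_of_le hs.2.le]; exact ⟨hρR.1.le, hρR.2.le⟩))
    have hζi : Continuous fun r => ((deriv ζ r : ℝ) : ℂ) := Complex.continuous_ofReal.comp hζ'
    have h2 : ∫ r in (ρ - d)..ρ, ((deriv ζ r : ℝ) : ℂ) = -1 := by
      rw [intervalIntegral.integral_ofReal, intervalIntegral.integral_deriv_eq_sub
        (fun x _ => hζc.differentiable (by simp) x) (hζ'.intervalIntegrable _ _), z0 ρ le_rfl, z1 _ le_rfl]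
      simp
    have h3 : ∫ r in (ρ - d)..ρ, ((deriv ζ r : ℝ) : ℂ) * (f r - f ρ) =
        (∫ r in (ρ - d)..ρ, ((deriv ζ r : ℝ) : ℂ) * f r) + f ρ := by
      simp only [mul_sub]
      rw [intervalIntegral.integral_sub (hfi.continuousOn_mul hζi.continuousOn)
        ((hζi.intervalIntegrable _ _).mul_const _), intervalIntegral.integral_mul_const, h2]
      ring
    have h4 : ‖∫ r in (ρ - d)..ρ, ((deriv ζ r : ℝ) : ℂ) * (f r - f ρ)‖ ≤ ∫ r in (ρ - d)..ρ,
        M * (d⁻¹ * ‖(Ioc s₀ R).indicator f r - (Ioc s₀ R).indicator f ρ‖) := by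
      refine intervalIntegral.norm_integral_le_of_norm_le l2.le (Eventually.of_forall fun r hr => ?_)
        ((((hF.intervalIntegrable).sub intervalIntegrable_const).norm.const_mul _).const_mul _)
      rw [indicator_of_mem (show r ∈ Ioc s₀ R from ⟨l1.trans hr.1, hr.2.trans hρR.2.le⟩),
        indicator_of_mem (show ρ ∈ Ioc s₀ R from ⟨hρR.1, hρR.2.le⟩), norm_mul, Complex.norm_real, hder,
        norm_mul, ← mul_assoc, norm_div, norm_neg, norm_one, Real.norm_of_nonneg d0.le, one_div]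
      gcongr
      exact hM _ ⟨div_nonneg (sub_nonneg.2 hr.2) d0.le, (div_le_one d0).2 (by linarith [hr.1])⟩
    rw [intervalIntegral.integral_const_mul, intervalIntegral.integral_const_mul, h3] at h4
    calc ‖f ρ‖ = ‖((∫ r in (ρ - d)..ρ, ((deriv ζ r : ℝ) : ℂ) * f r) + f ρ) -
          ∫ r in (ρ - d)..ρ, ((deriv ζ r : ℝ) : ℂ) * f r‖ := by rw [add_sub_cancel_left]
      _ ≤ _ := (norm_sub_le _ _).trans (by linarith)
  filter_upwards [ae_all_iff.2 fun n : ℕ => main (1 / ((n : ℝ) + 1))] with ρ hρ hR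
  obtain ⟨n, hn⟩ := exists_nat_one_div_lt hR.1
  exact hρ n Nat.one_div_pos_of_nat ⟨hn, hR.2⟩

end Crest.Agent.R135
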