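import Crest.Agent.R135.Defs
import Crest.Agent.R135.MBasic
import Crest.Agent.R135.TEil
import Crest.Agent.R135.TPolar
import Crest.Agent.R135.TOne
set_option autoImplicit false
open MeasureTheory Metric Set Filter Topology
open scoped ENNReal NNReal Real ComplexConjugate

namespace Crest.Agent.R135

variable {U K : Set ℂ} {a b : ℝ} {u : ℂ → ℝ}

theorem mgood_meas (u : ℂ → ℝ) : Measurable (gradient u) :=
  (InnerProductSpace.toDual ℝ ℂ).symm.continuous.measurable.comp (measurable_fderiv ℝ u)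

theorem mgood_int (h : MS U a b K u) {x : ℂ} {R : ℝ} (hB : closedBall x R ⊆ U) :
    IntegrableOn (fun z => ‖gradient u z‖ ^ 2) (ball x R) := by
  refine ⟨((mgood_meas u).norm.pow_const 2).aestronglyMeasurable, ?_⟩
  have := h.Dir_lt_top hB
  rw [Dir_closedBall] at this
  simpa [HasFiniteIntegral, Dir] using this

theorem mgood_Dr (u : ℂ → ℝ) (x : ℂ) (t : ℝ) : Dr u x t = ∫ z in ball x t, ‖gradient u z‖ ^ 2 := by
  rw [integral_eq_lintegral_of_nonneg_ae (Eventually.of_forall fun z => sq_nonneg _)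
    ((mgood_meas u).norm.pow_const 2).aestronglyMeasurable]
  simp [Dr, Dir]

theorem mgood_polar (x : ℂ) {t : ℝ} (ht : 0 ≤ t) {f : ℂ → ℝ} (hf : IntegrableOn f (ball x t)) :
    (∀ᵐ ρ : ℝ, ρ ∈ Ioo 0 t → IntervalIntegrable (fun φ => f (circleMap x ρ φ)) volume (-π) π) ∧
    IntervalIntegrable (fun ρ => ρ * ∫ φ in (-π)..π, f (circleMap x ρ φ)) volume 0 t ∧
    ∫ z in ball x t, f z = ∫ ρ in (0 : ℝ)..t, ρ * ∫ φ in (-π)..π, f (circleMap x ρ φ) := by
  simpa using integral_polar x le_rfl ht f (hf.mono_set diff_subset)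

theorem mgood_zero (h : MS U a b K u) {x : ℂ} {R t : ℝ} (hB : closedBall x R ⊆ U) (h0 : 0 ≤ t) (ht : t ≤ R) :
    IntervalIntegrable (ce u x) volume 0 t ∧ Dr u x t = ∫ ρ in (0 : ℝ)..t, ce u x ρ := by
  rw [mgood_Dr]
  exact (mgood_polar x h0 ((mgood_int h hB).mono_set (ball_subset_ball ht))).2

theorem mgood_sq {p : ℝ → ℝ} (hm : Measurable p) {s t : ℝ} (h : IntervalIntegrable (fun φ => p φ ^ 2) volume s t) :
    IntervalIntegrable p volume s t :=
  (h.add (intervalIntegrable_const (c := 1))).mono_fun' hm.aestronglyMeasurable (Eventually.of_forall fun φ => by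
    have := sq_abs (p φ)
    simp only [Real.norm_eq_abs]
    nlinarith [sq_nonneg (|p φ| - 1)])

theorem mgood_mc (u : ℂ → ℝ) (x : ℂ) (ρ : ℝ) : Measurable fun φ => gradient u (circleMap x ρ φ) :=
  (mgood_meas u).comp (continuous_circleMap x ρ).measurable

theorem MS.ce_int (h : MS U a b K u) {x : ℂ} {R : ℝ} (hR : 0 ≤ R) (hB : closedBall x R ⊆ U) :
    IntervalIntegrable (ce u x) volume 0 R ∧
      ∀ s t : ℝ, 0 ≤ s → s ≤ t → t ≤ R → Dr u x t = Dr u x s + ∫ ρ in s..t, ce u x ρ := by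
  refine ⟨(mgood_zero h hB hR le_rfl).1, fun s t hs hst ht => ?_⟩
  obtain ⟨h1, h2⟩ := mgood_zero h hB hs (hst.trans ht)
  obtain ⟨h3, h4⟩ := mgood_zero h hB (hs.trans hst) ht
  rw [h2, h4, intervalIntegral.integral_add_adjacent_intervals h1 (h1.symm.trans h3)]

/-- `ae_finite_sphere`, `integral_polar`, Lebesgue differentiation (`IntervalIntegrable.ae_hasDerivAt_integral`) -/
theorem MS.ae_good (h : MS U a b K u) {x : ℂ} {R : ℝ} (hB : closedBall x R ⊆ U) :
    ∀ᵐ ρ : ℝ, ρ ∈ Ioo 0 R → Good K u x ρ := by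
  rcases le_or_gt R 0 with hR | hR
  · exact Eventually.of_forall fun ρ hρ => absurd (hρ.1.trans hρ.2) hR.not_gt
  filter_upwards [ae_finite_sphere x _ (h.closed.inter isClosed_closedBall).measurableSet (h.H1_lt_top hB),
    (mgood_polar x hR.le (mgood_int h hB)).1, (mgood_zero h hB hR.le le_rfl).1.ae_hasDerivAt_integral]
    with ρ h1 h2 h3 hρ
  refine ⟨hρ.1, h1.subset fun z hz => ⟨⟨hz.1, (mem_sphere.1 hz.2).trans_le hρ.2.le⟩, hz.2⟩, h2 hρ, ?_⟩
  refine (h3 (Icc_subset_uIcc (Ioo_subset_Icc_self hρ)) 0 left_mem_uIcc).congr_of_eventuallyEq ?_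
  filter_upwards [Ioo_mem_nhds hρ.1 hρ.2] with t ht
  exact (mgood_zero h hB ht.1.le ht.2.le).2

theorem MS.ce1_int (h : MS U a b K u) {x : ℂ} {R : ℝ} (hR : 0 ≤ R) (hB : closedBall x R ⊆ U) :
    IntegrableOn (fun z => ‖gradient u z‖) (ball x R) ∧ IntervalIntegrable (ce1 u x) volume 0 R ∧
      ∫ z in ball x R, ‖gradient u z‖ = ∫ ρ in (0 : ℝ)..R, ce1 u x ρ := by
  have h1 : IntegrableOn (fun z => ‖gradient u z‖) (ball x R) :=
    Integrable.mono' ((mgood_int h hB).add (integrableOn_const (C := (1 : ℝ)) measure_ball_lt_top.ne))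
      (mgood_meas u).norm.aestronglyMeasurable (Eventually.of_forall fun z => by
        simp only [norm_norm, Pi.add_apply]
        nlinarith [sq_nonneg (‖gradient u z‖ - 1)])
  exact ⟨h1, (mgood_polar x hR h1).2⟩

theorem ce_nonneg (u : ℂ → ℝ) (x : ℂ) {ρ : ℝ} (hρ : 0 ≤ ρ) : 0 ≤ ce u x ρ := by
  exact mul_nonneg hρ (intervalIntegral.integral_nonneg (by linarith [Real.pi_pos]) fun _ _ => sq_nonneg _)

theorem ce1_nonneg (u : ℂ → ℝ) (x : ℂ) {ρ : ℝ} (hρ : 0 ≤ ρ) : 0 ≤ ce1 u x ρ := by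
  exact mul_nonneg hρ (intervalIntegral.integral_nonneg (by linarith [Real.pi_pos]) fun _ _ => norm_nonneg _)

theorem Good.ce1_sq {x : ℂ} {ρ : ℝ} (h : Good K u x ρ) : ce1 u x ρ ^ 2 ≤ 2 * π * ρ * ce u x ρ := by
  have h1 := mul_le_mul_of_nonneg_left
    (tone_cs (by linarith [Real.pi_pos]) (mgood_sq (mgood_mc u x ρ).norm h.int) h.int) (sq_nonneg ρ)
  unfold ce1 ce
  linarith

theorem cp_sq_add_cq_sq (u : ℂ → ℝ) (x : ℂ) (ρ φ : ℝ) :
    cp u x ρ φ ^ 2 + cq u x ρ φ ^ 2 = ρ ^ 2 * ‖gradient u (circleMap x ρ φ)‖ ^ 2 := by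
  have h : ρ ^ 2 = ‖circleMap x ρ φ - x‖ ^ 2 := by rw [circleMap_sub_center, norm_circleMap_zero, sq_abs]
  simp only [cp, cq, h, Complex.inner, Complex.sq_norm, Complex.normSq_apply]
  generalize circleMap x ρ φ - x = w
  simp
  ring

/-- `ρ ∇u = (q + i p) e^{iφ}` -/
theorem grad_eq_cq_cp (u : ℂ → ℝ) (x : ℂ) {ρ : ℝ} (hρ : ρ ≠ 0) (φ : ℝ) :
    (ρ : ℂ) * gradient u (circleMap x ρ φ) =
      ((cq u x ρ φ : ℂ) + Complex.I * cp u x ρ φ) * Complex.exp (φ * Complex.I) := by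
  have h : (cq u x ρ φ : ℂ) + Complex.I * cp u x ρ φ =
      conj (circleMap x ρ φ - x) * gradient u (circleMap x ρ φ) := by
    simp only [cp, cq, Complex.inner]
    generalize circleMap x ρ φ - x = w
    apply Complex.ext <;> simp <;> ring
  have h2 : conj (Complex.exp (φ * Complex.I)) * Complex.exp (φ * Complex.I) = 1 := by
    rw [Complex.conj_mul', Complex.norm_exp_ofReal_mul_I]
    simp
  rw [h, circleMap_sub_center, circleMap_zero, map_mul, Complex.conj_ofReal]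
  linear_combination (-(ρ : ℂ) * gradient u (circleMap x ρ φ)) * h2

theorem measurable_cp (u : ℂ → ℝ) (x : ℂ) (ρ : ℝ) : Measurable (cp u x ρ) := by
  exact (mgood_mc u x ρ).inner (Continuous.measurable (by have := continuous_circleMap x ρ; fun_prop))

theorem measurable_cq (u : ℂ → ℝ) (x : ℂ) (ρ : ℝ) : Measurable (cq u x ρ) := by
  exact (mgood_mc u x ρ).inner (Continuous.measurable (by have := continuous_circleMap x ρ; fun_prop))

theorem Good.int_pq {x : ℂ} {ρ : ℝ} (h : Good K u x ρ) (s t : ℝ) :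
    IntervalIntegrable (fun φ => cp u x ρ φ ^ 2) volume s t ∧ IntervalIntegrable (fun φ => cq u x ρ φ ^ 2) volume s t ∧
      IntervalIntegrable (cp u x ρ) volume s t ∧ IntervalIntegrable (cq u x ρ) volume s t := by
  have h1 := (circle_integrable x ρ (fun z => ‖gradient u z‖ ^ 2) h.int s t).const_mul (ρ ^ 2)
  have h2 : IntervalIntegrable (fun φ => cp u x ρ φ ^ 2) volume s t :=
    h1.mono_fun' ((measurable_cp u x ρ).pow_const 2).aestronglyMeasurable (Eventually.of_forall fun φ => by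
      simp only [← cp_sq_add_cq_sq, Real.norm_of_nonneg (sq_nonneg _)]
      exact le_add_of_nonneg_right (sq_nonneg _))
  have h3 : IntervalIntegrable (fun φ => cq u x ρ φ ^ 2) volume s t :=
    h1.mono_fun' ((measurable_cq u x ρ).pow_const 2).aestronglyMeasurable (Eventually.of_forall fun φ => by
      simp only [← cp_sq_add_cq_sq, Real.norm_of_nonneg (sq_nonneg _)]
      exact le_add_of_nonneg_left (sq_nonneg _))
  exact ⟨h2, h3, mgood_sq (measurable_cp u x ρ) h2, mgood_sq (measurable_cq u x ρ) h3⟩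

theorem Good.integral_pq {x : ℂ} {ρ : ℝ} (h : Good K u x ρ) (α : ℝ) :
    ∫ φ in α..(α + 2 * π), (cp u x ρ φ ^ 2 + cq u x ρ φ ^ 2) = ρ * ce u x ρ := by
  simp only [cp_sq_add_cq_sq]
  rw [intervalIntegral.integral_const_mul, circle_shift' x ρ α fun z => ‖gradient u z‖ ^ 2, ce]
  ring

theorem Good.integral_abs_cp {x : ℂ} {ρ : ℝ} (h : Good K u x ρ) (α : ℝ) :
    ∫ φ in α..(α + 2 * π), |cp u x ρ φ| ≤ ce1 u x ρ := by
  rw [ce1, ← circle_shift' x ρ α fun z => ‖gradient u z‖, ← intervalIntegral.integral_const_mul]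
  refine intervalIntegral.integral_mono_on (by linarith [Real.pi_pos]) (h.int_pq _ _).2.2.1.abs
    ((mgood_sq (mgood_mc u x ρ).norm (circle_integrable x ρ (fun z => ‖gradient u z‖ ^ 2) h.int _ _)).const_mul ρ)
    fun φ _ => abs_le_of_sq_le_sq ?_ (mul_nonneg h.pos.le (norm_nonneg _))
  rw [mul_pow, ← cp_sq_add_cq_sq]
  exact le_add_of_nonneg_right (sq_nonneg _)

theorem hasDerivAt_circle {x : ℂ} {ρ φ : ℝ} (h : DifferentiableAt ℝ u (circleMap x ρ φ)) :
    HasDerivAt (fun θ => u (circleMap x ρ θ)) (cp u x ρ φ) φ := by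
  refine (h.hasGradientAt.hasFDerivAt.comp_hasDerivAt φ (hasDerivAt_circleMap x ρ φ)).congr_deriv ?_
  rw [cp, circleMap_sub_center, mul_comm]
  rfl

/-- `u` is bounded on a good circle off `K` (`bdd_off_finite`) -/
theorem MS.bdd_circle (h : MS U a b K u) {x : ℂ} {ρ : ℝ} (hg : Good K u x ρ) (hB : closedBall x ρ ⊆ U) :
    ∃ M : ℝ, ∀ z ∈ sphere x ρ \ K, |u z| ≤ M := by
  obtain ⟨M, hM⟩ := bdd_off_finite (g := fun θ => u (circleMap x ρ θ)) (p := cp u x ρ) (s := 0) (t := 2 * π + 1)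
    (by positivity) (finite_angles hg.pos hg.fin 0 (2 * π + 1)) (fun φ hφ => hasDerivAt_circle
      ((h.c1.differentiableOn one_ne_zero).differentiableAt ((h.isOpen.sdiff h.closed).mem_nhds
        ⟨hB (circleMap_mem_closedBall x hg.pos.le φ), fun hK => hφ.2 ⟨Ioo_subset_Icc_self hφ.1, hK⟩⟩)))
    (hg.int_pq _ _).2.2.1
  refine ⟨M, fun z hz => ?_⟩
  have h1 := hz.1
  rw [← abs_of_pos hg.pos, ← image_circleMap_Ioc] at h1
  obtain ⟨φ, hφ, rfl⟩ := h1
  exact hM φ ⟨⟨hφ.1, by linarith [hφ.2]⟩, fun h2 => hz.2 h2.2⟩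

end Crest.Agent.R135
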