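import Crest.Agent.R135.MCIAux1
import Crest.Agent.R135.MEL
import Crest.Agent.R135.MGood
import Crest.Agent.R135.MBasic
set_option autoImplicit false
open MeasureTheory Metric Set Filter Topology
open scoped ENNReal NNReal Real ComplexConjugate

namespace Crest.Agent.R135

variable {U K : Set ℂ} {a b : ℝ} {u : ℂ → ℝ}

theorem mci_dir (w : ℂ → ℝ) (S : Set ℂ) : Dir w S < ⊤ ↔ IntegrableOn (fun z => ‖gradient w z‖ ^ 2) S := by
  have e : Dir w S = ∫⁻ z in S, ‖‖gradient w z‖ ^ 2‖ₑ := by simp only [Dir, enorm_pow, enorm_norm]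
  rw [e]
  exact ⟨fun h => ⟨((measurable_gradient w).norm.pow_const 2).aestronglyMeasurable, h⟩, fun h => h.2⟩

theorem mci_quot {ψ : ℂ → ℝ} {B : ℝ} (hb : ∀ z, |ψ z| ≤ B) (x z d : ℂ) :
    |ψ z * (inner ℝ d (z - x) / ‖z - x‖)| ≤ B * ‖d‖ := by
  rw [abs_mul]
  refine mul_le_mul (hb z) ?_ (abs_nonneg _) ((abs_nonneg _).trans (hb z))
  rw [abs_div, abs_norm]
  exact div_le_of_le_mul₀ (norm_nonneg _) (norm_nonneg _) (abs_real_inner_le_norm _ _)

theorem mci_f (h : MS U a b K u) {x : ℂ} {ρ : ℝ} (hρ : 0 < ρ) (hB : closedBall x ρ ⊆ U) {ψ : ℂ → ℝ}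
    (hm : Measurable ψ) {B : ℝ} (hb : ∀ z, |ψ z| ≤ B) :
    IntegrableOn (fun z => ψ z * (inner ℝ (gradient u z) (z - x) / ‖z - x‖)) (ball x ρ) := by
  refine Integrable.mono' ((h.ce1_int hρ.le hB).1.const_mul B) (Measurable.aestronglyMeasurable ?_)
    (Eventually.of_forall fun z => mci_quot hb x z _)
  exact hm.mul (((measurable_gradient u).inner (measurable_id.sub_const x)).div (measurable_id.sub_const x).norm)

theorem mci_circ (u ψ : ℂ → ℝ) (x : ℂ) {r : ℝ} (hr : 0 < r) :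
    r • ∫ φ in (-π)..π, ψ (circleMap x r φ) *
      (inner ℝ (gradient u (circleMap x r φ)) (circleMap x r φ - x) / ‖circleMap x r φ - x‖) =
      ∫ φ in (-π)..π, ψ (circleMap x r φ) * cq u x r φ := by
  rw [smul_eq_mul, ← intervalIntegral.integral_const_mul]
  congr 1
  funext φ
  rw [← dist_eq_norm, tpolar_dist x hr, cq]
  field_simp

theorem mci_step (h : MS U a b K u) {x : ℂ} {ρ R : ℝ} (hR : ρ < R) (hB : ball x R ⊆ U)
    {ψ : ℂ → ℝ} (hψ : LocallyLipschitzOn (ball x R \ K) ψ) (hm : Measurable ψ) {B : ℝ} (hb : ∀ z, |ψ z| ≤ B)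
    (hD : Dir ψ (ball x ρ) < ⊤) {I : ℝ} (hI0 : 0 ≤ I)
    (hI : ENNReal.ofReal a * ∫⁻ z in closedBall x ρ, ‖ψ z‖ₑ ≤ ENNReal.ofReal I) {δ : ℝ} (hδ : 0 < δ) (hδρ : δ < ρ) :
    |(∫ z in ball x ρ, mciE x ρ δ z * inner ℝ (gradient u z) (gradient ψ z)) -
      δ⁻¹ * ∫ r in (ρ - δ)..ρ, ∫ φ in (-π)..π, ψ (circleMap x r φ) * cq u x r φ| ≤ I / 2 := by
  have hρ : 0 < ρ := hδ.trans hδρ
  have hcB : closedBall x ρ ⊆ U := (closedBall_subset_ball hR).trans hB
  have hW : IsOpen (ball x R \ K) := isOpen_ball.sdiff h.closed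
  have hB0 : 0 ≤ B := (abs_nonneg _).trans (hb 0)
  obtain ⟨L, hL⟩ := mciE_lip x ρ hδ
  have hS : MeasurableSet (ball x ρ \ ball x (ρ - δ)) := measurableSet_ball.diff measurableSet_ball
  have hlip : LocallyLipschitzOn (U \ K) fun z => mciE x ρ δ z * ψ z := by
    intro z hz
    by_cases hzR : z ∈ ball x R
    · obtain ⟨L', t, ht, hL'⟩ := ibp_locLip_mul hL.locallyLipschitz.locallyLipschitzOn hψ
        (show z ∈ ball x R \ K from ⟨hzR, hz.2⟩)
      rw [hW.nhdsWithin_eq ⟨hzR, hz.2⟩] at ht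
      exact ⟨L', t, mem_nhdsWithin_of_mem_nhds ht, hL'⟩
    · have hz' : z ∈ (ball x ρ)ᶜ ∩ (closedBall x ρ)ᶜ :=
        ⟨fun h' => hzR (ball_subset_ball hR.le h'), fun h' => hzR (closedBall_subset_ball hR h')⟩
      refine ⟨0, (closedBall x ρ)ᶜ,
        mem_nhdsWithin_of_mem_nhds (isClosed_closedBall.isOpen_compl.mem_nhds hz'.2), fun p hp q hq => ?_⟩
      simp only [mem_compl_iff, mem_closedBall, dist_eq_norm, not_le] at hp hq
      simp [mciE_zero hδ hp.le, mciE_zero hδ hq.le]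
  have hae : ∀ᵐ z ∂volume.restrict (ball x ρ), ∀ d, fderiv ℝ (fun w => mciE x ρ δ w * ψ w) z d =
      mciE x ρ δ z * fderiv ℝ ψ z d -
        δ⁻¹ * (ball x ρ \ ball x (ρ - δ)).indicator (fun w => ψ w * (inner ℝ d (w - x) / ‖w - x‖)) z := by
    rw [ae_restrict_iff' measurableSet_ball]
    filter_upwards [ae_diff_of_locLip hW hψ, h.ae_not_mem,
      measure_eq_zero_iff_ae_notMem.1 (volume_sphere x (ρ - δ))] with z h1 h2 h3 hz d
    exact mci_fderiv hδ hδρ hz h3
      (h1 ⟨ball_subset_ball hR.le hz, h2 (hcB (ball_subset_closedBall hz))⟩) d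
  have hD' : Dir (fun z => mciE x ρ δ z * ψ z) (closedBall x ρ) < ⊤ := by
    rw [Dir_closedBall, mci_dir]
    refine Integrable.mono' ((((mci_dir _ _).1 hD).const_mul 2).add
      (integrableOn_const (C := 2 * (δ⁻¹ * B) ^ 2) measure_ball_lt_top.ne))
      ((measurable_gradient _).norm.pow_const 2).aestronglyMeasurable ?_
    filter_upwards [hae] with z hz
    have h1 : ‖gradient (fun z => mciE x ρ δ z * ψ z) z‖ ≤ ‖gradient ψ z‖ + δ⁻¹ * B := by
      rw [norm_gradient, norm_gradient]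
      refine ContinuousLinearMap.opNorm_le_bound _ (by positivity) fun d => ?_
      rw [hz d, add_mul]
      refine (norm_sub_le _ _).trans (add_le_add ?_ ?_)
      · rw [norm_mul, Real.norm_of_nonneg (mciE_nonneg x ρ δ z)]
        exact (mul_le_of_le_one_left (norm_nonneg _) (mciE_le x ρ δ z)).trans ((fderiv ℝ ψ z).le_opNorm d)
      · rw [norm_mul, Real.norm_of_nonneg (inv_pos.2 hδ).le, mul_assoc]
        exact mul_le_mul_of_nonneg_left ((norm_indicator_le_norm_self _ _).trans (mci_quot hb x z d))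
          (inv_pos.2 hδ).le
    rw [Real.norm_of_nonneg (sq_nonneg _)]
    refine (pow_le_pow_left₀ (norm_nonneg _) h1 2).trans ?_
    simp only [Pi.add_apply]
    nlinarith [sq_nonneg (‖gradient ψ z‖ - δ⁻¹ * B)]
  have hel := h.el hcB hlip (fun z hz => by
      have h1 := hz.2
      rw [mem_closedBall, dist_eq_norm, not_le] at h1
      rw [mciE_zero hδ h1.le, zero_mul]) hD' hI0
    ((mul_le_mul_right (lintegral_mono fun z => by
      rw [← ofReal_norm, ← ofReal_norm]
      refine ENNReal.ofReal_le_ofReal ?_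
      rw [norm_mul, Real.norm_of_nonneg (mciE_nonneg x ρ δ z)]
      exact mul_le_of_le_one_left (norm_nonneg _) (mciE_le x ρ δ z)) _).trans hI)
  have hf := mci_f h hρ hcB hm hb
  have hP : IntegrableOn (fun z => inner ℝ (gradient u z) (gradient ψ z)) (ball x ρ) :=
    integrableOn_inner ((Dir_closedBall u x ρ).ge.trans_lt (h.Dir_lt_top hcB)) hD
  have hP' : IntegrableOn (fun z => mciE x ρ δ z * inner ℝ (gradient u z) (gradient ψ z)) (ball x ρ) :=
    hP.bdd_mul (c := 1) hL.continuous.aestronglyMeasurable (Eventually.of_forall fun z => by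
      rw [Real.norm_of_nonneg (mciE_nonneg x ρ δ z)]; exact mciE_le x ρ δ z)
  have e0 : (closedBall x ρ : Set ℂ) =ᵐ[volume] ball x ρ := by
    rw [← ball_union_sphere]
    exact union_ae_eq_left_of_ae_eq_empty (ae_eq_empty.2 (volume_sphere x ρ))
  have e1 : ∫ z in closedBall x ρ, inner ℝ (gradient u z) (gradient (fun z => mciE x ρ δ z * ψ z) z) =
      ∫ z in ball x ρ, (mciE x ρ δ z * inner ℝ (gradient u z) (gradient ψ z) - δ⁻¹ *
        (ball x ρ \ ball x (ρ - δ)).indicator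
          (fun w => ψ w * (inner ℝ (gradient u w) (w - x) / ‖w - x‖)) z) := by
    rw [setIntegral_congr_set e0]
    refine integral_congr_ae ?_
    filter_upwards [hae] with z hz
    rw [real_inner_comm, inner_gradient, hz, real_inner_comm (gradient ψ z), inner_gradient]
    congr 2
  rw [e1, integral_sub hP' ((hf.indicator hS).const_mul _), integral_const_mul, setIntegral_indicator hS,
    inter_eq_right.2 sdiff_subset,
    (integral_polar x (by linarith) (by linarith) _ (hf.mono_set sdiff_subset)).2.2] at hel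
  rwa [intervalIntegral.integral_congr (g := fun r => ∫ φ in (-π)..π, ψ (circleMap x r φ) * cq u x r φ)
    fun r hr => mci_circ u ψ x (by
      rw [uIcc_of_le (by linarith)] at hr
      linarith [hr.1])] at hel

theorem mci_main (h : MS U a b K u) {x : ℂ} {ρ R : ℝ} (hg : Good K u x ρ) (hR : ρ < R) (hB : ball x R ⊆ U)
    {ψ : ℂ → ℝ} (hψ : LocallyLipschitzOn (ball x R \ K) ψ) (hm : Measurable ψ) {B : ℝ} (hb : ∀ z, |ψ z| ≤ B)
    (hD : Dir ψ (ball x ρ) < ⊤) {I : ℝ} (hI0 : 0 ≤ I)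
    (hI : ENNReal.ofReal a * ∫⁻ z in closedBall x ρ, ‖ψ z‖ₑ ≤ ENNReal.ofReal I) :
    |(∫ z in ball x ρ, inner ℝ (gradient u z) (gradient ψ z)) -
      ∫ φ in (-π)..π, ψ (circleMap x ρ φ) * cq u x ρ φ| ≤ I / 2 := by
  have hρ := hg.pos
  have hπ : -π ≤ π := by linarith [Real.pi_pos]
  have hcB : closedBall x ρ ⊆ U := (closedBall_subset_ball hR).trans hB
  have hW : IsOpen (ball x R \ K) := isOpen_ball.sdiff h.closed
  have hB0 : 0 ≤ B := (abs_nonneg _).trans (hb 0)
  have hP : IntegrableOn (fun z => inner ℝ (gradient u z) (gradient ψ z)) (ball x ρ) :=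
    integrableOn_inner ((Dir_closedBall u x ρ).ge.trans_lt (h.Dir_lt_top hcB)) hD
  have T1 : Tendsto (fun δ => ∫ z in ball x ρ, mciE x ρ δ z * inner ℝ (gradient u z) (gradient ψ z)) (𝓝[>] 0)
      (𝓝 (∫ z in ball x ρ, inner ℝ (gradient u z) (gradient ψ z))) := by
    refine tendsto_integral_filter_of_dominated_convergence _ ?_ ?_ hP.norm ?_
    · filter_upwards [self_mem_nhdsWithin] with δ hδ
      obtain ⟨L, hL⟩ := mciE_lip x ρ (show 0 < δ from hδ)
      exact hL.continuous.aestronglyMeasurable.mul hP.1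
    · refine Eventually.of_forall fun δ => Eventually.of_forall fun z => ?_
      rw [norm_mul, Real.norm_of_nonneg (mciE_nonneg x ρ δ z)]
      exact mul_le_of_le_one_left (norm_nonneg _) (mciE_le x ρ δ z)
    · filter_upwards [ae_restrict_mem measurableSet_ball] with z hz
      rw [mem_ball, dist_eq_norm] at hz
      refine tendsto_const_nhds.congr' ?_
      filter_upwards [Ioo_mem_nhdsGT (sub_pos.2 hz)] with δ hδ
      rw [mciE_one hδ.1 (by linarith [hδ.2]), one_mul]
  have hmh : ∀ r, Measurable fun φ => ψ (circleMap x r φ) * cq u x r φ := fun r =>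
    (hm.comp (measurable_circleMap x r)).mul (measurable_cq u x r)
  have hsq : ∀ r φ, (ψ (circleMap x r φ) * cq u x r φ) ^ 2 ≤ B ^ 2 * cq u x r φ ^ 2 := fun r φ => by
    rw [mul_pow]
    exact mul_le_mul_of_nonneg_right (sq_le_sq' (neg_le_of_abs_le (hb _)) (le_of_abs_le (hb _))) (sq_nonneg _)
  have hint : ∀ r, Good K u x r →
      IntervalIntegrable (fun φ => ψ (circleMap x r φ) * cq u x r φ) volume (-π) π ∧
      IntervalIntegrable (fun φ => (ψ (circleMap x r φ) * cq u x r φ) ^ 2) volume (-π) π := by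
    intro r hr
    obtain ⟨-, i2, -, i4⟩ := hr.int_pq (-π) π
    refine ⟨(i4.norm.const_mul B).mono_fun' (hmh r).aestronglyMeasurable (Eventually.of_forall fun φ => ?_),
      (i2.const_mul (B ^ 2)).mono_fun' ((hmh r).pow_const 2).aestronglyMeasurable
        (Eventually.of_forall fun φ => ?_)⟩
    · simp only [norm_mul]
      exact mul_le_mul_of_nonneg_right (hb _) (norm_nonneg _)
    · simp only [Real.norm_of_nonneg (sq_nonneg _)]
      exact hsq r φ
  obtain ⟨hce, hDr⟩ := h.ce_int hρ.le hcB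
  have T2 := mci_avg (h := fun r φ => ψ (circleMap x r φ) * cq u x r φ) (e := fun r => B ^ 2 * ρ * ce u x r)
    (C := B ^ 2 * ρ * (ce u x ρ + 1)) hρ hmh (hce.const_mul _) ?_ (hint ρ hg).1 (hint ρ hg).2 ?_ ?_ ?_
  · refine le_of_tendsto (T1.sub T2).abs ?_
    filter_upwards [Ioo_mem_nhdsGT hρ] with δ hδ
    exact mci_step h hR hB hψ hm hb hD hI0 hI hδ.1 hδ.2
  · filter_upwards [h.ae_good hcB] with r hr hr'
    have hr := hr hr'
    refine ⟨(hint r hr).1, (hint r hr).2, ?_⟩
    obtain ⟨i1, i2, -, -⟩ := hr.int_pq (-π) π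
    have h1 := hr.integral_pq (-π)
    rw [show -π + 2 * π = π by ring] at h1
    refine (intervalIntegral.integral_mono_on hπ (hint r hr).2 ((i1.add i2).const_mul (B ^ 2))
      fun φ _ => (hsq r φ).trans (mul_le_mul_of_nonneg_left (le_add_of_nonneg_left (sq_nonneg _))
        (sq_nonneg _))).trans ?_
    rw [intervalIntegral.integral_const_mul, h1, mul_assoc]
    exact mul_le_mul_of_nonneg_left (mul_le_mul_of_nonneg_right hr'.2.le (ce_nonneg u x hr'.1.le)) (sq_nonneg _)
  · filter_upwards [(finite_angles hρ hg.fin (-π) π).countable.ae_notMem volume] with φ hφ hφ'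
    rw [uIoc_of_le hπ] at hφ'
    have hK : circleMap x ρ φ ∉ K := fun hK => hφ ⟨Ioc_subset_Icc_self hφ', hK⟩
    have hz : circleMap x ρ φ ∈ ball x R \ K := ⟨by rw [mem_ball, tpolar_dist x hρ]; exact hR, hK⟩
    have hc : Continuous fun r : ℝ => circleMap x r φ := by unfold circleMap; fun_prop
    have c1 : ContinuousAt ψ (circleMap x ρ φ) := hψ.continuousOn.continuousAt (hW.mem_nhds hz)
    have hW' : IsOpen (U \ K) := h.isOpen.sdiff h.closed
    have c2 : ContinuousAt (gradient u) (circleMap x ρ φ) :=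
      (continuousOn_gradient hW' h.c1).continuousAt (hW'.mem_nhds ⟨hB hz.1, hK⟩)
    have c3 := ContinuousAt.comp (f := fun r : ℝ => circleMap x r φ) (x := ρ) c1 hc.continuousAt
    have c4 := ContinuousAt.comp (f := fun r : ℝ => circleMap x r φ) (x := ρ) c2 hc.continuousAt
    exact c3.mul (c4.inner (𝕜 := ℝ) (hc.continuousAt.sub continuousAt_const))
  · have h1 := hg.der.tendsto_slope_zero_left
    have h2 : Tendsto (fun δ : ℝ => -δ) (𝓝[>] 0) (𝓝[<] 0) := by
      simpa using (tendsto_neg_nhdsGT (a := (0 : ℝ)))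
    filter_upwards [(h1.comp h2).eventually (gt_mem_nhds (lt_add_one _)), Ioo_mem_nhdsGT hρ] with δ hδ hδ'
    rw [intervalIntegral.integral_const_mul, mul_left_comm]
    refine mul_le_mul_of_nonneg_left ?_ (by positivity)
    have h3 := hDr (ρ - δ) ρ (by linarith [hδ'.2]) (by linarith [hδ'.1]) le_rfl
    simp only [Function.comp, smul_eq_mul, ← sub_eq_add_neg, inv_neg] at hδ
    rw [h3] at hδ
    linarith
  · have h1 := (integral_polar x le_rfl hρ.le _ ((mci_f h hρ hcB hm hb).mono_set sdiff_subset)).2.1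
    rw [intervalIntegrable_iff_integrableOn_Ioo_of_le hρ.le] at h1 ⊢
    exact h1.congr_fun (fun r hr => mci_circ u ψ x hr.1) measurableSet_Ioo

end Crest.Agent.R135
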