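import Crest.Agent.R135.Defs
import Crest.Agent.R135.MEL
import Crest.Agent.R135.MGood
import Crest.Agent.R135.MCIAux2
set_option autoImplicit false
open MeasureTheory Metric Set Filter Topology
open scoped ENNReal NNReal Real ComplexConjugate

namespace Crest.Agent.R135

variable {U K : Set ℂ} {a b : ℝ} {u : ℂ → ℝ}

/-- Circle identity. Recipe: `MS.el` for `ψ η_δ` (zero outside `ball x ρ`), `η_δ z = max 0 (min 1 ((ρ - ‖z-x‖)/δ))`;
`∇(ψη) = η∇ψ + ψ∇η` a.e., `∇η = -ν/δ` on the shell; polar coordinates give the term `δ⁻¹∫_{ρ-δ}^ρ ∫ ψ cq dφ dr`.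
It tends to the circle integral: on the angles at distance `≥ ε` from the finitely many bad ones, uniform continuity of
`ψ ⟪∇u, ·⟫` on a compact subset of `ball x R \ K`; on the rest (measure `≤ Cε`) Cauchy–Schwarz with
`δ⁻¹ (Dr ρ - Dr (ρ-δ)) ≤ ce + 1` (`Good.der`). -/
theorem MS.ci (h : MS U a b K u) {x : ℂ} {ρ R : ℝ} (hg : Good K u x ρ) (hR : ρ < R) (hB : ball x R ⊆ U) {ψ : ℂ → ℝ}
    (hψ : LocallyLipschitzOn (ball x R \ K) ψ) {B : ℝ} (hb : ∀ z ∈ ball x R \ K, |ψ z| ≤ B)
    (hD : Dir ψ (ball x ρ) < ⊤) {I : ℝ} (hI0 : 0 ≤ I)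
    (hI : ENNReal.ofReal a * ∫⁻ z in closedBall x ρ, ‖ψ z‖ₑ ≤ ENNReal.ofReal I) :
    |(∫ z in ball x ρ, inner ℝ (gradient u z) (gradient ψ z)) -
      ∫ φ in (-π)..π, ψ (circleMap x ρ φ) * cq u x ρ φ| ≤ I / 2 := by
  classical
  have hρ := hg.pos
  have hπ : -π ≤ π := by linarith [Real.pi_pos]
  have hW : IsOpen (ball x R \ K) := isOpen_ball.sdiff h.closed
  have hcB : closedBall x ρ ⊆ U := (closedBall_subset_ball hR).trans hB
  set ψ' := (ball x R \ K).indicator ψ with hψ'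
  have he : EqOn ψ' ψ (ball x R \ K) := fun z hz => indicator_of_mem hz ψ
  have hl : LocallyLipschitzOn (ball x R \ K) ψ' := by
    intro z hz
    obtain ⟨L, t, ht, hL⟩ := hψ hz
    refine ⟨L, _, inter_mem ht self_mem_nhdsWithin, fun p hp q hq => ?_⟩
    rw [he hp.2, he hq.2]
    exact hL hp.1 hq.1
  have hm : Measurable ψ' := by
    rw [hψ', ← piecewise_eq_indicator]
    exact hψ.continuousOn.measurable_piecewise continuousOn_const hW.measurableSet
  have hb' : ∀ z, |ψ' z| ≤ |B| := by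
    intro z
    by_cases hz : z ∈ ball x R \ K
    · rw [he hz]; exact (hb z hz).trans (le_abs_self B)
    · rw [hψ', indicator_of_notMem hz, abs_zero]; exact abs_nonneg B
  have hae : ∀ᵐ z ∂volume.restrict (ball x ρ), gradient ψ' z = gradient ψ z := by
    rw [ae_restrict_iff' measurableSet_ball]
    filter_upwards [h.ae_not_mem] with z h2 hz
    exact EventuallyEq.gradient_eq (he.eventuallyEq_of_mem
      (hW.mem_nhds ⟨ball_subset_ball hR.le hz, h2 (hcB (ball_subset_closedBall hz))⟩))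
  have hD' : Dir ψ' (ball x ρ) < ⊤ := by
    refine lt_of_eq_of_lt (lintegral_congr_ae ?_) hD
    filter_upwards [hae] with z hz
    rw [hz]
  have key := mci_main h hg hR hB hl hm hb' hD' hI0
    ((mul_le_mul_right (lintegral_mono fun z => enorm_indicator_le_enorm_self ψ z) _).trans hI)
  have e1 : ∫ z in ball x ρ, inner ℝ (gradient u z) (gradient ψ' z) =
      ∫ z in ball x ρ, inner ℝ (gradient u z) (gradient ψ z) := by
    refine integral_congr_ae ?_
    filter_upwards [hae] with z hz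
    rw [hz]
  have e2 : ∫ φ in (-π)..π, ψ' (circleMap x ρ φ) * cq u x ρ φ =
      ∫ φ in (-π)..π, ψ (circleMap x ρ φ) * cq u x ρ φ := by
    refine intervalIntegral.integral_congr_ae ?_
    filter_upwards [(finite_angles hρ hg.fin (-π) π).countable.ae_notMem volume] with φ hφ hφ'
    rw [uIoc_of_le hπ] at hφ'
    rw [he ⟨by rw [mem_ball, tpolar_dist x hρ]; exact hR, fun hK => hφ ⟨Ioc_subset_Icc_self hφ', hK⟩⟩]
  rwa [e1, e2] at key

end Crest.Agent.R135
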