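import Crest.Agent.R135.Defs
import Crest.Agent.R135.MCI
set_option autoImplicit false
open MeasureTheory Metric Set Filter Topology
open scoped ENNReal NNReal Real ComplexConjugate

namespace Crest.Agent.R135

variable {U K : Set ℂ} {a b : ℝ} {u : ℂ → ℝ}

theorem mci2_I {ψ : ℂ → ℝ} {x : ℂ} {ρ c : ℝ} (ha : 0 ≤ a) (hc : 0 ≤ c) (hρ : 0 ≤ ρ)
    (h : ∀ᵐ z, z ∈ closedBall x ρ → a * |ψ z| ≤ c) :
    ENNReal.ofReal a * ∫⁻ z in closedBall x ρ, ‖ψ z‖ₑ ≤ ENNReal.ofReal (π * c * ρ ^ 2) := by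
  rw [← lintegral_const_mul' _ _ ENNReal.ofReal_ne_top]
  calc _ ≤ ∫⁻ _ in closedBall x ρ, ENNReal.ofReal c := by
        refine lintegral_mono_ae ((ae_restrict_iff' measurableSet_closedBall).2 (h.mono fun z hz hm => ?_))
        rw [Real.enorm_eq_ofReal_abs, ← ENNReal.ofReal_mul ha]
        exact ENNReal.ofReal_le_ofReal (hz hm)
    _ = _ := by
        rw [setLIntegral_const, Complex.volume_closedBall, ← ENNReal.ofReal_pow hρ, ← ENNReal.ofReal_coe_nnreal,
          ← ENNReal.ofReal_mul (by positivity), ← ENNReal.ofReal_mul hc, NNReal.coe_real_pi]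
        congr 1
        ring

theorem mci2_Dr (u : ℂ → ℝ) (x : ℂ) (ρ : ℝ) :
    Dr u x ρ = ∫ z in ball x ρ, inner ℝ (gradient u z) (gradient u z) := by
  rw [integral_eq_lintegral_of_nonneg_ae (ae_of_all _ fun z => real_inner_self_nonneg)
    ((measurable_gradient u).inner (measurable_gradient u)).aestronglyMeasurable, Dr, Dir]
  congr 2
  funext z
  rw [real_inner_self_eq_norm_sq, ENNReal.ofReal_pow (norm_nonneg _), ofReal_norm]

/-- `ψ = 1` -/
theorem MS.flux (h : MS U a b K u) {x : ℂ} {ρ R : ℝ} (hg : Good K u x ρ) (hR : ρ < R) (hB : ball x R ⊆ U) :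
    |∫ φ in (-π)..π, cq u x ρ φ| ≤ π / 2 * a * ρ ^ 2 := by
  have e : gradient (fun _ : ℂ => (1 : ℝ)) = fun _ => 0 := funext fun z => gradient_fun_const z 1
  have h1 := h.ci hg hR hB (ψ := fun _ => 1) (LipschitzWith.const 1).locallyLipschitz.locallyLipschitzOn
    (B := 1) (fun _ _ => by simp) (by simp [Dir, e]) (I := π * a * ρ ^ 2) (by have := h.a0; positivity)
    (mci2_I h.a0 h.a0 hg.pos.le (ae_of_all _ fun _ _ => by simp))
  simp only [e, inner_zero_right, integral_zero, zero_sub, abs_neg, one_mul] at h1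
  linarith

/-- `ψ = Φ_M (u - Λ)` (`exists_trunc`), `M → ∞` by dominated convergence; `u - Λ` is bounded on the circle off `K`
(`bdd_off_finite` for `u - Λ`), and `a |ψ| ≤ a b`. -/
theorem MS.ci2 (h : MS U a b K u) {x : ℂ} {ρ R : ℝ} (hg : Good K u x ρ) (hR : ρ < R) (hB : ball x R ⊆ U) {Λ : ℂ → ℝ}
    (hΛ : LC (ball x R \ K) Λ) (hb : ∀ z ∈ ball x R \ K, a * |Λ z| ≤ a * b / 2) :
    IntervalIntegrable (fun φ => (u (circleMap x ρ φ) - Λ (circleMap x ρ φ)) * cq u x ρ φ) volume (-π) π ∧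
    |Dr u x ρ - ∫ φ in (-π)..π, (u (circleMap x ρ φ) - Λ (circleMap x ρ φ)) * cq u x ρ φ| ≤
      π / 2 * (a * b) * ρ ^ 2 := by
  have hW : IsOpen (ball x R \ K) := isOpen_ball.sdiff h.closed
  have hcB : closedBall x ρ ⊆ ball x R := closedBall_subset_ball hR
  have hu : ContDiffOn ℝ 1 u (ball x R \ K) := h.c1.mono (sdiff_subset_sdiff_left hB)
  set v : ℂ → ℝ := fun z => u z - Λ z with hv
  have hvc : ContDiffOn ℝ 1 v (ball x R \ K) := hu.sub (hΛ.contDiffOn 1)
  have hvd (z : ℂ) (hz : z ∈ ball x R \ K) : HasGradientAt v (gradient u z) z := by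
    have h1 := ((hu.contDiffAt (hW.mem_nhds hz)).differentiableAt one_ne_zero).hasGradientAt
    refine HasGradientAt.congr_of_eventuallyEq (f := fun y => u y - Λ z) (h1.hasFDerivAt.sub_const _) ?_
    exact (hΛ z hz).mono fun y hy => by simp only [hv, hy]
  have hae : ∀ᵐ z, z ∈ closedBall x ρ → z ∈ ball x R \ K :=
    h.ae_not_mem.mono fun z hz hm => ⟨hcB hm, hz (hB (hcB hm))⟩
  have hae' : ∀ᵐ z ∂volume.restrict (ball x ρ), z ∈ ball x R \ K :=
    (ae_restrict_iff' measurableSet_ball).2 (hae.mono fun z hz hm => hz (ball_subset_closedBall hm))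
  have hDu : Dir u (ball x ρ) < ⊤ := Dir_closedBall u x ρ ▸ h.Dir_lt_top (hcB.trans hB)
  -- the circle
  set P := {φ ∈ Icc (-π) π | circleMap x ρ φ ∈ K} with hP
  have hPf : P.Finite := finite_angles hg.pos hg.fin _ _
  have hmem (φ : ℝ) (hφ : φ ∈ Ioo (-π) π \ P) : circleMap x ρ φ ∈ ball x R \ K :=
    ⟨hcB (sphere_subset_closedBall (circleMap_mem_sphere x hg.pos.le φ)),
      fun hk => hφ.2 ⟨Ioo_subset_Icc_self hφ.1, hk⟩⟩
  have hπ : -π ≤ π := by linarith [Real.pi_pos]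
  have hder (φ : ℝ) (hφ : φ ∈ Ioo (-π) π \ P) :
      HasDerivAt (fun θ => v (circleMap x ρ θ)) (cp u x ρ φ) φ := by
    have h1 := hasDerivAt_circle (hvd _ (hmem φ hφ)).differentiableAt
    rwa [cp, (hvd _ (hmem φ hφ)).gradient] at h1
  obtain ⟨M₀, hM₀⟩ := bdd_off_finite hπ hPf hder (hg.int_pq _ _).2.2.1
  have hset : (Ioo (-π) π \ P : Set ℝ) =ᵐ[volume] Ioc (-π) π :=
    (sdiff_null_ae_eq_self (hPf.measure_zero _)).trans Ioo_ae_eq_Ioc
  have hms : MeasurableSet (Ioo (-π) π \ P) := measurableSet_Ioo.diff hPf.measurableSet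
  refine ⟨?_, ?_⟩
  · rw [intervalIntegrable_iff_integrableOn_Ioc_of_le hπ, ← integrableOn_congr_set_ae hset]
    refine Integrable.bdd_mul (c := M₀) ((integrableOn_congr_set_ae hset).2 (hg.int_pq _ _).2.2.2.1)
      (ContinuousOn.aestronglyMeasurable (fun φ hφ => (hder φ hφ).continuousAt.continuousWithinAt) hms)
      ((ae_restrict_iff' hms).2 (ae_of_all _ hM₀))
  choose Φ hΦ h1 h2 h3 h4 h5 using fun n : ℕ => exists_trunc ((n : ℝ) + 1) (by positivity)
  have hgr (n : ℕ) (z : ℂ) (hz : z ∈ ball x R \ K) :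
      gradient (fun z => Φ n (v z)) z = deriv (Φ n) (v z) • gradient u z := by
    have h6 := ((hΦ n).differentiable (by simp) (v z)).hasDerivAt.comp_hasFDerivAt z (hvd z hz).hasFDerivAt
    rw [← map_smul] at h6
    exact HasGradientAt.gradient h6
  have hnorm (n : ℕ) (z : ℂ) (hz : z ∈ ball x R \ K) :
      ‖gradient (fun z => Φ n (v z)) z‖ ≤ ‖gradient u z‖ := by
    rw [hgr n z hz, norm_smul, Real.norm_of_nonneg (h3 n _).1]
    exact mul_le_of_le_one_left (norm_nonneg _) (h3 n _).2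
  have hab : 0 ≤ a * b := mul_nonneg h.a0 h.b0
  have key (n : ℕ) := h.ci hg hR hB (ψ := fun z => Φ n (v z))
    (locLip_of_contDiffOn hW (((hΦ n).of_le (by simp)).comp_contDiffOn hvc)) (fun z _ => h5 n _)
    (lt_of_le_of_lt (lintegral_mono_ae (hae'.mono fun z hz => by
      have := hnorm n z hz
      rw [← ofReal_norm, ← ofReal_norm]
      gcongr)) hDu)
    (I := π * (a * b) * ρ ^ 2) (by positivity)
    (mci2_I h.a0 hab hg.pos.le (hae.mono fun z hz hm => by
      have h6 := h.osc z ⟨hB (hz hm).1, (hz hm).2⟩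
      have h7 := hb z (hz hm)
      have h8 := mul_le_mul_of_nonneg_left ((h4 n (v z)).trans (abs_sub (u z) (Λ z))) h.a0
      linarith))
  have l1 : Tendsto (fun n => ∫ z in ball x ρ, inner ℝ (gradient u z) (gradient (fun z => Φ n (v z)) z))
      atTop (𝓝 (Dr u x ρ)) := by
    rw [mci2_Dr]
    refine tendsto_integral_of_dominated_convergence (fun z => inner ℝ (gradient u z) (gradient u z))
      (fun n => ((measurable_gradient u).inner (measurable_gradient _)).aestronglyMeasurable)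
      (integrableOn_inner hDu hDu) (fun n => hae'.mono fun z hz => ?_) (hae'.mono fun z hz => ?_)
    · rw [real_inner_self_eq_norm_mul_norm]
      exact (norm_inner_le_norm _ _).trans (mul_le_mul_of_nonneg_left (hnorm n z hz) (norm_nonneg _))
    · refine tendsto_const_nhds.congr' ?_
      filter_upwards [tendsto_natCast_atTop_atTop.eventually_ge_atTop |v z|] with n hn
      rw [hgr n z hz, h2 n _ (by linarith), one_smul]
  have l2 : ∀ᶠ n : ℕ in atTop, ∫ φ in (-π)..π, Φ n (v (circleMap x ρ φ)) * cq u x ρ φ =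
      ∫ φ in (-π)..π, v (circleMap x ρ φ) * cq u x ρ φ := by
    filter_upwards [tendsto_natCast_atTop_atTop.eventually_ge_atTop M₀] with n hn
    rw [intervalIntegral.integral_of_le hπ, intervalIntegral.integral_of_le hπ,
      ← setIntegral_congr_set hset, ← setIntegral_congr_set hset]
    refine setIntegral_congr_fun hms fun φ hφ => ?_
    rw [h1 n _ (by linarith [hM₀ φ hφ])]
  refine le_of_tendsto (l1.sub_const _).abs ?_
  filter_upwards [l2] with n hn
  have := key n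
  rw [hn] at this
  linarith

/-- short arcs with separate labels: `ci2`, periodicity (`circle_shift'` applied to
`z ↦ (u z - Λ z) ⟪∇u z, z - x⟫`), `intervalIntegral.sum_integral_adjacent_intervals`, `arc_poincare` -/
theorem MS.decay_ineq (h : MS U a b K u) {x : ℂ} {ρ R : ℝ} (hg : Good K u x ρ) (hR : ρ < R) (hB : ball x R ⊆ U)
    {Λ : ℂ → ℝ} (hΛ : LC (ball x R \ K) Λ) (hb : ∀ z ∈ ball x R \ K, a * |Λ z| ≤ a * b / 2) (n : ℕ) (α : ℕ → ℝ)
    (hn : α n = α 0 + 2 * π) (hα : ∀ j < n, α j < α (j + 1) ∧ α (j + 1) ≤ α j + 15 / 4)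
    (hK : ∀ j < n, ∀ φ ∈ Ioo (α j) (α (j + 1)), circleMap x ρ φ ∉ K ∧
      Λ (circleMap x ρ φ) = u (circleMap x ρ ((α j + α (j + 1)) / 2))) :
    Dr u x ρ ≤ 2 / 3 * ρ * ce u x ρ + 2 * (a * b) * ρ ^ 2 := by
  obtain ⟨hI, hE⟩ := h.ci2 hg hR hB hΛ hb
  have hρ := hg.pos
  set f : ℂ → ℝ := fun z => (u z - Λ z) * inner ℝ (gradient u z) (z - x) with hf
  have hfe : (fun φ => (u (circleMap x ρ φ) - Λ (circleMap x ρ φ)) * cq u x ρ φ) =
      fun φ => f (circleMap x ρ φ) := rfl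
  rw [hfe] at hI hE
  have hint := circle_integrable x ρ f hI
  have hop : IsOpen (U \ K) := h.isOpen.sdiff h.closed
  have hmem : ∀ φ : ℝ, circleMap x ρ φ ∈ U := fun φ => hB (by
    rw [mem_ball, tpolar_dist x hρ]; exact hR)
  have harc : ∀ j < n, ∫ φ in (α j)..(α (j + 1)), f (circleMap x ρ φ) ≤
      2 / 3 * ∫ φ in (α j)..(α (j + 1)), (cp u x ρ φ ^ 2 + cq u x ρ φ ^ 2) := by
    intro j hj
    obtain ⟨h1, h2⟩ := hα j hj
    have hd : ∀ φ ∈ Ioo (α j) (α (j + 1)),
        HasDerivAt (fun θ => u (circleMap x ρ θ)) (cp u x ρ φ) φ := fun φ hφ =>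
      hasDerivAt_circle ((h.c1.contDiffAt (hop.mem_nhds ⟨hmem φ, (hK j hj φ hφ).1⟩)).differentiableAt
        one_ne_zero)
    have hP := (arc_poincare h1 (by linarith) hd (measurable_cp u x ρ) (measurable_cq u x ρ)
      (hg.int_pq _ _).1 (hg.int_pq _ _).2.1).2
    have he : ∫ φ in (α j)..(α (j + 1)), f (circleMap x ρ φ) =
        ∫ φ in (α j)..(α (j + 1)), (u (circleMap x ρ φ) - u (circleMap x ρ ((α j + α (j + 1)) / 2))) *
          cq u x ρ φ := by
      rw [intervalIntegral.integral_of_le h1.le, intervalIntegral.integral_of_le h1.le,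
        integral_Ioc_eq_integral_Ioo, integral_Ioc_eq_integral_Ioo]
      refine setIntegral_congr_fun measurableSet_Ioo fun φ hφ => ?_
      simp only [hf]
      rw [(hK j hj φ hφ).2]
      rfl
    rw [he]
    exact (le_abs_self _).trans hP
  have hs1 : ∑ j ∈ Finset.range n, ∫ φ in (α j)..(α (j + 1)), f (circleMap x ρ φ) =
      ∫ φ in (α 0)..(α n), f (circleMap x ρ φ) :=
    intervalIntegral.sum_integral_adjacent_intervals fun k _ => hint _ _
  have hs2 : ∑ j ∈ Finset.range n, ∫ φ in (α j)..(α (j + 1)), (cp u x ρ φ ^ 2 + cq u x ρ φ ^ 2) =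
      ∫ φ in (α 0)..(α n), (cp u x ρ φ ^ 2 + cq u x ρ φ ^ 2) :=
    intervalIntegral.sum_integral_adjacent_intervals fun k _ => (hg.int_pq _ _).1.add (hg.int_pq _ _).2.1
  have hle : ∑ j ∈ Finset.range n, ∫ φ in (α j)..(α (j + 1)), f (circleMap x ρ φ) ≤
      ∑ j ∈ Finset.range n, 2 / 3 * ∫ φ in (α j)..(α (j + 1)), (cp u x ρ φ ^ 2 + cq u x ρ φ ^ 2) :=
    Finset.sum_le_sum fun j hj => harc j (Finset.mem_range.1 hj)
  rw [← Finset.mul_sum, hs1, hs2, hn, circle_shift' x ρ (α 0) f, hg.integral_pq (α 0)] at hle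
  have hab : 0 ≤ a * b * ρ ^ 2 := mul_nonneg (mul_nonneg h.a0 h.b0) (sq_nonneg _)
  have hpi : π / 2 * (a * b) * ρ ^ 2 ≤ 2 * (a * b) * ρ ^ 2 := by
    have := Real.pi_lt_four
    nlinarith
  have := (abs_le.1 hE).2
  linarith


/-- empty circle: by the intermediate value theorem `g φ₀ = g (φ₀ + π)` for some `φ₀`; two half circles centred there, `Λ` constant -/
theorem MS.decay_empty (h : MS U a b K u) {x : ℂ} {ρ R : ℝ} (hg : Good K u x ρ) (hR : ρ < R) (hB : ball x R ⊆ U)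
    (he : K ∩ sphere x ρ = ∅) : Dr u x ρ ≤ 2 / 3 * ρ * ce u x ρ + 2 * (a * b) * ρ ^ 2 := by
  have hρ := hg.pos
  have hop : IsOpen (U \ K) := h.isOpen.sdiff h.closed
  have hmemB : ∀ φ : ℝ, circleMap x ρ φ ∈ ball x R := fun φ => by
    rw [mem_ball, tpolar_dist x hρ]; exact hR
  have hnK : ∀ φ : ℝ, circleMap x ρ φ ∉ K := fun φ hφ => by
    have : circleMap x ρ φ ∈ K ∩ sphere x ρ := ⟨hφ, by rw [mem_sphere, tpolar_dist x hρ]⟩
    rw [he] at this
    exact this
  set g : ℝ → ℝ := fun θ => u (circleMap x ρ θ) with hgd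
  have hgc : Continuous g := continuous_iff_continuousAt.2 fun φ =>
    (hasDerivAt_circle ((h.c1.contDiffAt (hop.mem_nhds ⟨hB (hmemB φ), hnK φ⟩)).differentiableAt
      one_ne_zero)).continuousAt
  have hper : g (π + π) = g 0 := by
    simp only [hgd]
    rw [← two_mul, ← periodic_circleMap x ρ 0, zero_add]
  obtain ⟨φ₀, -, hφ₀⟩ : ∃ φ₀ ∈ Icc (0 : ℝ) π, g φ₀ = g (φ₀ + π) := by
    have hc : ContinuousOn (fun φ => g φ - g (φ + π)) (Icc 0 π) :=
      (hgc.sub (hgc.comp (continuous_id.add continuous_const))).continuousOn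
    have h0 : (0 : ℝ) ∈ uIcc (g 0 - g (0 + π)) (g π - g (π + π)) := by
      rw [hper, zero_add, mem_uIcc]
      rcases le_total (g 0) (g π) with h1 | h1
      · left; constructor <;> linarith
      · right; constructor <;> linarith
    have := intermediate_value_uIcc (f := fun φ => g φ - g (φ + π)) (a := 0) (b := π)
      (by rw [uIcc_of_le Real.pi_pos.le]; exact hc) h0
    obtain ⟨φ₀, h1, h2⟩ := this
    rw [uIcc_of_le Real.pi_pos.le] at h1
    exact ⟨φ₀, h1, sub_eq_zero.1 h2⟩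
  have hpi : π ≤ 15 / 4 := by have := Real.pi_lt_d2; linarith
  refine h.decay_ineq hg hR hB (Λ := fun _ => g φ₀) (fun z _ => Eventually.of_forall fun _ => rfl)
    (fun z _ => h.osc _ ⟨hB (hmemB φ₀), hnK φ₀⟩) 2 (fun j => φ₀ - π / 2 + j * π) (by push_cast; ring)
    (fun j _ => ?_) (fun j hj φ _ => ⟨hnK φ, ?_⟩)
  · push_cast
    have := Real.pi_pos
    constructor <;> linarith
  · interval_cases j
    · have : (φ₀ - π / 2 + ((0 : ℕ) : ℝ) * π + (φ₀ - π / 2 + ((0 + 1 : ℕ) : ℝ) * π)) / 2 = φ₀ := by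
        push_cast; ring
      rw [this]
    · have : (φ₀ - π / 2 + ((1 : ℕ) : ℝ) * π + (φ₀ - π / 2 + ((1 + 1 : ℕ) : ℝ) * π)) / 2 = φ₀ + π := by
        push_cast; ring
      rw [this]
      exact hφ₀


end Crest.Agent.R135
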