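import Crest.Agent.R135.Defs
import Crest.Agent.R135.TLen
import Crest.Agent.R135.TPolar
import Crest.Agent.R135.MGood
set_option autoImplicit false
open MeasureTheory Metric Set Filter Topology
open scoped ENNReal NNReal Real ComplexConjugate

namespace Crest.Agent.R135

/-! The layer-and-cone competitor: definitions and geometry. -/

/-- radial walls of height `κ` below the points of `K ∩ sphere x ρ`, then the cone over their feet with apex `y` -/
def xlK (K : Set ℂ) (x y : ℂ) (ρ κ : ℝ) : Set ℂ :=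
  (K \ ball x ρ) ∪ {y} ∪ ⋃ p ∈ K ∩ sphere x ρ,
    (segment ℝ p (x + ((1 - κ / ρ : ℝ) : ℂ) * (p - x)) ∪ segment ℝ (x + ((1 - κ / ρ : ℝ) : ℂ) * (p - x)) y)

/-- radial projection onto `sphere x ρ` -/
noncomputable def rproj (x : ℂ) (ρ : ℝ) (z : ℂ) : ℂ := x + ((ρ / ‖z - x‖ : ℝ) : ℂ) * (z - x)

open Classical in
/-- `w₀` outside, linear interpolation between `w₀` and `m` in the layer, `m ∘ rproj ∘ P` inside -/
noncomputable def xlW (w₀ m : ℂ → ℝ) (P : ℂ → ℂ) (x : ℂ) (ρ κ : ℝ) (z : ℂ) : ℝ :=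
  if ρ ≤ ‖z - x‖ then w₀ z
  else if ρ - κ ≤ ‖z - x‖ then
    m (rproj x ρ z) + (‖z - x‖ - (ρ - κ)) / κ * (w₀ (rproj x ρ z) - m (rproj x ρ z))
  else m (rproj x ρ (P z))

/-- central projection from an interior point -/
structure CProj (P : ℂ → ℂ) (x y : ℂ) (r : ℝ) : Prop where
  cont : ContinuousOn P {y}ᶜ
  mem : ∀ z, z ≠ y → P z ∈ sphere x r
  fix : ∀ z ∈ sphere x r, P z = z
  seg : ∀ z ∈ closedBall x r, z ≠ y → z ∈ segment ℝ (P z) y

/-- `P z = y + s (z - y)` with `s > 0` the positive root of `‖y - x + s (z-y)‖² = r²` (explicit quadratic formula) -/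
theorem exists_cproj {x y : ℂ} {r : ℝ} (hy : y ∈ ball x r) : ∃ P : ℂ → ℂ, CProj P x y r := by
  have hr : r ≠ 0 := (pos_of_mem_ball hy).ne'
  have h0 : ball (x - y) r ∈ 𝓝 (0 : ℂ) := isOpen_ball.mem_nhds (by
    rwa [mem_ball', dist_zero_right, ← dist_eq_norm, ← mem_ball'])
  have hc := convex_ball (x - y) r
  have hp : ∀ z, z ≠ y → 0 < gauge (ball (x - y) r) (z - y) := fun z hz =>
    (gauge_pos (absorbent_nhds_zero h0) (NormedSpace.isVonNBounded_of_isBounded ℝ isBounded_ball)).2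
      (sub_ne_zero.2 hz)
  have h1 : ∀ w, gauge (ball (x - y) r) w = 1 ↔ y + w ∈ sphere x r := fun w => by
    rw [gauge_eq_one_iff_mem_frontier hc h0, frontier_ball _ hr, mem_sphere_iff_norm, mem_sphere_iff_norm,
      show w - (x - y) = y + w - x by ring]
  refine ⟨fun z => y + (gauge (ball (x - y) r) (z - y))⁻¹ • (z - y), continuousOn_const.add
    ((((continuous_gauge hc h0).comp (continuous_sub_right y)).continuousOn.inv₀ fun z hz =>
      (hp z hz).ne').smul (continuous_sub_right y).continuousOn), fun z hz => (h1 _).1 ?_, fun z hz => ?_,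
    fun z hz hzy => ⟨_, 1 - gauge (ball (x - y) r) (z - y), (hp z hzy).le, sub_nonneg.2 ?_, add_sub_cancel _ _, ?_⟩⟩
  · rw [gauge_smul_of_nonneg (inv_pos.2 (hp z hz)).le, smul_eq_mul, inv_mul_cancel₀ (hp z hz).ne']
  · rw [(h1 (z - y)).2 (by rwa [add_sub_cancel]), inv_one, one_smul, add_sub_cancel]
  · rw [gauge_le_one_iff_mem_closure hc h0, closure_ball _ hr, mem_closedBall, dist_sub_right]
    exact hz
  · rw [smul_add, smul_inv_smul₀ (hp z hzy).ne', sub_smul, one_smul]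
    ring

theorem xlK_closed {K : Set ℂ} (hK : IsClosed K) {x y : ℂ} {ρ κ : ℝ} (hf : (K ∩ sphere x ρ).Finite) :
    IsClosed (xlK K x y ρ κ) := by
  have h : ∀ a b : ℂ, IsClosed (segment ℝ a b) := fun a b => by
    rw [segment_eq_image]
    exact (isCompact_Icc.image (by fun_prop)).isClosed
  exact ((hK.sdiff isOpen_ball).union isClosed_singleton).union
    (hf.isClosed_biUnion fun p _ => (h _ _).union (h _ _))

theorem MXL0a_foot {x p : ℂ} {ρ κ : ℝ} (hκ : 0 < κ) (hκρ : κ ≤ ρ / 2) (hp : p ∈ sphere x ρ) :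
    x + ((1 - κ / ρ : ℝ) : ℂ) * (p - x) ∈ closedBall x ρ ∧ ‖p - (x + ((1 - κ / ρ : ℝ) : ℂ) * (p - x))‖ = κ := by
  have hρ : 0 < ρ := by linarith
  rw [mem_sphere_iff_norm] at hp
  have h1 : κ / ρ ≤ 1 := (div_le_one hρ).2 (by linarith)
  constructor
  · rw [mem_closedBall_iff_norm, add_sub_cancel_left, norm_mul, hp, Complex.norm_real,
      Real.norm_of_nonneg (sub_nonneg.2 h1)]
    exact mul_le_of_le_one_left hρ.le (sub_le_self _ (by positivity))
  · rw [show p - (x + ((1 - κ / ρ : ℝ) : ℂ) * (p - x)) = ((κ / ρ : ℝ) : ℂ) * (p - x) by push_cast; ring, norm_mul, hp,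
      Complex.norm_real, Real.norm_of_nonneg (by positivity), div_mul_cancel₀ _ hρ.ne']

theorem xlK_diff {K : Set ℂ} {x y : ℂ} {ρ κ : ℝ} (hκ : 0 < κ) (hκρ : κ ≤ ρ / 2) (hy : y ∈ ball x (ρ - κ)) :
    xlK K x y ρ κ \ closedBall x ρ = K \ closedBall x ρ := by
  have hy' : y ∈ closedBall x ρ := (ball_subset_closedBall.trans (closedBall_subset_closedBall (by linarith))) hy
  refine Subset.antisymm ?_ fun z hz => ⟨Or.inl (Or.inl ⟨hz.1, fun h => hz.2 (ball_subset_closedBall h)⟩), hz.2⟩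
  rintro z ⟨(h | rfl) | h, hz⟩
  · exact ⟨h.1, hz⟩
  · exact absurd hy' hz
  · obtain ⟨p, hp, h⟩ := mem_iUnion₂.1 h
    have h1 := (MXL0a_foot hκ hκρ hp.2).1
    exact absurd (union_subset ((convex_closedBall x ρ).segment_subset (sphere_subset_closedBall hp.2) h1)
      ((convex_closedBall x ρ).segment_subset h1 hy') h) hz

theorem xlK_len {K : Set ℂ} {x y : ℂ} {ρ κ : ℝ} (hκ : 0 < κ) (hκρ : κ ≤ ρ / 2) (hf : (K ∩ sphere x ρ).Finite) :
    H1 (xlK K x y ρ κ ∩ closedBall x ρ) ≤ ENNReal.ofReal (∑ p ∈ hf.toFinset, (‖p - y‖ + 2 * κ)) := by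
  have h1 : xlK K x y ρ κ ∩ closedBall x ρ ⊆ ((K ∩ sphere x ρ) ∪ {y}) ∪ ⋃ p ∈ hf.toFinset,
      (segment ℝ p (x + ((1 - κ / ρ : ℝ) : ℂ) * (p - x)) ∪ segment ℝ (x + ((1 - κ / ρ : ℝ) : ℂ) * (p - x)) y) := by
    rintro z ⟨(h | h) | h, hz⟩
    · exact Or.inl (Or.inl ⟨h.1, le_antisymm hz (not_lt.1 h.2)⟩)
    · exact Or.inl (Or.inr h)
    · exact Or.inr (by simpa only [Finite.mem_toFinset] using h)
  refine (measure_mono h1).trans ((measure_union_le _ _).trans ?_)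
  rw [H1_finite (hf.union (finite_singleton y)), zero_add,
    ENNReal.ofReal_sum_of_nonneg fun p _ => by positivity]
  refine (measure_biUnion_finset_le _ _).trans (Finset.sum_le_sum fun p hp => (measure_union_le _ _).trans ?_)
  have h2 := (MXL0a_foot hκ hκρ (hf.mem_toFinset.1 hp).2).2
  rw [H1_segment, H1_segment, ← ENNReal.ofReal_add (norm_nonneg _) (norm_nonneg _)]
  refine ENNReal.ofReal_le_ofReal ?_
  have h3 := norm_sub_le_norm_sub_add_norm_sub (x + ((1 - κ / ρ : ℝ) : ℂ) * (p - x)) p y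
  rw [norm_sub_rev _ p] at h3
  linarith

/-- joined by an arc avoiding `K` -/
def xavR (K : Set ℂ) (x : ℂ) (ρ : ℝ) (z w : ℂ) : Prop :=
  ∃ s t : ℝ, circleMap x ρ s = z ∧ circleMap x ρ t = w ∧ ∀ φ ∈ uIcc s t, circleMap x ρ φ ∉ K

theorem xav_add (x : ℂ) (ρ s θ : ℝ) :
    circleMap x ρ (s + θ) = x + (circleMap x ρ s - x) * Complex.exp (θ * Complex.I) := by
  simp only [circleMap, add_sub_cancel_left, Complex.ofReal_add, add_mul, Complex.exp_add, mul_assoc]

theorem xavR.symm {K : Set ℂ} {x z w : ℂ} {ρ : ℝ} (h : xavR K x ρ z w) : xavR K x ρ w z := by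
  obtain ⟨s, t, h1, h2, h3⟩ := h
  exact ⟨t, s, h2, h1, by rwa [uIcc_comm]⟩

theorem xavR.trans {K : Set ℂ} {x z w v : ℂ} {ρ : ℝ} (h : xavR K x ρ z w) (h' : xavR K x ρ w v) :
    xavR K x ρ z v := by
  obtain ⟨s, t, h1, h2, h3⟩ := h
  obtain ⟨s', t', h1', h2', h3'⟩ := h'
  have e : ∀ θ, circleMap x ρ (t + (θ - s')) = circleMap x ρ θ := fun θ => by
    rw [xav_add, h2, ← h1', ← xav_add, add_sub_cancel]
  refine ⟨s, t + (t' - s'), h1, (e t').trans h2', fun φ hφ => ?_⟩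
  rcases uIcc_subset_uIcc_union_uIcc (b := t) hφ with h4 | h4
  · exact h3 φ h4
  · have := h3' (φ - t + s') (by
      rw [mem_uIcc] at h4 ⊢
      rcases h4 with h4 | h4
      · left; constructor <;> linarith [h4.1, h4.2]
      · right; constructor <;> linarith [h4.1, h4.2])
    rwa [← e, add_sub_cancel_right, add_sub_cancel] at this

theorem xav_near {K : Set ℂ} (hK : IsClosed K) {x z : ℂ} {ρ : ℝ} (hρ : 0 < ρ) (hz : z ∈ sphere x ρ \ K) :
    ∀ᶠ w in 𝓝[sphere x ρ] z, xavR K x ρ z w := by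
  obtain ⟨s, hs⟩ : z ∈ range (circleMap x ρ) := by
    rw [range_circleMap, abs_of_pos hρ]
    exact hz.1
  have hn : ‖z - x‖ = ρ := mem_sphere_iff_norm.1 hz.1
  have h0 : z - x ≠ 0 := norm_pos_iff.1 (hn ▸ hρ)
  obtain ⟨ε, hε, hb⟩ := Metric.isOpen_iff.1 (hK.isOpen_compl.preimage (continuous_circleMap x ρ)) s
    (show circleMap x ρ s ∈ Kᶜ from hs ▸ hz.2)
  have h1 : Tendsto (fun w => s + Complex.arg ((w - x) / (z - x))) (𝓝 z) (𝓝 s) := by
    have h2 : Tendsto (fun w => (w - x) / (z - x)) (𝓝 z) (𝓝 1) :=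
      Continuous.tendsto' (by fun_prop) _ _ (div_self h0)
    simpa using ((Complex.continuousAt_arg Complex.one_mem_slitPlane).tendsto.comp h2).const_add s
  filter_upwards [mem_nhdsWithin_of_mem_nhds (h1.eventually (ball_mem_nhds s hε)), self_mem_nhdsWithin]
    with w hw hw'
  refine ⟨s, _, hs, ?_, fun φ hφ => hb ((convex_ball s ε).ordConnected.uIcc_subset (mem_ball_self hε) hw hφ)⟩
  have h3 := Complex.norm_mul_exp_arg_mul_I ((w - x) / (z - x))
  rw [norm_div, hn, mem_sphere_iff_norm.1 hw', div_self hρ.ne', Complex.ofReal_one, one_mul] at h3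
  rw [xav_add, h3, hs, mul_div_cancel₀ _ h0, add_sub_cancel]

theorem xav_osc {U K : Set ℂ} {a b : ℝ} {u : ℂ → ℝ} (h : MS U a b K u) {x : ℂ} {ρ : ℝ} (hg : Good K u x ρ)
    (hB : closedBall x ρ ⊆ U) {z w : ℂ} (hR : xavR K x ρ z w) : |u z - u w| ≤ ce1 u x ρ := by
  obtain ⟨s, t, rfl, rfl, h3⟩ := hR
  wlog hst : s ≤ t generalizing s t
  · rw [abs_sub_comm]
    exact this t s (by rwa [uIcc_comm]) (not_le.1 hst).le
  rw [uIcc_of_le hst] at h3
  obtain ⟨r, hr, hr', e⟩ : ∃ r ∈ Icc s t, r ≤ s + 2 * π ∧ circleMap x ρ r = circleMap x ρ t := by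
    rcases le_total t (s + 2 * π) with h4 | h4
    · exact ⟨t, ⟨hst, le_rfl⟩, h4, rfl⟩
    · have h5 := toIcoMod_mem_Ico Real.two_pi_pos s t
      exact ⟨_, ⟨h5.1, h5.2.le.trans h4⟩, h5.2.le, (periodic_circleMap x ρ).sub_zsmul_eq _⟩
  have hW : IsOpen (U \ K) := h.isOpen.sdiff h.closed
  rw [← e, abs_sub_comm]
  refine (osc_le (g := fun θ => u (circleMap x ρ θ)) hr.1 (fun φ hφ => hasDerivAt_circle ?_)
    (hg.int_pq s r).2.2.1).trans (le_trans ?_ (hg.integral_abs_cp s))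
  · exact (h.c1.contDiffAt (hW.mem_nhds ⟨hB (circleMap_mem_closedBall x hg.pos.le φ),
      h3 φ ⟨hφ.1, hφ.2.trans hr.2⟩⟩)).differentiableAt one_ne_zero
  · exact intervalIntegral.integral_mono_interval le_rfl hr.1 hr' (Eventually.of_forall fun _ => abs_nonneg _)
      (hg.int_pq s _).2.2.1.abs

/-- a value for each arc. Recipe: if `K ∩ sphere = ∅` take a constant; otherwise for an angle `φ` let `α φ < φ < β φ` be the nearest bad
angles, `m = u (circleMap ((α+β)/2))` (well defined by periodicity, locally constant); `osc_le`, `Good.integral_abs_cp`.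
Alternatively `m z = u (choice point of connectedComponentIn (sphere \ K) z)`. -/
theorem exists_arc_value {U K : Set ℂ} {a b : ℝ} {u : ℂ → ℝ} (h : MS U a b K u) {x : ℂ} {ρ : ℝ} (hg : Good K u x ρ)
    (hB : closedBall x ρ ⊆ U) : ∃ m : ℂ → ℝ, (∀ z ∈ sphere x ρ \ K, ∀ᶠ z' in 𝓝[sphere x ρ] z, m z' = m z) ∧
      ∀ z ∈ sphere x ρ \ K, |u z - m z| ≤ ce1 u x ρ := by
  refine ⟨fun z => u (Classical.epsilon (xavR K x ρ z)), fun z hz => ?_, fun z hz => ?_⟩
  · filter_upwards [xav_near h.closed hg.pos hz] with w hw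
    rw [show xavR K x ρ w = xavR K x ρ z from funext fun v => propext ⟨hw.trans, hw.symm.trans⟩]
  · exact xav_osc h hg hB
      (Classical.epsilon_spec ⟨z, (xav_near h.closed hg.pos hz).self_of_nhdsWithin hz.1⟩)

end Crest.Agent.R135
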