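import Crest.Agent.R135.Defs
import Crest.Agent.R135.MXL0
import Crest.Agent.R135.TLip
set_option autoImplicit false
open MeasureTheory Metric Set Filter Topology
open scoped ENNReal NNReal Real ComplexConjugate

namespace Crest.Agent.R135

/-- Lipschitz near a point -/
def xl1_LL {α β : Type*} [PseudoEMetricSpace α] [PseudoEMetricSpace β] (f : α → β) (z : α) : Prop :=
  ∃ K, ∃ t ∈ 𝓝 z, LipschitzOnWith K f t

section
variable {α β γ : Type*} [PseudoEMetricSpace α] [PseudoEMetricSpace β] [PseudoEMetricSpace γ]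

theorem xl1_LL.comp {g : β → γ} {f : α → β} {z : α} (hg : xl1_LL g (f z)) (hf : xl1_LL f z) :
    xl1_LL (fun y => g (f y)) z := by
  obtain ⟨K, t, ht, hg⟩ := hg
  obtain ⟨L, s, hs, hf⟩ := hf
  exact ⟨K * L, s ∩ f ⁻¹' t, inter_mem hs (hf.continuousOn.continuousAt hs ht),
    hg.comp (hf.mono inter_subset_left) fun y hy => hy.2⟩

theorem xl1_LL.prod {g : α → γ} {f : α → β} {z : α} (hf : xl1_LL f z) (hg : xl1_LL g z) :
    xl1_LL (fun y => (f y, g y)) z := by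
  obtain ⟨K, t, ht, hg⟩ := hg
  obtain ⟨L, s, hs, hf⟩ := hf
  exact ⟨_, s ∩ t, inter_mem hs ht, (hf.mono inter_subset_left).prodMk (hg.mono inter_subset_right)⟩

theorem xl1_LL.congr {f g : α → β} {z : α} (hf : xl1_LL f z) (h : ∀ᶠ y in 𝓝 z, g y = f y) : xl1_LL g z := by
  obtain ⟨L, s, hs, hf⟩ := hf
  refine ⟨L, s ∩ {y | g y = f y}, inter_mem hs h, fun a ha b hb => ?_⟩
  rw [ha.2, hb.2]
  exact hf ha.1 hb.1

theorem xl1_of_lip {f : α → β} {K : ℝ≥0} (h : LipschitzWith K f) (z : α) : xl1_LL f z :=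
  ⟨K, univ, univ_mem, h.lipschitzOnWith⟩

end

theorem xl1_mem {x z : ℂ} {ρ : ℝ} (hρ : 0 < ρ) (hz : z ≠ x) : rproj x ρ z ∈ sphere x ρ := by
  have : 0 < ‖z - x‖ := norm_sub_pos_iff.2 hz
  rw [mem_sphere, dist_eq_norm, rproj, add_sub_cancel_left, norm_mul, Complex.norm_real,
    Real.norm_of_nonneg (by positivity), div_mul_cancel₀ _ this.ne']

theorem xl1_ev {K : Set ℂ} {m : ℂ → ℝ} {x q z : ℂ} {ρ : ℝ} (hρ : 0 < ρ)
    (hm : ∀ z ∈ sphere x ρ \ K, ∀ᶠ z' in 𝓝[sphere x ρ] z, m z' = m z) (hq : q ≠ x) (hK : rproj x ρ q ∉ K)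
    {f : ℂ → ℂ} (hf : Tendsto f (𝓝 z) (𝓝 q)) : ∀ᶠ y in 𝓝 z, m (rproj x ρ (f y)) = m (rproj x ρ q) := by
  have hc : ContinuousAt (rproj x ρ) q := by
    have : ‖q - x‖ ≠ 0 := (norm_sub_pos_iff.2 hq).ne'
    unfold rproj
    fun_prop (disch := assumption)
  refine (tendsto_nhdsWithin_iff.2 ⟨hc.tendsto.comp hf, ?_⟩).eventually (hm _ ⟨xl1_mem hρ hq, hK⟩)
  exact (hf.eventually_ne hq).mono fun y hy => xl1_mem hρ hy

theorem xl1_wall {K : Set ℂ} {x y z : ℂ} {ρ κ : ℝ} (hκ : 0 < κ) (hκρ : κ ≤ ρ / 2) (h1 : ρ - κ ≤ ‖z - x‖)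
    (h2 : ‖z - x‖ ≤ ρ) (hz : z ∉ xlK K x y ρ κ) : rproj x ρ z ∉ K := fun hK => by
  have hρ : 0 < ρ := by linarith
  have hN : 0 < ‖z - x‖ := by linarith
  refine hz (Or.inr (mem_iUnion₂.2 ⟨_, ⟨hK, xl1_mem hρ (norm_sub_pos_iff.1 hN)⟩, Or.inl ?_⟩))
  rw [segment_eq_image']
  refine ⟨(ρ - ‖z - x‖) / κ, ⟨div_nonneg (by linarith) hκ.le, (div_le_one hκ).2 (by linarith)⟩, ?_⟩
  have a1 : ((‖z - x‖ : ℝ) : ℂ) ≠ 0 := by exact_mod_cast hN.ne'
  have a2 : (ρ : ℂ) ≠ 0 := by exact_mod_cast hρ.ne'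
  have a3 : (κ : ℂ) ≠ 0 := by exact_mod_cast hκ.ne'
  simp only [rproj, Complex.real_smul]
  push_cast
  field_simp
  ring

theorem xl1_cone {K : Set ℂ} {x y z q : ℂ} {ρ κ : ℝ} (hκ : 0 < κ) (hκρ : κ ≤ ρ / 2) (h1 : ‖q - x‖ = ρ - κ)
    (h2 : z ∈ segment ℝ q y) (hz : z ∉ xlK K x y ρ κ) : rproj x ρ q ∉ K := fun hK => by
  have hρ : 0 < ρ := by linarith
  have hN : 0 < ‖q - x‖ := by linarith
  refine hz (Or.inr (mem_iUnion₂.2 ⟨_, ⟨hK, xl1_mem hρ (norm_sub_pos_iff.1 hN)⟩, Or.inr ?_⟩))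
  have a1 : (ρ : ℂ) - κ ≠ 0 := by exact_mod_cast (h1 ▸ hN).ne'
  have a2 : (ρ : ℂ) ≠ 0 := by exact_mod_cast hρ.ne'
  convert h2 using 2
  simp only [rproj, h1]
  push_cast
  field_simp
  ring

/-- Local Lipschitz property. With `N z = ‖z - x‖`: near a point with `N > ρ - κ` off `xlK`, `w = m₀ + λ(min N ρ) (w₀ (R z) - m₀)` where
`R z = if ρ ≤ N then z else rproj z` is Lipschitz and lands near a point of `U \ K`; near `N = ρ - κ`,
`w = m₀ + max 0 ((N-(ρ-κ))/κ) (w₀ (rproj z) - m₀)`; for `N < ρ - κ` it is locally constant (`P z` is not a foot of a wall, else `z` is on the cone). -/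
theorem xl_comp {U K : Set ℂ} (hU : IsOpen U) (hK : IsClosed K) {w₀ m : ℂ → ℝ} {P : ℂ → ℂ} {x y : ℂ} {ρ κ : ℝ}
    (hB : closedBall x ρ ⊆ U) (hf : (K ∩ sphere x ρ).Finite) (hκ : 0 < κ) (hκρ : κ ≤ ρ / 2) (hy : y ∈ ball x (ρ - κ))
    (hP : CProj P x y (ρ - κ)) (hw : ContDiffOn ℝ 1 w₀ (U \ K))
    (hm : ∀ z ∈ sphere x ρ \ K, ∀ᶠ z' in 𝓝[sphere x ρ] z, m z' = m z) :
    Comp U K w₀ (xlK K x y ρ κ) (xlW w₀ m P x ρ κ) x ρ := by
  have hρ : 0 < ρ := by linarith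
  have hout : ∀ z, ρ ≤ ‖z - x‖ → xlW w₀ m P x ρ κ z = w₀ z := fun z hz => if_pos hz
  refine ⟨xlK_closed hK hf, xlK_diff hκ hκρ hy, fun z hz => hout z ?_, fun z hz => ?_⟩
  · have := hz.2
    rw [mem_closedBall, dist_eq_norm, not_le] at this
    exact this.le
  suffices h : xl1_LL (xlW w₀ m P x ρ κ) z by
    obtain ⟨L, t, ht, h⟩ := h
    exact ⟨L, t, mem_nhdsWithin_of_mem_nhds ht, h⟩
  have hw' : ∀ q ∈ U \ K, xl1_LL w₀ q := fun q hq =>
    (hw.contDiffAt ((hU.sdiff hK).mem_nhds hq)).exists_lipschitzOnWith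
  have hN : Continuous fun z : ℂ => ‖z - x‖ := by fun_prop
  have hzy : z ≠ y := fun e => hz.2 (Or.inl (Or.inr e))
  have hPc : ContinuousAt P z := hP.cont.continuousAt (isOpen_compl_singleton.mem_nhds hzy)
  rcases lt_or_ge ρ ‖z - x‖ with h1 | h1
  · refine (hw' z ⟨hz.1, fun hk => hz.2 (Or.inl (Or.inl ⟨hk, fun hb => ?_⟩))⟩).congr
      ((continuousAt_const.eventually_lt hN.continuousAt h1).mono fun q hq => hout q hq.le)
    rw [mem_ball, dist_eq_norm] at hb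
    linarith
  rcases lt_or_ge ‖z - x‖ (ρ - κ) with h2 | h2
  · have hq : ‖P z - x‖ = ρ - κ := by simpa only [mem_sphere, dist_eq_norm] using hP.mem z hzy
    have hk := xl1_cone hκ hκρ hq (hP.seg z (by rw [mem_closedBall, dist_eq_norm]; exact h2.le) hzy) hz.2
    refine (xl1_of_lip (LipschitzWith.const (m (rproj x ρ (P z)))) z).congr ?_
    filter_upwards [hN.continuousAt.eventually_lt continuousAt_const h2,
      xl1_ev hρ hm (norm_sub_pos_iff.1 (by linarith)) hk hPc] with q a1 a2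
    rw [xlW, if_neg (by linarith), if_neg (by linarith), a2]
  have hN0 : 0 < ‖z - x‖ := by linarith
  have hzx : z ≠ x := norm_sub_pos_iff.1 hN0
  have hk := xl1_wall hκ hκρ h2 h1 hz.2
  have hNd : ContDiffAt ℝ 1 (fun z : ℂ => ‖z - x‖) z :=
    (contDiffAt_id.sub contDiffAt_const).norm ℝ (sub_ne_zero.2 hzx)
  set R : ℂ → ℂ := fun q => x + max 1 (ρ / ‖q - x‖) • (q - x) with hR
  have hR1 : ∀ q, q ≠ x → ‖q - x‖ ≤ ρ → R q = rproj x ρ q := fun q hq h => by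
    simp only [hR, rproj, Complex.real_smul, max_eq_right ((one_le_div (norm_sub_pos_iff.2 hq)).2 h)]
  have hR2 : ∀ q, ρ ≤ ‖q - x‖ → R q = q := fun q h => by
    simp only [hR, max_eq_left ((div_le_one (hρ.trans_le h)).2 h), one_smul, add_sub_cancel]
  have l1 : xl1_LL (fun q : ℂ => max 1 (ρ / ‖q - x‖)) z :=
    (xl1_of_lip (LipschitzWith.id.const_max 1) _).comp
      (contDiffAt_const.div hNd hN0.ne').exists_lipschitzOnWith
  have l2 : xl1_LL R z :=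
    (xl1_LL.comp (g := fun p : ℝ × ℂ => x + p.1 • (p.2 - x))
      (ContDiffAt.exists_lipschitzOnWith (𝕂 := ℝ) (by fun_prop))
      (l1.prod (xl1_of_lip LipschitzWith.id z))).congr (Eventually.of_forall fun _ => rfl)
  have l3 : xl1_LL (fun q => w₀ (R q)) z := by
    refine xl1_LL.comp ?_ l2
    rw [hR1 z hzx h1]
    exact hw' _ ⟨hB (sphere_subset_closedBall (xl1_mem hρ hzx)), hk⟩
  have l4 : xl1_LL (fun q : ℂ => max 0 (min 1 ((‖q - x‖ - (ρ - κ)) / κ))) z :=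
    (xl1_of_lip ((LipschitzWith.id.const_min 1).const_max 0) _).comp
      ((hNd.sub contDiffAt_const).div_const κ).exists_lipschitzOnWith
  refine (xl1_LL.comp (g := fun p : ℝ × ℝ => m (rproj x ρ z) + p.1 * (p.2 - m (rproj x ρ z)))
    (ContDiffAt.exists_lipschitzOnWith (𝕂 := ℝ) (by fun_prop)) (l4.prod l3)).congr ?_
  have ev : ∀ᶠ q in 𝓝 z, ‖q - x‖ < ρ - κ → m (rproj x ρ (P q)) = m (rproj x ρ z) := by
    rcases h2.eq_or_lt with e | h3
    · have hz' : P z = z := hP.fix z (by rw [mem_sphere, dist_eq_norm, e])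
      exact (xl1_ev hρ hm hzx hk (by simpa only [hz'] using hPc.tendsto)).mono fun q hq _ => hq
    · exact (continuousAt_const.eventually_lt hN.continuousAt h3).mono fun q a b => absurd a b.not_gt
  filter_upwards [ev, xl1_ev hρ hm hzx hk tendsto_id, isOpen_compl_singleton.mem_nhds hzx] with q a1 a2 a3
  by_cases c1 : ρ ≤ ‖q - x‖
  · rw [hout q c1, hR2 q c1, min_eq_left ((one_le_div hκ).2 (by linarith)), max_eq_right zero_le_one]
    ring
  by_cases c2 : ρ - κ ≤ ‖q - x‖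
  · rw [id] at a2
    rw [xlW, if_neg c1, if_pos c2, a2, hR1 q a3 (not_le.1 c1).le,
      min_eq_right ((div_le_one hκ).2 (by linarith)), max_eq_right (div_nonneg (by linarith) hκ.le)]
  · rw [xlW, if_neg c1, if_neg c2, a1 (not_le.1 c2), max_eq_left
      ((min_le_right _ _).trans (div_nonpos_of_nonpos_of_nonneg (by linarith) hκ.le)), zero_mul, add_zero]

end Crest.Agent.R135
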