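import Crest.Agent.R135.Defs
import Crest.Agent.R135.MXL0
import Crest.Agent.R135.TLip
set_option autoImplicit false
open MeasureTheory Metric Set Filter Topology
open scoped ENNReal NNReal Real ComplexConjugate

namespace Crest.Agent.R135

theorem xld_norm (x : ℂ) {r : ℝ} (hr : 0 < r) (φ : ℝ) : ‖circleMap x r φ - x‖ = r := by
  rw [circleMap_sub_center, norm_circleMap_zero, abs_of_pos hr]

theorem xld_rproj (x : ℂ) (ρ : ℝ) {r : ℝ} (hr : 0 < r) (φ : ℝ) :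
    rproj x ρ (circleMap x r φ) = circleMap x ρ φ := by
  have h : (r : ℂ) ≠ 0 := Complex.ofReal_ne_zero.2 hr.ne'
  rw [rproj, xld_norm x hr]
  simp only [circleMap]
  push_cast
  field_simp
  ring

theorem xld_layer (w₀ m : ℂ → ℝ) (P : ℂ → ℂ) (x : ℂ) {ρ κ r : ℝ} (hr : 0 < r) (h1 : ρ - κ ≤ r) (h2 : r < ρ) (φ : ℝ) :
    xlW w₀ m P x ρ κ (circleMap x r φ) =
      m (circleMap x ρ φ) + (r - (ρ - κ)) / κ * (w₀ (circleMap x ρ φ) - m (circleMap x ρ φ)) := by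
  rw [xlW, xld_norm x hr, if_neg (not_le.2 h2), if_pos h1, xld_rproj x ρ hr]

theorem xld_pt {w₀ m : ℂ → ℝ} (P : ℂ → ℂ) {x : ℂ} {ρ κ B r φ : ℝ} (hκ : 0 < κ) (hκρ : κ ≤ ρ / 2)
    (h1 : ρ - κ < r) (h2 : r < ρ) (hw : DifferentiableAt ℝ w₀ (circleMap x ρ φ))
    (hm : ∀ᶠ z' in 𝓝[sphere x ρ] (circleMap x ρ φ), m z' = m (circleMap x ρ φ))
    (hb : |w₀ (circleMap x ρ φ) - m (circleMap x ρ φ)| ≤ B) :
    r * ‖gradient (xlW w₀ m P x ρ κ) (circleMap x r φ)‖ ^ 2 ≤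
      2 * ρ * ‖gradient w₀ (circleMap x ρ φ)‖ ^ 2 + ρ * (B / κ) ^ 2 := by
  have hρ : 0 < ρ := by linarith
  have hr : 0 < r := by linarith
  by_cases hd : DifferentiableAt ℝ (xlW w₀ m P x ρ κ) (circleMap x r φ)
  swap
  · rw [gradient_eq_zero_of_not_differentiableAt hd, norm_zero, zero_pow two_ne_zero, mul_zero]
    positivity
  have hp : cp (xlW w₀ m P x ρ κ) x r φ = (r - (ρ - κ)) / κ * cp w₀ x ρ φ := by
    refine (hasDerivAt_circle hd).unique ?_
    have ht : Tendsto (circleMap x ρ) (𝓝 φ) (𝓝[sphere x ρ] (circleMap x ρ φ)) :=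
      tendsto_nhdsWithin_iff.2 ⟨(continuous_circleMap x ρ).tendsto φ,
        Eventually.of_forall fun θ => circleMap_mem_sphere x hρ.le θ⟩
    refine ((((hasDerivAt_circle hw).sub_const (m (circleMap x ρ φ))).const_mul ((r - (ρ - κ)) / κ)).const_add
      (m (circleMap x ρ φ))).congr_of_eventuallyEq ?_
    filter_upwards [ht.eventually hm] with θ hθ
    rw [xld_layer w₀ m P x hr h1.le h2, hθ]
  have hq : cq (xlW w₀ m P x ρ κ) x r φ = r * ((w₀ (circleMap x ρ φ) - m (circleMap x ρ φ)) / κ) := by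
    have e1 : HasDerivAt (fun s : ℝ => circleMap x s φ) (Complex.exp (φ * Complex.I)) r := by
      simpa [circleMap] using
        ((Complex.ofRealCLM.hasDerivAt (x := r)).mul_const (Complex.exp (φ * Complex.I))).const_add x
    have e2 := hd.hasFDerivAt.comp_hasDerivAt r e1
    have e3 : HasDerivAt (xlW w₀ m P x ρ κ ∘ fun s : ℝ => circleMap x s φ)
        (1 / κ * (w₀ (circleMap x ρ φ) - m (circleMap x ρ φ))) r := by
      refine (((((hasDerivAt_id r).sub_const (ρ - κ)).div_const κ).mul_const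
        (w₀ (circleMap x ρ φ) - m (circleMap x ρ φ))).const_add (m (circleMap x ρ φ))).congr_of_eventuallyEq ?_
      filter_upwards [Ioo_mem_nhds h1 h2] with s hs
      exact xld_layer w₀ m P x (by linarith [hs.1]) hs.1.le hs.2 φ
    have e4 : circleMap x r φ - x = r • Complex.exp (φ * Complex.I) := by
      simp [circleMap]
    rw [cq, inner_gradient, e4, map_smul, e2.unique e3, smul_eq_mul]
    ring
  have e := cp_sq_add_cq_sq (xlW w₀ m P x ρ κ) x r φ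
  have e' := cp_sq_add_cq_sq w₀ x ρ φ
  rw [hp, hq] at e
  set G := ‖gradient w₀ (circleMap x ρ φ)‖ ^ 2
  have hG : 0 ≤ G := sq_nonneg _
  have b1 : ((r - (ρ - κ)) / κ * cp w₀ x ρ φ) ^ 2 ≤ ρ ^ 2 * G := by
    have l0 : 0 ≤ (r - (ρ - κ)) / κ := div_nonneg (by linarith) hκ.le
    have l1 : (r - (ρ - κ)) / κ ≤ 1 := (div_le_one hκ).2 (by linarith)
    rw [mul_pow]
    nlinarith [sq_nonneg (cq w₀ x ρ φ), sq_nonneg (cp w₀ x ρ φ), mul_le_one₀ l1 l0 l1]
  have b2 : ((w₀ (circleMap x ρ φ) - m (circleMap x ρ φ)) / κ) ^ 2 ≤ (B / κ) ^ 2 := by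
    rw [div_pow, div_pow]
    exact div_le_div_of_nonneg_right (sq_le_sq' (abs_le.1 hb).1 (abs_le.1 hb).2) (sq_nonneg _)
  refine le_of_mul_le_mul_left ?_ hr
  rw [← mul_assoc, ← sq, ← e, mul_pow r]
  have b3 : ρ ^ 2 * G ≤ r * (2 * ρ * G) := by nlinarith [mul_nonneg hρ.le hG]
  have b4 : r ^ 2 * (B / κ) ^ 2 ≤ r * (ρ * (B / κ) ^ 2) := by
    nlinarith [mul_nonneg hr.le (sq_nonneg (B / κ))]
  nlinarith [mul_le_mul_of_nonneg_left b2 (sq_nonneg r)]

theorem xld_in {K : Set ℂ} {w₀ m : ℂ → ℝ} {P : ℂ → ℂ} {x y : ℂ} {ρ κ : ℝ}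
    (hf : (K ∩ sphere x ρ).Finite) (hκ : 0 < κ) (hκρ : κ ≤ ρ / 2) (hP : CProj P x y (ρ - κ))
    (hm : ∀ z ∈ sphere x ρ \ K, ∀ᶠ z' in 𝓝[sphere x ρ] z, m z' = m z) :
    Dir (xlW w₀ m P x ρ κ) (ball x (ρ - κ)) = 0 := by
  have hρ : 0 < ρ := by linarith
  have hr : 0 < ρ - κ := by linarith
  have hn : volume (⋃ p ∈ K ∩ sphere x ρ, segment ℝ (x + ((1 - κ / ρ : ℝ) : ℂ) * (p - x)) y) = 0 :=
    (measure_biUnion_null_iff hf.countable).2 fun p _ =>
      vol_zero_of_H1 (by rw [H1_segment]; exact ENNReal.ofReal_lt_top)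
  have hs : ∀ z, z ≠ y → rproj x ρ (P z) ∈ sphere x ρ := fun z hz => by
    have h := mem_sphere_iff_norm.1 (hP.mem z hz)
    rw [mem_sphere_iff_norm, rproj, add_sub_cancel_left, norm_mul, h, Complex.norm_real,
      Real.norm_of_nonneg (by positivity)]
    field_simp
  rw [Dir, setLIntegral_eq_zero_iff' measurableSet_ball
    ((measurable_gradient _).enorm.pow_const 2).aemeasurable]
  filter_upwards [measure_eq_zero_iff_ae_notMem.1 hn, Measure.ae_ne volume y] with z hz hzy hzb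
  have h := mem_sphere_iff_norm.1 (hP.mem z hzy)
  have hK : rproj x ρ (P z) ∉ K := fun hK => by
    refine hz (mem_iUnion₂.2 ⟨_, ⟨hK, hs z hzy⟩, ?_⟩)
    convert hP.seg z (ball_subset_closedBall hzb) hzy using 2
    have h1 : ((ρ - κ : ℝ) : ℂ) ≠ 0 := Complex.ofReal_ne_zero.2 hr.ne'
    have h2 : (ρ : ℂ) ≠ 0 := Complex.ofReal_ne_zero.2 hρ.ne'
    rw [rproj, h, add_sub_cancel_left]
    push_cast at h1 ⊢
    field_simp
    ring
  have hy : ({y}ᶜ : Set ℂ) ∈ 𝓝 z := isOpen_compl_singleton.mem_nhds hzy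
  have hc : ContinuousAt (fun z => rproj x ρ (P z)) z := by
    have h1 : ContinuousAt P z := hP.cont.continuousAt hy
    have h2 : ‖P z - x‖ ≠ 0 := by rw [h]; exact hr.ne'
    unfold rproj
    fun_prop (disch := exact h2)
  have ht : Tendsto (fun z => rproj x ρ (P z)) (𝓝 z) (𝓝[sphere x ρ] (rproj x ρ (P z))) :=
    tendsto_nhdsWithin_iff.2 ⟨hc, mem_of_superset hy fun z' hz' => hs z' hz'⟩
  have he : xlW w₀ m P x ρ κ =ᶠ[𝓝 z] fun _ => m (rproj x ρ (P z)) := by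
    filter_upwards [ht.eventually (hm _ ⟨hs z hzy, hK⟩), isOpen_ball.mem_nhds hzb] with z' h1 h2
    rw [mem_ball_iff_norm] at h2
    rw [xlW, if_neg (by linarith), if_neg (by linarith), h1]
  rw [he.gradient_eq]
  simp

/-- Energy. Inside `ball x (ρ-κ)` the function is locally constant off the (null) cone. In the open layer, off the walls, it is
differentiable with `∂_r w = (g - m)/κ`, `∂_φ w = λ cp`, and `‖∇w‖² r² = (cp w)² + (cq w)²` (`cp_sq_add_cq_sq`, `hasDerivAt_circle`), so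
`‖∇w‖² ≤ B²/κ² + cp²/r²`; polar coordinates `lintegral_polar`, `r ≥ ρ/2`. -/
theorem xl_dir {U K : Set ℂ} (hU : IsOpen U) (hK : IsClosed K) {w₀ m : ℂ → ℝ} {P : ℂ → ℂ} {x y : ℂ} {ρ κ B : ℝ}
    (hB : closedBall x ρ ⊆ U) (hf : (K ∩ sphere x ρ).Finite) (hκ : 0 < κ) (hκρ : κ ≤ ρ / 2) (hy : y ∈ ball x (ρ - κ))
    (hP : CProj P x y (ρ - κ)) (hw : ContDiffOn ℝ 1 w₀ (U \ K))
    (hm : ∀ z ∈ sphere x ρ \ K, ∀ᶠ z' in 𝓝[sphere x ρ] z, m z' = m z)
    (hb : ∀ z ∈ sphere x ρ \ K, |w₀ z - m z| ≤ B)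
    (hi : IntervalIntegrable (fun φ => ‖gradient w₀ (circleMap x ρ φ)‖ ^ 2) volume (-π) π) :
    Dir (xlW w₀ m P x ρ κ) (closedBall x ρ) ≤ ENNReal.ofReal (2 * κ * ce w₀ x ρ + 2 * π * (ρ / κ) * B ^ 2) := by
  have hρ : 0 < ρ := by linarith
  have hπ := Real.pi_pos
  have hsub : closedBall x ρ ⊆ ball x (ρ - κ) ∪ {z | dist z x ∈ Icc (ρ - κ) ρ} := fun z hz =>
    (lt_or_ge (dist z x) (ρ - κ)).imp id fun h => ⟨h, hz⟩
  refine (lintegral_mono_set hsub).trans ((lintegral_union_le _ _ _).trans ?_)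
  have h0 := xld_in (w₀ := w₀) hf hκ hκρ hP hm
  rw [Dir] at h0
  rw [h0, zero_add, lintegral_polar x _ measurableSet_Icc _ ((measurable_gradient _).enorm.pow_const 2)]
  have hce := ce_nonneg w₀ x hρ.le
  have key : ∀ r ∈ Ioo (ρ - κ) ρ, ENNReal.ofReal r *
      ∫⁻ φ in Ioo (-π) π, ‖gradient (xlW w₀ m P x ρ κ) (circleMap x r φ)‖ₑ ^ 2 ≤
      ENNReal.ofReal (2 * ce w₀ x ρ + 2 * π * ρ * (B / κ) ^ 2) := fun r hr => by
    have hi' : IntervalIntegrable (fun φ => 2 * ρ * ‖gradient w₀ (circleMap x ρ φ)‖ ^ 2 + ρ * (B / κ) ^ 2)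
        volume (-π) π := (hi.const_mul _).add intervalIntegrable_const
    have e : 2 * ce w₀ x ρ + 2 * π * ρ * (B / κ) ^ 2 =
        ∫ φ in Ioo (-π) π, (2 * ρ * ‖gradient w₀ (circleMap x ρ φ)‖ ^ 2 + ρ * (B / κ) ^ 2) := by
      rw [← integral_Ioc_eq_integral_Ioo, ← intervalIntegral.integral_of_le (by linarith),
        intervalIntegral.integral_add (hi.const_mul _) intervalIntegrable_const,
        intervalIntegral.integral_const_mul, intervalIntegral.integral_const, ce, smul_eq_mul]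
      ring
    rw [e, ofReal_integral_eq_lintegral_ofReal
      ((intervalIntegrable_iff_integrableOn_Ioo_of_le (by linarith)).1 hi')
      (Eventually.of_forall fun φ => by positivity), ← lintegral_const_mul' _ _ ENNReal.ofReal_ne_top]
    refine setLIntegral_mono_ae' measurableSet_Ioo ?_
    filter_upwards [(finite_angles hρ hf (-π) π).countable.ae_notMem volume] with φ h1 h2
    have h3 : circleMap x ρ φ ∈ sphere x ρ \ K :=
      ⟨circleMap_mem_sphere x hρ.le φ, fun h => h1 ⟨Ioo_subset_Icc_self h2, h⟩⟩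
    have h4 : DifferentiableAt ℝ w₀ (circleMap x ρ φ) :=
      (hw.contDiffAt ((hU.sdiff hK).mem_nhds ⟨hB (sphere_subset_closedBall h3.1), h3.2⟩)).differentiableAt
        one_ne_zero
    rw [← ofReal_norm, ← ENNReal.ofReal_pow (norm_nonneg _),
      ← ENNReal.ofReal_mul (by linarith [hr.1])]
    exact ENNReal.ofReal_le_ofReal (xld_pt P hκ hκρ hr.1 hr.2 h4 (hm _ h3) (hb _ h3))
  refine (lintegral_mono_set inter_subset_left).trans ?_
  rw [← setLIntegral_congr Ioo_ae_eq_Icc]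
  refine (setLIntegral_mono' measurableSet_Ioo key).trans (le_of_eq ?_)
  rw [setLIntegral_const, Real.volume_Ioo, ← ENNReal.ofReal_mul (by positivity)]
  congr 1
  field_simp
  ring

end Crest.Agent.R135
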