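import Crest.Agent.R135.Defs
import Crest.Agent.R135.MXL1
import Crest.Agent.R135.MXL2
import Crest.Agent.R135.TLip2
import Crest.Agent.R135.MBasic
set_option autoImplicit false
open MeasureTheory Metric Set Filter Topology
open scoped ENNReal NNReal Real ComplexConjugate

namespace Crest.Agent.R135

theorem mxl_adm {U K : Set ℂ} (hU : IsOpen U) (hK : IsClosed K) {P : ℂ → ℂ} {x y : ℂ} {ρ κ : ℝ}
    (hB : closedBall x ρ ⊆ U) (hf : (K ∩ sphere x ρ).Finite) (hκ : 0 < κ) (hκρ : κ ≤ ρ / 2)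
    (hy : y ∈ ball x (ρ - κ)) (hP : CProj P x y (ρ - κ)) : Adm U K (xlK K x y ρ κ) x ρ := by
  intro Λ hΛ
  have hρ : 0 < ρ := by linarith
  have hm : ∀ z ∈ sphere x ρ \ K, ∀ᶠ z' in 𝓝[sphere x ρ] z, Λ z' = Λ z := fun z hz =>
    mem_nhdsWithin_of_mem_nhds (hΛ z ⟨hB (sphere_subset_closedBall hz.1), hz.2⟩)
  have hc := xl_comp hU hK hB hf hκ hκρ hy hP (hΛ.contDiffOn 1) hm
  have h0 : ∀ᵐ φ : ℝ, ‖gradient Λ (circleMap x ρ φ)‖ ^ 2 = 0 := by
    have hcount : (circleMap x ρ ⁻¹' (K ∩ sphere x ρ)).Countable :=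
      hf.countable.preimage_circleMap x hρ.ne'
    filter_upwards [hcount.ae_notMem volume] with φ hφ
    have hs : circleMap x ρ φ ∈ sphere x ρ := circleMap_mem_sphere x hρ.le φ
    rw [hΛ.gradient_eq ⟨hB (sphere_subset_closedBall hs), fun hk => hφ ⟨hk, hs⟩⟩]
    simp
  have hi : IntervalIntegrable (fun φ => ‖gradient Λ (circleMap x ρ φ)‖ ^ 2) volume (-π) π :=
    (intervalIntegrable_const (c := (0 : ℝ))).congr_ae
      (ae_restrict_of_ae (h0.mono fun φ hφ => hφ.symm))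
  have hce : ce Λ x ρ = 0 := by
    unfold ce
    rw [intervalIntegral.integral_congr_ae (g := fun _ => (0 : ℝ)) (h0.mono fun φ hφ _ => hφ)]
    simp
  have hd := xl_dir (B := 0) hU hK hB hf hκ hκρ hy hP (hΛ.contDiffOn 1) hm (fun z _ => by simp) hi
  rw [hce] at hd
  have hd0 : Dir (xlW Λ Λ P x ρ κ) (closedBall x ρ) = 0 := by simpa using hd
  have hin : ∀ᵐ z, z ∈ closedBall x ρ → gradient (xlW Λ Λ P x ρ κ) z = 0 := by
    have hmeas : Measurable fun z => ‖gradient (xlW Λ Λ P x ρ κ) z‖ₑ ^ 2 :=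
      (measurable_gradient _).enorm.pow_const 2
    have := (lintegral_eq_zero_iff hmeas).1 hd0
    rw [EventuallyEq, ae_restrict_iff' measurableSet_closedBall] at this
    filter_upwards [this] with z hz hzB
    simpa using hz hzB
  have hW : IsOpen (U \ xlK K x y ρ κ) := hU.sdiff hc.closed
  refine ⟨xlW Λ Λ P x ρ κ, LC_of_grad_zero hW hc.lip ?_, hc.eqw⟩
  filter_upwards [hin] with z hz hzW
  by_cases hzB : z ∈ closedBall x ρ
  · exact hz hzB
  · have hzK : z ∉ K := fun hk => by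
      have : z ∈ xlK K x y ρ κ \ closedBall x ρ := hc.eqK ▸ ⟨hk, hzB⟩
      exact hzW.2 this.1
    have he : xlW Λ Λ P x ρ κ =ᶠ[𝓝 z] Λ := by
      filter_upwards [(hW.sdiff isClosed_closedBall).mem_nhds ⟨hzW, hzB⟩] with w hw using hc.eqw hw
    rw [he.gradient_eq]
    exact hΛ.gradient_eq ⟨hzW.1, hzK⟩

/-- The master competitor inequality. Move the apex to `y' = x + (1 - 2κ/ρ)(y - x)`. `Adm`: apply `xl_comp`, `xl_dir` to `Λ` with
`m = Λ`, `B = 0` (`ce Λ = 0`), then `LC_of_grad_zero`. -/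
theorem MS.xl {U K : Set ℂ} {a b : ℝ} {u : ℂ → ℝ} (h : MS U a b K u) {x y : ℂ} {ρ κ : ℝ} (hg : Good K u x ρ)
    (hB : closedBall x ρ ⊆ U) (hκ : 0 < κ) (hκρ : κ ≤ ρ / 2) (hy : y ∈ closedBall x ρ) :
    Dr u x ρ + Lr K x ρ ≤ (∑ p ∈ hg.fin.toFinset, ‖p - y‖) + 4 * (hg.fin.toFinset.card : ℝ) * κ + 2 * κ * ce u x ρ +
      2 * π * (ρ / κ) * ce1 u x ρ ^ 2 + π * (a * b) * ρ ^ 2 := by
  have hρ := hg.pos
  set t : ℝ := 1 - 2 * κ / ρ with ht
  have ht0 : 0 ≤ t := by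
    rw [ht, sub_nonneg, div_le_one hρ]
    linarith
  have hyx : ‖y - x‖ ≤ ρ := by simpa [dist_eq_norm] using hy
  set y' : ℂ := x + (t : ℂ) * (y - x) with hy'
  have hy'B : y' ∈ ball x (ρ - κ) := by
    rw [mem_ball, dist_eq_norm, hy', add_sub_cancel_left, norm_mul, Complex.norm_real,
      Real.norm_of_nonneg ht0]
    have : t * ρ = ρ - 2 * κ := by
      rw [ht]
      field_simp
    nlinarith
  have hyy : ‖y - y'‖ ≤ 2 * κ := by
    have e : y - y' = ((2 * κ / ρ : ℝ) : ℂ) * (y - x) := by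
      rw [hy', ht]
      push_cast
      ring
    rw [e, norm_mul, Complex.norm_real, Real.norm_of_nonneg (by positivity), div_mul_eq_mul_div,
      div_le_iff₀ hρ]
    nlinarith
  obtain ⟨P, hP⟩ := exists_cproj hy'B
  obtain ⟨m, hm, hb⟩ := exists_arc_value h hg hB
  have hc := xl_comp h.isOpen h.closed hB hg.fin hκ hκρ hy'B hP h.c1 hm
  have hd := xl_dir h.isOpen h.closed hB hg.fin hκ hκρ hy'B hP h.c1 hm hb hg.int
  have hl := xlK_len (y := y') hκ hκρ hg.fin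
  have hmin := h.min _ _ x ρ hB hc (mxl_adm h.isOpen h.closed hB hg.fin hκ hκρ hy'B hP)
  have hE := Err_le (u := u) (w := xlW u m P x ρ κ) h.a0 h.b0 x hρ.le
  have hce : 0 ≤ ce u x ρ :=
    mul_nonneg hρ.le (intervalIntegral.integral_nonneg (by linarith [Real.pi_pos]) fun φ _ => by positivity)
  have ha0 := h.a0
  have hb0 := h.b0
  have hs0 : 0 ≤ ∑ p ∈ hg.fin.toFinset, (‖p - y'‖ + 2 * κ) := Finset.sum_nonneg fun p _ => by positivity
  have hs : ∑ p ∈ hg.fin.toFinset, (‖p - y'‖ + 2 * κ) ≤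
      (∑ p ∈ hg.fin.toFinset, ‖p - y‖) + 4 * (hg.fin.toFinset.card : ℝ) * κ := by
    have : ∑ p ∈ hg.fin.toFinset, (‖p - y'‖ + 2 * κ) ≤ ∑ p ∈ hg.fin.toFinset, (‖p - y‖ + 4 * κ) :=
      Finset.sum_le_sum fun p _ => by
        have := norm_add_le (p - y) (y - y')
        rw [sub_add_sub_cancel] at this
        linarith
    rw [Finset.sum_add_distrib (f := fun p => ‖p - y‖), Finset.sum_const, nsmul_eq_mul] at this
    linarith
  have h1 : ENNReal.ofReal (Dr u x ρ + Lr K x ρ) ≤ En K u (closedBall x ρ) := by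
    rw [ENNReal.ofReal_add (Dr_nonneg _ _ _) (Lr_nonneg _ _ _), h.ofReal_Dr hB, h.ofReal_Lr hB]
    exact add_le_add (Dir_closedBall u x ρ).ge
      (measure_mono (inter_subset_inter_right _ ball_subset_closedBall))
  have h2 := h1.trans (hmin.trans (add_le_add (add_le_add hd hl) hE))
  rw [← ENNReal.ofReal_add (by positivity) hs0, ← ENNReal.ofReal_add (by positivity) (by positivity),
    ENNReal.ofReal_le_ofReal_iff (by positivity)] at h2
  linarith

end Crest.Agent.R135
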