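import Crest.Agent.R135.Defs
set_option autoImplicit false
open MeasureTheory Metric Set Filter Topology
open scoped ENNReal NNReal Real ComplexConjugate

namespace Crest.Agent.R135

/-! Gronwall-type lemmas for `Y s = Y t + ∫ y` (absolutely continuous; use that an absolutely continuous function with a.e.
nonnegative derivative is monotone: `AbsolutelyContinuousOnInterval.integral_deriv_eq_sub`, products of a.c. functions are a.c.; or argue
directly on fine partitions). -/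

theorem grona_comp {f g : ℝ → ℝ} {a b : ℝ} (hf : AbsolutelyContinuousOnInterval f a b)
    (hg : ContDiff ℝ 1 g) : AbsolutelyContinuousOnInterval (fun x => g (f x)) a b := by
  obtain ⟨C, hC⟩ := hf.exists_bound
  obtain ⟨K, hK⟩ := hg.contDiffOn.exists_lipschitzOnWith (by decide) (convex_closedBall (0 : ℝ) C)
    (isCompact_closedBall _ _)
  refine squeeze_zero' (Eventually.of_forall fun E => Finset.sum_nonneg fun i _ => dist_nonneg) ?_
    (by simpa using Tendsto.const_mul (K : ℝ) hf)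
  refine mem_inf_of_right fun E hE => ?_
  rw [mem_ofPred_eq, Finset.mul_sum]
  exact Finset.sum_le_sum fun i hi => hK.dist_le_mul _ (mem_closedBall_zero_iff.2 (hC _ (hE.1 i hi).1)) _
    (mem_closedBall_zero_iff.2 (hC _ (hE.1 i hi).2))

theorem grona_gen {Z z a : ℝ → ℝ} {t r : ℝ} (htr : t ≤ r) (hz : IntervalIntegrable z volume t r)
    (ha : IntervalIntegrable a volume t r) (hZ : ∀ s ∈ Icc t r, Z s = Z t + ∫ ρ in t..s, z ρ)
    (h : ∀ᵐ ρ : ℝ, ρ ∈ Ioo t r → a ρ * Z ρ ≤ z ρ) :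
    Z t ≤ Real.exp (-∫ ρ in t..r, a ρ) * Z r := by
  have h1 := grona_comp (g := fun x => Real.exp (-x))
    (ha.absolutelyContinuousOnInterval_intervalIntegral left_mem_uIcc) (by fun_prop)
  have h2 := grona_comp (g := fun x => Z t + x)
    (hz.absolutelyContinuousOnInterval_intervalIntegral left_mem_uIcc) (by fun_prop)
  have h3 := (h1.fun_mul h2).integral_deriv_eq_sub
  have h4 : 0 ≤ ∫ x in t..r, deriv (fun x => Real.exp (-∫ ρ in t..x, a ρ) * (Z t + ∫ ρ in t..x, z ρ)) x := by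
    rw [intervalIntegral.integral_of_le htr, integral_Ioc_eq_integral_Ioo]
    refine setIntegral_nonneg_ae measurableSet_Ioo ?_
    filter_upwards [h, hz.ae_hasDerivAt_integral, ha.ae_hasDerivAt_integral] with x e1 e2 e3 hx
    have hx' : x ∈ uIcc t r := mem_uIcc_of_le hx.1.le hx.2.le
    rw [((e3 hx' t left_mem_uIcc).fun_neg.exp.fun_mul ((e2 hx' t left_mem_uIcc).const_add (Z t))).deriv,
      ← hZ x (Ioo_subset_Icc_self hx)]
    nlinarith [mul_le_mul_of_nonneg_left (e1 hx) (Real.exp_pos (-∫ ρ in t..x, a ρ)).le]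
  rw [h3, ← hZ r (right_mem_Icc.2 htr)] at h4
  simpa using h4

theorem grona_int {y : ℝ → ℝ} {t r : ℝ} (hy : IntervalIntegrable y volume t r) (k : ℝ) :
    IntervalIntegrable (fun ρ => y ρ + k * (2 * ρ)) volume t r :=
  hy.add (Continuous.intervalIntegrable (by fun_prop) _ _)

theorem grona_sq {Y y : ℝ → ℝ} {t r : ℝ} (hy : IntervalIntegrable y volume t r)
    (hY : ∀ s ∈ Icc t r, Y s = Y t + ∫ ρ in t..s, y ρ) (k : ℝ) : ∀ s ∈ Icc t r,
      Y s + k * s ^ 2 = Y t + k * t ^ 2 + ∫ ρ in t..s, (y ρ + k * (2 * ρ)) := fun s hs => by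
  rw [intervalIntegral.integral_add (hy.mono_set (uIcc_subset_uIcc_left (mem_uIcc_of_le hs.1 hs.2)))
    (Continuous.intervalIntegrable (by fun_prop) _ _), intervalIntegral.integral_const_mul,
    intervalIntegral.integral_const_mul, integral_id, hY s hs]
  ring

theorem grona_inv {t r : ℝ} (ht : 0 < t) (htr : t ≤ r) : IntervalIntegrable (fun ρ : ℝ => ρ⁻¹) volume t r :=
  intervalIntegral.intervalIntegrable_inv (fun x hx => by
    rw [uIcc_of_le htr] at hx
    exact (ht.trans_le hx.1).ne') continuousOn_id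

theorem grona_log {t r : ℝ} (ht : 0 < t) (htr : t ≤ r) (β : ℝ) :
    Real.exp (-(β * ∫ ρ in t..r, ρ⁻¹)) = (t / r) ^ β := by
  have hr := ht.trans_le htr
  rw [integral_inv_of_pos ht hr, Real.rpow_def_of_pos (div_pos ht hr), Real.log_div hr.ne' ht.ne',
    Real.log_div ht.ne' hr.ne']
  congr 1
  ring

/-- full Gronwall: `(Y + k c ρ²) ρ^{-β}` is monotone, `k = 1/(2-β)` -/
theorem gron_full {Y y : ℝ → ℝ} {t r β c : ℝ} (ht : 0 < t) (htr : t ≤ r) (hβ : β < 2) (hc : 0 ≤ c)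
    (hy : IntervalIntegrable y volume t r) (hY : ∀ s ∈ Icc t r, Y s = Y t + ∫ ρ in t..s, y ρ)
    (h : ∀ᵐ ρ : ℝ, ρ ∈ Ioo t r → β * Y ρ / ρ - c * ρ ≤ y ρ) :
    Y t + c / (2 - β) * t ^ 2 ≤ (t / r) ^ β * (Y r + c / (2 - β) * r ^ 2) := by
  have hk : 0 < 2 - β := sub_pos.2 hβ
  have h1 := grona_gen (Z := fun s => Y s + c / (2 - β) * s ^ 2) (a := fun ρ => β * ρ⁻¹) htr
    (grona_int hy _) ((grona_inv ht htr).const_mul β) (grona_sq hy hY _) (h.mono fun ρ h1 h2 => by
      have h3 : β * ρ⁻¹ * (Y ρ + c / (2 - β) * ρ ^ 2) = β * Y ρ / ρ - c * ρ + c / (2 - β) * (2 * ρ) := by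
        have := (ht.trans h2.1).ne'
        field_simp
        ring
      rw [h3]
      exact add_le_add_left (h1 h2) _)
  rwa [intervalIntegral.integral_const_mul, grona_log ht htr] at h1

/-- Gronwall with a bad set `B` of radii (outer measure; replace `B` by `toMeasurable`): `Z = Y + 3cρ² ≥ 0` satisfies
`Z' ≥ (3/2) 1_{Bᶜ} Z/ρ`; multiply by `exp(-(3/2)∫ 1_{Bᶜ}/ρ)`, and `∫_{B} dρ/ρ ≤ m/t`. -/
theorem gron_bad {Y y : ℝ → ℝ} {t r c m : ℝ} (ht : 0 < t) (htr : t ≤ r) (hc : 0 ≤ c) (hm : 0 ≤ m) (B : Set ℝ)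
    (hB : volume (B ∩ Ioo t r) ≤ ENNReal.ofReal m)
    (hy : IntervalIntegrable y volume t r) (hY : ∀ s ∈ Icc t r, Y s = Y t + ∫ ρ in t..s, y ρ) (hY0 : 0 ≤ Y t)
    (h0 : ∀ᵐ ρ : ℝ, ρ ∈ Ioo t r → 0 ≤ y ρ)
    (h : ∀ᵐ ρ : ℝ, ρ ∈ Ioo t r → ρ ∉ B → Y ρ ≤ 2 / 3 * ρ * y ρ + c * ρ ^ 2) :
    Y t ≤ (t / r) ^ (3 / 2 : ℝ) * Real.exp (3 / 2 * m / t) * (Y r + 3 * c * r ^ 2) := by
  have hS := measurableSet_toMeasurable volume (B ∩ Ioo t r)
  have hS1 := subset_toMeasurable volume (B ∩ Ioo t r)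
  rw [← measure_toMeasurable] at hB
  set S := toMeasurable volume (B ∩ Ioo t r)
  have i1 := (grona_inv ht htr).const_mul (3 / 2)
  have i2 : IntervalIntegrable (Sᶜ.indicator fun ρ : ℝ => 3 / 2 * ρ⁻¹) volume t r :=
    ⟨i1.1.indicator hS.compl, i1.2.indicator hS.compl⟩
  have i3 : IntervalIntegrable (S.indicator fun _ : ℝ => 3 / 2 * t⁻¹) volume t r :=
    ⟨intervalIntegrable_const.1.indicator hS, intervalIntegrable_const.2.indicator hS⟩
  have h1 := grona_gen (Z := fun s => Y s + 3 * c * s ^ 2) htr (grona_int hy _) i2 (grona_sq hy hY _) (by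
    filter_upwards [h0, h] with ρ e1 e2 hρ
    have h2 := ht.trans hρ.1
    by_cases hs : ρ ∈ S
    · rw [indicator_of_notMem (notMem_compl_iff.2 hs), zero_mul]
      exact add_nonneg (e1 hρ) (by positivity)
    · rw [indicator_of_mem (mem_compl hs), mul_assoc, inv_mul_eq_div, ← mul_div_assoc, div_le_iff₀ h2]
      nlinarith [e2 hρ fun hb => hs (hS1 ⟨hb, hρ⟩)])
  have h2 : 0 ≤ Y t + 3 * c * t ^ 2 := by positivity
  have h3 : 0 ≤ Y r + 3 * c * r ^ 2 := nonneg_of_mul_nonneg_right (h2.trans h1) (Real.exp_pos _)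
  refine (le_add_of_nonneg_right (by positivity)).trans (h1.trans (mul_le_mul_of_nonneg_right ?_ h3))
  rw [← grona_log ht htr, ← Real.exp_add, Real.exp_le_exp]
  have h4 := intervalIntegral.integral_mono_on htr i1 (i2.add i3) fun ρ hρ => by
    by_cases hs : ρ ∈ S
    · rw [indicator_of_notMem (notMem_compl_iff.2 hs), indicator_of_mem hs, zero_add]
      gcongr
      exact hρ.1
    · rw [indicator_of_mem (mem_compl hs), indicator_of_notMem hs, add_zero]
  have h5 : ∫ ρ in t..r, S.indicator (fun _ : ℝ => 3 / 2 * t⁻¹) ρ ≤ 3 / 2 * m / t := by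
    rw [intervalIntegral.integral_of_le htr, integral_indicator_const _ hS, smul_eq_mul]
    have : (volume.restrict (Ioc t r)).real S ≤ m :=
      ENNReal.toReal_le_of_le_ofReal hm ((Measure.restrict_apply_le _ _).trans hB)
    exact (mul_le_mul_of_nonneg_right this (by positivity)).trans_eq (by ring)
  rw [intervalIntegral.integral_add i2 i3, intervalIntegral.integral_const_mul] at h4
  linarith

/-- monotonicity of `ℓ(t)/t` from the integral inequality (apply `gron_full`, `β = 1`, to `M s = ℓ t + ∫_t^s ℓ/ρ ≤ ℓ s`) -/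
theorem mono_div_of_integral {l : ℝ → ℝ} (hm : MonotoneOn l (Ioi 0))
    (h : ∀ t s : ℝ, 0 < t → t ≤ s → l t + ∫ ρ in t..s, l ρ / ρ ≤ l s) :
    MonotoneOn (fun t => l t / t) (Ioi 0) := by
  intro t ht r hr htr
  have ht' : 0 < t := ht
  have hr' : 0 < r := hr
  have hs : uIcc t r ⊆ Ioi 0 := by
    rw [uIcc_of_le htr]
    exact fun x hx => ht'.trans_le hx.1
  have hy : IntervalIntegrable (fun ρ => l ρ / ρ) volume t r := by
    simp only [div_eq_mul_inv]
    exact (hm.mono hs).intervalIntegrable.mul_continuousOn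
      (continuousOn_id.inv₀ fun x hx => (hs hx).ne')
  have key := gron_full (Y := fun s => l t + ∫ ρ in t..s, l ρ / ρ) (β := 1) (c := 0) ht' htr
    one_lt_two le_rfl hy (fun s _ => by simp) (Eventually.of_forall fun ρ hρ => by
      rw [one_mul, zero_mul, sub_zero]
      exact div_le_div_of_nonneg_right (h t ρ ht' hρ.1.le) (ht'.trans hρ.1).le)
  simp only [intervalIntegral.integral_same, add_zero, zero_div, zero_mul, Real.rpow_one] at key
  have := key.trans (mul_le_mul_of_nonneg_left (h t r ht' htr) (by positivity))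
  show l t / t ≤ l r / r
  rw [div_le_iff₀ ht']
  exact this.trans_eq (by ring)

/-- Chebyshev choice of a radius avoiding a bad set and a null set -/
theorem exists_radius {f : ℝ → ℝ} {s t m I : ℝ} (hst : s < t) (B : Set ℝ) (hB : volume (B ∩ Ioo s t) ≤ ENNReal.ofReal m)
    (hm0 : 0 ≤ m) (hm : m < t - s) (hf : IntervalIntegrable f volume s t) (hf0 : ∀ ρ ∈ Ioo s t, 0 ≤ f ρ)
    (hI : ∫ ρ in s..t, f ρ ≤ I) {P : ℝ → Prop} (hP : ∀ᵐ ρ : ℝ, ρ ∈ Ioo s t → P ρ) :
    ∃ ρ ∈ Ioo s t, ρ ∉ B ∧ P ρ ∧ f ρ ≤ I / (t - s - m) := by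
  set A := {ρ ∈ Ioo s t | ρ ∉ B ∧ P ρ}
  have hA : A ⊆ Ioo s t := fun ρ hρ => hρ.1
  have hfi : IntegrableOn f (Ioo s t) := (intervalIntegrable_iff_integrableOn_Ioo_of_le hst.le).1 hf
  have hfin : volume A ≠ ⊤ := ((measure_mono hA).trans_lt measure_Ioo_lt_top).ne
  have h1 : volume (Ioo s t) ≤ volume A + ENNReal.ofReal m := by
    refine (measure_mono_ae (t := A ∪ B ∩ Ioo s t) ?_).trans
      ((measure_union_le _ _).trans (add_le_add le_rfl hB))
    filter_upwards [hP] with ρ hρ hρ'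
    by_cases hb : ρ ∈ B
    · exact Or.inr ⟨hb, hρ'⟩
    · exact Or.inl ⟨hρ', hb, hρ hρ'⟩
  have h2 : t - s - m ≤ volume.real A := by
    have := ENNReal.toReal_mono (ENNReal.add_ne_top.2 ⟨hfin, ENNReal.ofReal_ne_top⟩) h1
    rw [Real.volume_Ioo, ENNReal.toReal_add hfin ENNReal.ofReal_ne_top,
      ENNReal.toReal_ofReal (by linarith), ENNReal.toReal_ofReal hm0] at this
    rw [Measure.real]
    linarith
  have h3 : 0 < t - s - m := by linarith
  have h0 : volume A ≠ 0 := fun e => by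
    rw [Measure.real, e, ENNReal.toReal_zero] at h2
    linarith
  have hf0' : 0 ≤ᵐ[volume.restrict (Ioo s t)] f :=
    (ae_restrict_iff' measurableSet_Ioo).2 (Eventually.of_forall hf0)
  rw [intervalIntegral.integral_of_le hst.le, integral_Ioc_eq_integral_Ioo] at hI
  have hI0 : 0 ≤ I := (integral_nonneg_of_ae hf0').trans hI
  obtain ⟨ρ, hρ, hle⟩ := exists_le_setAverage h0 hfin (hfi.mono_set hA)
  refine ⟨ρ, hρ.1, hρ.2.1, hρ.2.2, hle.trans ?_⟩
  rw [setAverage_eq, smul_eq_mul, inv_mul_eq_div]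
  exact div_le_div₀ hI0 ((setIntegral_mono_set hfi hf0' hA.eventuallyLE).trans hI) h3 h2

/-- discrete decay to a power law: `f (s/2) ≤ θ f s + c s²`-type iteration with `θ = 2^{-5/4}` -/
theorem decay_iter {f : ℝ → ℝ} {r c : ℝ} (hr : 0 < r) (hc : 0 ≤ c) (hm : MonotoneOn f (Ioc 0 r))
    (h0 : ∀ s ∈ Ioc 0 r, 0 ≤ f s) (h : ∀ s ∈ Ioc 0 r, f (s / 2) ≤ (2 : ℝ) ^ (-(5 / 4) : ℝ) * (f s + c * s ^ 2)) :
    ∀ t ∈ Ioc 0 r, f t ≤ 100 * (t / r) ^ (5 / 4 : ℝ) * (f r + c * r ^ 2) := by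
  set θ := (2 : ℝ) ^ (-(5 / 4) : ℝ) with hθ
  have hθ0 : 0 < θ := by positivity
  have hθ1 : 3 / 8 ≤ θ := by
    have e : θ ^ 4 = 1 / 32 := by
      rw [hθ, ← Real.rpow_natCast, ← Real.rpow_mul zero_le_two]
      norm_num
    by_contra hlt
    have := pow_le_pow_left₀ hθ0.le (not_le.1 hlt).le 4
    norm_num [e] at this
  have hθ2 : θ * 2 ^ (5 / 4 : ℝ) = 1 := by
    rw [hθ, ← Real.rpow_add two_pos]
    norm_num
  have hr' : r ∈ Ioc 0 r := ⟨hr, le_rfl⟩
  have hE : 0 ≤ f r + c * r ^ 2 := add_nonneg (h0 r hr') (by positivity)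
  have base : ∀ t ∈ Ioc 0 r, r / 2 ≤ t →
      f t + 3 * c * t ^ 2 ≤ 100 * (t / r) ^ (5 / 4 : ℝ) * (f r + c * r ^ 2) := fun t ht h2 => by
    have a1 : f t ≤ f r := hm ht hr' ht.2
    have a2 : c * t ^ 2 ≤ c * r ^ 2 := mul_le_mul_of_nonneg_left (pow_le_pow_left₀ ht.1.le ht.2 2) hc
    have a3 : θ ≤ (t / r) ^ (5 / 4 : ℝ) := by
      rw [hθ, Real.rpow_neg zero_le_two, ← Real.inv_rpow zero_le_two]
      refine Real.rpow_le_rpow (by norm_num) ?_ (by norm_num)
      rw [le_div_iff₀ hr]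
      linarith
    have a4 := mul_le_mul_of_nonneg_right (hθ1.trans a3) hE
    nlinarith [h0 r hr']
  have key : ∀ n : ℕ, ∀ t ∈ Ioc 0 r, r / 2 ^ n ≤ t →
      f t + 3 * c * t ^ 2 ≤ 100 * (t / r) ^ (5 / 4 : ℝ) * (f r + c * r ^ 2) := by
    intro n
    induction n with
    | zero => exact fun t ht h2 => base t ht (by rw [pow_zero] at h2; linarith)
    | succ n ih =>
      intro t ht h2
      rcases le_total (r / 2) t with h3 | h3
      · exact base t ht h3
      have ht2 : 2 * t ∈ Ioc 0 r := ⟨by linarith [ht.1], by linarith⟩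
      have b1 := ih _ ht2 (by rw [pow_succ, ← div_div] at h2; linarith)
      have b2 := h _ ht2
      rw [mul_div_cancel_left₀ t two_ne_zero] at b2
      rw [mul_div_assoc, Real.mul_rpow zero_le_two (div_pos ht.1 hr).le] at b1
      have b3 := mul_le_mul_of_nonneg_left b1 hθ0.le
      have b4 : θ * (100 * (2 ^ (5 / 4 : ℝ) * (t / r) ^ (5 / 4 : ℝ)) * (f r + c * r ^ 2)) =
          100 * (t / r) ^ (5 / 4 : ℝ) * (f r + c * r ^ 2) := by
        linear_combination (100 * (t / r) ^ (5 / 4 : ℝ) * (f r + c * r ^ 2)) * hθ2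
      have b5 := mul_le_mul_of_nonneg_right hθ1 (mul_nonneg hc (sq_nonneg t))
      nlinarith
  intro t ht
  obtain ⟨n, hn⟩ := pow_unbounded_of_one_lt (r / t) (one_lt_two (α := ℝ))
  have := key n t ht (by
    rw [div_lt_iff₀ ht.1] at hn
    rw [div_le_iff₀ (by positivity)]
    linarith)
  nlinarith [mul_nonneg hc (sq_nonneg t)]

end Crest.Agent.R135
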