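import Crest.Agent.R135.Defs
import Crest.Agent.R135.MXL
import Crest.Agent.R135.MCI2
import Crest.Agent.R135.TGron
import Crest.Agent.R135.TEil
set_option autoImplicit false
open MeasureTheory Metric Set Filter Topology
open scoped ENNReal NNReal Real ComplexConjugate

namespace Crest.Agent.R135

/-- One decay step at low density. `B = {ρ | K ∩ sphere y ρ ≠ ∅}` has measure `≤ σ s/2` in `(0,s)` (`eil_count`, `m = 1`);
`gron_bad` on `[2σ s, s]` with `decay_empty`; `exists_radius` in `(σ s, 2σ s)`; `MS.xl` with `κ = ρ/2`, no points; `Good.ce1_sq`. -/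
theorem dlb_step : ∃ C : ℝ, 1 ≤ C ∧ ∀ σ ∈ Ioc (0 : ℝ) (1 / 8), ∀ (U K : Set ℂ) (a b : ℝ) (u : ℂ → ℝ), MS U a b K u →
    ∀ (y : ℂ) (s : ℝ), 0 < s → closedBall y s ⊆ U → Lr K y s ≤ σ * s / 2 →
    Dr u y (σ * s) + Lr K y (σ * s) ≤ C * (σ * √σ * Dr u y s + a * b * s ^ 2) := by
  refine ⟨40000, by norm_num, fun σ hσ U K a b u h y s hs hB hL => ?_⟩
  have hab := mul_nonneg h.a0 h.b0
  have ht := mul_pos hσ.1 hs
  have hts : 2 * (σ * s) ≤ s := by nlinarith [hσ.2]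
  set B := {ρ : ℝ | ((1 : ℕ) : ℕ∞) ≤ (K ∩ ball y s ∩ sphere y ρ).encard}
  have hvol : ∀ I, volume (B ∩ I) ≤ ENNReal.ofReal (σ * s / 2) := fun I => by
    have := eil_count y (K ∩ ball y s) (h.closed.measurableSet.inter measurableSet_ball) 1
    rw [Nat.cast_one, one_mul, ← h.ofReal_Lr hB] at this
    exact (measure_mono inter_subset_left).trans (this.trans (ENNReal.ofReal_le_ofReal hL))
  have hE : ∀ ρ < s, ρ ∉ B → K ∩ sphere y ρ = ∅ := fun ρ h1 h2 => by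
    refine eq_empty_of_forall_notMem fun z hz => h2 ?_
    exact one_le_encard_iff_nonempty.2 ⟨z, ⟨hz.1, (mem_sphere.1 hz.2).trans_lt h1⟩, hz.2⟩
  obtain ⟨i1, i2⟩ := h.ce_int hs.le hB
  have i3 : ∀ p q, 0 ≤ p → p ≤ q → q ≤ s → IntervalIntegrable (ce u y) volume p q := fun p q h1 h2 h3 =>
    i1.mono_set (by rw [uIcc_of_le h2, uIcc_of_le hs.le]; exact Icc_subset_Icc h1 h3)
  have g1 := gron_bad (Y := Dr u y) (c := 2 * (a * b)) (by positivity) hts (by positivity) (by positivity) B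
    (hvol _) (i3 _ _ (by positivity) hts le_rfl) (fun r hr => i2 _ _ (by positivity) hr.1 hr.2) (Dr_nonneg ..)
    (Eventually.of_forall fun ρ hρ => ce_nonneg _ _ (by linarith [hρ.1]))
    ((h.ae_good hB).mono fun ρ h1 hρ h2 => h.decay_empty (h1 ⟨by linarith [hρ.1], hρ.2⟩) hρ.2
      (ball_subset_closedBall.trans hB) (hE ρ hρ.2 h2))
  have g2 : (2 * (σ * s) / s) ^ (3 / 2 : ℝ) * Real.exp (3 / 2 * (σ * s / 2) / (2 * (σ * s))) ≤ 4 * (σ * √σ) * 3 := by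
    have e1 : (2 * (σ * s) / s) ^ (3 / 2 : ℝ) ≤ 4 * (σ * √σ) := by
      have h0 := hσ.1
      rw [show 2 * (σ * s) / s = 2 * σ by field_simp, show (3 / 2 : ℝ) = 1 + 1 / 2 by norm_num,
        Real.rpow_add (by positivity), Real.rpow_one, ← Real.sqrt_eq_rpow]
      have : √(2 * σ) ≤ 2 * √σ := Real.sqrt_le_iff.2 ⟨by positivity, by nlinarith [Real.sq_sqrt h0.le]⟩
      nlinarith
    have e2 : Real.exp (3 / 2 * (σ * s / 2) / (2 * (σ * s))) ≤ 3 :=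
      (Real.exp_le_exp.2 (by rw [div_le_one (by positivity)]; linarith)).trans Real.exp_one_lt_three.le
    exact mul_le_mul e1 e2 (Real.exp_pos _).le (mul_nonneg zero_le_four (mul_nonneg hσ.1.le (Real.sqrt_nonneg _)))
  have hD := Dr_nonneg u y s
  have g3 := g1.trans (mul_le_mul_of_nonneg_right g2 (by positivity))
  obtain ⟨ρ, hρ, h1, hg, h2⟩ := exists_radius (f := ce u y) (I := Dr u y (2 * (σ * s)))
    (by linarith : σ * s < 2 * (σ * s)) B (hvol _) (by positivity) (by linarith) (i3 _ _ ht.le (by linarith) hts)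
    (fun ρ hρ => ce_nonneg _ _ (by linarith [hρ.1]))
    (by linarith [i2 _ _ ht.le (by linarith : σ * s ≤ 2 * (σ * s)) hts, Dr_nonneg u y (σ * s)])
    ((h.ae_good hB).mono fun ρ h1 hρ => h1 ⟨ht.trans hρ.1, hρ.2.trans_le hts⟩)
  have hρ0 := hg.pos
  have hρs := hρ.2.trans_le hts
  have hB' := (closedBall_subset_closedBall hρs.le).trans hB
  have x1 := h.xl hg hB' (half_pos hρ0) le_rfl (mem_closedBall_self hρ0.le)
  rw [hg.fin.toFinset_eq_empty.2 (hE ρ hρs h1), show ρ / (ρ / 2) = 2 by field_simp] at x1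
  simp only [Finset.sum_empty, Finset.card_empty, Nat.cast_zero] at x1
  have x2 := h.Dr_mono hB' (ball_subset_ball hρ.1.le)
  have x3 := h.Lr_mono hB' (ball_subset_ball hρ.1.le)
  have hc := ce_nonneg u y hρ0.le
  have x4 : ρ * ce u y ρ ≤ 4 * Dr u y (2 * (σ * s)) := by
    rw [le_div_iff₀ (by linarith)] at h2
    nlinarith [hρ.2]
  have x5 : 2 * π * 2 * ce1 u y ρ ^ 2 ≤ 2 * 4 * 2 * (2 * 4 * ρ * ce u y ρ) := by
    refine mul_le_mul (by linarith [Real.pi_le_four]) (hg.ce1_sq.trans ?_) (sq_nonneg _) (by norm_num)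
    gcongr
    exact Real.pi_le_four
  have x6 : π * (a * b) * ρ ^ 2 ≤ 4 * (a * b) * s ^ 2 := by
    gcongr
    exact Real.pi_le_four
  have x7 : σ * √σ * (a * b * s ^ 2) ≤ 1 * (a * b * s ^ 2) := by
    refine mul_le_mul_of_nonneg_right (mul_le_one₀ (by linarith [hσ.2]) (Real.sqrt_nonneg _) ?_) (by positivity)
    exact Real.sqrt_le_one.2 (by linarith [hσ.2])
  have x8 : 0 ≤ σ * √σ * Dr u y s := mul_nonneg (mul_nonneg hσ.1.le (Real.sqrt_nonneg _)) hD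
  have x9 : 0 ≤ a * b * s ^ 2 := by positivity
  linarith

/-- smallness propagates to all smaller scales -/
theorem adlb_prop {E L : ℝ → ℝ} {σ s₀ : ℝ} (hσ : 0 < σ) (hσ1 : σ < 1) (hs : 0 < s₀)
    (hL : ∀ s t, s ≤ t → t ≤ s₀ → L s ≤ E t) (h0 : E s₀ ≤ σ / 8 * s₀)
    (h : ∀ s, 0 < s → s ≤ s₀ → E s ≤ σ / 8 * s → E (σ * s) ≤ σ / 8 * (σ * s)) :
    ∀ s ∈ Ioc 0 s₀, L s ≤ 1 / 8 * s := by
  have hle : ∀ k : ℕ, σ ^ k * s₀ ≤ s₀ := fun k => mul_le_of_le_one_left hs.le (pow_le_one₀ hσ.le hσ1.le)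
  have hk : ∀ k : ℕ, E (σ ^ k * s₀) ≤ σ / 8 * (σ ^ k * s₀) := by
    intro k
    induction k with
    | zero => simpa using h0
    | succ k ih =>
      rw [pow_succ', mul_assoc]
      exact h _ (by positivity) (hle k) ih
  intro s hs'
  obtain ⟨k, h1, h2⟩ := exists_nat_pow_near_of_lt_one (div_pos hs'.1 hs) ((div_le_one hs).2 hs'.2) hσ hσ1
  rw [lt_div_iff₀ hs, pow_succ] at h1
  rw [div_le_iff₀ hs] at h2
  linarith [hL s _ h2 (hle k), hk k]

/-- Density lower bound. `m s = (Dr + Lr)/s` obeys `m (σ s) ≤ C (√σ m s + a b s/σ)`. Fix `σ` with `C √σ ≤ 1/2`, `ε = σ/8`; then `m ≤ ε` propagates to all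
scales `σ^k s₀`, so `Lr y' s ≤ s/8` for `s ≤ s₀`. First step: `σ₁` with `C √σ₁ · 10 ≤ ε/2` (`upper_real`), `c = σ₁/4`, applied at every
`y' ∈ K ∩ ball y (t/4)` with `s = t/2`. `H1_zero_of_small_density` contradicts `Abs.red`. -/
theorem dlb : ∃ c δ : ℝ, 0 < c ∧ 0 < δ ∧ ∀ (U K : Set ℂ) (a b : ℝ) (u : ℂ → ℝ), Abs U a b K u →
    ∀ y ∈ K, ∀ t : ℝ, 0 < t → closedBall y t ⊆ U → a * b * t ≤ δ → c * t ≤ Lr K y t := by
  obtain ⟨C, hC, hstep⟩ := dlb_step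
  obtain ⟨τ, hτ, hτC⟩ : ∃ τ : ℝ, 0 < τ ∧ C * τ = 1 / 4 := ⟨1 / (4 * C), by positivity, by field_simp⟩
  have hτ1 : τ ≤ 1 / 4 := by nlinarith
  obtain ⟨σ, hσ⟩ : ∃ σ, σ = τ ^ 2 := ⟨_, rfl⟩
  have hσ0 : 0 < σ := by rw [hσ]; positivity
  have hσ1 : σ ≤ 1 / 16 := by rw [hσ]; nlinarith
  have hσs : √σ = τ := by rw [hσ, Real.sqrt_sq hτ.le]
  obtain ⟨τ₁, hτ₁, hτ₁C⟩ : ∃ τ₁ : ℝ, 0 < τ₁ ∧ C * τ₁ = σ / 160 := ⟨σ / (160 * C), by positivity, by field_simp⟩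
  have hτ₁1 : τ₁ ≤ σ / 160 := by nlinarith
  obtain ⟨σ₁, hσ₁⟩ : ∃ σ₁, σ₁ = τ₁ ^ 2 := ⟨_, rfl⟩
  have hσ₁0 : 0 < σ₁ := by rw [hσ₁]; positivity
  have hσ₁1 : σ₁ ≤ σ / 2 := by rw [hσ₁]; nlinarith
  have hσ₁s : √σ₁ = τ₁ := by rw [hσ₁, Real.sqrt_sq hτ₁.le]
  obtain ⟨δ, hδ, hδC⟩ : ∃ δ : ℝ, 0 < δ ∧ C * δ = σ / 8 * σ₁ := ⟨σ / 8 * σ₁ / C, by positivity, by field_simp⟩
  have hδ1 : δ ≤ 1 := by nlinarith
  refine ⟨σ₁ / 4, δ, by positivity, hδ, fun U K a b u hA y hy t ht hB hab => ?_⟩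
  by_contra hlt
  have h := hA.ms
  have hab0 : 0 ≤ a * b := mul_nonneg h.a0 h.b0
  have hCab : C * (a * b * t) ≤ σ / 8 * σ₁ := by rw [← hδC]; gcongr
  have hs₀ : σ₁ * (t / 2) ≤ t / 2 := mul_le_of_le_one_left (by positivity) (by linarith)
  refine (hA.red y ⟨hy, hB (mem_closedBall_self ht.le)⟩ (t / 4) (by positivity)).ne' ?_
  refine H1_zero_of_small_density (K := K) inter_subset_left ((measure_mono (inter_subset_inter_right _
    (ball_subset_closedBall.trans (closedBall_subset_closedBall (by linarith))))).trans_lt (h.H1_lt_top hB))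
    (s₀ := σ₁ * (t / 2)) (θ := 1 / 8) (by positivity) (by norm_num) fun z hz s hs => ?_
  have hz' : dist z y < t / 4 := hz.2
  have hB' : ∀ r, r ≤ t / 2 → closedBall z r ⊆ U := fun r hr =>
    (closedBall_subset_closedBall' (by linarith)).trans hB
  rw [← h.ofReal_Lr (hB' s (hs.2.trans hs₀))]
  refine ENNReal.ofReal_le_ofReal (adlb_prop (E := fun s => Dr u z s + Lr K z s) (L := Lr K z) hσ0
    (by linarith) (by positivity) (fun s r h1 h2 => ?_) ?_ (fun s h1 h2 h3 => ?_) s hs)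
  · exact (h.Lr_mono (hB' r (h2.trans hs₀)) (ball_subset_ball h1)).trans (le_add_of_nonneg_left (Dr_nonneg _ _ _))
  · have h1 : Lr K z (t / 2) ≤ Lr K y t := h.Lr_mono hB (ball_subset_ball' (by linarith))
    have h2 := hstep σ₁ ⟨hσ₁0, by linarith⟩ U K a b u h z (t / 2) (by positivity) (hB' _ le_rfl)
      (by linarith [not_le.1 hlt])
    have h3 := h.upper_real (x := z) (ρ := t / 2) (by positivity) (hB' _ le_rfl)
    have h4 : π * (a * b) * (t / 2) ^ 2 ≤ t := by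
      calc _ = π / 4 * (a * b * t) * t := by ring
        _ ≤ 1 * 1 * t := by gcongr <;> linarith [Real.pi_le_four]
        _ = t := by ring
    have h5 : Dr u z (t / 2) ≤ 5 * t := by nlinarith [Real.pi_le_four, Lr_nonneg K z (t / 2)]
    rw [hσ₁s] at h2
    calc _ ≤ _ := h2
      _ = σ₁ * (C * τ₁) * Dr u z (t / 2) + C * (a * b * t) * (t / 4) := by ring
      _ ≤ σ₁ * (C * τ₁) * (5 * t) + σ / 8 * σ₁ * (t / 4) := by gcongr
      _ = _ := by rw [hτ₁C]; ring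
  · have h4 := Dr_nonneg u z s
    have h5 := Lr_nonneg K z s
    have hσs' := mul_pos hσ0 h1
    have h6 := hstep σ ⟨hσ0, by linarith⟩ U K a b u h z s h1 (hB' _ (h2.trans hs₀)) (by linarith)
    have h7 : C * (a * b * s) ≤ σ / 8 * (σ / 2) := by
      calc _ ≤ C * (a * b * t) := by gcongr; linarith
        _ ≤ σ / 8 * σ₁ := hCab
        _ ≤ _ := by gcongr
    rw [hσs] at h6
    calc _ ≤ _ := h6
      _ = σ * (C * τ) * Dr u z s + C * (a * b * s) * s := by ring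
      _ ≤ σ * (C * τ) * (σ / 8 * s) + σ / 8 * (σ / 2) * s := by gcongr; linarith
      _ ≤ _ := by rw [hτC]; nlinarith [mul_pos hσ0 hσs']

end Crest.Agent.R135
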