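import Crest.Agent.R135.Defs
import Crest.Agent.R135.ADlb
set_option autoImplicit false
open MeasureTheory Metric Set Filter Topology
open scoped ENNReal NNReal Real ComplexConjugate

namespace Crest.Agent.R135

theorem alow_small {M η η' : ℝ} (hM : 0 < M) (h : 0 < η) (h' : 0 < η') : ∃ x, 0 < x ∧ x ≤ η' ∧ M * x ≤ η :=
  ⟨min η' (η / M), by positivity, min_le_left _ _, by
    rw [← le_div_iff₀' hM]; exact min_le_right _ _⟩

theorem alow_apex {T : Set ℂ} (hT : T.Finite) (h : T.encard ≤ 1) {D : Set ℂ} (hD : T ⊆ D) (hne : D.Nonempty) :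
    ∃ q ∈ D, ∑ p ∈ hT.toFinset, ‖p - q‖ = 0 ∧ (hT.toFinset.card : ℝ) ≤ 1 := by
  rcases Set.encard_le_one_iff_eq.1 h with rfl | ⟨q, rfl⟩
  · obtain ⟨q, hq⟩ := hne
    exact ⟨q, hq, by simp⟩
  · exact ⟨q, hD rfl, by simp⟩

/-- Small gradient forces density `2`. Otherwise `B = {N ≥ 2}` has measure `≤ (1 - ε/2) t` in `(0,t)` (`eil_count`); choose
(`exists_radius` in `(εt/8, t)` for `f = ce + ce1/(δ√t)`) a good `ρ ∉ B`; `MS.xl` with `N ≤ 1`, apex the point (or `y`), `κ = κ₀ t`; contradiction with `dlb` at radius `ρ`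
for `κ₀`, then `δ`, small. (WLOG `ε ≤ 1`.) -/
theorem low_dens (ε : ℝ) (hε : 0 < ε) : ∃ δ : ℝ, 0 < δ ∧ ∀ (U K : Set ℂ) (a b : ℝ) (u : ℂ → ℝ), Abs U a b K u →
    ∀ y ∈ K, ∀ t : ℝ, 0 < t → closedBall y t ⊆ U → a * b * t ≤ δ →
    ∫ z in ball y t, ‖gradient u z‖ ≤ δ * (t * √t) → (2 - ε) * t ≤ Lr K y t := by
  wlog hε1 : ε ≤ 1 generalizing ε
  · obtain ⟨δ, hδ, h⟩ := this 1 one_pos le_rfl
    exact ⟨δ, hδ, fun U K a b u hA y hy t ht hB hab hI =>
      le_trans (by nlinarith [not_le.1 hε1]) (h U K a b u hA y hy t ht hB hab hI)⟩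
  obtain ⟨c, δ₀, hc, hδ₀, hd⟩ := dlb
  set A := 44 / ε with hAd
  have hA0 : 0 < A := by positivity
  obtain ⟨κ, hκ, hκ1, hκ2⟩ := alow_small (M := 4 + 2 * A) (η := c * ε / 8) (η' := ε / 8)
    (by positivity) (by positivity) (by positivity)
  obtain ⟨δ, hδ, hδ1, hδ2⟩ := alow_small (M := 8 * A ^ 2 / κ + 4) (η := c * ε / 8) (η' := min 1 δ₀)
    (by positivity) (by positivity) (by positivity)
  obtain ⟨hδ1, hδ0⟩ := le_min_iff.1 hδ1
  refine ⟨δ, hδ, fun U K a b u hA y hy t ht hB hab hI => ?_⟩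
  by_contra hlt
  have h := hA.ms
  have hab0 : 0 ≤ a * b := mul_nonneg h.a0 h.b0
  have hεt : 0 < ε * t := mul_pos hε ht
  have hεt' : ε * t ≤ t := mul_le_of_le_one_left ht.le hε1
  have hst : ε * t / 4 < t := by linarith
  have hm0 : 0 ≤ (1 - ε / 2) * t := by nlinarith
  set B := {ρ : ℝ | ((2 : ℕ) : ℕ∞) ≤ (K ∩ ball y t ∩ sphere y ρ).encard}
  have hBm : volume (B ∩ Ioo (ε * t / 4) t) ≤ ENNReal.ofReal ((1 - ε / 2) * t) := by
    have h1 := eil_count y (K ∩ ball y t) (h.closed.measurableSet.inter measurableSet_ball) 2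
    rw [← h.ofReal_Lr hB] at h1
    have h2 : ENNReal.ofReal (Lr K y t) ≤ (2 : ℕ) * ENNReal.ofReal ((1 - ε / 2) * t) := by
      rw [← ENNReal.ofReal_natCast, ← ENNReal.ofReal_mul (by positivity)]
      exact ENNReal.ofReal_le_ofReal (by push_cast; linarith [not_le.1 hlt])
    exact (measure_mono inter_subset_left).trans
      ((ENNReal.mul_le_mul_iff_right (by simp) (by simp)).1 (h1.trans h2))
  have hsq : 0 < √t := Real.sqrt_pos.2 ht
  obtain ⟨i1, e1⟩ := h.ce_int ht.le hB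
  obtain ⟨-, i2, e2⟩ := h.ce1_int ht.le hB
  have hsub : uIcc (ε * t / 4) t ⊆ uIcc 0 t := by
    rw [uIcc_of_le hst.le, uIcc_of_le ht.le]
    exact Icc_subset_Icc_left (by positivity)
  have j1 := i1.mono_set hsub
  have j2 := (i2.mono_set hsub).div_const (δ * √t)
  have hπ := Real.pi_le_four
  have hπ3 := Real.pi_lt_d2
  have hπ0 := Real.pi_pos
  have hI' : ∫ ρ in (ε * t / 4)..t, (ce u y ρ + ce1 u y ρ / (δ * √t)) ≤ 11 * t := by
    rw [intervalIntegral.integral_add j1 j2, intervalIntegral.integral_div]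
    have a1 := e1 (ε * t / 4) t (by positivity) hst.le le_rfl
    have a2 := h.upper_real ht.le hB
    have a3 : π * (a * b) * t ^ 2 ≤ π * t := by
      calc _ = π * t * (a * b * t) := by ring
        _ ≤ π * t * 1 := by gcongr; linarith
        _ = _ := mul_one _
    have a4 : ∫ ρ in (ε * t / 4)..t, ce1 u y ρ ≤ ∫ ρ in (0 : ℝ)..t, ce1 u y ρ :=
      intervalIntegral.integral_mono_interval (by positivity) hst.le le_rfl
        ((ae_restrict_iff' measurableSet_Ioc).2 (Eventually.of_forall fun ρ hρ => ce1_nonneg u y hρ.1.le)) i2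
    have a5 : (∫ ρ in (ε * t / 4)..t, ce1 u y ρ) / (δ * √t) ≤ t := by
      rw [div_le_iff₀ (by positivity)]
      linarith
    nlinarith [Dr_nonneg u y (ε * t / 4), Lr_nonneg K y t]
  obtain ⟨ρ, hρ, hρB, hg, hf⟩ := exists_radius hst B hBm hm0 (by linarith) (j1.add j2)
    (fun ρ hρ => by
      have : 0 ≤ ρ := le_trans (by positivity) hρ.1.le
      exact add_nonneg (ce_nonneg u y this) (div_nonneg (ce1_nonneg u y this) (by positivity))) hI'
    (P := Good K u y) ((h.ae_good hB).mono fun ρ H hρ => H ⟨lt_trans (by positivity) hρ.1, hρ.2⟩)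
  have hρ0 := hg.pos
  have eA : 11 * t / (t - ε * t / 4 - (1 - ε / 2) * t) = A := by
    rw [show t - ε * t / 4 - (1 - ε / 2) * t = ε * t / 4 by ring, hAd]
    field_simp
    norm_num
  rw [eA] at hf
  have c0 := ce_nonneg u y hρ0.le
  have c1 := ce1_nonneg u y hρ0.le
  have b1 : ce u y ρ ≤ A := le_trans (le_add_of_nonneg_right (by positivity)) hf
  have b2 : ce1 u y ρ ≤ A * (δ * √t) := by
    rw [← div_le_iff₀ (by positivity)]
    linarith
  have b3 : ce1 u y ρ ^ 2 ≤ A ^ 2 * δ * t := by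
    calc _ ≤ (A * (δ * √t)) ^ 2 := by gcongr
      _ = A ^ 2 * δ * t * δ := by rw [mul_pow, mul_pow, Real.sq_sqrt ht.le]; ring
      _ ≤ _ := mul_le_of_le_one_right (by positivity) hδ1
  have hB' : closedBall y ρ ⊆ U := (closedBall_subset_closedBall hρ.2.le).trans hB
  have hcard : (K ∩ sphere y ρ).encard ≤ 1 := by
    have e : K ∩ ball y t ∩ sphere y ρ = K ∩ sphere y ρ := by
      rw [inter_assoc, inter_eq_right.2 (sphere_subset_ball hρ.2)]
    have : (K ∩ ball y t ∩ sphere y ρ).encard < ((2 : ℕ) : ℕ∞) := not_le.1 hρB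
    rw [e] at this
    exact Order.le_of_lt_add_one this
  obtain ⟨q, hq, s0, s1⟩ := alow_apex hg.fin hcard (inter_subset_right.trans sphere_subset_closedBall)
    (nonempty_closedBall.2 hρ0.le)
  have x1 := h.xl hg hB' (κ := κ * t) (by positivity) (by nlinarith [hρ.1]) hq
  have habρ : a * b * ρ ≤ δ := (mul_le_mul_of_nonneg_left hρ.2.le hab0).trans hab
  have x2 := hd U K a b u hA y hy ρ hρ0 hB' (habρ.trans hδ0)
  have x3 : 4 * (hg.fin.toFinset.card : ℝ) * (κ * t) ≤ 4 * 1 * (κ * t) := by gcongr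
  have x4 : 2 * (κ * t) * ce u y ρ ≤ 2 * (κ * t) * A := by gcongr
  have x5 : 2 * π * (ρ / (κ * t)) * ce1 u y ρ ^ 2 ≤ 8 * A ^ 2 / κ * δ * t := by
    calc _ ≤ 2 * 4 * (t / (κ * t)) * (A ^ 2 * δ * t) := by gcongr; exact hρ.2.le
      _ = _ := by field_simp; norm_num
  have x6 : π * (a * b) * ρ ^ 2 ≤ 4 * δ * t := by
    calc _ = π * (a * b * ρ) * ρ := by ring
      _ ≤ _ := by gcongr; exact hρ.2.le
  have x7 := mul_le_mul_of_nonneg_right hκ2 ht.le
  have x8 := mul_le_mul_of_nonneg_right hδ2 ht.le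
  have x9 := mul_lt_mul_of_pos_left hρ.1 hc
  linarith [Dr_nonneg u y ρ]

end Crest.Agent.R135
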