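import Crest.Agent.R135.Defs
import Crest.Agent.R135.TLen
set_option autoImplicit false
open MeasureTheory Metric Set Filter Topology
open scoped ENNReal NNReal Real ComplexConjugate

namespace Crest.Agent.R135

/-- An absolutely continuous measure has zero 1-density at `H1`-a.e. point of a set of locally finite length.
Recipe A: `μ = H1.restrict K'` and `ν = volume.withDensity f` are locally finite and mutually singular, `Besicovitch.ae_tendsto_rnDeriv`
gives `ν(B̄)/μ(B̄) → 0` `μ`-a.e., and `μ(B̄(z,t)) ≤ C t`. Recipe B: Vitali covering `Vitali.exists_disjoint_subfamily_covering_enlargement_closedBall`. -/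
theorem density_zero {K' : Set ℂ} (hK : IsClosed K') {C : ℝ}
    (hC : ∀ (z : ℂ) (t : ℝ), 0 < t → H1 (K' ∩ closedBall z t) ≤ ENNReal.ofReal (C * t)) {f : ℂ → ℝ≥0∞}
    (hf : Measurable f) (hfin : ∀ (z : ℂ) (t : ℝ), ∫⁻ w in closedBall z t, f w < ⊤) :
    ∀ᵐ z ∂(H1.restrict K'), ∀ η : ℝ, 0 < η → ∀ᶠ t in 𝓝[>] (0 : ℝ), ∫⁻ w in closedBall z t, f w ≤ ENNReal.ofReal (η * t) := by
  have hμ : ∀ (z : ℂ) (t : ℝ), 0 < t → H1.restrict K' (closedBall z t) ≤ ENNReal.ofReal (C * t) := by
    intro z t ht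
    rw [Measure.restrict_apply measurableSet_closedBall, inter_comm]
    exact hC z t ht
  have hν : ∀ (z : ℂ) (t : ℝ), volume.withDensity f (closedBall z t) = ∫⁻ w in closedBall z t, f w :=
    fun z t => withDensity_apply f measurableSet_closedBall
  have i1 : IsLocallyFiniteMeasure (H1.restrict K') :=
    ⟨fun z => ⟨_, closedBall_mem_nhds z one_pos, (hμ z 1 one_pos).trans_lt ENNReal.ofReal_lt_top⟩⟩
  have i2 : IsLocallyFiniteMeasure (volume.withDensity f) :=
    ⟨fun z => ⟨_, closedBall_mem_nhds z one_pos, (hν z 1).trans_lt (hfin z 1)⟩⟩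
  have h0 : volume K' = 0 := by
    have e : K' = ⋃ n : ℕ, K' ∩ ball 0 (n + 1) := by
      rw [← inter_iUnion, iUnion_ball_nat_succ, inter_univ]
    rw [e]
    exact measure_iUnion_null fun n => vol_zero_of_H1
      (((measure_mono (inter_subset_inter_right _ ball_subset_closedBall)).trans
        (hC 0 _ (by positivity))).trans_lt ENNReal.ofReal_lt_top)
  have hs : volume.withDensity f ⟂ₘ H1.restrict K' :=
    ⟨K', hK.measurableSet, withDensity_absolutelyContinuous _ _ h0, by
      rw [Measure.restrict_apply hK.measurableSet.compl, compl_inter_self, measure_empty]⟩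
  filter_upwards [Besicovitch.ae_tendsto_rnDeriv (volume.withDensity f) (H1.restrict K'),
    hs.rnDeriv_ae_eq_zero] with z h1 h2 η hη
  rw [h2] at h1
  have hC1 : 0 < |C| + 1 := by positivity
  filter_upwards [h1.eventually (gt_mem_nhds (ENNReal.ofReal_pos.2 (div_pos hη hC1))),
    self_mem_nhdsWithin] with t h3 ht
  have ht' : 0 < t := ht
  rw [← hν]
  have hpos : ENNReal.ofReal (η / (|C| + 1)) ≠ 0 := (ENNReal.ofReal_pos.2 (div_pos hη hC1)).ne'
  refine ((ENNReal.div_le_iff_le_mul (Or.inr ENNReal.ofReal_ne_top) (Or.inr hpos)).1 h3.le).trans ?_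
  refine (mul_le_mul_right (hμ z t ht') _).trans ?_
  rw [← ENNReal.ofReal_mul (by positivity)]
  refine ENNReal.ofReal_le_ofReal ?_
  calc η / (|C| + 1) * (C * t) ≤ η / (|C| + 1) * ((|C| + 1) * t) := by
        gcongr
        linarith [le_abs_self C]
    _ = η * t := by field_simp

/-- Covering argument (Gołąb type). For `τ, ε > 0`, `Besicovitch.exists_disjoint_closedBall_covering_ae` for `μ = H1.restrict K'` (restrict to a bounded open
part of `O` first) yields disjoint closed balls `B̄(z_i, t_i) ⊆ O`, `t_i ≤ τ`, with admissible radii, covering `μ`-almost all of `K' ∩ O`. For finite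
subfamilies, eventually `∑ (2-ε) t_i ≤ H1 (K k ∩ O)`. Intersect the covered sets over `τ = 1/m` and use
`Measure.hausdorffMeasure_le_liminf_tsum`. By contradiction: if frequently `H1 (K k ∩ O) ≤ E` then `∑ 2 t_i ≤ 2E/(2-ε)`. -/
theorem golab_cover {F : Filter ℕ} {K : ℕ → Set ℂ} (hKm : ∀ k, MeasurableSet (K k)) {K' : Set ℂ} (hK : IsClosed K')
    (hfin : ∀ (z : ℂ) (t : ℝ), H1 (K' ∩ closedBall z t) < ⊤)
    (hd : ∀ᵐ z ∂(H1.restrict K'), ∀ ε : ℝ, 0 < ε → ∀ᶠ t in 𝓝[>] (0 : ℝ), ∀ᶠ k in F,
      ENNReal.ofReal ((2 - ε) * t) ≤ H1 (K k ∩ ball z t))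
    {O : Set ℂ} (hO : IsOpen O) {E : ℝ≥0∞} (hE : E < H1 (K' ∩ O)) : ∀ᶠ k in F, E < H1 (K k ∩ O) := by
  by_contra hcon
  simp only [not_eventually, not_lt] at hcon
  set μ := H1.restrict K' with hμ
  haveI : IsLocallyFiniteMeasure μ := ⟨fun z => ⟨closedBall z 1, closedBall_mem_nhds z one_pos, by
    rw [hμ, Measure.restrict_apply measurableSet_closedBall, inter_comm]; exact hfin z 1⟩⟩
  have ed : ∀ (z : ℂ) (t : ℝ), ediam (closedBall z t) ≤ ENNReal.ofReal (2 * t) := fun z t =>
    ediam_le_of_forall_dist_le fun x hx y hy => by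
      linarith [dist_triangle_right x y z, mem_closedBall.1 hx, mem_closedBall.1 hy]
  have key : ∀ l : ℝ, 1 < l → H1 (K' ∩ O) ≤ ENNReal.ofReal l * E := by
    intro l hl
    have hl0 : 0 < l := by linarith
    have hε : 0 < 2 - 2 / l := by rw [sub_pos, div_lt_iff₀ hl0]; linarith
    set f : ℂ → Set ℝ := fun z => {t | closedBall z t ⊆ O ∧ ∀ᶠ k in F,
      ENNReal.ofReal ((2 - (2 - 2 / l)) * t) ≤ H1 (K k ∩ ball z t)} with hf
    set G : Set ℂ := {z | ∀ δ > 0, (f z ∩ Ioo 0 δ).Nonempty} with hG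
    choose T r hTc hTG hr hnull hdisj using fun m : ℕ =>
      Besicovitch.exists_disjoint_closedBall_covering_ae μ f G (fun z hz => hz) (fun _ => 1 / ((m : ℝ) + 1))
        fun _ _ => Nat.one_div_pos_of_nat
    haveI : ∀ m, Countable (T m) := fun m => (hTc m).to_subtype
    have h1 : ∀ m, ∑' i : T m, ediam (closedBall (i : ℂ) (r m i)) ^ (1 : ℝ) ≤ ENNReal.ofReal l * E := by
      intro m
      rw [ENNReal.tsum_eq_iSup_sum]
      refine iSup_le fun s => ?_
      obtain ⟨k, hk, hk'⟩ := (hcon.and_eventually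
        ((Filter.eventually_all_finset s).2 fun i _ => (hr m i i.2).1.2)).exists
      have h2 : ∑ i ∈ s, H1 (K k ∩ ball (i : ℂ) (r m i)) ≤ H1 (K k ∩ O) := by
        rw [← measure_biUnion_finset (fun i _ j _ hij => ?_) fun i _ => (hKm k).inter measurableSet_ball]
        · exact measure_mono (iUnion₂_subset fun i _ =>
            inter_subset_inter_right _ (ball_subset_closedBall.trans (hr m i i.2).1.1))
        · exact (hdisj m i.2 j.2 fun h => hij (Subtype.ext h)).mono
            (inter_subset_right.trans ball_subset_closedBall) (inter_subset_right.trans ball_subset_closedBall)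
      refine le_trans ?_ (mul_le_mul_right (h2.trans hk) _)
      rw [Finset.mul_sum]
      refine Finset.sum_le_sum fun i hi => ?_
      rw [ENNReal.rpow_one]
      refine (ed _ _).trans (le_trans (le_of_eq ?_) (mul_le_mul_right (hk' i hi) _))
      rw [← ENNReal.ofReal_mul hl0.le]
      congr 1
      field_simp
      ring
    have h3 : H1 (⋂ m, ⋃ i : T m, closedBall (i : ℂ) (r m i)) ≤ ENNReal.ofReal l * E := by
      refine (Measure.hausdorffMeasure_le_liminf_tsum 1 _ (l := atTop)
        (fun m : ℕ => ENNReal.ofReal (2 * (1 / ((m : ℝ) + 1)))) ?_ (fun m (i : T m) => closedBall (i : ℂ) (r m i))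
        (Eventually.of_forall fun m i => (ed _ _).trans (ENNReal.ofReal_le_ofReal ?_))
        (Eventually.of_forall fun m => iInter_subset _ m)).trans
        (liminf_le_of_frequently_le' (Frequently.of_forall h1))
      · simpa using ENNReal.tendsto_ofReal (tendsto_one_div_add_atTop_nhds_zero_nat.const_mul (2 : ℝ))
      · linarith [(hr m i i.2).2.2]
    rw [inter_comm, ← Measure.restrict_apply hO.measurableSet]
    refine le_trans (measure_mono_ae ?_) ((Measure.restrict_le_self _).trans h3)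
    filter_upwards [hd, ae_all_iff.2 fun m => measure_eq_zero_iff_ae_notMem.1 (hnull m)] with z hz hz' hzO
    have hzG : z ∈ G := by
      intro δ hδ
      obtain ⟨ρ, hρ, hB⟩ := nhds_basis_closedBall.mem_iff.1 (hO.mem_nhds hzO)
      obtain ⟨t, h4, h5, h6⟩ := ((hz _ hε).and (Filter.Eventually.and (Ioo_mem_nhdsGT hδ) (Ioo_mem_nhdsGT hρ))).exists
      exact ⟨t, ⟨(closedBall_subset_closedBall h6.2.le).trans hB, h4⟩, h5⟩
    refine mem_iInter.2 fun m => ?_
    by_contra h7
    exact hz' m ⟨hzG, by rwa [biUnion_eq_iUnion]⟩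
  have h8 : Tendsto (fun l : ℝ => ENNReal.ofReal l * E) (𝓝[>] 1) (𝓝 E) := by
    simpa using ENNReal.Tendsto.mul_const (b := E)
      (ENNReal.tendsto_ofReal (tendsto_nhdsWithin_of_tendsto_nhds (s := Ioi (1 : ℝ)) (a := 1) tendsto_id)) (Or.inr hE.ne_top)
  exact hE.not_ge (ge_of_tendsto h8 (eventually_nhdsWithin_of_forall key))

end Crest.Agent.R135
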