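import Crest.Agent.R135.Defs
import Crest.Agent.R135.ADlb
set_option autoImplicit false
open MeasureTheory Metric Set Filter Topology
open scoped ENNReal NNReal Real ComplexConjugate

namespace Crest.Agent.R135

variable {U : ℕ → Set ℂ} {a b : ℕ → ℝ} {K : ℕ → Set ℂ} {u : ℕ → ℂ → ℝ} {F : Filter ℕ} {K' : Set ℂ} {u' : ℂ → ℝ}

/-- compact sets off `K'` are eventually off `K k` and inside `U k` -/
theorem Cv.ev_disjoint (hs : Sq U a b K u) (hF : F ≤ atTop) (h : Cv F K u K' u') {C : Set ℂ} (hC : IsCompact C)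
    (hCK : C ⊆ K'ᶜ) : ∀ᶠ k in F, C ⊆ U k \ K k := by
  obtain ⟨δ, hδ, h1⟩ := hC.exists_thickening_subset_open h.closed.isOpen_compl hCK
  obtain ⟨R, hR⟩ := hC.isBounded.subset_ball (0 : ℂ)
  filter_upwards [hF (hs.big R), h.Khi R δ hδ] with k h2 h3 y hy
  refine ⟨h2 (hR hy), fun hk => ?_⟩
  obtain ⟨z, hz, hd⟩ := h3 y ⟨hk, hR hy⟩
  exact h1 (mem_thickening_iff.2 ⟨y, hy, dist_comm y z ▸ hd⟩) hz

theorem clenb_pack (hs : Sq U a b K u) [F.NeBot] (hF : F ≤ atTop) (h : Cv F K u K' u') :
    ∃ C : ℝ, ∀ (z : ℂ) (t s : ℝ), 0 < s → s ≤ t → ∀ T : Finset ℂ, ↑T ⊆ K' ∩ closedBall z t →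
      (T : Set ℂ).Pairwise (fun p q => s ≤ dist p q) → T.card * s ≤ C * t := by
  obtain ⟨c, δ, hc, hδ, hd⟩ := dlb
  refine ⟨128 / c, fun z t s h0 hst T hT hp => ?_⟩
  have ht := h0.trans_le hst
  have h1 := hs.ab0.mul_const t
  rw [zero_mul] at h1
  obtain ⟨k, h2, h3, h4⟩ := (((eventually_all_finset T).2 fun p hp => h.Klo p (hT hp).1 (s / 4) (by positivity)).and
    ((hs.big (2 * t + ‖z‖ + 1)).and (h1.eventually (gt_mem_nhds (lt_min hδ one_pos)))|>.filter_mono hF)).exists
  have hm := (hs.abs k).ms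
  have hab := mul_nonneg hm.a0 hm.b0
  obtain ⟨h5, h6⟩ := lt_min_iff.1 h4
  have hB : closedBall z (2 * t) ⊆ U k := (closedBall_subset_ball' (by rw [dist_zero_right]; linarith)).trans h3
  have hb : ∀ p ∈ T, closedBall p (s / 2) ⊆ closedBall z (2 * t) := fun p hp =>
    closedBall_subset_closedBall' (by linarith [mem_closedBall.1 (hT hp).2])
  have h7 : ∀ p ∈ T, ENNReal.ofReal (c * (s / 4)) ≤ H1 (K k ∩ ball p (s / 2)) := fun p hp => by
    obtain ⟨y, hy, hyp⟩ := h2 p hp
    have := hd _ _ _ _ _ (hs.abs k) y hy (s / 4) (by positivity)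
      ((closedBall_subset_closedBall' (by linarith)).trans ((hb p hp).trans hB))
      ((mul_le_mul_of_nonneg_left (by linarith) hab).trans h5.le)
    exact (ENNReal.ofReal_le_ofReal this).trans (ENNReal.ofReal_toReal_le.trans
      (measure_mono (inter_subset_inter_right _ (ball_subset_ball' (by linarith)))))
  have h8 := Finset.card_nsmul_le_sum T _ _ h7
  rw [← measure_biUnion_finset (fun p hp' q hq hpq => Disjoint.mono inter_subset_right inter_subset_right
    (ball_disjoint_ball (by linarith [hp hp' hq hpq]))) fun p _ => hm.closed.measurableSet.inter measurableSet_ball] at h8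
  have h9 := h8.trans ((measure_mono (iUnion₂_subset fun p hp => inter_subset_inter_right _
    (ball_subset_closedBall.trans (hb p hp)))).trans (le_add_self.trans (hm.upper (by positivity) hB)))
  rw [nsmul_eq_mul, ← ENNReal.ofReal_natCast, ← ENNReal.ofReal_mul (Nat.cast_nonneg _),
    ENNReal.ofReal_le_ofReal_iff (by positivity)] at h9
  rw [div_mul_eq_mul_div, le_div_iff₀ hc]
  nlinarith [mul_le_mul_of_nonneg_left h6.le (mul_pos Real.pi_pos ht).le, mul_le_mul_of_nonneg_right Real.pi_le_four ht.le]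

theorem clenb_cover {A : Set ℂ} {s B : ℝ} (h0 : 0 < s) (h : ∀ T : Finset ℂ, ↑T ⊆ A →
    (T : Set ℂ).Pairwise (fun p q => s ≤ dist p q) → T.card * s ≤ B) :
    ∃ T : Finset ℂ, T.card * s ≤ B ∧ A ⊆ ⋃ p : T, closedBall p s := by
  classical
  have hb : BddAbove (Finset.card '' {T : Finset ℂ | ↑T ⊆ A ∧ (T : Set ℂ).Pairwise fun p q => s ≤ dist p q}) :=
    ⟨⌊B / s⌋₊, by rintro _ ⟨T, hT, rfl⟩; exact Nat.le_floor ((le_div_iff₀ h0).2 (h T hT.1 hT.2))⟩
  obtain ⟨T, hT, e⟩ := (Nat.sSup_mem · hb) ⟨_, ∅, And.intro (by simp) (by simp), rfl⟩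
  refine ⟨T, h T hT.1 hT.2, fun x hx => by_contra fun hn => ?_⟩
  have h1 : ∀ p ∈ T, s < dist x p := fun p hp => not_le.1 fun h' => hn (mem_iUnion.2 ⟨⟨p, hp⟩, h'⟩)
  have h2 : x ∉ T := fun h' => (h0.trans (h1 x h')).ne' (dist_self x)
  have h3 := le_csSup hb ⟨insert x T, And.intro (by rw [Finset.coe_insert]; exact insert_subset hx hT.1) (by
    rw [Finset.coe_insert]
    exact hT.2.insert fun p hp _ => ⟨(h1 p hp).le, dist_comm x p ▸ (h1 p hp).le⟩), rfl⟩
  rw [Finset.card_insert_of_notMem h2, ← e] at h3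
  omega

/-- Crude length bound. A maximal `s`-separated subset of `K' ∩ closedBall z t` (`s ≤ t`) has at most `C t/s` points: the balls of radius `s/2`
are disjoint, each contains eventually length `≥ c s/4` of `K k` (`dlb`, `Klo`), total `≤ upper_real` in `ball z (2t)`. Cover by the closed balls of radius `s`
and use `Measure.hausdorffMeasure_le_liminf_sum` (or `_tsum`). -/
theorem Cv.len (hs : Sq U a b K u) [F.NeBot] (hF : F ≤ atTop) (h : Cv F K u K' u') :
    ∃ C : ℝ, ∀ (z : ℂ) (t : ℝ), 0 < t → H1 (K' ∩ closedBall z t) ≤ ENNReal.ofReal (C * t) := by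
  obtain ⟨C, hC⟩ := clenb_pack hs hF h
  refine ⟨2 * C, fun z t ht => ?_⟩
  have h0 : ∀ n : ℕ, 0 < t / (n + 1) := fun n => by positivity
  choose T h1 h2 using fun n : ℕ => clenb_cover (h0 n)
    (hC z t _ (h0 n) (div_le_self ht.le (le_add_of_nonneg_left n.cast_nonneg)))
  have hd : ∀ (n : ℕ) (p : ℂ), ediam (closedBall p (t / (n + 1))) ≤ ENNReal.ofReal (2 * (t / (n + 1))) := fun n p =>
    ediam_le_of_forall_dist_le fun x hx y hy => by
      linarith [dist_triangle_right x y p, mem_closedBall.1 hx, mem_closedBall.1 hy]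
  refine (Measure.hausdorffMeasure_le_liminf_sum (l := atTop) 1 _ (fun n : ℕ => ENNReal.ofReal (2 * (t / (n + 1)))) ?_
    (fun n (p : T n) => closedBall (p : ℂ) (t / (n + 1))) (Eventually.of_forall fun n p => hd n p)
    (Eventually.of_forall h2)).trans (liminf_le_of_frequently_le' (Frequently.of_forall fun n => ?_))
  · have := ENNReal.tendsto_ofReal (((tendsto_const_nhds (x := t)).div_atTop (tendsto_atTop_add_const_right _ (1 : ℝ)
      tendsto_natCast_atTop_atTop)).const_mul 2)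
    rwa [mul_zero, ENNReal.ofReal_zero] at this
  · simp only [ENNReal.rpow_one]
    refine (Finset.sum_le_card_nsmul _ _ _ fun (p : T n) _ => hd n p).trans ?_
    rw [nsmul_eq_mul, ← ENNReal.ofReal_natCast, ← ENNReal.ofReal_mul (Nat.cast_nonneg _), Finset.card_univ,
      Fintype.card_coe]
    exact ENNReal.ofReal_le_ofReal (by linarith [h1 n])

theorem Cv.vol_zero (hs : Sq U a b K u) [F.NeBot] (hF : F ≤ atTop) (h : Cv F K u K' u') : volume K' = 0 := by
  obtain ⟨C, hC⟩ := h.len hs hF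
  refine measure_null_of_locally_null _ fun z _ => ⟨K' ∩ closedBall z 1, ?_,
    vol_zero_of_H1 ((hC z 1 one_pos).trans_lt ENNReal.ofReal_lt_top)⟩
  exact inter_mem self_mem_nhdsWithin (mem_nhdsWithin_of_mem_nhds (closedBall_mem_nhds z one_pos))

theorem clena_exh (hK : IsClosed K') : ∃ C : ℕ → Set ℂ, (∀ m, IsCompact (C m)) ∧ (∀ m, C m ⊆ K'ᶜ) ∧
    Monotone C ∧ ⋃ m, C m = K'ᶜ := by
  obtain ⟨G, h1, h2, h3, h4⟩ := hK.isOpen_compl.exists_iUnion_isClosed
  refine ⟨fun m => G m ∩ closedBall 0 m, fun m => (isCompact_closedBall _ _).inter_left (h1 m),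
    fun m => inter_subset_left.trans (h2 m), fun m n hmn => inter_subset_inter (h4 hmn)
      (closedBall_subset_closedBall (Nat.cast_le.2 hmn)), ?_⟩
  refine Subset.antisymm (iUnion_subset fun m => inter_subset_left.trans (h2 m)) fun z hz => ?_
  rw [← h3] at hz
  obtain ⟨m, hm⟩ := mem_iUnion.1 hz
  obtain ⟨n, hn⟩ := exists_nat_ge ‖z‖
  refine mem_iUnion.2 ⟨max m n, h4 (le_max_left _ _) hm, ?_⟩
  rw [mem_closedBall_zero_iff]
  exact hn.trans (Nat.cast_le.2 (le_max_right _ _))

theorem clena_unif (h : Cv F K u K' u') {C : Set ℂ} (hC : IsCompact C) (hCK : C ⊆ K'ᶜ) {η : ℝ} (hη : 0 < η) :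
    ∀ᶠ k in F, ∀ z ∈ C, ‖gradient u' z - gradient (u k) z‖ < η := by
  have h1 := (tendstoLocallyUniformlyOn_iff_tendstoUniformlyOn_of_compact hC).1 (h.grad.mono hCK)
  simpa only [dist_eq_norm] using Metric.tendstoUniformlyOn_iff.1 h1 η hη

theorem clena_up (hs : Sq U a b K u) (hF : F ≤ atTop) (z : ℂ) {t : ℝ} (ht : 0 ≤ t) :
    ∀ᶠ k in F, Dir (u k) (closedBall z t) ≤ ENNReal.ofReal (7 * t) := by
  have h1 := hs.ab0.mul_const t
  rw [zero_mul] at h1
  filter_upwards [hF (hs.big (t + ‖z‖ + 1)), hF (h1.eventually (gt_mem_nhds (show (0 : ℝ) < 1 / 10 by norm_num)))]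
    with k h2 h3
  have hB : closedBall z t ⊆ U k :=
    (closedBall_subset_ball' (by rw [dist_zero_right]; linarith)).trans h2
  refine (le_self_add.trans ((hs.abs k).ms.upper ht hB)).trans (ENNReal.ofReal_le_ofReal ?_)
  have h4 : a k * b k * t < 1 / 10 := h3
  have h5 := Real.pi_lt_d2
  have h6 := mul_le_mul_of_nonneg_left h4.le (mul_nonneg Real.pi_pos.le ht)
  nlinarith

/-- lower semicontinuity of the Dirichlet energy: exhaust `K'ᶜ` by compact sets `C_m` (monotone convergence), uniform convergence on `S ∩ C_m` -/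
theorem Cv.Dir_lsc (hs : Sq U a b K u) [F.NeBot] (hF : F ≤ atTop) (h : Cv F K u K' u') {S : Set ℂ} (hS : MeasurableSet S)
    {E : ℝ≥0∞} (hE : E < Dir u' S) : ∀ᶠ k in F, E < Dir (u k) S := by
  obtain ⟨C, hC, hCK, hm, hU⟩ := clena_exh h.closed
  have e : Dir u' S = ⨆ m, Dir u' (S ∩ C m) := by
    unfold Dir
    rw [← setLIntegral_iUnion_of_directed _ (Monotone.directed_le fun m n hmn =>
      inter_subset_inter_right S (hm hmn)), ← inter_iUnion, hU]
    exact setLIntegral_congr (inter_ae_eq_left_of_ae_eq_univ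
      (ae_eq_univ.2 (by rw [compl_compl]; exact h.vol_zero hs hF))).symm
  rw [e, lt_iSup_iff] at hE
  obtain ⟨m, hE⟩ := hE
  obtain ⟨r, hr, hE'⟩ := ENNReal.lt_iff_exists_add_pos_lt.1 hE
  obtain ⟨M, hM⟩ := (hC m).exists_bound_of_continuousOn
    ((continuousOn_gradient h.closed.isOpen_compl h.c1).mono (hCK m))
  set V := (volume (C m)).toReal with hV
  have hV0 : 0 ≤ V := ENNReal.toReal_nonneg
  have hr' : (0 : ℝ) < r := hr
  have hη : 0 < r / (2 * (|M| + 1) * (V + 1)) := by positivity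
  filter_upwards [clena_unif h (hC m) (hCK m) hη] with k hk
  by_contra hc
  have h1 : Dir u' (S ∩ C m) ≤ Dir (u k) (S ∩ C m) + ENNReal.ofReal (r / (V + 1)) * volume (S ∩ C m) := by
    rw [Dir, Dir, ← setLIntegral_const, ← lintegral_add_right _ measurable_const]
    refine setLIntegral_mono' (hS.inter (hC m).measurableSet) fun z hz => ?_
    rw [← ofReal_norm, ← ofReal_norm, ← ENNReal.ofReal_pow (norm_nonneg _), ← ENNReal.ofReal_pow (norm_nonneg _),
      ← ENNReal.ofReal_add (by positivity) (by positivity)]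
    refine ENNReal.ofReal_le_ofReal ?_
    have h2 := (norm_sub_norm_le _ _).trans (hk z hz.2).le
    have h3 := (hM z hz.2).trans (le_abs_self M)
    have h4 : r / (V + 1) = 2 * (|M| + 1) * (r / (2 * (|M| + 1) * (V + 1))) := by field_simp
    rw [h4]
    have h5 := norm_nonneg (gradient u' z)
    have h6 := norm_nonneg (gradient (u k) z)
    rcases le_total ‖gradient u' z‖ ‖gradient (u k) z‖ with h7 | h7
    · have : 0 ≤ 2 * (|M| + 1) * (r / (2 * (|M| + 1) * (V + 1))) := by positivity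
      nlinarith
    · have := mul_le_mul h2 (show ‖gradient u' z‖ + ‖gradient (u k) z‖ ≤ 2 * (|M| + 1) by linarith)
        (by positivity) hη.le
      nlinarith
  have h2 : ENNReal.ofReal (r / (V + 1)) * volume (S ∩ C m) ≤ r := by
    refine (mul_le_mul_right (measure_mono inter_subset_right) _).trans ?_
    rw [← ENNReal.ofReal_toReal (hC m).measure_lt_top.ne, ← hV, ← ENNReal.ofReal_mul (by positivity),
      ← ENNReal.ofReal_coe_nnreal]
    refine ENNReal.ofReal_le_ofReal ?_
    rw [div_mul_eq_mul_div, div_le_iff₀ (by positivity)]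
    nlinarith
  exact (h1.trans (add_le_add ((lintegral_mono_set inter_subset_left).trans (not_lt.1 hc)) h2)).not_gt hE'

theorem Cv.Dir_le (hs : Sq U a b K u) [F.NeBot] (hF : F ≤ atTop) (h : Cv F K u K' u') (z : ℂ) {t : ℝ} (ht : 0 ≤ t) :
    Dir u' (closedBall z t) ≤ ENNReal.ofReal (7 * t) := by
  by_contra hc
  obtain ⟨k, h1, h2⟩ := ((h.Dir_lsc hs hF measurableSet_closedBall (not_le.1 hc)).and (clena_up hs hF z ht)).exists
  exact h1.not_ge h2

/-- `L¹` upper semicontinuity: near `K'` small area and bounded energy (Cauchy–Schwarz), elsewhere uniform convergence -/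
theorem Cv.L1 (hs : Sq U a b K u) [F.NeBot] (hF : F ≤ atTop) (h : Cv F K u K' u') (z : ℂ) (t : ℝ) {η : ℝ} (hη : 0 < η) :
    ∀ᶠ k in F, ∫ w in ball z t, ‖gradient (u k) w‖ ≤ (∫ w in ball z t, ‖gradient u' w‖) + η := by
  rcases le_or_gt t 0 with ht | ht
  · exact Eventually.of_forall fun k => by simp [ball_eq_empty.2 ht, hη.le]
  obtain ⟨C, hC, hCK, hm, hU⟩ := clena_exh h.closed
  have hfin : volume (ball z t) ≠ ⊤ := measure_ball_lt_top.ne
  have hlim := tendsto_measure_iInter_atTop (μ := volume) (s := fun m => ball z t \ C m)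
    (fun m => (measurableSet_ball.diff (hC m).measurableSet).nullMeasurableSet)
    (fun m n hmn => sdiff_subset_sdiff_right (hm hmn))
    ⟨0, ((measure_mono sdiff_subset).trans_lt hfin.lt_top).ne⟩
  have h0 : volume (⋂ m, ball z t \ C m) = 0 := by
    rw [← sdiff_iUnion, hU]
    exact measure_mono_null (fun w hw => not_not.1 hw.2) (h.vol_zero hs hF)
  rw [h0] at hlim
  set θ := η / (21 * t) with hθ
  have hθ0 : 0 < θ := by positivity
  obtain ⟨m, hm'⟩ := (hlim.eventually (gt_mem_nhds (ENNReal.ofReal_pos.2 (show 0 < θ * (η / 3) by positivity)))).exists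
  have hm2 : volume.real (ball z t \ C m) ≤ θ * (η / 3) :=
    ENNReal.toReal_le_of_le_ofReal (by positivity) (le_of_lt hm')
  set V := volume.real (ball z t) with hV
  have hV0 : 0 ≤ V := measureReal_nonneg
  have hε : 0 < η / (3 * (V + 1)) := by positivity
  have hS : MeasurableSet (ball z t \ C m) := measurableSet_ball.diff (hC m).measurableSet
  have i1 : IntegrableOn (fun w => ‖gradient u' w‖) (ball z t) := by
    have := (mci_dir u' (ball z t)).1 ((Dir_closedBall u' z t).ge.trans_lt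
      ((h.Dir_le hs hF z ht.le).trans_lt ENNReal.ofReal_lt_top))
    refine Integrable.mono' (this.add (integrableOn_const (C := 1) hfin))
      (measurable_gradient u').norm.aestronglyMeasurable (Eventually.of_forall fun w => ?_)
    simp only [norm_norm, Pi.add_apply]
    nlinarith [sq_nonneg (‖gradient u' w‖ - 1), norm_nonneg (gradient u' w)]
  filter_upwards [clena_unif h (hC m) (hCK m) hε, clena_up hs hF z ht.le] with k hk hk'
  rw [Dir_closedBall] at hk'
  have i2 := (mci_dir (u k) (ball z t)).1 (hk'.trans_lt ENNReal.ofReal_lt_top)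
  have i3 : ∫ w in ball z t, ‖gradient (u k) w‖ ^ 2 ≤ 7 * t := by
    rw [integral_eq_lintegral_of_nonneg_ae (Eventually.of_forall fun _ => sq_nonneg _) i2.1]
    refine ENNReal.toReal_le_of_le_ofReal (by positivity) (le_of_eq_of_le ?_ hk')
    simp only [Dir, ENNReal.ofReal_pow (norm_nonneg _), ofReal_norm]
  have i4 : IntegrableOn (fun _ : ℂ => η / (3 * (V + 1))) (ball z t) := integrableOn_const hfin
  have i5 : IntegrableOn ((ball z t \ C m).indicator fun _ : ℂ => θ⁻¹) (ball z t) :=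
    (integrableOn_const hfin).indicator hS
  have key : ∫ w in ball z t, ‖gradient (u k) w‖ ≤ ∫ w in ball z t, (‖gradient u' w‖ + η / (3 * (V + 1)) +
      θ * ‖gradient (u k) w‖ ^ 2 + (ball z t \ C m).indicator (fun _ : ℂ => θ⁻¹) w) := by
    refine integral_mono_of_nonneg (Eventually.of_forall fun _ => norm_nonneg _)
      (((i1.add i4).add (i2.const_mul θ)).add i5) ?_
    filter_upwards [ae_restrict_mem measurableSet_ball] with w hw
    have h1 : 0 ≤ θ * ‖gradient (u k) w‖ ^ 2 := by positivity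
    by_cases hwC : w ∈ C m
    · rw [indicator_of_notMem fun h' => h'.2 hwC]
      have := (norm_sub_norm_le _ _).trans ((norm_sub_rev _ _).trans_le (hk w hwC).le)
      linarith
    · rw [indicator_of_mem (show w ∈ ball z t \ C m from ⟨hw, hwC⟩)]
      have h2 : ‖gradient (u k) w‖ ≤ θ * ‖gradient (u k) w‖ ^ 2 + θ⁻¹ := by
        refine le_of_mul_le_mul_left ?_ hθ0
        rw [mul_add, mul_inv_cancel₀ hθ0.ne']
        nlinarith [sq_nonneg (θ * ‖gradient (u k) w‖ - 1), mul_nonneg hθ0.le (norm_nonneg (gradient (u k) w))]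
      linarith [norm_nonneg (gradient u' w)]
  have i6 : IntegrableOn (fun w => ‖gradient u' w‖ + η / (3 * (V + 1))) (ball z t) := i1.add i4
  have i7 : IntegrableOn (fun w => ‖gradient u' w‖ + η / (3 * (V + 1)) + θ * ‖gradient (u k) w‖ ^ 2) (ball z t) :=
    i6.add (i2.const_mul θ)
  rw [integral_add i7 i5, integral_add i6 (i2.const_mul θ), integral_add i1 i4, integral_const_mul, setIntegral_indicator hS, inter_eq_right.2 sdiff_subset,
    setIntegral_const, setIntegral_const, smul_eq_mul, smul_eq_mul, ← hV] at key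
  have b1 : V * (η / (3 * (V + 1))) ≤ η / 3 := by
    rw [mul_div_assoc', div_le_div_iff₀ (by positivity) (by norm_num)]
    nlinarith
  have b2 : θ * ∫ w in ball z t, ‖gradient (u k) w‖ ^ 2 ≤ η / 3 := by
    refine (mul_le_mul_of_nonneg_left i3 hθ0.le).trans_eq ?_
    rw [hθ]; field_simp; norm_num
  have b3 : volume.real (ball z t \ C m) * θ⁻¹ ≤ η / 3 := by
    rw [mul_inv_le_iff₀ hθ0]; linarith
  linarith

end Crest.Agent.R135
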