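import Crest.Agent.R135.Defs
import Crest.Agent.R135.CGol0
import Crest.Agent.R135.CLen
import Crest.Agent.R135.ALow
set_option autoImplicit false
open MeasureTheory Metric Set Filter Topology
open scoped ENNReal NNReal Real ComplexConjugate

namespace Crest.Agent.R135

theorem cgol_L1 {w : ℂ → ℝ} {z : ℂ} {t D κ : ℝ} (ht : 0 ≤ t) (hD : 0 ≤ D)
    (h : Dir w (ball z t) ≤ ENNReal.ofReal D) (hκ : 0 < κ) :
    IntegrableOn (fun y => ‖gradient w y‖) (ball z t) ∧ ∫ y in ball z t, ‖gradient w y‖ ≤ κ * D + t ^ 2 / κ := by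
  have hfin : volume (ball z t) ≠ ⊤ := measure_ball_lt_top.ne
  have i2 := (mci_dir w (ball z t)).1 (h.trans_lt ENNReal.ofReal_lt_top)
  have i3 : ∫ y in ball z t, ‖gradient w y‖ ^ 2 ≤ D := by
    rw [integral_eq_lintegral_of_nonneg_ae (Eventually.of_forall fun _ => sq_nonneg _) i2.1]
    refine ENNReal.toReal_le_of_le_ofReal hD (le_of_eq_of_le ?_ h)
    simp only [Dir, ENNReal.ofReal_pow (norm_nonneg _), ofReal_norm]
  have i4 : IntegrableOn (fun _ : ℂ => 1 / (4 * κ)) (ball z t) := integrableOn_const hfin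
  have hp : ∀ y, ‖gradient w y‖ ≤ κ * ‖gradient w y‖ ^ 2 + 1 / (4 * κ) := fun y => by
    rw [← sub_le_iff_le_add', le_div_iff₀ (by positivity)]
    nlinarith [sq_nonneg (2 * κ * ‖gradient w y‖ - 1)]
  have i5 : IntegrableOn (fun y => κ * ‖gradient w y‖ ^ 2 + 1 / (4 * κ)) (ball z t) := (i2.const_mul κ).add i4
  refine ⟨Integrable.mono' i5 (measurable_gradient w).norm.aestronglyMeasurable
    (Eventually.of_forall fun y => (norm_norm _).trans_le (hp y)), ?_⟩
  refine (integral_mono_of_nonneg (Eventually.of_forall fun _ => norm_nonneg _) i5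
    (Eventually.of_forall hp)).trans ?_
  rw [integral_add (i2.const_mul κ) i4, integral_const_mul, setIntegral_const, smul_eq_mul, Measure.real,
    Complex.volume_ball, ENNReal.toReal_mul, ENNReal.toReal_pow, ENNReal.toReal_ofReal ht, ENNReal.coe_toReal,
    NNReal.coe_real_pi]
  refine add_le_add (mul_le_mul_of_nonneg_left i3 hκ.le) ?_
  rw [mul_one_div, div_le_div_iff₀ (by positivity) hκ]
  nlinarith [mul_le_mul_of_nonneg_right Real.pi_le_four (mul_nonneg (sq_nonneg t) hκ.le)]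

/-- Lower semicontinuity of length: `density_zero` for `‖∇u'‖²`, Cauchy–Schwarz `∫_{B_t} ‖∇u'‖ ≤ √(π t² η t)`, `Cv.L1`, `Klo` gives `y_k ∈ K k`
close to `z`, `low_dens` on `ball y_k ((1-ε')t) ⊆ ball z t`, then `golab_cover`. -/
theorem Cv.H1_lsc {U : ℕ → Set ℂ} {a b : ℕ → ℝ} {K : ℕ → Set ℂ} {u : ℕ → ℂ → ℝ} {F : Filter ℕ} {K' : Set ℂ} {u' : ℂ → ℝ}
    (hs : Sq U a b K u) [F.NeBot] (hF : F ≤ atTop) (h : Cv F K u K' u') {O : Set ℂ} (hO : IsOpen O) {E : ℝ≥0∞}
    (hE : E < H1 (K' ∩ O)) : ∀ᶠ k in F, E < H1 (K k ∩ O) := by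
  obtain ⟨C, hC⟩ := h.len hs hF
  have hsub : ∀ (z : ℂ) (t : ℝ), closedBall z t ⊆ closedBall z (|t| + 1) := fun z t =>
    closedBall_subset_closedBall (by linarith [le_abs_self t])
  have hd := density_zero h.closed hC (f := fun w => ‖gradient u' w‖ₑ ^ 2)
    ((measurable_gradient u').enorm.pow_const 2) fun z t => (lintegral_mono_set (hsub z t)).trans_lt
      ((h.Dir_le hs hF z (by positivity)).trans_lt ENNReal.ofReal_lt_top)
  refine golab_cover (fun k => (hs.abs k).ms.closed.measurableSet) h.closed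
    (fun z t => (measure_mono (inter_subset_inter_right _ (hsub z t))).trans_lt
      ((hC z _ (by positivity)).trans_lt ENNReal.ofReal_lt_top)) ?_ hO hE
  filter_upwards [hd, ae_restrict_mem h.closed.measurableSet] with z hz hzK ε hε
  obtain ⟨δ, hδ, hlow⟩ := low_dens (ε / 2) (half_pos hε)
  obtain ⟨θ, hθ0, hθ1, hθ2⟩ : ∃ θ : ℝ, 0 < θ ∧ θ ≤ 1 / 2 ∧ θ ≤ ε / 4 :=
    ⟨min (1 / 2) (ε / 4), by positivity, min_le_left _ _, min_le_right _ _⟩
  filter_upwards [hz (δ ^ 2 / 256) (by positivity), self_mem_nhdsWithin] with t ht (ht0 : 0 < t)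
  have hsq : 0 < √t := Real.sqrt_pos.2 ht0
  have hss : √t * √t = t := Real.mul_self_sqrt ht0.le
  have h1 : ∫ w in ball z t, ‖gradient u' w‖ ≤ δ / 8 * (t * √t) := by
    refine (cgol_L1 ht0.le (by positivity) ((lintegral_mono_set ball_subset_closedBall).trans ht)
      (κ := 16 * √t / δ) (by positivity)).2.trans_eq ?_
    have e : t ^ 2 = t * √t * √t := by rw [mul_assoc, hss, sq]
    rw [e]
    field_simp
    norm_num
  have hab := hs.ab0.mul_const t
  rw [zero_mul] at hab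
  filter_upwards [h.L1 hs hF z t (η := δ / 8 * (t * √t)) (by positivity), h.Klo z hzK (θ * t) (by positivity),
    hF (hs.big (t + ‖z‖ + 1)), hF (hab.eventually (gt_mem_nhds hδ))] with k a1 ⟨y, hy, a2⟩ a3 (a4 : a k * b k * t < δ)
  have hA := hs.abs k
  have hB : closedBall z t ⊆ U k := (closedBall_subset_ball' (by rw [dist_zero_right]; linarith)).trans a3
  have ht' : t / 2 ≤ (1 - θ) * t := by nlinarith
  have ht1 : 0 < (1 - θ) * t := by linarith
  have ht2 : (1 - θ) * t ≤ t := by nlinarith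
  have hb : ball y ((1 - θ) * t) ⊆ ball z t := ball_subset_ball' (by linarith)
  have hB' : closedBall y ((1 - θ) * t) ⊆ U k := (closedBall_subset_closedBall' (by linarith)).trans hB
  have i1 := (cgol_L1 (z := z) ht0.le (Dr_nonneg (u k) z t) (hA.ms.ofReal_Dr hB).ge one_pos).1
  have b1 : ∫ w in ball y ((1 - θ) * t), ‖gradient (u k) w‖ ≤ ∫ w in ball z t, ‖gradient (u k) w‖ :=
    setIntegral_mono_set i1 (Eventually.of_forall fun _ => norm_nonneg _) hb.eventuallyLE
  have b2 : √t / 2 ≤ √((1 - θ) * t) := Real.le_sqrt_of_sq_le (by nlinarith)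
  have b3 : t / 2 * (√t / 2) ≤ (1 - θ) * t * √((1 - θ) * t) := mul_le_mul ht' b2 (by positivity) ht1.le
  have b4 := hlow (U k) (K k) (a k) (b k) (u k) hA y hy _ ht1 hB'
    ((mul_le_mul_of_nonneg_left ht2 (mul_nonneg hA.ms.a0 hA.ms.b0)).trans a4.le)
    (by nlinarith [mul_le_mul_of_nonneg_left b3 hδ.le])
  refine le_trans (ENNReal.ofReal_le_ofReal (le_trans ?_ b4)) ((hA.ms.ofReal_Lr hB').trans_le
    (measure_mono (inter_subset_inter_right _ hb)))
  nlinarith [mul_pos (mul_pos hε hθ0) ht0, mul_le_mul_of_nonneg_right hθ2 ht0.le]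

end Crest.Agent.R135
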