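import Crest.Agent.R135.Defs
import Crest.Agent.R135.CLen
import Crest.Agent.R135.TLip2
set_option autoImplicit false
open MeasureTheory Metric Set Filter Topology
open scoped ENNReal NNReal Real ComplexConjugate

namespace Crest.Agent.R135

theorem clift_lip {f g : ℂ → ℝ} {z : ℂ} (s : Set ℂ) (e : f =ᶠ[𝓝 z] g)
    (h : ∃ C : ℝ≥0, ∃ t ∈ 𝓝 z, LipschitzOnWith C g t) : ∃ C : ℝ≥0, ∃ t ∈ 𝓝[s] z, LipschitzOnWith C f t := by
  obtain ⟨C, t, ht, hL⟩ := h
  refine ⟨C, t ∩ {y | f y = g y}, mem_nhdsWithin_of_mem_nhds (inter_mem ht e), fun p hp q hq => ?_⟩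
  rw [show f p = g p from hp.2, show f q = g q from hq.2]
  exact hL hp.1 hq.1

theorem clift_step {U K K' L Z : Set ℂ} {a b : ℝ} {u u' w χ Λ : ℂ → ℝ} {x : ℂ} {ρ ρ' M M' θ : ℝ}
    (hA : Abs U a b K u) (hK' : IsClosed K') (hu' : ContDiffOn ℝ 1 u' K'ᶜ) (hc : Comp univ K' u' L w x ρ)
    (ha : Adm univ K' L x ρ) (hρ0 : 0 ≤ ρ') (hZ : IsClosed Z) (hZB : Z ⊆ closedBall x ρ') (hχ : ContDiff ℝ 1 χ)
    (hTW : tsupport χ ⊆ K'ᶜ ∩ (closedBall x ρ)ᶜ) (hχ1 : ∀ z ∈ sphere x ρ', z ∉ Z → ∀ᶠ y in 𝓝 z, χ y = 1)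
    (hTU : tsupport χ ⊆ U \ K) (hB : closedBall x ρ' ⊆ U) (hΛ : LC K'ᶜ Λ) (hM : 0 ≤ M) (hM' : 0 ≤ M') (hθ : 0 ≤ θ)
    (hb : ∀ z ∈ tsupport χ, ‖fderiv ℝ u' z‖ ≤ M ∧ ‖fderiv ℝ χ z‖ ≤ M' ∧ |χ z| ≤ 1 ∧
      ‖fderiv ℝ u z - fderiv ℝ u' z‖ ≤ θ ∧ |u z - Λ z - u' z| ≤ θ)
    (hv : volume (L ∩ closedBall x ρ') = 0) :
    En K u (closedBall x ρ') ≤ En L w (closedBall x ρ') +
      (ENNReal.ofReal ((2 * M + θ * (1 + M')) * (θ * (1 + M'))) * volume (ball x ρ') + H1 Z +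
        ENNReal.ofReal (π * (a * b) * ρ' ^ 2)) := by
  classical
  obtain ⟨Λ', hΛ', hΛe⟩ := ha Λ (by rwa [← compl_eq_univ_sdiff])
  have hW : IsOpen (K'ᶜ ∩ (closedBall x ρ)ᶜ) := hK'.isOpen_compl.inter isClosed_closedBall.isOpen_compl
  have hWL : ∀ y ∈ K'ᶜ ∩ (closedBall x ρ)ᶜ, y ∈ (univ \ L) \ closedBall x ρ := fun y hy =>
    ⟨⟨trivial, fun h' => hy.1 (hc.eqK.subset ⟨h', hy.2⟩).1⟩, hy.2⟩
  have hUK : IsOpen (U \ K) := hA.ms.isOpen.sdiff hA.ms.closed
  set v : ℂ → ℝ := fun z => if z ∈ ball x ρ' then w z + Λ' z + χ z * (u z - Λ z - u' z) else u z with hvd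
  have hsp : ∀ z ∈ sphere x ρ', z ∉ Z → z ∈ tsupport χ := fun z hz hz' =>
    subset_tsupport _ (by rw [Function.mem_support, (hχ1 z hz hz').self_of_nhds]; exact one_ne_zero)
  have ca : ∀ z ∈ ball x ρ', z ∉ L → z ∉ tsupport χ → v =ᶠ[𝓝 z] fun y => w y + Λ' z := fun z hz hL hT => by
    filter_upwards [isOpen_ball.mem_nhds hz, hΛ' z ⟨trivial, hL⟩, notMem_tsupport_iff_eventuallyEq.1 hT]
      with y e1 e2 e3
    simp only [hvd, if_pos e1, e2, e3, Pi.zero_apply, zero_mul, add_zero]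
  have cw : ∀ z ∈ tsupport χ, w =ᶠ[𝓝 z] u' := fun z hT => by
    filter_upwards [hW.mem_nhds (hTW hT)] with y e using hc.eqw (hWL y e)
  have cb : ∀ z ∈ ball x ρ', z ∈ tsupport χ →
      v =ᶠ[𝓝 z] fun y => u' y + Λ z + χ y * (u y - Λ z - u' y) := fun z hz hT => by
    filter_upwards [isOpen_ball.mem_nhds hz, hW.mem_nhds (hTW hT), hΛ z (hTW hT).1] with y e1 e2 e3
    simp only [hvd, if_pos e1, hc.eqw (hWL y e2), hΛe (hWL y e2), e3]
  have cc : ∀ z ∉ ball x ρ', z ∉ Z → v =ᶠ[𝓝 z] u := fun z hz hz' => by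
    by_cases h1 : z ∈ closedBall x ρ'
    · have h2 : z ∈ sphere x ρ' := le_antisymm h1 (not_lt.1 hz)
      filter_upwards [hχ1 z h2 hz', hW.mem_nhds (hTW (hsp z h2 hz'))] with y e1 e2
      simp only [hvd, hc.eqw (hWL y e2), hΛe (hWL y e2), e1]
      split_ifs <;> ring
    · filter_upwards [isClosed_closedBall.isOpen_compl.mem_nhds h1] with y e
      exact if_neg fun h' => e (ball_subset_closedBall h')
  have d1 : ∀ z ∈ tsupport χ, ContDiffAt ℝ 1 u z ∧ ContDiffAt ℝ 1 u' z := fun z hT =>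
    ⟨hA.ms.c1.contDiffAt (hUK.mem_nhds (hTU hT)), hu'.contDiffAt (hK'.isOpen_compl.mem_nhds (hTW hT).1)⟩
  have hC : Comp U K u ((L ∩ closedBall x ρ') ∪ Z ∪ (K \ ball x ρ')) v x ρ' := by
    refine ⟨((hc.closed.inter isClosed_closedBall).union hZ).union (hA.ms.closed.sdiff isOpen_ball), ?_,
      fun z hz => if_neg fun h' => hz.2 (ball_subset_closedBall h'), fun z hz => ?_⟩
    · ext z
      refine ⟨fun hz => ⟨?_, hz.2⟩, fun hz => ⟨Or.inr ⟨hz.1, fun h' => hz.2 (ball_subset_closedBall h')⟩, hz.2⟩⟩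
      rcases hz.1 with (h1 | h1) | h1
      exacts [(hz.2 h1.2).elim, (hz.2 (hZB h1)).elim, h1.1]
    by_cases h1 : z ∈ ball x ρ'
    · by_cases hT : z ∈ tsupport χ
      · exact clift_lip _ (cb z h1 hT) (((d1 z hT).2.add contDiffAt_const).add (hχ.contDiffAt.mul
          (((d1 z hT).1.sub contDiffAt_const).sub (d1 z hT).2))).exists_lipschitzOnWith
      · have hL : z ∉ L := fun h' => hz.2 (Or.inl (Or.inl ⟨h', ball_subset_closedBall h1⟩))
        obtain ⟨C, t, ht, h2⟩ := hc.lip (show z ∈ univ \ L from ⟨trivial, hL⟩)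
        rw [(isOpen_univ.sdiff hc.closed).nhdsWithin_eq ⟨trivial, hL⟩] at ht
        exact clift_lip _ (ca z h1 hL hT) ⟨C, t, ht, fun p hp q hq => by
          simpa only [edist_add_right] using h2 hp hq⟩
    · exact clift_lip _ (cc z h1 fun h' => hz.2 (Or.inl (Or.inr h'))) (hA.ms.c1.contDiffAt
        (hUK.mem_nhds ⟨hz.1, fun h' => hz.2 (Or.inr ⟨h', h1⟩)⟩)).exists_lipschitzOnWith
  have hH : H1 (((L ∩ closedBall x ρ') ∪ Z ∪ (K \ ball x ρ')) ∩ closedBall x ρ') ≤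
      H1 (L ∩ closedBall x ρ') + H1 Z := by
    refine (measure_mono fun z hz => ?_).trans (measure_union_le _ _)
    refine hz.1.elim id fun h1 => Or.inr ?_
    by_contra h2
    exact (hTU (hsp z (le_antisymm hz.2 (not_lt.1 h1.2)) h2)).2 h1.1
  have hD : Dir v (closedBall x ρ') ≤ Dir w (closedBall x ρ') +
      ENNReal.ofReal ((2 * M + θ * (1 + M')) * (θ * (1 + M'))) * volume (ball x ρ') := by
    rw [Dir_closedBall, Dir_closedBall, mela_Dir, mela_Dir, ← setLIntegral_const,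
      ← lintegral_add_right _ measurable_const]
    refine setLIntegral_mono_ae' measurableSet_ball ?_
    filter_upwards [measure_eq_zero_iff_ae_notMem.1 hv] with z hz h1
    rw [← ENNReal.ofReal_add (by positivity) (by positivity), norm_gradient, norm_gradient]
    refine ENNReal.ofReal_le_ofReal ?_
    by_cases hT : z ∈ tsupport χ
    · obtain ⟨b1, b2, b3, b4, b5⟩ := hb z hT
      have f1 := ((d1 z hT).1.differentiableAt one_ne_zero).hasFDerivAt
      have f2 := ((d1 z hT).2.differentiableAt one_ne_zero).hasFDerivAt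
      have f3 := (hχ.differentiable one_ne_zero z).hasFDerivAt
      have f4 := (((f2.add_const (Λ z)).add (f3.mul ((f1.sub_const (Λ z)).sub f2))).congr_of_eventuallyEq
        (cb z h1 hT)).fderiv
      rw [f4, (cw z hT).fderiv_eq]
      have b6 : ‖χ z • (fderiv ℝ u z - fderiv ℝ u' z) + (u z - Λ z - u' z) • fderiv ℝ χ z‖ ≤ θ * (1 + M') := by
        refine (norm_add_le _ _).trans ?_
        rw [norm_smul, norm_smul, Real.norm_eq_abs, Real.norm_eq_abs, mul_add, mul_one]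
        exact add_le_add ((mul_le_of_le_one_left (norm_nonneg _) b3).trans b4)
          (mul_le_mul b5 b2 (norm_nonneg _) hθ)
      refine (pow_le_pow_left₀ (norm_nonneg _) ((norm_add_le _ _).trans (add_le_add le_rfl b6)) 2).trans ?_
      nlinarith [mul_le_mul_of_nonneg_right b1 (show 0 ≤ θ * (1 + M') by positivity)]
    · rw [(ca z h1 (fun h' => hz ⟨h', ball_subset_closedBall h1⟩) hT).fderiv_eq, fderiv_add_const]
      exact le_add_of_nonneg_right (by positivity)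
  refine (hA.amin _ v x ρ' hB hC).trans ((add_le_add (add_le_add hD hH)
    (Err_le hA.ms.a0 hA.ms.b0 x hρ0)).trans_eq ?_)
  rw [En]
  ring


/-- Lifting of competitors. WLOG the right side is finite. `P = K' ∩ sphere x ρ'`, `δ` small, `Z = sphere x ρ' ∩ ⋃_{p∈P} closedBall p δ`
(`H1_sphere_cap`), `A = sphere x ρ' \ ⋃ ball p δ` compact in the open set `K'ᶜ ∩ (closedBall x ρ)ᶜ`; `χ` from `exists_cutoff_compact`. With `Λ k` of `Cv.val`, `Λ' k` from `Adm`,
`ε k = u k - Λ k - u'`: `L k = (L ∩ closedBall x ρ') ∪ Z ∪ (K k \ ball x ρ')`, `w k = w + Λ' k + χ ε k` in `ball x ρ'`, `u k` outside. When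
`tsupport χ ⊆ U k \ K k` this is a competitor (`Abs.amin`), `K k ∩ sphere ⊆ Z`; near `sphere \ Z ⊆ A` both formulas equal `u k`.
`Dir (χ ε k) → 0` (uniform convergence on `tsupport χ`), `Dir_add_toReal` + Cauchy–Schwarz, `Err_le`. -/
theorem Cv.lift {U : ℕ → Set ℂ} {a b : ℕ → ℝ} {K : ℕ → Set ℂ} {u : ℕ → ℂ → ℝ} {F : Filter ℕ} {K' : Set ℂ} {u' : ℂ → ℝ}
    (hs : Sq U a b K u) [F.NeBot] (hF : F ≤ atTop) (h : Cv F K u K' u') {L : Set ℂ} {w : ℂ → ℝ} {x : ℂ} {ρ ρ' : ℝ}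
    (hc : Comp univ K' u' L w x ρ) (ha : Adm univ K' L x ρ) (hρ : ρ < ρ') (hρ0 : 0 < ρ')
    (hf : (K' ∩ sphere x ρ').Finite) {η : ℝ} (hη : 0 < η) :
    ∀ᶠ k in F, En (K k) (u k) (closedBall x ρ') ≤ En L w (closedBall x ρ') + ENNReal.ofReal η := by
  by_cases hfin : En L w (closedBall x ρ') = ⊤
  · exact Eventually.of_forall fun k => by rw [hfin, top_add]; exact le_top
  have hv : volume (L ∩ closedBall x ρ') = 0 := vol_zero_of_H1 (le_add_self.trans_lt (lt_top_iff_ne_top.2 hfin))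
  set P := hf.toFinset with hP
  have hPm : ∀ p, p ∈ P ↔ p ∈ K' ∩ sphere x ρ' := fun p => hf.mem_toFinset
  set δ : ℝ := η / 3 / (π * (P.card + 1)) with hδ
  have hδ0 : 0 < δ := by have := Real.pi_pos; positivity
  have hZ : H1 (sphere x ρ' ∩ ⋃ p ∈ P, closedBall p δ) ≤ ENNReal.ofReal (η / 3) := by
    rw [inter_iUnion₂]
    refine (measure_biUnion_finset_le _ _).trans ((Finset.sum_le_card_nsmul _ _ _ fun p hp =>
      H1_sphere_cap x p ρ' δ ((hPm p).1 hp).2).trans ?_)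
    rw [nsmul_eq_mul, ← ENNReal.ofReal_natCast, ← ENNReal.ofReal_mul (Nat.cast_nonneg _)]
    refine ENNReal.ofReal_le_ofReal ?_
    have := Real.pi_pos
    have e : π * δ * (P.card + 1) = η / 3 := by rw [hδ]; field_simp
    nlinarith [mul_pos this hδ0]
  obtain ⟨χ, hχ, hT, hTW, hχ1, hχ2⟩ := exists_cutoff_compact (C := sphere x ρ' \ ⋃ p ∈ P, ball p δ)
    ((isCompact_sphere x ρ').diff (isOpen_biUnion fun p _ => isOpen_ball))
    (h.closed.isOpen_compl.inter (isClosed_closedBall (x := x) (ε := ρ)).isOpen_compl) fun z hz =>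
      ⟨fun hK => hz.2 (mem_biUnion ((hPm z).2 ⟨hK, hz.1⟩) (mem_ball_self hδ0)),
        fun hB => by linarith [mem_closedBall.1 hB, mem_sphere.1 hz.1]⟩
  have hTK : tsupport χ ⊆ K'ᶜ := fun z hz => (hTW hz).1
  obtain ⟨M, hM⟩ := hT.isCompact.exists_bound_of_continuousOn
    ((continuousOn_gradient h.closed.isOpen_compl h.c1).mono hTK)
  obtain ⟨M', hM'⟩ := hT.isCompact.exists_bound_of_continuousOn
    (hχ.continuous_fderiv (by simp)).continuousOn
  obtain ⟨Λ, hΛ, hval⟩ := h.val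
  set V := volume.real (ball x ρ') with hV
  have hV0 : 0 ≤ V := measureReal_nonneg
  obtain ⟨θ, hθ, hθ1⟩ : ∃ θ : ℝ, 0 < θ ∧ (2 * |M| + θ * (1 + |M'|)) * (θ * (1 + |M'|)) * V ≤ η / 3 := by
    have hc : Continuous fun θ : ℝ => (2 * |M| + θ * (1 + |M'|)) * (θ * (1 + |M'|)) * V := by fun_prop
    have h1 := (hc.tendsto' 0 0 (by simp)).eventually (ge_mem_nhds (show 0 < η / 3 by positivity))
    obtain ⟨θ, h2, h3⟩ := ((h1.filter_mono nhdsWithin_le_nhds).and
      (self_mem_nhdsWithin (a := (0 : ℝ)) (s := Ioi 0))).exists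
    exact ⟨θ, h3, h2⟩
  have hab : Tendsto (fun k => π * (a k * b k) * ρ' ^ 2) atTop (𝓝 (π * 0 * ρ' ^ 2)) :=
    (hs.ab0.const_mul _).mul_const _
  rw [mul_zero, zero_mul] at hab
  filter_upwards [h.ev_disjoint hs hF hT.isCompact hTK, clena_unif h hT.isCompact hTK hθ,
    Metric.tendstoUniformlyOn_iff.1 ((tendstoLocallyUniformlyOn_iff_tendstoUniformlyOn_of_compact
      hT.isCompact).1 (hval.mono hTK)) θ hθ, hF (hs.big (ρ' + ‖x‖ + 1)),
    hF (hab.eventually (ge_mem_nhds (show 0 < η / 3 by positivity)))] with k e1 e2 e3 e4 e5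
  refine (clift_step (hs.abs k) h.closed h.c1 hc ha hρ0.le (Z := sphere x ρ' ∩ ⋃ p ∈ P, closedBall p δ)
    (isClosed_sphere.inter (P.finite_toSet.isClosed_biUnion fun p _ => isClosed_closedBall))
    (inter_subset_left.trans sphere_subset_closedBall) (hχ.of_le (by simp)) hTW (fun z hz hz' => ?_) e1
    ((closedBall_subset_ball' (by rw [dist_zero_right]; linarith)).trans e4) (hΛ k) (M := |M|) (M' := |M'|)
    (abs_nonneg _) (abs_nonneg _) hθ.le (fun z hz => ⟨?_, (hM' z hz).trans (le_abs_self _), ?_, ?_, ?_⟩) hv).trans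
    (add_le_add le_rfl ?_)
  · exact hχ2.filter_mono (nhds_le_nhdsSet (mem_sdiff_of_mem hz fun h1 =>
      hz' ⟨hz, iUnion₂_mono (fun p _ => ball_subset_closedBall) h1⟩))
  · rw [← norm_gradient]
    exact (hM z hz).trans (le_abs_self _)
  · rw [abs_of_nonneg (hχ1 z).1]
    exact (hχ1 z).2
  · have := (e2 z hz).le
    rwa [gradient, gradient, ← map_sub, LinearIsometryEquiv.norm_map, norm_sub_rev] at this
  · have := (e3 z hz).le
    rwa [dist_comm, Real.dist_eq] at this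
  · have e6 : ENNReal.ofReal ((2 * |M| + θ * (1 + |M'|)) * (θ * (1 + |M'|))) * volume (ball x ρ') ≤
        ENNReal.ofReal (η / 3) := by
      rw [← ENNReal.ofReal_toReal (measure_ball_lt_top (x := x) (r := ρ')).ne,
        ← ENNReal.ofReal_mul (by positivity)]
      exact ENNReal.ofReal_le_ofReal hθ1
    refine (add_le_add (add_le_add e6 hZ) (ENNReal.ofReal_le_ofReal e5)).trans_eq ?_
    rw [← ENNReal.ofReal_add (by positivity) (by positivity), ← ENNReal.ofReal_add (by positivity) (by positivity)]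
    congr 1
    ring

end Crest.Agent.R135
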