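import Crest.Agent.R135.Defs
import Crest.Agent.R135.CCv
import Crest.Agent.R135.CGol
import Crest.Agent.R135.CLift
import Crest.Agent.R135.TEil
set_option autoImplicit false
open MeasureTheory Metric Set Filter Topology
open scoped ENNReal NNReal Real ComplexConjugate

namespace Crest.Agent.R135

variable {U : ℕ → Set ℂ} {a b : ℕ → ℝ} {K : ℕ → Set ℂ} {u : ℕ → ℂ → ℝ} {F : Filter ℕ} {K' : Set ℂ} {u' : ℂ → ℝ}

theorem ccomp_big (hs : Sq U a b K u) (hF : F ≤ atTop) (z : ℂ) (t : ℝ) : ∀ᶠ k in F, closedBall z t ⊆ U k :=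
  ((hs.big (t + ‖z‖ + 1)).filter_mono hF).mono fun _ hk =>
    (closedBall_subset_ball' (by rw [dist_zero_right]; linarith)).trans hk

theorem ccomp_fin (hs : Sq U a b K u) [F.NeBot] (hF : F ≤ atTop) (h : Cv F K u K' u') (z : ℂ) (t : ℝ) :
    Dir u' (closedBall z t) < ⊤ ∧ H1 (K' ∩ closedBall z t) < ⊤ := by
  obtain ⟨C, hC⟩ := h.len hs hF
  have h1 : closedBall z t ⊆ closedBall z (|t| + 1) := closedBall_subset_closedBall (by linarith [le_abs_self t])
  exact ⟨(lintegral_mono_set h1).trans_lt ((h.Dir_le hs hF z (by positivity)).trans_lt ENNReal.ofReal_lt_top),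
    (measure_mono (inter_subset_inter_right _ h1)).trans_lt
      ((hC z _ (by positivity)).trans_lt ENNReal.ofReal_lt_top)⟩

theorem ccomp_rad (hs : Sq U a b K u) [F.NeBot] (hF : F ≤ atTop) (h : Cv F K u K' u') (x : ℂ) {p q : ℝ}
    (hpq : p < q) : ∃ ρ ∈ Ioo p q, (K' ∩ sphere x ρ).Finite := by
  obtain ⟨ρ, h1, h2⟩ := Measure.exists_mem_of_measure_ne_zero_of_ae (μ := volume) (s := Ioo p q) (by simpa)
    (ae_restrict_of_ae (ae_finite_sphere x _ (h.closed.measurableSet.inter measurableSet_closedBall)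
      (ccomp_fin hs hF h x q).2))
  exact ⟨ρ, h1, h2.subset fun z hz => ⟨⟨hz.1, (mem_sphere.1 hz.2).trans_le h1.2.le⟩, hz.2⟩⟩

theorem ccomp_real {A : ℝ≥0∞} {B : ℕ → ℝ≥0∞} (hA : A ≠ ⊤) (h : ∀ E < A, ∀ᶠ k in F, E < B k)
    (hB : ∀ᶠ k in F, B k ≠ ⊤) {η : ℝ} (hη : 0 < η) : ∀ᶠ k in F, A.toReal ≤ (B k).toReal + η := by
  rcases le_total A.toReal η with h1 | h1
  · exact Eventually.of_forall fun k => h1.trans (le_add_of_nonneg_left ENNReal.toReal_nonneg)
  · have h2 := sub_nonneg.2 h1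
    filter_upwards [h _ ((ENNReal.ofReal_lt_iff_lt_toReal h2 hA).2 (sub_lt_self _ hη)), hB] with k e1 e2
    exact (sub_le_iff_le_add.1 ((ENNReal.ofReal_lt_iff_lt_toReal h2 e2).1 e1).le)

theorem ccomp_lo (hs : Sq U a b K u) [F.NeBot] (hF : F ≤ atTop) (h : Cv F K u K' u') (z : ℂ) (t : ℝ) {η : ℝ}
    (hη : 0 < η) : ∀ᶠ k in F, Dr u' z t ≤ Dr (u k) z t + η ∧ Lr K' z t ≤ Lr (K k) z t + η := by
  obtain ⟨h1, h2⟩ := ccomp_fin hs hF h z t
  refine (ccomp_real ((Dir_closedBall ..).ge.trans_lt h1).ne (fun E => h.Dir_lsc hs hF measurableSet_ball)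
    ?_ hη).and (ccomp_real ((measure_mono (inter_subset_inter_right _ ball_subset_closedBall)).trans_lt h2).ne
      (fun E => h.H1_lsc hs hF isOpen_ball) ?_ hη) <;> refine (ccomp_big hs hF z t).mono fun k hk => ?_
  · exact (hs.abs k).ms.ofReal_Dr hk ▸ ENNReal.ofReal_ne_top
  · exact (hs.abs k).ms.ofReal_Lr hk ▸ ENNReal.ofReal_ne_top

theorem ccomp_En (hs : Sq U a b K u) [F.NeBot] (hF : F ≤ atTop) (h : Cv F K u K' u') {x : ℂ} {ρ : ℝ}
    (hf : (K' ∩ sphere x ρ).Finite) : En K' u' (closedBall x ρ) = ENNReal.ofReal (Dr u' x ρ + Lr K' x ρ) := by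
  obtain ⟨h1, h2⟩ := ccomp_fin hs hF h x ρ
  have h3 : H1 (K' ∩ closedBall x ρ) = H1 (K' ∩ ball x ρ) := by
    rw [← ball_union_sphere, inter_union_distrib_left, union_comm]
    exact measure_congr (union_ae_eq_right_of_ae_eq_empty (ae_eq_empty.2 (H1_finite hf)))
  rw [Dir_closedBall] at h1
  rw [ENNReal.ofReal_add (Dr_nonneg ..) (Lr_nonneg ..), Dr, Lr, ENNReal.ofReal_toReal h1.ne, ← h3,
    ENNReal.ofReal_toReal h2.ne, En, Dir_closedBall]

theorem ccomp_lift (hs : Sq U a b K u) (hF : F ≤ atTop) {x : ℂ} {ρ η : ℝ} {M : ℝ≥0∞} (hM : M ≠ ⊤) (hη : 0 < η)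
    (h : ∀ᶠ k in F, En (K k) (u k) (closedBall x ρ) ≤ M + ENNReal.ofReal η) :
    ∀ᶠ k in F, Dr (u k) x ρ + Lr (K k) x ρ ≤ M.toReal + η := by
  filter_upwards [h, ccomp_big hs hF x ρ] with k h1 h2
  rw [← ENNReal.ofReal_le_ofReal_iff (by positivity), ENNReal.ofReal_add (Dr_nonneg ..) (Lr_nonneg ..),
    (hs.abs k).ms.ofReal_Dr h2, (hs.abs k).ms.ofReal_Lr h2, ENNReal.ofReal_add ENNReal.toReal_nonneg hη.le,
    ENNReal.ofReal_toReal hM]
  exact (add_le_add (Dir_closedBall ..).ge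
    (measure_mono (inter_subset_inter_right _ ball_subset_closedBall))).trans h1

theorem ccomp_split (L : Set ℂ) (w : ℂ → ℝ) {S T : Set ℂ} (hS : MeasurableSet S) (h : S ⊆ T) :
    En L w T = En L w S + En L w (T \ S) := by
  rw [En, En, En, Dir, ← lintegral_inter_add_sdiff _ T hS, ← measure_inter_add_sdiff (L ∩ T) hS, inter_assoc,
    inter_eq_right.2 h, inter_sdiff_assoc, add_add_add_comm]
  rfl

/-- `lift` at a radius `ρ' > max ρ 0` with finite intersection (`ae_finite_sphere`, `Cv.len`), lower semicontinuity on `ball x ρ'`; on the shell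
`closedBall x ρ' \ closedBall x ρ` both energies agree (`w = u'` on the open set `shell \ K'`, `K'` null) and are finite: cancel. -/
theorem Cv.ms (hs : Sq U a b K u) [F.NeBot] (hF : F ≤ atTop) (h : Cv F K u K' u') : MS univ 0 0 K' u' := by
  refine ⟨isOpen_univ, h.closed, le_rfl, le_rfl, compl_eq_univ_sdiff K' ▸ h.c1, by simp,
    fun L w x ρ _ hc ha => le_add_right ?_⟩
  obtain ⟨r, hr, hf⟩ := ccomp_rad hs hF h x (lt_add_one (max ρ 0))
  have h1 := (le_max_left _ _).trans_lt hr.1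
  have h2 := closedBall_subset_closedBall (x := x) h1.le
  have h3 : En K' u' (closedBall x r) ≤ En L w (closedBall x r) := by
    rcases eq_or_ne (En L w (closedBall x r)) ⊤ with e | e
    · exact e ▸ le_top
    rw [ccomp_En hs hF h hf, ENNReal.ofReal_le_iff_le_toReal e]
    refine le_of_forall_pos_le_add fun η hη => ?_
    have h3 : 0 < η / 3 := by positivity
    obtain ⟨k, e1, e2⟩ := ((ccomp_lo hs hF h x r h3).and (ccomp_lift hs hF e h3
      (h.lift hs hF hc ha h1 ((le_max_right _ _).trans_lt hr.1) hf h3))).exists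
    linarith [e1.1, e1.2]
  have h4 : En L w (closedBall x r \ closedBall x ρ) = En K' u' (closedBall x r \ closedBall x ρ) := by
    have e : ∀ A : Set ℂ, A ∩ (closedBall x r \ closedBall x ρ) = (A \ closedBall x ρ) ∩ closedBall x r :=
      fun A => by rw [← inter_sdiff_assoc, inter_sdiff_right_comm]
    rw [En, En, e, e, hc.eqK]
    congr 1
    refine setLIntegral_congr_fun_ae (measurableSet_closedBall.diff measurableSet_closedBall) ?_
    filter_upwards [measure_eq_zero_iff_ae_notMem.1 (h.vol_zero hs hF)] with z h5 h6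
    rw [Filter.EventuallyEq.gradient_eq (f := u')]
    filter_upwards [h.closed.isOpen_compl.mem_nhds h5, isClosed_closedBall.isOpen_compl.mem_nhds h6.2] with y e1 e2
    exact hc.eqw ⟨⟨trivial, fun e => e1 ((hc.eqK.subset ⟨e, e2⟩).1)⟩, e2⟩
  have h5 := ENNReal.add_lt_top.2 (ccomp_fin hs hF h x r)
  rw [ccomp_split K' u' measurableSet_closedBall h2, ccomp_split L w measurableSet_closedBall h2, h4] at h3
  rw [← En, ccomp_split K' u' measurableSet_closedBall h2] at h5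
  exact (ENNReal.add_le_add_iff_right (ENNReal.add_lt_top.1 h5).2.ne).1 h3

theorem ccomp_hi (hs : Sq U a b K u) [F.NeBot] (hF : F ≤ atTop) (h : Cv F K u K' u') (z : ℂ) {t t' η : ℝ}
    (ht : t < t') (hη : 0 < η) :
    ∀ᶠ k in F, Dr (u k) z t ≤ Dr u' z t' + η ∧ Lr (K k) z t ≤ Lr K' z t' + η := by
  rcases le_or_gt t 0 with h0 | h0
  · refine Eventually.of_forall fun k => ?_
    simp only [Dr, Lr, Dir, ball_eq_empty.2 h0, inter_empty, measure_empty, Measure.restrict_empty,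
      lintegral_zero_measure, ENNReal.toReal_zero]
    exact ⟨by positivity, by positivity⟩
  obtain ⟨r, hr, hf⟩ := ccomp_rad hs hF h z ht
  have hm := h.ms hs hF
  have h1 := ccomp_lift hs hF (ENNReal.add_lt_top.2 (ccomp_fin hs hF h z r)).ne (half_pos hη)
    (h.lift hs hF ⟨h.closed, rfl, eqOn_refl _ _, locLip_of_contDiffOn (isOpen_univ.sdiff h.closed) hm.c1⟩
      (fun Λ hΛ => ⟨Λ, hΛ, eqOn_refl _ _⟩) hr.1 (h0.trans hr.1) hf (half_pos hη))
  rw [← En, ccomp_En hs hF h hf, ENNReal.toReal_ofReal (add_nonneg (Dr_nonneg ..) (Lr_nonneg ..))] at h1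
  filter_upwards [h1, ccomp_lo hs hF h z r (half_pos hη), ccomp_big hs hF z r] with k e1 e2 e3
  constructor <;> linarith [e2.1, e2.2, (hs.abs k).ms.Dr_mono e3 (ball_subset_ball hr.1.le),
    (hs.abs k).ms.Lr_mono e3 (ball_subset_ball hr.1.le), hm.Dr_mono (subset_univ _) (ball_subset_ball (x := z) hr.2.le),
    hm.Lr_mono (subset_univ _) (ball_subset_ball (x := z) hr.2.le)]

/-- `lift` with the trivial competitor at a good radius `ρ' ∈ (max t 0, t')` plus the two lower semicontinuities -/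
theorem Cv.lim (hs : Sq U a b K u) [F.NeBot] (hF : F ≤ atTop) (h : Cv F K u K' u') : Lim F K u K' u' := by
  exact ⟨h.Klo, h.Khi, fun z t η hη => (ccomp_lo hs hF h z t hη).mono fun _ e => e.1,
    fun z t t' η ht hη => (ccomp_hi hs hF h z ht hη).mono fun _ e => e.1,
    fun z t η hη => (ccomp_lo hs hF h z t hη).mono fun _ e => e.2,
    fun z t t' η ht hη => (ccomp_hi hs hF h z ht hη).mono fun _ e => e.2⟩

/-- `dlb` for `K k` and `Lhi` -/
theorem Cv.glob (hs : Sq U a b K u) [F.NeBot] (hF : F ≤ atTop) (h : Cv F K u K' u') : Glob K' u' := by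
  obtain ⟨c, δ, hc, hδ, H⟩ := dlb
  refine ⟨h.ms hs hF, c / 8, by positivity, fun y hy t ht => ?_⟩
  have h1 := (((hs.ab0.mono_left hF).mul_const (t / 4)).eventually_le_const ((zero_mul _).trans_lt hδ)).and
    (h.Klo y hy (t / 4) (by positivity))
  obtain ⟨k, ⟨e1, y', e2, e3⟩, e4, e5⟩ := (h1.and ((ccomp_big hs hF y (t / 2)).and
    (ccomp_hi hs hF h y (half_lt_self ht) (by positivity : 0 < c / 8 * t)))).exists
  linarith [e5.2, H _ _ _ _ _ (hs.abs k) y' e2 (t / 4) (by positivity)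
    ((closedBall_subset_closedBall' (by linarith)).trans e4) e1,
    (hs.abs k).ms.Lr_mono e4 (ball_subset_ball' (by linarith : t / 4 + dist y' y ≤ t / 2))]

theorem compact (hs : Sq U a b K u) :
    ∃ (F : Ultrafilter ℕ) (K' : Set ℂ) (u' : ℂ → ℝ), (F : Filter ℕ) ≤ atTop ∧ BL K' u' ∧ Lim F K u K' u' := by
  have hF : ((Filter.hyperfilter ℕ : Ultrafilter ℕ) : Filter ℕ) ≤ atTop := by
    rw [← Nat.cofinite_eq_atTop]; exact Filter.hyperfilter_le_cofinite
  obtain ⟨K', u', h⟩ := exists_cv hs _ hF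
  exact ⟨_, K', u', hF, ⟨h.glob hs hF, U, a, b, K, u, _, hs, hF, h.lim hs hF⟩, h.lim hs hF⟩

end Crest.Agent.R135
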