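import Crest.Agent.R135.Defs
import Crest.Agent.R135.TLen
import Crest.Agent.R135.TLip
set_option autoImplicit false
open MeasureTheory Metric Set Filter Topology
open scoped ENNReal NNReal Real ComplexConjugate

namespace Crest.Agent.R135

/-! Invariance under the similarities `z ↦ x + c z`: gradients pick up `conj c / √‖c‖`, areas `‖c‖²`
(`lintegral_map`/`Measure.addHaar_preimage_linearMap`, or `lintegral_mul_left_eq_self`-type substitution `lintegral_comp_smul` combined with a rotation),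
lengths `‖c‖` (`H1_preimage_affine`). Competitors are transported by the inverse similarity. -/
variable {U K : Set ℂ} {a b : ℝ} {u : ℂ → ℝ}

theorem gradient_ru (x c : ℂ) (hc : c ≠ 0) (u : ℂ → ℝ) (z : ℂ) :
    gradient (ru x c u) z = conj c * gradient u (x + c * z) / (√‖c‖ : ℝ) := by
  refine ext_inner_right ℝ fun d => ?_
  let iso : ℂ ≃L[ℝ] ℂ := ((LinearEquiv.smulOfNeZero ℂ ℂ c hc).restrictScalars ℝ).toContinuousLinearEquiv
  have e : ru x c u = (√‖c‖)⁻¹ • ((fun y => u (x + y)) ∘ iso) := by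
    funext y
    exact div_eq_inv_mul _ _
  have h1 : fderiv ℝ (ru x c u) z d = (√‖c‖)⁻¹ * fderiv ℝ u (x + c * z) (c * d) := by
    rw [e, fderiv_const_smul_field, Pi.smul_apply, iso.comp_right_fderiv, fderiv_comp_add_left]
    rfl
  rw [inner_gradient, h1, ← inner_gradient, div_eq_inv_mul, ← Complex.ofReal_inv, ← Complex.real_smul,
    real_inner_smul_left]
  simp only [Complex.inner, map_mul, Complex.conj_conj]
  congr 2
  ring

/-- change of variables `z ↦ x + c z` -/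
theorem maff_lintegral (x c : ℂ) (hc : c ≠ 0) (g : ℂ → ℝ≥0∞) {S : Set ℂ} (hS : MeasurableSet S) :
    ∫⁻ z in S, g z = ∫⁻ z in (fun z => x + c * z) ⁻¹' S, ENNReal.ofReal (‖c‖ ^ 2) * g (x + c * z) := by
  have hd : (ContinuousLinearMap.mul ℝ ℂ c).det = ‖c‖ ^ 2 := by
    rw [← Complex.normSq_eq_norm_sq, ← Algebra.norm_complex_apply, Algebra.norm_apply]
    rfl
  have h := lintegral_image_eq_lintegral_abs_det_fderiv_mul volume (s := (fun z => x + c * z) ⁻¹' S)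
    (f := fun z => x + c * z) (f' := fun _ => ContinuousLinearMap.mul ℝ ℂ c) (hS.preimage (by fun_prop))
    (fun z _ => ((ContinuousLinearMap.mul ℝ ℂ c).hasFDerivAt.const_add x).hasFDerivWithinAt)
    (fun z _ w _ h => mul_left_cancel₀ hc (add_left_cancel h)) g
  rwa [image_preimage_eq _ fun w => ⟨(w - x) / c, by field_simp; ring⟩, hd,
    abs_of_nonneg (sq_nonneg _)] at h

theorem maff_dist (x c z w : ℂ) : dist (x + c * z) (x + c * w) = ‖c‖ * dist z w := by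
  rw [dist_add_left, dist_eq_norm, dist_eq_norm, ← mul_sub, norm_mul]

theorem maff_ball (x c : ℂ) (hc : c ≠ 0) (z : ℂ) (t : ℝ) :
    (fun z => x + c * z) ⁻¹' ball (x + c * z) (‖c‖ * t) = ball z t := by
  ext w
  simp only [mem_preimage, mem_ball, maff_dist]
  exact mul_lt_mul_iff_right₀ (norm_pos_iff.2 hc)

theorem Dir_ru (x c : ℂ) (hc : c ≠ 0) (u : ℂ → ℝ) (S : Set ℂ) (hS : MeasurableSet S) :
    Dir (ru x c u) ((fun z => x + c * z) ⁻¹' S) * ENNReal.ofReal ‖c‖ = Dir u S := by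
  have h0 := norm_pos_iff.2 hc
  rw [Dir, Dir, maff_lintegral x c hc _ hS, ← lintegral_mul_const' _ _ ENNReal.ofReal_ne_top]
  refine lintegral_congr fun z => ?_
  rw [gradient_ru x c hc, ← ofReal_norm, ← ofReal_norm, ← ENNReal.ofReal_pow (norm_nonneg _),
    ← ENNReal.ofReal_pow (norm_nonneg _), ← ENNReal.ofReal_mul (sq_nonneg _), ← ENNReal.ofReal_mul (sq_nonneg _),
    norm_div, norm_mul, Complex.norm_conj, Complex.norm_real, div_pow, Real.norm_eq_abs, sq_abs,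
    Real.sq_sqrt h0.le, div_mul_cancel₀ _ h0.ne', mul_pow]

theorem Dr_ru (x c : ℂ) (hc : c ≠ 0) (u : ℂ → ℝ) (z : ℂ) (t : ℝ) :
    Dr (ru x c u) z t = Dr u (x + c * z) (‖c‖ * t) / ‖c‖ := by
  rw [Dr, Dr, ← Dir_ru x c hc u _ measurableSet_ball, maff_ball x c hc, ENNReal.toReal_mul,
    ENNReal.toReal_ofReal (norm_nonneg c), mul_div_cancel_right₀ _ (norm_ne_zero_iff.2 hc)]

theorem Lr_rK (x c : ℂ) (hc : c ≠ 0) (K : Set ℂ) (z : ℂ) (t : ℝ) :
    Lr (rK x c K) z t = Lr K (x + c * z) (‖c‖ * t) / ‖c‖ := by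
  rw [Lr, Lr, ← H1_preimage_affine x c hc (K ∩ _), preimage_inter, maff_ball x c hc, ENNReal.toReal_mul,
    ENNReal.toReal_ofReal (norm_nonneg c), mul_div_cancel_right₀ _ (norm_ne_zero_iff.2 hc), rK]

theorem affa_lint (x : ℂ) {c : ℂ} (hc : c ≠ 0) (f : ℂ → ℝ≥0∞) (S : Set ℂ) :
    (∫⁻ z in rK x c S, f (x + c * z)) * ENNReal.ofReal (‖c‖ ^ 2) = ∫⁻ z in S, f z := by
  have hp : 0 < ‖c‖ ^ 2 := pow_pos (norm_pos_iff.2 hc) 2
  have hd : LinearMap.det (Algebra.lmul ℝ ℂ c) = ‖c‖ ^ 2 := by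
    rw [← Algebra.norm_apply, Algebra.norm_complex_apply, Complex.sq_norm]
  have h1 := Measure.map_linearMap_addHaar_eq_smul_addHaar (volume : Measure ℂ) (f := Algebra.lmul ℝ ℂ c)
    (hd ▸ hp.ne')
  rw [hd, abs_of_pos (inv_pos.2 hp)] at h1
  let e : ℂ ≃ᵐ ℂ := ((Homeomorph.mulLeft₀ c hc).trans (Homeomorph.addLeft x)).toMeasurableEquiv
  have h2 : Measure.map e volume = ENNReal.ofReal (‖c‖ ^ 2)⁻¹ • volume := by
    have : (e : ℂ → ℂ) = (fun z => x + z) ∘ Algebra.lmul ℝ ℂ c := rfl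
    have hm : Measurable (Algebra.lmul ℝ ℂ c) := measurable_const_mul c
    rw [this, ← Measure.map_map (measurable_const_add x) hm, h1, Measure.map_smul,
      map_add_left_eq_self]
  have h3 := lintegral_map_equiv (μ := volume.restrict (e ⁻¹' S)) f e
  rw [← e.restrict_map, h2, Measure.restrict_smul, lintegral_smul_measure, smul_eq_mul] at h3
  refine (congrArg (· * _) h3.symm).trans ?_
  rw [mul_right_comm, ← ENNReal.ofReal_mul (inv_pos.2 hp).le, inv_mul_cancel₀ hp.ne', ENNReal.ofReal_one, one_mul]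

theorem affa_rK (x : ℂ) {c : ℂ} (hc : c ≠ 0) (S : Set ℂ) :
    rK (-x / c) c⁻¹ (rK x c S) = S ∧ rK x c (rK (-x / c) c⁻¹ S) = S := by
  constructor <;> ext z <;> simp only [rK, mem_preimage] <;> congr! 1 <;> field_simp <;> ring

theorem affa_ru (x : ℂ) {c : ℂ} (hc : c ≠ 0) (w : ℂ → ℝ) :
    ru (-x / c) c⁻¹ (ru x c w) = w ∧ ru x c (ru (-x / c) c⁻¹ w) = w := by
  have := (Real.sqrt_pos.2 (norm_pos_iff.2 hc)).ne'
  have e1 : ∀ z, x + c * (-x / c + c⁻¹ * z) = z := fun z => by field_simp; ring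
  have e2 : ∀ z, -x / c + c⁻¹ * (x + c * z) = z := fun z => by field_simp; ring
  constructor <;> ext z <;> simp only [ru, norm_inv, Real.sqrt_inv, e1, e2] <;> field_simp

theorem affa_dist (x c y z : ℂ) : dist (x + c * z) (x + c * y) = ‖c‖ * dist z y := by
  rw [dist_add_left, dist_eq_norm, dist_eq_norm, ← mul_sub, norm_mul]

theorem affa_cb (x : ℂ) {c : ℂ} (hc : c ≠ 0) (y : ℂ) (ρ : ℝ) :
    rK x c (closedBall (x + c * y) (‖c‖ * ρ)) = closedBall y ρ := by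
  ext z
  simp only [rK, mem_preimage, mem_closedBall, affa_dist]
  exact mul_le_mul_iff_right₀ (norm_pos_iff.2 hc)

theorem affa_ball (x : ℂ) {c : ℂ} (hc : c ≠ 0) (y : ℂ) (ρ : ℝ) :
    rK x c (ball (x + c * y) (‖c‖ * ρ)) = ball y ρ := by
  ext z
  simp only [rK, mem_preimage, mem_ball, affa_dist]
  exact mul_lt_mul_iff_right₀ (norm_pos_iff.2 hc)

theorem affa_sm (x c : ℂ) : ContDiff ℝ 1 fun z : ℂ => x + c * z := contDiff_const.add (contDiff_const.mul contDiff_id)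

theorem affa_comp (x : ℂ) {c : ℂ} (hc : c ≠ 0) {K' : Set ℂ} {w : ℂ → ℝ} {y : ℂ} {ρ : ℝ}
    (h : Comp U K u K' w (x + c * y) (‖c‖ * ρ)) :
    Comp (rK x c U) (rK x c K) (ru x c u) (rK x c K') (ru x c w) y ρ := by
  have hT := (affa_sm x c).continuous
  refine ⟨h.closed.preimage hT, ?_, ?_, fun z hz => ?_⟩
  · rw [← affa_cb x hc]
    exact congrArg (rK x c) h.eqK
  · rw [← affa_cb x hc]
    exact fun z hz => congrArg (· / _) (h.eqw hz)
  · obtain ⟨L, t, ht, hL⟩ := h.lip (show x + c * z ∈ U \ K' from hz)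
    refine ⟨(√‖c‖₊)⁻¹.toNNReal * L * ‖c‖₊, rK x c t,
      hT.continuousWithinAt.preimage_mem_nhdsWithin' (nhdsWithin_mono _ (image_preimage_subset _ _) ht),
      LipschitzOnWith.of_dist_le_mul fun p hp q hq => ?_⟩
    have := hL.dist_le_mul _ hp _ hq
    rw [affa_dist] at this
    simp only [ru, div_eq_inv_mul, dist_eq_norm (_ * w _), ← mul_sub, norm_mul, ← dist_eq_norm, NNReal.coe_mul,
      coe_nnnorm, Real.coe_toNNReal _ (inv_nonneg.2 (Real.sqrt_nonneg _)),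
      Real.norm_of_nonneg (inv_nonneg.2 (Real.sqrt_nonneg _)), mul_assoc]
    gcongr

theorem affa_lc (x c : ℂ) {W : Set ℂ} {Λ : ℂ → ℝ} (h : LC W Λ) : LC (rK x c W) (ru x c Λ) := fun z hz =>
  (((affa_sm x c).continuous.tendsto z).eventually (h _ hz)).mono fun _ hy => congrArg (· / _) hy

theorem affa_adm (x : ℂ) {c : ℂ} (hc : c ≠ 0) {K' : Set ℂ} {y : ℂ} {ρ : ℝ}
    (h : Adm U K K' (x + c * y) (‖c‖ * ρ)) : Adm (rK x c U) (rK x c K) (rK x c K') y ρ := by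
  intro Λ hΛ
  have h1 := affa_lc (-x / c) c⁻¹ (W := rK x c (U \ K)) hΛ
  rw [(affa_rK x hc _).1] at h1
  obtain ⟨Λ', h2, h3⟩ := h _ h1
  refine ⟨_, affa_lc x c h2, ?_⟩
  rw [← affa_cb x hc, ← (affa_ru x hc Λ).2]
  exact fun z hz => congrArg (· / _) (h3 hz)

theorem affa_en (x : ℂ) {c : ℂ} (hc : c ≠ 0) (K : Set ℂ) (u : ℂ → ℝ) {S : Set ℂ} (hS : MeasurableSet S) :
    En (rK x c K) (ru x c u) (rK x c S) * ENNReal.ofReal ‖c‖ = En K u S := by
  rw [En, En, add_mul, ← Dir_ru x c hc u S hS, ← H1_preimage_affine x c hc (K ∩ S)]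
  rfl

theorem affa_err (x : ℂ) {c : ℂ} (hc : c ≠ 0) (ha : 0 ≤ a) (u w : ℂ → ℝ) (S : Set ℂ) :
    Err (a * (‖c‖ * √‖c‖)) (b / √‖c‖) (ru x c u) (ru x c w) (rK x c S) * ENNReal.ofReal ‖c‖ = Err a b u w S := by
  have hp := norm_pos_iff.2 hc
  have hs := Real.sqrt_pos.2 hp
  have e : ∀ z, ENNReal.ofReal (min |ru x c w z - ru x c u z| (b / √‖c‖)) =
      ENNReal.ofReal (√‖c‖)⁻¹ * ENNReal.ofReal (min |w (x + c * z) - u (x + c * z)| b) := fun z => by
    rw [← ENNReal.ofReal_mul (inv_pos.2 hs).le, ru, ru, ← sub_div, abs_div, abs_of_pos hs,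
      min_div_div_right hs.le, div_eq_inv_mul]
  rw [Err, Err, ← affa_lint x hc _ S]
  simp only [e]
  rw [lintegral_const_mul' _ _ ENNReal.ofReal_ne_top, ← mul_assoc, mul_right_comm, mul_comm (lintegral _ _),
    ← mul_assoc, ← ENNReal.ofReal_mul (by positivity), ← ENNReal.ofReal_mul (by positivity),
    ← mul_assoc (ENNReal.ofReal a), ← ENNReal.ofReal_mul ha]
  congr 2
  field_simp

theorem Abs.aff (h : Abs U a b K u) (x c : ℂ) (hc : c ≠ 0) :
    Abs (rK x c U) (a * (‖c‖ * √‖c‖)) (b / √‖c‖) (rK x c K) (ru x c u) := by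
  have hp := norm_pos_iff.2 hc
  have hs := Real.sqrt_pos.2 hp
  have hT := affa_sm x c
  have h0 : ENNReal.ofReal ‖c‖ ≠ 0 := (ENNReal.ofReal_pos.2 hp).ne'
  have e1 : ∀ y : ℂ, y = -x / c + c⁻¹ * (x + c * y) := fun y => by field_simp; ring
  have e2 : ∀ ρ : ℝ, ρ = ‖c⁻¹‖ * (‖c‖ * ρ) := fun ρ => by rw [norm_inv]; field_simp
  have key : ∀ (K' : Set ℂ) (w : ℂ → ℝ) (y : ℂ) (ρ : ℝ), closedBall y ρ ⊆ rK x c U →
      Comp (rK x c U) (rK x c K) (ru x c u) K' w y ρ →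
      En (rK x c K) (ru x c u) (closedBall y ρ) ≤ En K' w (closedBall y ρ) +
        Err (a * (‖c‖ * √‖c‖)) (b / √‖c‖) (ru x c u) w (closedBall y ρ) := by
    intro K' w y ρ hB hC
    rw [e1 y, e2 ρ] at hC
    have h1 := affa_comp (-x / c) (inv_ne_zero hc) hC
    rw [(affa_rK x hc _).1, (affa_rK x hc _).1, (affa_ru x hc _).1] at h1
    have h2 := h.amin _ _ _ _ (by
      rw [← affa_cb x hc] at hB
      rw [← (affa_rK x hc (closedBall _ _)).1, ← (affa_rK x hc U).1]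
      exact preimage_mono hB) h1
    rw [← affa_en x hc K _ measurableSet_closedBall, ← affa_en x hc (rK _ _ K') _ measurableSet_closedBall,
      ← affa_err x hc h.ms.a0, ← add_mul, affa_cb x hc, (affa_rK x hc _).2, (affa_ru x hc _).2] at h2
    exact (ENNReal.mul_le_mul_iff_left h0 ENNReal.ofReal_ne_top).1 h2
  refine ⟨⟨h.ms.isOpen.preimage hT.continuous, h.ms.closed.preimage hT.continuous,
    mul_nonneg h.ms.a0 (by positivity), div_nonneg h.ms.b0 hs.le,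
    (h.ms.c1.comp hT.contDiffOn fun z hz => hz).div_const _, fun z hz => ?_,
    fun K' w y ρ hB hC _ => key K' w y ρ hB hC⟩, key, fun y hy t ht => ?_⟩
  · have h1 := mul_le_mul_of_nonneg_left (h.ms.osc _ hz) hp.le
    rw [ru, abs_div, abs_of_pos hs]
    calc _ = ‖c‖ * (a * |u (x + c * z)|) := by field_simp
      _ ≤ _ := h1
      _ = _ := by field_simp
  · have h1 := h.red (x + c * y) hy (‖c‖ * t) (mul_pos hp ht)
    rw [← H1_preimage_affine x c hc, ENNReal.mul_pos_iff] at h1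
    rw [← affa_ball x hc]
    exact h1.1

theorem Near.of_rK {ε : ℝ} {n : ℕ} (x : ℂ) {r : ℝ} (hr : 0 < r) {t : ℝ} (h : Near ε n (rK x r K) 0 t) :
    Near ε n K x (r * t) := by
  obtain ⟨e, he, h1, h2⟩ := h
  have hc : (r : ℂ) ≠ 0 := Complex.ofReal_ne_zero.2 hr.ne'
  have hn : ‖(r : ℂ)‖ = r := by rw [Complex.norm_real, Real.norm_of_nonneg hr.le]
  have hb : ∀ z : ℂ, x + r * z ∈ ball x (r * t) → z ∈ ball (0 : ℂ) t := fun z hz => by
    rw [← maff_ball x r hc, mul_zero, add_zero, hn]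
    exact hz
  have hd : ∀ z w : ℂ, dist z w ≤ ε * t → dist (x + r * z) (x + r * w) ≤ ε * (r * t) := fun z w h => by
    rw [maff_dist, hn, mul_left_comm]
    exact mul_le_mul_of_nonneg_left h hr.le
  refine ⟨e, he, fun z hz => ?_, ?_⟩
  · obtain ⟨z, rfl⟩ : ∃ z' : ℂ, x + r * z' = z := ⟨(z - x) / r, by field_simp; ring⟩
    obtain ⟨w, ⟨s, hs, ζ, hζ, rfl⟩, hw⟩ := h1 z ⟨hz.1, hb z hz.2⟩
    exact ⟨_, ⟨r * s, by positivity, ζ, hζ, by push_cast; ring⟩, hd _ _ hw⟩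
  · rintro w ⟨⟨s, hs, ζ, hζ, rfl⟩, hw⟩
    have e1 : x + s * e * ζ = x + r * (0 + (s / r : ℝ) * e * ζ) := by push_cast; field_simp; ring
    rw [e1] at hw ⊢
    obtain ⟨z, hz, h3⟩ := h2 _ ⟨⟨s / r, by positivity, ζ, hζ, rfl⟩, hb _ hw⟩
    exact ⟨_, hz, hd _ _ h3⟩

/-- rescaled sequences -/
theorem Sq.of_rescale {U : ℕ → Set ℂ} {a b : ℕ → ℝ} {K : ℕ → Set ℂ} {u : ℕ → ℂ → ℝ} {y : ℕ → ℂ} {r δ : ℕ → ℝ}
    (h : ∀ k, Abs (U k) (a k) (b k) (K k) (u k)) (hr : ∀ k, 0 < r k) (hδ : ∀ k, 0 < δ k)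
    (hs : ∀ k, Sm (δ k) (U k) (a k) (b k) (y k) (r k)) (h0 : Tendsto δ atTop (𝓝 0)) :
    Sq (fun k => rK (y k) (r k) (U k)) (fun k => a k * (‖(r k : ℂ)‖ * √‖(r k : ℂ)‖)) (fun k => b k / √‖(r k : ℂ)‖)
      (fun k => rK (y k) (r k) (K k)) (fun k => ru (y k) (r k) (u k)) := by
  have hn : ∀ k, ‖(r k : ℂ)‖ = r k := fun k => by rw [Complex.norm_real, Real.norm_of_nonneg (hr k).le]
  refine ⟨fun k => (h k).aff _ _ (Complex.ofReal_ne_zero.2 (hr k).ne'), fun R => ?_, ?_, ?_⟩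
  · filter_upwards [(h0.const_mul R).eventually_lt_const (show R * 0 < 1 by simp)] with k hk z hz
    refine (hs k).sub ?_
    rw [mem_ball_zero_iff] at hz
    rw [mem_ball_iff_norm, add_sub_cancel_left, norm_mul, hn, lt_div_iff₀ (hδ k), mul_assoc]
    exact mul_lt_of_lt_one_right (hr k) ((mul_lt_mul_of_pos_right hz (hδ k)).trans hk)
  · simp only [hn]
    exact squeeze_zero (fun k => mul_nonneg (h k).ms.a0 (mul_nonneg (hr k).le (Real.sqrt_nonneg _)))
      (fun k => (hs k).a1) h0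
  · simp only [hn]
    have e : ∀ k, a k * (r k * √(r k)) * (b k / √(r k)) = a k * b k * r k := fun k => by
      have := Real.sqrt_pos.2 (hr k)
      field_simp
    simp only [e]
    exact squeeze_zero (fun k => mul_nonneg (mul_nonneg (h k).ms.a0 (h k).ms.b0) (hr k).le)
      (fun k => (hs k).ab) h0

end Crest.Agent.R135
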