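import Crest.Agent.R135.Defs
import Crest.Agent.R135.TLen
set_option autoImplicit false
open MeasureTheory Metric Set Filter Topology
open scoped ENNReal NNReal Real ComplexConjugate

namespace Crest.Agent.R135

/-! Cones: the ray, the line and the propeller. `ω = exp(2πi/3)`; `ζ^3 = 1 ↔ ζ ∈ {1, ω, ω²}`. -/

/-- the ray of direction `v` -/
def tcRay (x v : ℂ) : Set ℂ := {z | ∃ s : ℝ, 0 ≤ s ∧ z = x + s * v}

theorem tc_closed (x v : ℂ) : IsClosed (tcRay x v) := by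
  rcases eq_or_ne v 0 with rfl | hv
  · have : tcRay x 0 = {x} := by
      ext z
      simp only [tcRay, mul_zero, add_zero, mem_ofPred_eq, mem_singleton_iff]
      exact ⟨fun ⟨_, _, h⟩ => h, fun h => ⟨0, le_rfl, h⟩⟩
    rw [this]
    exact isClosed_singleton
  · have : tcRay x v = {z | ((z - x) / v).im = 0} ∩ {z | 0 ≤ ((z - x) / v).re} := by
      ext z
      simp only [tcRay, mem_ofPred_eq, mem_inter_iff]
      constructor
      · rintro ⟨s, hs, rfl⟩
        rw [add_sub_cancel_left, mul_div_cancel_right₀ _ hv]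
        exact ⟨Complex.ofReal_im s, hs⟩
      · rintro ⟨h1, h2⟩
        refine ⟨_, h2, ?_⟩
        have e : (((z - x) / v).re : ℂ) = (z - x) / v := Complex.ext (by simp) (by simp [h1])
        rw [e, div_mul_cancel₀ _ hv, add_sub_cancel]
    rw [this]
    exact (isClosed_eq (by fun_prop) continuous_const).inter (isClosed_le continuous_const (by fun_prop))

theorem tc_mem {n : ℕ} (hn : n ≠ 0) {ζ : ℂ} : ζ ∈ Polynomial.nthRootsFinset n (1 : ℂ) ↔ ζ ^ n = 1 :=
  Polynomial.mem_nthRootsFinset (Nat.pos_of_ne_zero hn) 1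

theorem tc_card {n : ℕ} (hn : n ≠ 0) : (Polynomial.nthRootsFinset n (1 : ℂ)).card = n :=
  (Complex.isPrimitiveRoot_exp n hn).card_nthRootsFinset

theorem tc_cone {n : ℕ} (hn : n ≠ 0) (x e : ℂ) :
    Cone n x e = ⋃ ζ ∈ Polynomial.nthRootsFinset n (1 : ℂ), tcRay x (e * ζ) := by
  ext z
  simp only [Cone, tcRay, mem_ofPred_eq, mem_iUnion, tc_mem hn, exists_prop, mul_assoc]
  exact ⟨fun ⟨s, hs, ζ, h1, h2⟩ => ⟨ζ, h1, s, hs, h2⟩, fun ⟨ζ, h1, s, hs, h2⟩ => ⟨s, hs, ζ, h1, h2⟩⟩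

theorem tc_norm {n : ℕ} (hn : n ≠ 0) {ζ : ℂ} (h : ζ ^ n = 1) : ‖ζ‖ = 1 := Complex.norm_eq_one_of_pow_eq_one h hn

theorem tc_dist (x : ℂ) {v : ℂ} (hv : ‖v‖ = 1) (s s' : ℝ) : dist (x + s * v) (x + s' * v) = |s - s'| := by
  rw [dist_eq_norm, add_sub_add_left_eq_sub, ← sub_mul, norm_mul, hv, mul_one, ← Complex.ofReal_sub,
    Complex.norm_real, Real.norm_eq_abs]

theorem tc_H1_image (x : ℂ) {v : ℂ} (hv : ‖v‖ = 1) (S : Set ℝ) :
    H1 ((fun s : ℝ => x + s * v) '' S) = volume S := by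
  have h : Isometry fun s : ℝ => x + s * v := Isometry.of_dist_eq fun s s' => by
    rw [tc_dist x hv, Real.dist_eq]
  rw [h.hausdorffMeasure_image (Or.inl zero_le_one), hausdorffMeasure_real]

theorem tc_H1_ray (x : ℂ) {v : ℂ} (hv : ‖v‖ = 1) (t : ℝ) : H1 (tcRay x v ∩ ball x t) = ENNReal.ofReal t := by
  have e : tcRay x v ∩ ball x t = (fun s : ℝ => x + s * v) '' Ico 0 t := by
    have h0 : ∀ s : ℝ, 0 ≤ s → dist (x + s * v) x = s := fun s hs => by
      have := tc_dist x hv s 0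
      rwa [Complex.ofReal_zero, zero_mul, add_zero, sub_zero, abs_of_nonneg hs] at this
    ext z
    constructor
    · rintro ⟨⟨s, hs, rfl⟩, h⟩
      exact ⟨s, ⟨hs, by rwa [mem_ball, h0 s hs] at h⟩, rfl⟩
    · rintro ⟨s, hs, rfl⟩
      exact ⟨⟨s, hs.1, rfl⟩, by rw [mem_ball, h0 s hs.1]; exact hs.2⟩
  rw [e, tc_H1_image x hv, Real.volume_Ico, sub_zero]

theorem tc_H1 {n : ℕ} (hn : n ≠ 0) (x e : ℂ) (he : ‖e‖ = 1) (t : ℝ) :
    H1 (Cone n x e ∩ ball x t) = n * ENNReal.ofReal t := by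
  have hv : ∀ ζ ∈ Polynomial.nthRootsFinset n (1 : ℂ), ‖e * ζ‖ = 1 := fun ζ h => by
    rw [norm_mul, he, tc_norm hn ((tc_mem hn).1 h), mul_one]
  rw [tc_cone hn, iUnion₂_inter, measure_biUnion_finset₀,
    Finset.sum_congr rfl fun ζ h => tc_H1_ray x (hv ζ h) t, Finset.sum_const, tc_card hn, nsmul_eq_mul]
  · intro ζ hζ ξ hξ hne
    refine measure_mono_null (t := {x}) ?_ (H1_finite (finite_singleton x))
    rintro z ⟨⟨⟨s, hs, rfl⟩, -⟩, ⟨s', hs', h⟩, -⟩
    have h1 := add_left_cancel h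
    have h2 := congrArg norm h1
    rw [norm_mul, hv ζ hζ, norm_mul, hv ξ hξ, mul_one, mul_one, Complex.norm_real, Complex.norm_real,
      Real.norm_of_nonneg hs, Real.norm_of_nonneg hs'] at h2
    subst h2
    rcases eq_or_ne s 0 with rfl | h0
    · simp
    · have he0 : e ≠ 0 := norm_ne_zero_iff.1 (by rw [he]; exact one_ne_zero)
      exact absurd (mul_left_cancel₀ he0 (mul_left_cancel₀ (Complex.ofReal_ne_zero.2 h0) h1)) hne
  · exact fun ζ _ => ((tc_closed x _).measurableSet.inter measurableSet_ball).nullMeasurableSet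


theorem isClosed_cone {n : ℕ} (hn : n ≠ 0) (x e : ℂ) : IsClosed (Cone n x e) := by
  rw [tc_cone hn]
  exact isClosed_biUnion_finset fun ζ _ => tc_closed x _

theorem self_mem_cone (n : ℕ) (x e : ℂ) : x ∈ Cone n x e := by
  exact ⟨0, le_rfl, 1, one_pow n, by simp⟩

theorem mem_cone_one (x e z : ℂ) : z ∈ Cone 1 x e ↔ ∃ s : ℝ, 0 ≤ s ∧ z = x + s * e := by
  refine ⟨fun ⟨s, hs, ζ, h1, h2⟩ => ⟨s, hs, ?_⟩, fun ⟨s, hs, h⟩ => ⟨s, hs, 1, one_pow 1, by rw [h, mul_one]⟩⟩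
  rw [pow_one] at h1
  rw [h2, h1, mul_one]

theorem mem_cone_two (x e z : ℂ) : z ∈ Cone 2 x e ↔ ∃ s : ℝ, z = x + s * e := by
  constructor
  · rintro ⟨s, -, ζ, h1, rfl⟩
    rcases sq_eq_one_iff.1 h1 with rfl | rfl
    · exact ⟨s, by rw [mul_one]⟩
    · exact ⟨-s, by push_cast; ring⟩
  · rintro ⟨s, rfl⟩
    rcases le_total 0 s with h | h
    · exact ⟨s, h, 1, one_pow 2, by rw [mul_one]⟩
    · exact ⟨-s, neg_nonneg.2 h, -1, by norm_num, by push_cast; ring⟩

/-- distinct cube roots of unity make an angle of 120° -/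
theorem cube_root_re {ζ ξ : ℂ} (h1 : ζ ^ 3 = 1) (h2 : ξ ^ 3 = 1) (h : ζ ≠ ξ) : (ζ * conj ξ).re = -1 / 2 := by
  have h3 : (ζ * conj ξ) ^ 3 = 1 := by rw [mul_pow, h1, ← map_pow, h2, map_one, mul_one]
  have h4 : ζ * conj ξ ≠ 1 := fun e => h (by
    have h5 : ξ * conj ξ = 1 := by
      rw [Complex.mul_conj', tc_norm three_ne_zero h2]
      norm_num
    linear_combination ξ * e - ζ * h5)
  generalize ζ * conj ξ = w at h3 h4
  have h5 : w ^ 2 + w + 1 = 0 := by
    have : (w - 1) * (w ^ 2 + w + 1) = 0 := by linear_combination h3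
    exact (mul_eq_zero.1 this).resolve_left (sub_ne_zero.2 h4)
  have h6 := congrArg Complex.re h5
  have h7 := congrArg Complex.im h5
  simp only [sq, Complex.add_re, Complex.mul_re, Complex.one_re, Complex.zero_re, Complex.add_im, Complex.mul_im,
    Complex.one_im, Complex.zero_im] at h6 h7
  have h8 : w.im * (2 * w.re + 1) = 0 := by linarith
  rcases mul_eq_zero.1 h8 with h9 | h9
  · rw [h9] at h6
    nlinarith [sq_nonneg (w.re + 1 / 2)]
  · linarith

/-- three unit vectors with pairwise inner products `-1/2` are `e` times the cube roots of unity -/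
theorem eq_cube_roots {E : Set ℂ} (h3 : E.encard = 3) (hn : ∀ e ∈ E, ‖e‖ = 1)
    (h : ∀ e ∈ E, ∀ e' ∈ E, e ≠ e' → (e * conj e').re = -1 / 2) :
    ∃ e : ℂ, ‖e‖ = 1 ∧ E = {w | ∃ ζ : ℂ, ζ ^ 3 = 1 ∧ w = e * ζ} := by
  obtain ⟨a, ha⟩ : E.Nonempty := nonempty_of_encard_ne_zero (by rw [h3]; norm_num)
  refine ⟨a, hn a ha, ?_⟩
  have e : {w | ∃ ζ : ℂ, ζ ^ 3 = 1 ∧ w = a * ζ} =
      (fun ζ => a * ζ) '' (Polynomial.nthRootsFinset 3 (1 : ℂ) : Set ℂ) := by
    ext w
    simp only [mem_ofPred_eq, mem_image, Finset.mem_coe, tc_mem three_ne_zero, eq_comm]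
  refine Finite.eq_of_subset_of_encard_le (finite_of_encard_eq_coe (k := 3) h3) (fun w hw => ?_) ?_
  · have h1 : a * conj a = 1 := by
      rw [Complex.mul_conj', hn a ha]
      norm_num
    refine ⟨w * conj a, ?_, by linear_combination (-w) * h1⟩
    rcases eq_or_ne w a with rfl | hne
    · rw [h1, one_pow]
    have h2 := h w hw a ha hne
    have h4 : ‖w * conj a‖ = 1 := by rw [norm_mul, Complex.norm_conj, hn w hw, hn a ha, mul_one]
    generalize w * conj a = z at h2 h4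
    have h5 : z * conj z = 1 := by
      rw [Complex.mul_conj', h4]
      norm_num
    have h6 : z + conj z = -1 := by
      rw [Complex.add_conj, h2]
      norm_num
    linear_combination (z - 1) * (z * h6 - h5)
  · rw [e, h3]
    refine (encard_image_le _ _).trans ?_
    rw [encard_coe_eq_coe_finsetCard, tc_card three_ne_zero]
    rfl

theorem H1_cone_ball_lt_top {n : ℕ} (hn : n ≠ 0) (x e y : ℂ) (he : ‖e‖ = 1) (t : ℝ) :
    H1 (Cone n x e ∩ ball y t) < ⊤ := by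
  refine (measure_mono (inter_subset_inter_right _ (ball_subset_ball' (y := x) (ε₂ := t + dist y x) le_rfl))).trans_lt ?_
  rw [tc_H1 hn x e he]
  exact ENNReal.mul_lt_top (ENNReal.natCast_lt_top n) ENNReal.ofReal_lt_top

/-- `n` half-open segments of length `t` meeting only at `x` -/
theorem Lr_cone {n : ℕ} (hn : n ≠ 0) (x e : ℂ) (he : ‖e‖ = 1) {t : ℝ} (ht : 0 ≤ t) :
    Lr (Cone n x e) x t = n * t := by
  rw [Lr, tc_H1 hn x e he, ENNReal.toReal_mul, ENNReal.toReal_natCast, ENNReal.toReal_ofReal ht]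

/-- away from the centre the ray and the propeller look like a line -/
theorem Lr_cone_off {n : ℕ} (hn : n = 1 ∨ n = 3) (x e y : ℂ) (he : ‖e‖ = 1) (hy : y ∈ Cone n x e) {t : ℝ}
    (ht : 0 ≤ t) (h : t ≤ ‖y - x‖ / 2) : Lr (Cone n x e) y t ≤ 2 * t := by
  have hn0 : n ≠ 0 := by omega
  obtain ⟨s₀, hs₀, ζ₀, h₀, rfl⟩ := hy
  have hv : ‖e * ζ₀‖ = 1 := by rw [norm_mul, he, tc_norm hn0 h₀, mul_one]
  rw [add_sub_cancel_left, mul_assoc, norm_mul, hv, mul_one, Complex.norm_real, Real.norm_of_nonneg hs₀] at h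
  have hsub : Cone n x e ∩ ball (x + s₀ * e * ζ₀) t ⊆
      (fun s : ℝ => x + s * (e * ζ₀)) '' Ioo (s₀ - t) (s₀ + t) := by
    rintro z ⟨⟨s, hs, ζ, h1, rfl⟩, h2⟩
    rcases eq_or_ne ζ ζ₀ with rfl | hne
    · rw [mem_ball, mul_assoc, mul_assoc, tc_dist x hv, abs_lt] at h2
      exact ⟨s, ⟨by linarith [h2.1], by linarith [h2.2]⟩, by rw [mul_assoc]⟩
    exfalso
    rcases hn with rfl | rfl
    · rw [pow_one] at h1 h₀
      exact hne (h1.trans h₀.symm)
    have h3 := cube_root_re h1 h₀ hne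
    rw [mem_ball, dist_eq_norm, add_sub_add_left_eq_sub,
      show s * e * ζ - s₀ * e * ζ₀ = e * (s * ζ - s₀ * ζ₀) by ring, norm_mul, he, one_mul] at h2
    have h4 := Complex.normSq_sub (s * ζ) (s₀ * ζ₀)
    rw [Complex.normSq_eq_norm_sq, Complex.normSq_eq_norm_sq, Complex.normSq_eq_norm_sq, norm_mul, norm_mul,
      tc_norm hn0 h1, tc_norm hn0 h₀, mul_one, mul_one, Complex.norm_real, Complex.norm_real,
      Real.norm_of_nonneg hs, Real.norm_of_nonneg hs₀, map_mul, Complex.conj_ofReal,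
      show (s : ℂ) * ζ * (s₀ * conj ζ₀) = ((s * s₀ : ℝ) : ℂ) * (ζ * conj ζ₀) by push_cast; ring,
      Complex.re_ofReal_mul, h3] at h4
    have h5 := pow_lt_pow_left₀ h2 (norm_nonneg _) two_ne_zero
    nlinarith [mul_nonneg hs hs₀, sq_nonneg s]
  refine ENNReal.toReal_le_of_le_ofReal (by positivity) ((measure_mono hsub).trans_eq ?_)
  rw [tc_H1_image x hv, Real.volume_Ioo]
  congr 1
  ring

end Crest.Agent.R135
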