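import Crest.Agent.R135.Defs
import Crest.Agent.R135.CComp
import Crest.Agent.R135.MAff
import Crest.Agent.R135.MBasic
import Crest.Agent.R135.TCone
set_option autoImplicit false
open MeasureTheory Metric Set Filter Topology
open scoped ENNReal NNReal Real ComplexConjugate

namespace Crest.Agent.R135

/-- unscaled form of `Lim` for blow-ups at `(y k, r k)` -/
structure BLim (F : Filter ℕ) (K : ℕ → Set ℂ) (u : ℕ → ℂ → ℝ) (y : ℕ → ℂ) (r : ℕ → ℝ) (K' : Set ℂ) (u' : ℂ → ℝ) : Prop where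
  lim : Lim F (fun k => rK (y k) (r k) (K k)) (fun k => ru (y k) (r k) (u k)) K' u'
  Dlo : ∀ (z : ℂ) (t η : ℝ), 0 < η → ∀ᶠ k in F, r k * Dr u' z t ≤ Dr (u k) (y k + r k * z) (r k * t) + η * r k
  Dhi : ∀ (z : ℂ) (t t' η : ℝ), t < t' → 0 < η →
    ∀ᶠ k in F, Dr (u k) (y k + r k * z) (r k * t) ≤ r k * Dr u' z t' + η * r k
  Llo : ∀ (z : ℂ) (t η : ℝ), 0 < η → ∀ᶠ k in F, r k * Lr K' z t ≤ Lr (K k) (y k + r k * z) (r k * t) + η * r k
  Lhi : ∀ (z : ℂ) (t t' η : ℝ), t < t' → 0 < η →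
    ∀ᶠ k in F, Lr (K k) (y k + r k * z) (r k * t) ≤ r k * Lr K' z t' + η * r k

/-- blow-up along points of `K k` (`Sq.of_rescale`, `compact`, `Dr_ru`, `Lr_rK`; `0 ∈ K'` by `Khi` and closedness) -/
theorem blow {U : ℕ → Set ℂ} {a b : ℕ → ℝ} {K : ℕ → Set ℂ} {u : ℕ → ℂ → ℝ} {y : ℕ → ℂ} {r δ : ℕ → ℝ}
    (h : ∀ k, Abs (U k) (a k) (b k) (K k) (u k)) (hy : ∀ k, y k ∈ K k) (hr : ∀ k, 0 < r k) (hδ : ∀ k, 0 < δ k)
    (hs : ∀ k, Sm (δ k) (U k) (a k) (b k) (y k) (r k)) (h0 : Tendsto δ atTop (𝓝 0)) :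
    ∃ (F : Ultrafilter ℕ) (K' : Set ℂ) (u' : ℂ → ℝ), (F : Filter ℕ) ≤ atTop ∧ BL K' u' ∧ (0 : ℂ) ∈ K' ∧
      BLim F K u y r K' u' := by
  obtain ⟨F, K', u', hF, hB, hL⟩ := compact (Sq.of_rescale h hr hδ hs h0)
  have hc : ∀ k, (r k : ℂ) ≠ 0 := fun k => Complex.ofReal_ne_zero.2 (hr k).ne'
  have hn : ∀ k, ‖(r k : ℂ)‖ = r k := fun k => by rw [Complex.norm_real, Real.norm_of_nonneg (hr k).le]
  have lo : ∀ k (A B η : ℝ), A ≤ B / r k + η → r k * A ≤ B + η * r k := fun k A B η h1 => by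
    have h2 := mul_le_mul_of_nonneg_left h1 (hr k).le
    rwa [mul_add, mul_div_cancel₀ _ (hr k).ne', mul_comm (r k) η] at h2
  have hi : ∀ k (A B η : ℝ), B / r k ≤ A + η → B ≤ r k * A + η * r k := fun k A B η h1 => by
    have h2 := mul_le_mul_of_nonneg_left h1 (hr k).le
    rwa [mul_add, mul_div_cancel₀ _ (hr k).ne', mul_comm (r k) η] at h2
  refine ⟨F, K', u', hF, hB, ?_, hL, fun z t η hη => ?_, fun z t t' η ht hη => ?_, fun z t η hη => ?_,
    fun z t t' η ht hη => ?_⟩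
  · rw [← hB.1.ms.closed.closure_eq, Metric.mem_closure_iff]
    intro η hη
    obtain ⟨k, hk⟩ := (hL.Khi 1 η hη).exists
    exact hk 0 ⟨show y k + r k * 0 ∈ K k by simpa using hy k, mem_ball_self one_pos⟩
  · filter_upwards [hL.Dlo z t η hη] with k hk
    rw [Dr_ru _ _ (hc k), hn] at hk
    exact lo k _ _ _ hk
  · filter_upwards [hL.Dhi z t t' η ht hη] with k hk
    rw [Dr_ru _ _ (hc k), hn] at hk
    exact hi k _ _ _ hk
  · filter_upwards [hL.Llo z t η hη] with k hk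
    rw [Lr_rK _ _ (hc k), hn] at hk
    exact lo k _ _ _ hk
  · filter_upwards [hL.Lhi z t t' η ht hη] with k hk
    rw [Lr_rK _ _ (hc k), hn] at hk
    exact hi k _ _ _ hk

/-- if the limit is a cone, the sets are eventually close to a cone (`Klo` on a finite net of the compact `Cone ∩ closedBall`, `Khi`) -/
theorem Lim.near {F : Filter ℕ} {K : ℕ → Set ℂ} {u : ℕ → ℂ → ℝ} {u' : ℂ → ℝ} {n : ℕ} (hn : n ≠ 0) {e : ℂ} (he : ‖e‖ = 1)
    (h : Lim F K u (Cone n 0 e) u') {ε t : ℝ} (hε : 0 < ε) (ht : 0 < t) : ∀ᶠ k in F, Near ε n (K k) 0 t := by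
  have hη : 0 < ε * t / 2 := by positivity
  obtain ⟨T, hT1, hT2, hT3⟩ := finite_cover_balls_of_compact
    ((isCompact_closedBall (0 : ℂ) t).inter_left (isClosed_cone hn 0 e)) hη
  filter_upwards [h.Khi t (ε * t) (by positivity),
    (eventually_all_finite hT2).2 fun z hz => h.Klo z (hT1 hz).1 _ hη] with k h1 h2
  refine ⟨e, he, fun z hz => (h1 z hz).imp fun w hw => ⟨hw.1, hw.2.le⟩, fun w hw => ?_⟩
  obtain ⟨p, hp, hwp⟩ := mem_iUnion₂.1 (hT3 ⟨hw.1, ball_subset_closedBall hw.2⟩)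
  obtain ⟨z, hz, hzp⟩ := h2 p hp
  refine ⟨z, hz, (dist_triangle_right z w p).trans ?_⟩
  linarith [mem_ball.1 hwp]

theorem diag_aux {F : Filter ℕ} [F.NeBot] (hF : F ≤ atTop) {Q : ℝ → ℝ} {P P' : ℕ → ℝ → ℝ}
    (mono : Monotone Q) (lo : ∀ t η : ℝ, 0 < η → ∀ᶠ j in F, Q t ≤ P j t + η)
    (hi : ∀ t t' η : ℝ, t < t' → 0 < η → ∀ᶠ j in F, P j t ≤ Q t' + η)
    (A : ∀ q q' : ℚ, q < q' → ∀ η : ℝ, 0 < η →
      ∀ᶠ j in atTop, P j q ≤ P' j q' + η ∧ P' j q ≤ P j q + η) {θ : ℝ}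
    (hθ : ∀ t : ℝ, 0 < t → Tendsto (fun j => P' j t) atTop (𝓝 (θ * t))) {t : ℝ} (ht : 0 < t) :
    Q t = θ * t := by
  have hθ1 : 0 < |θ| + 1 := by positivity
  have hb : ∀ {ε s : ℝ}, 0 < ε → |s - t| ≤ ε / (|θ| + 1) → |θ * s - θ * t| ≤ ε := fun {ε s} hε hs => by
    rw [← mul_sub, abs_mul]
    have := (le_div_iff₀ hθ1).1 hs
    nlinarith [abs_nonneg θ, abs_nonneg (s - t)]
  refine le_antisymm (le_of_forall_pos_le_add fun ε hε => ?_) (le_of_forall_pos_le_add fun ε hε => ?_)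
  · have hε3 : 0 < ε / 3 := by positivity
    obtain ⟨q', h1, h2⟩ := exists_rat_btwn (show t < t + ε / 3 / (|θ| + 1) by
      have : 0 < ε / 3 / (|θ| + 1) := by positivity
      linarith)
    obtain ⟨q, h3, h4⟩ := exists_rat_btwn h1
    have h5 : Q q - 2 * (ε / 3) ≤ θ * q' := by
      refine ge_of_tendsto ((hθ q' (ht.trans h1)).mono_left hF) ?_
      filter_upwards [lo q _ hε3, (A q q' (by exact_mod_cast h4) _ hε3).filter_mono hF] with j a1 a2
      linarith [a2.1]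
    have h6 := (abs_le.1 (hb (s := q') hε3 (by rw [abs_le]; constructor <;> linarith))).2
    linarith [mono h3.le]
  · have hε3 : 0 < ε / 3 := by positivity
    obtain ⟨q, h1, h2⟩ := exists_rat_btwn (show max 0 (t - ε / 3 / (|θ| + 1)) < t by
      have : 0 < ε / 3 / (|θ| + 1) := by positivity
      exact max_lt ht (by linarith))
    obtain ⟨h0, h1⟩ := max_lt_iff.1 h1
    have h5 : θ * q ≤ Q t + 2 * (ε / 3) := by
      refine le_of_tendsto ((hθ q h0).mono_left hF) ?_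
      filter_upwards [hi q t _ h2 hε3, (A q (q + 1) (lt_add_one q) _ hε3).filter_mono hF] with j a1 a2
      linarith [a2.2]
    have h6 := (abs_le.1 (hb (s := q) hε3 (by rw [abs_le]; constructor <;> linarith))).1
    linarith

/-- Diagonal lemma: blow-ups and blow-downs of blow-up limits are blow-up limits. For each `j` choose `k_j` (finitely many eventual conditions) and
`y_j ∈ K (k_j)` with `dist y_j x < r_j/(j+1)`, `Sm (1/(j+1)) … y_j r_j`, and for the first `j` positive rationals `q` (enumerate `ℚ`):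
`Q' x (r_j q (1 - 2/(j+2))) - r_j/(j+1) ≤ Q_{k_j} y_j (r_j q) ≤ Q' x (r_j q (1 + 2/(j+1))) + …` for `Q = Dr, Lr` (ball inclusions, monotonicity). Simplest: blow up at the fixed
centre `x` through `Sq.of_rescale` + `compact` (then `0 ∈ K''` from `Khi`). Conclude with `Dlo/Dhi/Llo/Lhi` of the new limit and density of `ℚ`. -/
theorem diag {K' : Set ℂ} {u' : ℂ → ℝ} (h : BL K' u') {x : ℂ} (hx : x ∈ K') {r : ℕ → ℝ} (hr : ∀ j, 0 < r j) :
    ∃ (K'' : Set ℂ) (u'' : ℂ → ℝ), BL K'' u'' ∧ (0 : ℂ) ∈ K'' ∧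
      (∀ θ : ℝ, (∀ t : ℝ, 0 < t → Tendsto (fun j => Dr u' x (r j * t) / r j) atTop (𝓝 (θ * t))) →
        ∀ t : ℝ, 0 < t → Dr u'' 0 t = θ * t) ∧
      ∀ θ : ℝ, (∀ t : ℝ, 0 < t → Tendsto (fun j => Lr K' x (r j * t) / r j) atTop (𝓝 (θ * t))) →
        ∀ t : ℝ, 0 < t → Lr K'' 0 t = θ * t := by
  obtain ⟨-, U, a, b, K, u, F, hs, hF, hl⟩ := h
  obtain ⟨e, he⟩ := exists_surjective_nat (ℚ × ℚ)
  set δ : ℕ → ℝ := fun j => 1 / ((j : ℝ) + 1) with hδ
  have δ0 : ∀ j, 0 < δ j := fun j => Nat.one_div_pos_of_nat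
  have δt : Tendsto δ atTop (𝓝 0) := tendsto_one_div_add_atTop_nhds_zero_nat
  have key : ∀ j, ∃ k, Sm (δ j) (U k) (a k) (b k) x (r j) ∧ (∃ y ∈ K k, dist y x < r j * δ j) ∧
      ∀ n ∈ {n | n ≤ j}, (e n).1 < (e n).2 →
        (Dr (u k) x (r j * (e n).1) ≤ Dr u' x (r j * (e n).2) + r j * δ j ∧
          Dr u' x (r j * (e n).1) ≤ Dr (u k) x (r j * (e n).1) + r j * δ j) ∧
        (Lr (K k) x (r j * (e n).1) ≤ Lr K' x (r j * (e n).2) + r j * δ j ∧
          Lr K' x (r j * (e n).1) ≤ Lr (K k) x (r j * (e n).1) + r j * δ j) := fun j => by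
    have hη := mul_pos (hr j) (δ0 j)
    refine Eventually.exists (f := F) (Eventually.and ?_ ((hl.Klo x hx _ hη).and ?_))
    · refine Eventually.filter_mono hF ?_
      have h1 := (hs.a0.mul_const (r j * √(r j))).eventually_le_const (by simpa using δ0 j)
      have h2 := (hs.ab0.mul_const (r j)).eventually_le_const (by simpa using δ0 j)
      filter_upwards [hs.big (r j / δ j + dist x 0), h1, h2] with k a1 a2 a3
      exact ⟨(ball_subset_ball' le_rfl).trans a1, a2, a3⟩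
    · refine (eventually_all_finite (finite_le_nat j)).2 fun n _ => ?_
      by_cases hn : (e n).1 < (e n).2
      · have h1 : r j * (e n).1 < r j * (e n).2 :=
          mul_lt_mul_of_pos_left (by exact_mod_cast hn) (hr j)
        filter_upwards [hl.Dhi x _ _ _ h1 hη, hl.Dlo x (r j * (e n).1) _ hη, hl.Lhi x _ _ _ h1 hη,
          hl.Llo x (r j * (e n).1) _ hη] with k a1 a2 a3 a4 _
        exact ⟨⟨a1, a2⟩, a3, a4⟩
      · exact Eventually.of_forall fun k h => absurd h hn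
  choose k k1 k2 k3 using key
  obtain ⟨G, K'', u'', hG, hB, hL⟩ := compact (Sq.of_rescale (y := fun _ => x)
    (fun j => hs.abs (k j)) hr δ0 k1 δt)
  have hc : ∀ j, ((r j : ℝ) : ℂ) ≠ 0 := fun j => Complex.ofReal_ne_zero.2 (hr j).ne'
  have hn : ∀ j, ‖((r j : ℝ) : ℂ)‖ = r j := fun j => by
    rw [Complex.norm_real, Real.norm_of_nonneg (hr j).le]
  have hd : ∀ {j : ℕ} {A B η : ℝ}, δ j ≤ η → A ≤ B + r j * δ j → A / r j ≤ B / r j + η :=
    fun {j A B η} h1 h2 => by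
      have := hr j
      rw [div_add' _ _ _ this.ne', div_le_div_iff_of_pos_right this]
      nlinarith
  refine ⟨K'', u'', hB, ?_, fun θ hθ t ht => ?_, fun θ hθ t ht => ?_⟩
  · rw [← hB.1.ms.closed.closure_eq, Metric.mem_closure_iff]
    intro ε hε
    obtain ⟨j, a1, a2⟩ := ((hL.Khi 1 (ε / 2) (half_pos hε)).and
      ((δt.eventually_lt_const (lt_min one_pos (half_pos hε))).filter_mono hG)).exists
    obtain ⟨y, y1, y2⟩ := k2 j
    have y3 : dist ((y - x) / r j) 0 < δ j := by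
      rw [dist_zero_right, norm_div, hn, div_lt_iff₀' (hr j), ← dist_eq_norm]; exact y2
    obtain ⟨z, z1, z2⟩ := a1 ((y - x) / r j) ⟨by
      simp only [rK, mem_preimage]
      rwa [mul_div_cancel₀ _ (hc j), add_sub_cancel], y3.trans (a2.trans_le (min_le_left _ _))⟩
    refine ⟨z, z1, ?_⟩
    have := dist_triangle_left 0 z ((y - x) / r j)
    linarith [a2.trans_le (min_le_right _ _)]
  · refine diag_aux hG (Q := Dr u'' 0)
      (fun s s' hs' => hB.1.ms.Dr_mono (subset_univ _) (ball_subset_ball hs')) (hL.Dlo 0) (hL.Dhi 0)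
      (P' := fun j t => Dr u' x (r j * t) / r j) (fun q q' hq η hη => ?_) hθ ht
    obtain ⟨n, hn'⟩ := he (q, q')
    filter_upwards [eventually_ge_atTop n, δt.eventually_le_const hη] with j a1 a2
    have := (k3 j n a1 (by rw [hn']; exact hq)).1
    rw [hn'] at this
    simp only [Dr_ru x _ (hc j), hn, mul_zero, add_zero]
    exact ⟨hd a2 this.1, hd a2 this.2⟩
  · refine diag_aux hG (Q := Lr K'' 0)
      (fun s s' hs' => hB.1.ms.Lr_mono (subset_univ _) (ball_subset_ball hs')) (hL.Llo 0) (hL.Lhi 0)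
      (P' := fun j t => Lr K' x (r j * t) / r j) (fun q q' hq η hη => ?_) hθ ht
    obtain ⟨n, hn'⟩ := he (q, q')
    filter_upwards [eventually_ge_atTop n, δt.eventually_le_const hη] with j a1 a2
    have := (k3 j n a1 (by rw [hn']; exact hq)).2
    rw [hn'] at this
    simp only [Lr_rK x _ (hc j), hn, mul_zero, add_zero]
    exact ⟨hd a2 this.1, hd a2 this.2⟩

end Crest.Agent.R135
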