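import Crest.Agent.R135.Defs
import Crest.Agent.R135.MXL
import Crest.Agent.R135.TEil
import Crest.Agent.R135.TGron
import Crest.Agent.R135.TCone
set_option autoImplicit false
open MeasureTheory Metric Set Filter Topology
open scoped ENNReal NNReal Real ComplexConjugate

namespace Crest.Agent.R135

variable {K : Set ℂ} {u : ℂ → ℝ}

theorem Glob.grad_zero (h : Glob K u) {x : ℂ} (hD : ∀ r : ℝ, 0 < r → Dr u x r = 0) : ∀ z ∉ K, gradient u z = 0 := by
  intro z hz
  have hK : IsOpen Kᶜ := h.ms.closed.isOpen_compl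
  have hc : ContinuousOn (gradient u) Kᶜ := by
    have h1 : ContDiffOn ℝ 1 u Kᶜ := by simpa [diff_eq] using h.ms.c1
    exact (InnerProductSpace.toDual ℝ ℂ).symm.continuous.comp_continuousOn
      (h1.continuousOn_fderiv_of_isOpen hK le_rfl)
  have hr : 0 < dist z x + 1 := by positivity
  have h0 : Dir u (ball x (dist z x + 1)) = 0 := by
    rw [← h.ms.ofReal_Dr (subset_univ _), hD _ hr, ENNReal.ofReal_zero]
  have h1 := (lintegral_eq_zero_iff ((mgood_meas u).enorm.pow_const 2)).1 h0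
  have h2 : gradient u =ᵐ[volume.restrict (Kᶜ ∩ ball x (dist z x + 1))] fun _ => 0 := by
    filter_upwards [ae_restrict_of_ae_restrict_of_subset inter_subset_right h1] with w hw
    simpa using hw
  exact Measure.eqOn_open_of_ae_eq h2 (hK.inter isOpen_ball) (hc.mono inter_subset_left) continuousOn_const
    ⟨hz, by simp⟩

theorem Glob.Dr_zero (h : Glob K u) (hD : ∀ z ∉ K, gradient u z = 0) (y : ℂ) (t : ℝ) : Dr u y t = 0 := by
  have h0 : Dir u (ball y t) = 0 := by
    refine lintegral_eq_zero_of_ae_eq_zero (ae_restrict_of_ae ?_)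
    filter_upwards [h.ms.ae_not_mem] with z hz
    simp [hD z (hz trivial)]
  rw [Dr, h0, ENNReal.toReal_zero]

theorem gzero_circ (hD : ∀ z ∉ K, gradient u z = 0) {x : ℂ} {ρ : ℝ} (hρ : 0 < ρ) (hf : (K ∩ sphere x ρ).Finite) :
    ∀ᵐ φ : ℝ, φ ∈ uIoc (-π) π → gradient u (circleMap x ρ φ) = 0 := by
  filter_upwards [(finite_angles hρ hf (-π) π).countable.ae_notMem volume] with φ h1 h2
  rw [uIoc_of_le (by linarith [Real.pi_pos])] at h2
  exact hD _ fun h3 => h1 ⟨Ioc_subset_Icc_self h2, h3⟩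

/-- every radius with finitely many points is good, `ce = ce1 = 0`; `MS.xl` with `κ → 0` -/
theorem Glob.cone_ineq (h : Glob K u) (hD : ∀ z ∉ K, gradient u z = 0) {x y : ℂ} {ρ : ℝ} (hρ : 0 < ρ)
    (hf : (K ∩ sphere x ρ).Finite) (hy : y ∈ closedBall x ρ) : Lr K x ρ ≤ ∑ p ∈ hf.toFinset, ‖p - y‖ := by
  have h0 := gzero_circ hD hρ hf
  have h1 : ce u x ρ = 0 := by
    rw [ce, intervalIntegral.integral_congr_ae (g := fun _ => (0 : ℝ))
      (h0.mono fun φ hφ h2 => by simp [hφ h2])]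
    simp
  have h2 : ce1 u x ρ = 0 := by
    rw [ce1, intervalIntegral.integral_congr_ae (g := fun _ => (0 : ℝ))
      (h0.mono fun φ hφ h2 => by simp [hφ h2])]
    simp
  have hg : Good K u x ρ := by
    refine ⟨hρ, hf, ?_, ?_⟩
    · refine (intervalIntegrable_const (c := (0 : ℝ))).congr_ae ?_
      filter_upwards [ae_restrict_of_ae h0, ae_restrict_mem measurableSet_uIoc] with φ hφ h2
      simp [hφ h2]
    · rw [h1, show Dr u x = fun _ => 0 from funext (h.Dr_zero hD x)]
      exact hasDerivAt_const _ _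
  refine le_of_forall_pos_le_add fun ε hε => ?_
  set N : ℝ := (hf.toFinset.card : ℝ) with hN
  have hN0 : 0 ≤ N := Nat.cast_nonneg _
  have h3 := h.ms.xl (κ := min (ρ / 2) (ε / (4 * N + 1))) hg (subset_univ _) (by positivity)
    (min_le_left _ _) hy
  have h4 : (4 * N + 1) * min (ρ / 2) (ε / (4 * N + 1)) ≤ ε := by
    rw [← le_div_iff₀' (by positivity)]
    exact min_le_right _ _
  have h5 : 0 < min (ρ / 2) (ε / (4 * N + 1)) := by positivity
  rw [h1, h2, h.Dr_zero hD] at h3
  simp only [mul_zero, zero_mul, add_zero, zero_add, ne_eq, OfNat.ofNat_ne_zero, not_false_eq_true,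
    zero_pow] at h3
  rw [← hN] at h3
  linarith

theorem Glob.two_le (h : Glob K u) (hD : ∀ z ∉ K, gradient u z = 0) {y : ℂ} (hy : y ∈ K) {t : ℝ} (ht : 0 < t) :
    2 ≤ (K ∩ sphere y t).encard := by
  by_contra hc
  have h1 : (K ∩ sphere y t).encard ≤ 1 := Order.le_of_lt_add_one (not_le.1 hc)
  have hf : (K ∩ sphere y t).Finite := finite_of_encard_le_coe h1
  obtain ⟨c, hc0, h2⟩ := h.dlb
  have h3 := (mul_pos hc0 ht).trans_le (h2 y hy t ht)
  rcases Set.encard_le_one_iff_eq.1 h1 with e | ⟨q, e⟩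
  · have := h.cone_ineq hD ht hf (mem_closedBall_self ht.le)
    simp only [e, Finite.toFinset_empty, Finset.sum_empty] at this
    linarith
  · have hq : q ∈ K ∩ sphere y t := e ▸ mem_singleton q
    have := h.cone_ineq hD ht hf (sphere_subset_closedBall hq.2)
    simp only [e, Finite.toFinset_singleton, Finset.sum_singleton, sub_self, norm_zero] at this
    linarith

theorem Glob.Lr_two (h : Glob K u) (hD : ∀ z ∉ K, gradient u z = 0) {y : ℂ} (hy : y ∈ K) {t : ℝ} (ht : 0 < t) :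
    2 * t ≤ Lr K y t := by
  have h1 := le_self_add.trans (eil_excess y K h.ms.closed.measurableSet 2 t fun ρ hρ => h.two_le hD hy hρ.1)
  rw [← h.ms.ofReal_Lr (subset_univ _), ← ENNReal.ofReal_natCast, ← ENNReal.ofReal_mul (by positivity),
    ENNReal.ofReal_le_ofReal_iff (Lr_nonneg _ _ _)] at h1
  exact_mod_cast h1

/-- `Lr ρ ≤ N(ρ) ρ` (`cone_ineq`, apex `x`), `eil_lintegral`, `mono_div_of_integral` -/
theorem Glob.Lr_mono_div (h : Glob K u) (hD : ∀ z ∉ K, gradient u z = 0) (x : ℂ) :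
    MonotoneOn (fun t => Lr K x t / t) (Ioi 0) := by
  have hK := h.ms.closed.measurableSet
  refine mono_div_of_integral (fun s _ t _ hst => h.ms.Lr_mono (subset_univ _) (ball_subset_ball hst))
    fun t s ht hts => ?_
  have h1 := eil_lintegral x K hK t s (fun ρ => ‖Lr K x ρ / ρ‖ₑ) (by
    filter_upwards [ae_finite_sphere x _ (hK.inter measurableSet_closedBall)
      (h.ms.H1_lt_top (x := x) (ρ := s) (subset_univ _))] with ρ h1 hρ
    have hρ0 := ht.trans_le hρ.1
    have hf : (K ∩ sphere x ρ).Finite :=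
      h1.subset fun z hz => ⟨⟨hz.1, (mem_sphere.1 hz.2).trans_le hρ.2.le⟩, hz.2⟩
    have h2 := h.cone_ineq hD hρ0 hf (mem_closedBall_self hρ0.le)
    rw [Finset.sum_congr rfl (g := fun _ => ρ) fun p hp => by
      simpa [dist_eq_norm] using (hf.mem_toFinset.1 hp).2, Finset.sum_const, nsmul_eq_mul,
      ← div_le_iff₀ hρ0] at h2
    rw [Real.enorm_eq_ofReal (div_nonneg (Lr_nonneg _ _ _) hρ0.le), hf.encard_eq_coe_toFinset_card]
    refine (ENNReal.ofReal_le_ofReal h2).trans ?_
    simp)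
  have h2 : ENNReal.ofReal (∫ ρ in t..s, Lr K x ρ / ρ) ≤ ∫⁻ ρ in Ico t s, ‖Lr K x ρ / ρ‖ₑ := by
    rw [intervalIntegral.integral_of_le hts, integral_Ioc_eq_integral_Ioo, ← integral_Ico_eq_integral_Ioo]
    exact (Real.ofReal_le_enorm _).trans (enorm_integral_le_lintegral_enorm _)
  have h3 : H1 (K ∩ ball x t) + H1 (K ∩ (ball x s \ ball x t)) ≤ H1 (K ∩ ball x s) := by
    rw [← measure_union (disjoint_left.2 fun z h1 h2 => h2.2.2 h1.2)
      (hK.inter (measurableSet_ball.diff measurableSet_ball))]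
    exact measure_mono (union_subset (inter_subset_inter_right _ (ball_subset_ball hts))
      (inter_subset_inter_right _ diff_subset))
  rw [← ENNReal.ofReal_le_ofReal_iff (Lr_nonneg _ _ _), h.ms.ofReal_Lr (subset_univ _)]
  refine ENNReal.ofReal_add_le.trans (le_trans ?_ h3)
  rw [h.ms.ofReal_Lr (subset_univ _)]
  exact add_le_add le_rfl (h2.trans h1)

end Crest.Agent.R135
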