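import Crest.Agent.R135.Defs
import Crest.Agent.R135.GZero
set_option autoImplicit false
open MeasureTheory Metric Set Filter Topology
open scoped ENNReal NNReal Real ComplexConjugate

namespace Crest.Agent.R135

variable {K : Set ℂ} {u : ℂ → ℝ}

/-- the directions of the points of `K` at distance `s` -/
def gryD (K : Set ℂ) (x : ℂ) (s : ℝ) : Set ℂ := {e | ‖e‖ = 1 ∧ x + s * e ∈ K}

theorem gry_dist (x : ℂ) {e : ℂ} (he : ‖e‖ = 1) {s : ℝ} (hs : 0 ≤ s) : dist (x + s * e) x = s := by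
  simp [he, abs_of_nonneg hs]

theorem gry_mem {x z : ℂ} {s : ℝ} (hs : 0 < s) (hz : ‖z - x‖ = s) :
    ‖(z - x) / s‖ = 1 ∧ x + s * ((z - x) / s) = z := by
  refine ⟨by rw [norm_div, hz, Complex.norm_real, Real.norm_of_nonneg hs.le, div_self hs.ne'], ?_⟩
  rw [mul_div_cancel₀ _ (Complex.ofReal_ne_zero.2 hs.ne'), add_sub_cancel]

theorem gry_card (K : Set ℂ) (x : ℂ) {s : ℝ} (hs : 0 < s) : (K ∩ sphere x s).encard = (gryD K x s).encard := by
  have hi : Function.Injective fun e : ℂ => x + s * e := fun a b h =>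
    mul_left_cancel₀ (Complex.ofReal_ne_zero.2 hs.ne') (add_left_cancel h)
  rw [← hi.encard_image (gryD K x s)]
  congr 1
  ext z
  constructor
  · rintro ⟨h1, h2⟩
    have := gry_mem hs (mem_sphere_iff_norm.1 h2)
    exact ⟨_, ⟨this.1, this.2.symm ▸ h1⟩, this.2⟩
  · rintro ⟨e, he, rfl⟩
    exact ⟨he.2, gry_dist x he.1 hs.le⟩

theorem gry_eq {x e v : ℂ} (he : ‖e‖ = 1) (hv : ‖v‖ = 1) {s t : ℝ} (hs : 0 < s) (ht : 0 < t)
    (h : dist (x + s * v) (x + t * e) ≤ |s - t|) : v = e := by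
  have h1 := pow_le_pow_left₀ dist_nonneg h 2
  have h2 : ‖e‖ ^ 2 = 1 := by rw [he, one_pow]
  have h3 : ‖v‖ ^ 2 = 1 := by rw [hv, one_pow]
  have h4 : dist (x + s * v) (x + t * e) ^ 2 = (s - t) ^ 2 + s * t * ‖v - e‖ ^ 2 := by
    rw [dist_add_left, dist_eq_norm]
    simp only [Complex.sq_norm, Complex.normSq_apply, Complex.sub_re, Complex.sub_im, Complex.re_ofReal_mul,
      Complex.im_ofReal_mul] at h2 h3 ⊢
    linear_combination (s ^ 2 - s * t) * h3 + (t ^ 2 - s * t) * h2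
  rw [h4, sq_abs, add_le_iff_nonpos_right] at h1
  have h5 := nonpos_of_mul_nonpos_right h1 (mul_pos hs ht)
  exact sub_eq_zero.1 (norm_eq_zero.1 (pow_eq_zero_iff two_ne_zero |>.1 (le_antisymm h5 (sq_nonneg _))))

theorem gry_key (h : Glob K u) (hD : ∀ z ∉ K, gradient u z = 0) {x : ℂ} (T : Finset ℂ)
    (hL : ∀ t : ℝ, 0 < t → Lr K x t = T.card * t) {t m : ℝ} (ht : 0 < t) (hT : ∀ e ∈ T, e ∈ gryD K x t)
    (hm : ∀ e ∈ T, ∀ v ∈ T, e ≠ v → 2 * m ≤ ‖e - v‖) (hm1 : m ≤ 1 / 2) {z : ℂ} (hz : z ∈ K)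
    (hd : |dist z x - t| < m * t) : ∃ e ∈ T, dist z (x + t * e) ≤ |dist z x - t| := by
  by_contra hc
  push Not at hc
  set d := |dist z x - t| with hdd
  have hd0 : 0 ≤ d := abs_nonneg _
  have key : ∀ c, d < c → ∀ᶠ δ in 𝓝[>] (0 : ℝ), d + 2 * δ < c := fun c hc =>
    mem_nhdsWithin_of_mem_nhds ((Continuous.tendsto' (f := fun δ : ℝ => d + 2 * δ) (by fun_prop) 0 d
      (by simp)).eventually (gt_mem_nhds hc))
  obtain ⟨δ, ⟨h1, h2⟩, (hδ : 0 < δ)⟩ := (((key _ hd).and ((eventually_all_finset T).2 fun e he =>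
    key _ (hc e he))).and self_mem_nhdsWithin).exists
  have hν : ∀ y r, Lr K y r = (H1.restrict K).real (ball y r) := fun y r => by
    rw [measureReal_def, Measure.restrict_apply measurableSet_ball, inter_comm, Lr]
  have hf : ∀ y r, (H1.restrict K) (ball y r) ≠ ⊤ := fun y r => by
    rw [Measure.restrict_apply measurableSet_ball, inter_comm, ← h.ms.ofReal_Lr (subset_univ _)]
    exact ENNReal.ofReal_ne_top
  have hmt : m * t ≤ t / 2 := by nlinarith
  have hU : MeasurableSet (⋃ e ∈ T, ball (x + t * e) (d + δ)) :=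
    Finset.measurableSet_biUnion _ fun _ _ => measurableSet_ball
  have hs : ball x (t - (d + δ)) ∪ ball z δ ∪ ⋃ e ∈ T, ball (x + t * e) (d + δ) ⊆ ball x (t + (d + δ)) := by
    refine union_subset (union_subset (ball_subset_ball (by linarith)) (ball_subset_ball' ?_))
      (iUnion₂_subset fun e he => ball_subset_ball' ?_)
    · linarith [le_abs_self (dist z x - t)]
    · rw [gry_dist x (hT e he).1 ht.le, add_comm]
  have h3 := measureReal_mono hs (hf _ _)
  rw [measureReal_union _ hU (measure_ne_top_of_subset (subset_union_left.trans hs) (hf _ _))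
      (measure_ne_top_of_subset (subset_union_right.trans hs) (hf _ _)),
    measureReal_union _ measurableSet_ball (hf _ _) (hf _ _),
    measureReal_biUnion_finset _ (fun _ _ => measurableSet_ball) (fun _ _ => hf _ _)] at h3
  · simp only [← hν] at h3
    have h4 : ∑ e ∈ T, 2 * (d + δ) ≤ ∑ e ∈ T, Lr K (x + t * e) (d + δ) :=
      Finset.sum_le_sum fun e he => h.Lr_two hD (hT e he).2 (by linarith)
    rw [Finset.sum_const, nsmul_eq_mul] at h4
    rw [hL _ (by linarith), hL _ (by linarith)] at h3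
    linarith [h.Lr_two hD hz hδ]
  · intro e he v hv hne
    refine ball_disjoint_ball ?_
    rw [dist_add_left, dist_eq_norm, ← mul_sub, norm_mul, Complex.norm_real, Real.norm_of_nonneg ht.le]
    nlinarith [hm e he v hv hne]
  · refine ball_disjoint_ball ?_
    rw [dist_comm]
    linarith [neg_abs_le (dist z x - t)]
  · refine disjoint_iUnion₂_right.2 fun e he => disjoint_union_left.2 ⟨ball_disjoint_ball ?_, ball_disjoint_ball ?_⟩
    · rw [dist_comm, gry_dist x (hT e he).1 ht.le]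
      linarith
    · linarith [h2 e he]

/-- Constant density forces rays. `N ≥ θ` and `∫ N ≤ θ·length` (`eil_sphere` on annuli) give `N = θ` for a.e. radius, so `θ = n`. At such a radius `t` with points `y_j` at mutual distance `≥ m`, for
`h < m/2`: the balls `ball y_j h` are disjoint, carry `≥ 2h` each (`Lr_two`) and lie in the open annulus `(t-h, t+h)` of length `≤ 2 n h`; so the rest of the annulus is `H1`-null and
`dlb` forces `K ∩ annulus ⊆ ⋃ closedBall y_j h`; letting `h ↓ |‖z-x‖ - t|` each `z ∈ K` there is on a ray through some `y_j`. Continue outward and inward through good radii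
with the same directions (separation `m₀ s` at radius `s`); closedness gives the full rays. -/
theorem Glob.rays (h : Glob K u) (hD : ∀ z ∉ K, gradient u z = 0) {x : ℂ} (hx : x ∈ K) {θ : ℝ}
    (hL : ∀ t : ℝ, 0 < t → Lr K x t = θ * t) :
    ∃ E : Set ℂ, E.Finite ∧ (∀ e ∈ E, ‖e‖ = 1) ∧ 2 ≤ E.ncard ∧ θ = E.ncard ∧
      K = {z | ∃ s : ℝ, 0 ≤ s ∧ ∃ e ∈ E, z = x + s * e} := by
  have h2 : 2 ≤ θ := by simpa [hL 1 one_pos] using h.Lr_two hD hx one_pos
  have h1 : ∀ s, 0 < s → (⌈θ⌉₊ : ℕ∞) ≤ (K ∩ sphere x s).encard := fun s hs => by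
    rcases (K ∩ sphere x s).finite_or_infinite with hf | hf
    · have h3 := h.cone_ineq hD hs hf (mem_closedBall_self hs.le)
      rw [hL s hs, Finset.sum_congr rfl fun p hp => mem_sphere_iff_norm.1 (hf.mem_toFinset.1 hp).2,
        Finset.sum_const, nsmul_eq_mul] at h3
      rw [hf.encard_eq_coe_toFinset_card]
      exact Nat.cast_le.2 (Nat.ceil_le.2 (le_of_mul_le_mul_right h3 hs))
    · simp [hf.encard_eq]
  have h3 := eil_excess x K h.ms.closed.measurableSet _ 1 fun ρ hρ => h1 ρ hρ.1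
  rw [← h.ms.ofReal_Lr (subset_univ _), hL 1 one_pos, mul_one, ENNReal.ofReal_one, mul_one] at h3
  have hθ : θ = ⌈θ⌉₊ := by
    refine le_antisymm (Nat.le_ceil θ) ?_
    have := le_self_add.trans h3
    rwa [← ENNReal.ofReal_natCast, ENNReal.ofReal_le_ofReal_iff (by linarith)] at this
  generalize ⌈θ⌉₊ = n at h1 h3 hθ
  subst hθ
  obtain ⟨t₀, ht₀, h4⟩ : ∃ t₀, 0 < t₀ ∧ (gryD K x t₀).encard = n := by
    by_contra hc
    push Not at hc
    have h5 : {ρ : ℝ | ρ ∈ Ioo 0 1 ∧ ((n + 1 : ℕ) : ℕ∞) ≤ (K ∩ sphere x ρ).encard} = Ioo 0 1 := by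
      refine inter_eq_left.2 fun ρ hρ => ?_
      have := lt_of_le_of_ne (h1 ρ hρ.1) (gry_card K x hρ.1 ▸ (hc ρ hρ.1).symm)
      exact Order.add_one_le_of_lt this
    rw [h5, ENNReal.ofReal_natCast, Real.volume_Ioo, sub_zero, ENNReal.ofReal_one] at h3
    norm_cast at h3
    omega
  have hE : (gryD K x t₀).Finite := finite_of_encard_eq_coe h4
  have hn : hE.toFinset.card = n := by
    rw [hE.encard_eq_coe_toFinset_card] at h4
    exact_mod_cast h4
  have key : ∀ c : ℝ, 0 < c → ∀ᶠ m in 𝓝[>] (0 : ℝ), 2 * m ≤ c := fun c hc => by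
    filter_upwards [Ioo_mem_nhdsGT (half_pos hc)] with m hm
    linarith [hm.2]
  have h6 : ∀ᶠ m in 𝓝[>] (0 : ℝ), ∀ e ∈ hE.toFinset, ∀ v ∈ hE.toFinset, e ≠ v → 2 * m ≤ ‖e - v‖ := by
    simp only [eventually_all_finset, eventually_imp_distrib_left]
    exact fun e _ v _ hne => key _ (norm_pos_iff.2 (sub_ne_zero.2 hne))
  obtain ⟨m, ⟨hm, hm1⟩, (hm0 : 0 < m)⟩ := ((h6.and (key 1 one_pos)).and self_mem_nhdsWithin).exists
  have step : ∀ t, 0 < t → gryD K x t = gryD K x t₀ → ∀ s, |s - t| < m * t → 0 < s ∧ gryD K x s = gryD K x t₀ := by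
    intro t ht he s hs
    have hs0 : 0 < s := by nlinarith [neg_abs_le (s - t)]
    have h7 : gryD K x s ⊆ gryD K x t₀ := fun v hv => by
      obtain ⟨e, h8, h9⟩ := gry_key h hD hE.toFinset (hn ▸ hL) ht (fun e h8 => he ▸ hE.mem_toFinset.1 h8) hm
        (by linarith) hv.2 (by rwa [gry_dist x hv.1 hs0.le])
      rw [gry_dist x hv.1 hs0.le] at h9
      rw [hE.mem_toFinset] at h8
      rwa [gry_eq h8.1 hv.1 hs0 ht h9]
    exact ⟨hs0, (hE.subset h7).eq_of_subset_of_encard_le h7 (by rw [h4, ← gry_card K x hs0]; exact h1 s hs0)⟩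
  have all : Ioi (0 : ℝ) ⊆ {s | 0 < s ∧ gryD K x s = gryD K x t₀} := by
    refine isPreconnected_Ioi.subset_of_closure_inter_subset
      (Metric.isOpen_iff.2 fun t ht => ⟨m * t, mul_pos hm0 ht.1, step t ht.1 ht.2⟩) ⟨t₀, ht₀, ht₀, rfl⟩ ?_
    rintro s ⟨hs, (hs0 : 0 < s)⟩
    obtain ⟨t, ht, hst⟩ := Metric.mem_closure_iff.1 hs (m * s / 2) (by positivity)
    rw [Real.dist_eq] at hst
    refine step t ht.1 ht.2 s (hst.trans_le ?_)
    have : s / 2 ≤ t := by nlinarith [le_abs_self (s - t)]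
    nlinarith
  have hc : (gryD K x t₀).ncard = n := by rw [ncard_eq_toFinset_card _ hE, hn]
  have hn2 : 2 ≤ n := by exact_mod_cast h2
  refine ⟨_, hE, fun e he => he.1, hc ▸ hn2, by rw [hc], Subset.antisymm (fun z hz => ?_) ?_⟩
  · rcases (norm_nonneg (z - x)).eq_or_lt with h8 | h8
    · obtain ⟨e, he⟩ : (gryD K x t₀).Nonempty := nonempty_of_ncard_ne_zero (by omega)
      exact ⟨0, le_rfl, e, he, by simpa using sub_eq_zero.1 (norm_eq_zero.1 h8.symm)⟩
    · have := gry_mem h8 rfl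
      exact ⟨_, h8.le, _, (all h8).2 ▸ ⟨this.1, this.2.symm ▸ hz⟩, this.2.symm⟩
  · rintro z ⟨s, hs, e, he, rfl⟩
    rcases hs.eq_or_lt with rfl | hs
    · simpa using hx
    · rw [← (all hs).2] at he
      exact he.2

end Crest.Agent.R135
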