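import Crest.Agent.R135.Defs
import Crest.Agent.R135.GRays
set_option autoImplicit false
open MeasureTheory Metric Set Filter Topology
open scoped ENNReal NNReal Real ComplexConjugate

namespace Crest.Agent.R135

variable {K : Set ℂ} {u : ℂ → ℝ}

theorem gang_key (h : Glob K u) (hD : ∀ z ∉ K, gradient u z = 0) {x c y : ℂ} {ρ : ℝ} (hρ : 0 < ρ)
    (hy : y ∈ closedBall c ρ) (F T : Finset ℂ) (τ : ℂ → ℝ) (hn : ∀ e ∈ F, ‖e‖ = 1) (hτ : ∀ e ∈ F, 0 ≤ τ e)
    (hin : ∀ e ∈ F, ∀ s ∈ Ioo 0 (τ e), x + s * e ∈ K ∩ ball c ρ) (hT : K ∩ sphere c ρ ⊆ T) :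
    ∑ e ∈ F, τ e ≤ ∑ p ∈ T, ‖p - y‖ := by
  have hf : (K ∩ sphere c ρ).Finite := T.finite_toSet.subset hT
  refine le_trans ?_ ((h.cone_ineq hD hρ hf hy).trans (Finset.sum_le_sum_of_subset_of_nonneg
    (fun p hp => hT (hf.mem_toFinset.1 hp)) fun _ _ _ => norm_nonneg _))
  rw [← ENNReal.ofReal_le_ofReal_iff (Lr_nonneg K c ρ), h.ms.ofReal_Lr (subset_univ _),
    ENNReal.ofReal_sum_of_nonneg hτ]
  have e : H1 (⋃ e ∈ F, (fun s : ℝ => x + s * e) '' Ioo 0 (τ e)) = ∑ e ∈ F, ENNReal.ofReal (τ e) := by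
    rw [measure_biUnion_finset]
    · exact Finset.sum_congr rfl fun e he => by rw [tc_H1_image x (hn e he), Real.volume_Ioo, sub_zero]
    · intro e he e' he' hne
      refine disjoint_left.2 ?_
      rintro _ ⟨s, hs, rfl⟩ ⟨s', hs', h1⟩
      have h1 := add_left_cancel h1
      have h2 := congrArg norm h1
      rw [norm_mul, norm_mul, hn e he, hn e' he', mul_one, mul_one, Complex.norm_real, Complex.norm_real,
        Real.norm_of_nonneg hs.1.le, Real.norm_of_nonneg hs'.1.le] at h2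
      subst h2
      exact hne (mul_left_cancel₀ (Complex.ofReal_ne_zero.2 hs.1.ne') h1).symm
    · intro e he
      refine measurableSet_Ioo.image_of_continuousOn_injOn (by fun_prop) fun s _ s' _ h1 => ?_
      have he0 : e ≠ 0 := norm_ne_zero_iff.1 (by rw [hn e he]; exact one_ne_zero)
      exact Complex.ofReal_injective (mul_right_cancel₀ he0 (add_left_cancel h1))
  rw [← e]
  refine measure_mono (iUnion₂_subset fun e he => ?_)
  rintro _ ⟨s, hs, rfl⟩
  exact hin e he s hs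

theorem gang_sq {e v : ℂ} (he : ‖e‖ = 1) (hv : ‖v‖ = 1) (s t : ℝ) :
    ‖(s : ℂ) * e - t * v‖ ^ 2 = s ^ 2 + t ^ 2 - 2 * s * t * (e * conj v).re := by
  have h4 := Complex.normSq_sub (s * e) (t * v)
  rw [Complex.normSq_eq_norm_sq, Complex.normSq_eq_norm_sq, Complex.normSq_eq_norm_sq, norm_mul, norm_mul,
    he, hv, mul_one, mul_one, Complex.norm_real, Complex.norm_real, Real.norm_eq_abs, Real.norm_eq_abs, sq_abs,
    sq_abs, map_mul, Complex.conj_ofReal,
    show (s : ℂ) * e * (t * conj v) = ((s * t : ℝ) : ℂ) * (e * conj v) by push_cast; ring,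
    Complex.re_ofReal_mul] at h4
  rw [h4]; ring

theorem gang_insert [DecidableEq ℂ] (p : ℂ) (T : Finset ℂ) (f : ℂ → ℝ) (hf : 0 ≤ f p := by positivity) :
    ∑ q ∈ insert p T, f q ≤ f p + ∑ q ∈ T, f q := by
  by_cases h : p ∈ T
  · rw [Finset.insert_eq_of_mem h]; linarith
  · rw [Finset.sum_insert h]

theorem gang_sum (h : Glob K u) (hD : ∀ z ∉ K, gradient u z = 0) {x : ℂ} {E : Set ℂ} (hE : E.Finite)
    (hn : ∀ e ∈ E, ‖e‖ = 1) (hK : K = {z | ∃ s : ℝ, 0 ≤ s ∧ ∃ e ∈ E, z = x + s * e}) {v : ℂ} (hv : ‖v‖ = 1) :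
    ∑ e ∈ hE.toFinset.filter (fun e => 0 < (e * conj v).re), (e * conj v).re ≤ 1 := by
  classical
  set F := hE.toFinset.filter (fun e => 0 < (e * conj v).re) with hF
  have hFE : ∀ e ∈ F, e ∈ E ∧ 0 < (e * conj v).re := fun e he => by simpa [hF] using he
  have hd : ∀ e ∈ E, ∀ s : ℝ, dist (x + s * e) (x + v) ^ 2 = s ^ 2 + 1 - 2 * s * (e * conj v).re := by
    intro e he s
    have := gang_sq (hn e he) hv s 1
    rw [Complex.ofReal_one, one_mul] at this
    rw [dist_eq_norm, add_sub_add_left_eq_sub, this]; ring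
  set M := ∑ e ∈ F, 1 / (2 * (e * conj v).re) with hM
  have hM0 : 0 ≤ M := Finset.sum_nonneg fun e he => by have := (hFE e he).2; positivity
  have key : ∀ ε : ℝ, 0 < ε → ε ≤ 1 → ∑ e ∈ F, (e * conj v).re ≤ 1 + ε * M := by
    intro ε h0 h1
    have h2 := gang_key h hD (x := x) (c := x + v) (y := x + ε * v) one_pos (by
        rw [mem_closedBall, dist_eq_norm, add_sub_add_left_eq_sub,
          show (ε : ℂ) * v - v = ((ε - 1 : ℝ) : ℂ) * v by push_cast; ring, norm_mul, hv, mul_one, Complex.norm_real,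
          Real.norm_eq_abs, abs_le]
        constructor <;> linarith)
      F (insert x (F.image fun e => x + ((2 * (e * conj v).re : ℝ) : ℂ) * e)) (fun e => 2 * (e * conj v).re)
      (fun e he => hn e (hFE e he).1) (fun e he => by have := (hFE e he).2; positivity)
      (fun e he s hs => ⟨hK ▸ ⟨s, hs.1.le, e, (hFE e he).1, rfl⟩, by
        rw [mem_ball, ← sq_lt_one_iff₀ dist_nonneg, hd e (hFE e he).1]
        nlinarith [hs.1, hs.2]⟩)
      (by
        rintro z ⟨hz, hz'⟩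
        rw [hK] at hz
        obtain ⟨s, hs, e, he, rfl⟩ := hz
        have h3 := hd e he s
        rw [mem_sphere.1 hz'] at h3
        rcases hs.eq_or_lt with rfl | hs
        · simp
        · have h4 : s = 2 * (e * conj v).re := by
            have : s * (s - 2 * (e * conj v).re) = 0 := by linarith
            linarith [(mul_eq_zero.1 this).resolve_left hs.ne']
          refine Finset.mem_coe.2 (Finset.mem_insert_of_mem (Finset.mem_image.2 ⟨e, ?_, by rw [← h4]⟩))
          rw [hF, Finset.mem_filter, hE.mem_toFinset]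
          exact ⟨he, by linarith⟩)
    have h3 : ∑ p ∈ insert x (F.image fun e => x + ((2 * (e * conj v).re : ℝ) : ℂ) * e), ‖p - (x + ε * v)‖ ≤
        ε + ∑ e ∈ F, (2 * (e * conj v).re - ε * (e * conj v).re + ε ^ 2 * (1 / (2 * (e * conj v).re))) := by
      refine (gang_insert _ _ fun p => ‖p - (x + ε * v)‖).trans (add_le_add ?_ ?_)
      · rw [sub_add_cancel_left, norm_neg, norm_mul, hv, mul_one, Complex.norm_real, Real.norm_of_nonneg h0.le]
      · refine (Finset.sum_image_le_of_nonneg fun _ _ => norm_nonneg _).trans (Finset.sum_le_sum fun e he => ?_)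
        obtain ⟨he1, he2⟩ := hFE e he
        rw [add_sub_add_left_eq_sub]
        set c := (e * conj v).re with hc
        have h5 : 0 ≤ 2 * c - ε * c - c := by nlinarith
        have h6 : 0 ≤ ε ^ 2 * (1 / (2 * c)) := by positivity
        have h7 : 2 * c * (ε ^ 2 * (1 / (2 * c))) = ε ^ 2 := by field_simp
        refine le_of_sq_le_sq ?_ (by linarith)
        rw [gang_sq (hn e he1) hv, ← hc]
        nlinarith [mul_nonneg h5 h6, sq_nonneg (ε * c), sq_nonneg (ε ^ 2 * (1 / (2 * c)))]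
    rw [Finset.sum_add_distrib, Finset.sum_sub_distrib, ← Finset.mul_sum, ← Finset.mul_sum, ← Finset.mul_sum,
      ← hM] at h3
    rw [← Finset.mul_sum] at h2
    refine le_of_mul_le_mul_left ?_ h0
    nlinarith
  refine le_of_forall_pos_le_add fun η hη => ?_
  refine (key (min 1 (η / (M + 1))) (by positivity) (min_le_left _ _)).trans ?_
  have h1 : min 1 (η / (M + 1)) * M ≤ η / (M + 1) * (M + 1) :=
    mul_le_mul (min_le_right _ _) (by linarith) hM0 (by positivity)
  rw [div_mul_cancel₀ _ (by positivity)] at h1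
  linarith

theorem gang_re (h : Glob K u) (hD : ∀ z ∉ K, gradient u z = 0) {x : ℂ} {E : Set ℂ} (hE : E.Finite)
    (hn : ∀ e ∈ E, ‖e‖ = 1) (hK : K = {z | ∃ s : ℝ, 0 ≤ s ∧ ∃ e ∈ E, z = x + s * e}) {e e' : ℂ} (he : e ∈ E)
    (he' : e' ∈ E) (hne : e ≠ e') : (e * conj e').re ≤ -1 / 2 := by
  classical
  have h1 := gang_sq (hn e he) (hn e' he') 1 (-1)
  rw [show ((1 : ℝ) : ℂ) * e - ((-1 : ℝ) : ℂ) * e' = e + e' by push_cast; ring] at h1
  suffices ‖e + e'‖ ≤ 1 by nlinarith [norm_nonneg (e + e')]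
  rcases (norm_nonneg (e + e')).eq_or_lt with h0 | h0
  · linarith
  set N := ‖e + e'‖ with hN
  have hv : ‖((N⁻¹ : ℝ) : ℂ) * (e + e')‖ = 1 := by
    rw [norm_mul, Complex.norm_real, Real.norm_of_nonneg (inv_pos.2 h0).le, inv_mul_cancel₀ h0.ne']
  have h2 := gang_sum h hD hE hn hK hv
  have a1 : (e * conj e).re = 1 := by rw [Complex.mul_conj', hn e he]; norm_num
  have a2 : (e' * conj e').re = 1 := by rw [Complex.mul_conj', hn e' he']; norm_num
  have a3 : (e' * conj e).re = (e * conj e').re := by simp [mul_comm]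
  have hc : ∀ w : ℂ, (w * conj (((N⁻¹ : ℝ) : ℂ) * (e + e'))).re = N⁻¹ * ((w * conj e).re + (w * conj e').re) := by
    intro w
    rw [map_mul, Complex.conj_ofReal, map_add, mul_left_comm, Complex.re_ofReal_mul, mul_add, Complex.add_re]
  have c1 : (e * conj (((N⁻¹ : ℝ) : ℂ) * (e + e'))).re = N / 2 := by
    rw [hc, a1]; field_simp; linarith
  have c2 : (e' * conj (((N⁻¹ : ℝ) : ℂ) * (e + e'))).re = N / 2 := by
    rw [hc, a2, a3]; field_simp; linarith
  refine le_trans ?_ ((Finset.sum_le_sum_of_subset_of_nonneg (s := {e, e'}) ?_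
    fun w hw _ => (Finset.mem_filter.1 hw).2.le).trans h2)
  · rw [Finset.sum_pair hne, c1, c2]; linarith
  · intro w hw
    rw [Finset.mem_filter, hE.mem_toFinset]
    rcases Finset.mem_insert.1 hw with rfl | hw
    · exact ⟨he, by rw [c1]; positivity⟩
    · rw [Finset.mem_singleton.1 hw]
      exact ⟨he', by rw [c2]; positivity⟩

theorem gang_unit {e : ℂ} (he : ‖e‖ = 1) : e.re ^ 2 + e.im ^ 2 = 1 := by
  have := Complex.normSq_eq_norm_sq e
  rw [he, Complex.normSq_apply] at this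
  linarith

theorem gang_mul (a b : ℂ) : (a * conj b).re = a.re * b.re + a.im * b.im := by simp

/-- For a unit `v`, `cone_ineq` in `ball (x+v) 1` (points `x` and `x + 2c_e e` for `c_e = re (e conj v) > 0`, length `∑ 2 c_e`) with apex `x + εv` gives `∑_{c_e>0} c_e ≤ 1`.
With `v ∥ e + e'`: `‖e + e'‖ ≤ 1`, i.e. `re (e conj e') ≤ -1/2`. `0 ≤ ‖∑ e‖² ≤ n - n(n-1)/2` gives `n ≤ 3` with equality everywhere for `n = 3` (`eq_cube_roots`);
for `n = 2`, `cone_ineq` in `ball x 1` with apex `x + e` gives `2 ≤ ‖e - e'‖`. -/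
theorem Glob.angles (h : Glob K u) (hD : ∀ z ∉ K, gradient u z = 0) {x : ℂ} {E : Set ℂ} (hE : E.Finite)
    (hn : ∀ e ∈ E, ‖e‖ = 1) (h2 : 2 ≤ E.ncard) (hK : K = {z | ∃ s : ℝ, 0 ≤ s ∧ ∃ e ∈ E, z = x + s * e}) :
    (E.ncard = 2 ∧ ∃ e : ℂ, ‖e‖ = 1 ∧ K = Cone 2 x e) ∨ (E.ncard = 3 ∧ ∃ e : ℂ, ‖e‖ = 1 ∧ K = Cone 3 x e) := by
  classical
  have hre := fun e e' => gang_re h hD hE hn hK (e := e) (e' := e')
  rcases h2.eq_or_lt with h2 | h3
  · refine Or.inl ⟨h2.symm, ?_⟩
    obtain ⟨a, b, hab, rfl⟩ := ncard_eq_two.1 h2.symm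
    have ha := hn a (by simp)
    have hb := hn b (by simp)
    have hd : ∀ e ∈ ({a, b} : Set ℂ), ∀ s : ℝ, 0 ≤ s → dist (x + s * e) x = s := fun e he s hs => by
      rw [dist_eq_norm, add_sub_cancel_left, norm_mul, hn e he, mul_one, Complex.norm_real, Real.norm_of_nonneg hs]
    have key := gang_key h hD (x := x) (c := x) (y := x + a) one_pos (by simp [ha]) {a, b} {x + a, x + b}
      (fun _ => 1) (fun e he => hn e (by simpa using he)) (fun _ _ => zero_le_one)
      (fun e he s hs => ⟨hK ▸ ⟨s, hs.1.le, e, by simpa using he, rfl⟩, by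
        rw [mem_ball, hd e (by simpa using he) s hs.1.le]; exact hs.2⟩)
      (by
        rintro z ⟨hz, hz'⟩
        rw [hK] at hz
        obtain ⟨s, hs, e, he, rfl⟩ := hz
        rw [mem_sphere, hd e he s hs] at hz'
        subst hz'
        simpa using he)
    rw [Finset.sum_pair hab, Finset.sum_pair fun h' => hab (add_left_cancel h'), sub_self, norm_zero,
      add_sub_add_left_eq_sub] at key
    have h1 := gang_sq hb ha 1 1
    have h3 := gang_sq hb ha 1 (-1)
    rw [show ((1 : ℝ) : ℂ) * b - ((-1 : ℝ) : ℂ) * a = b + a by push_cast; ring] at h3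
    rw [Complex.ofReal_one, one_mul, one_mul] at h1
    have h4 : ‖b + a‖ ^ 2 = 0 := le_antisymm (by nlinarith) (sq_nonneg _)
    have h5 : b = -a := eq_neg_of_add_eq_zero_left (norm_eq_zero.1 (pow_eq_zero_iff two_ne_zero |>.1 h4))
    refine ⟨a, ha, ?_⟩
    rw [hK]
    ext z
    rw [mem_cone_two]
    constructor
    · rintro ⟨s, -, e, he, rfl⟩
      rcases he with rfl | rfl
      · exact ⟨s, rfl⟩
      · exact ⟨-s, by rw [h5]; push_cast; ring⟩
    · rintro ⟨s, rfl⟩
      rcases le_total 0 s with hs | hs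
      · exact ⟨s, hs, a, by simp, rfl⟩
      · exact ⟨-s, neg_nonneg.2 hs, b, by simp, by rw [h5]; push_cast; ring⟩
  rcases (Nat.succ_le_of_lt h3).eq_or_lt with h3 | h4
  · refine Or.inr ⟨h3.symm, ?_⟩
    have hc : E.encard = 3 := by rw [← hE.cast_ncard_eq, ← h3]; rfl
    obtain ⟨e, he, hEe⟩ := eq_cube_roots hc hn (by
      obtain ⟨a, b, c, hab, hac, hbc, rfl⟩ := ncard_eq_three.1 h3.symm
      have a1 := gang_unit (hn a (by simp))
      have a2 := gang_unit (hn b (by simp))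
      have a3 := gang_unit (hn c (by simp))
      have b1 := hre a b (by simp) (by simp) hab
      have b2 := hre a c (by simp) (by simp) hac
      have b3 := hre b c (by simp) (by simp) hbc
      rw [gang_mul] at b1 b2 b3
      have h5 := add_nonneg (sq_nonneg (a.re + b.re + c.re)) (sq_nonneg (a.im + b.im + c.im))
      intro e he e' he' hne
      rw [gang_mul]
      rcases he with rfl | rfl | rfl <;> rcases he' with rfl | rfl | rfl <;>
        first | exact absurd rfl hne | nlinarith)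
    refine ⟨e, he, ?_⟩
    rw [hK, hEe]
    ext z
    exact ⟨fun ⟨s, hs, _, ⟨ζ, h1, h2⟩, h3⟩ => ⟨s, hs, ζ, h1, by rw [h3, h2, mul_assoc]⟩,
      fun ⟨s, hs, ζ, h1, h2⟩ => ⟨s, hs, e * ζ, ⟨ζ, h1, rfl⟩, by rw [h2, mul_assoc]⟩⟩
  · exfalso
    obtain ⟨a, b, c, d, ha, hb, hc, hd, hab, hac, had, hbc, hbd, hcd⟩ := (three_lt_ncard_iff hE).1 h4
    have a1 := gang_unit (hn a ha)
    have a2 := gang_unit (hn b hb)
    have a3 := gang_unit (hn c hc)
    have a4 := gang_unit (hn d hd)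
    have b1 := hre a b ha hb hab
    have b2 := hre a c ha hc hac
    have b3 := hre a d ha hd had
    have b4 := hre b c hb hc hbc
    have b5 := hre b d hb hd hbd
    have b6 := hre c d hc hd hcd
    rw [gang_mul] at b1 b2 b3 b4 b5 b6
    nlinarith [sq_nonneg (a.re + b.re + c.re + d.re), sq_nonneg (a.im + b.im + c.im + d.im)]

theorem Glob.line_or_prop (h : Glob K u) (hD : ∀ z ∉ K, gradient u z = 0) {x : ℂ} (hx : x ∈ K) {θ : ℝ}
    (hL : ∀ t : ℝ, 0 < t → Lr K x t = θ * t) :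
    (θ = 2 ∧ ∃ e : ℂ, ‖e‖ = 1 ∧ K = Cone 2 x e) ∨ (θ = 3 ∧ ∃ e : ℂ, ‖e‖ = 1 ∧ K = Cone 3 x e) := by
  obtain ⟨E, hE, hn, h2, hθ, hK⟩ := h.rays hD hx hL
  rcases h.angles hD hE hn h2 hK with ⟨h1, h3⟩ | ⟨h1, h3⟩
  · exact Or.inl ⟨by rw [hθ, h1]; norm_num, h3⟩
  · exact Or.inr ⟨by rw [hθ, h1]; norm_num, h3⟩

end Crest.Agent.R135
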