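import Crest.Agent.R135.Defs
import Crest.Agent.R135.TOne
set_option autoImplicit false
open MeasureTheory Metric Set Filter Topology
open scoped ENNReal NNReal Real ComplexConjugate

namespace Crest.Agent.R135

/-- crude Poincaré inequality with two zero boundary values -/
theorem wst_half {W p : ℝ → ℝ} {s t : ℝ} {P : Set ℝ} (hst : s ≤ t) (hL : t - s ≤ 16 / 5) (hP : P.Countable)
    (hW : ContinuousOn W (Icc s t)) (hs : W s = 0) (ht : W t = 0) (hd : ∀ φ ∈ Ioo s t \ P, HasDerivAt W (p φ) φ)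
    (hp : IntervalIntegrable p volume s t) (hp2 : IntervalIntegrable (fun φ => p φ ^ 2) volume s t) :
    ∫ φ in s..t, W φ ^ 2 ≤ 64 / 25 * ∫ φ in s..t, p φ ^ 2 := by
  have step : ∀ a b w : ℝ, s ≤ a → a ≤ b → b ≤ t →
      w * (W b - W a) ≤ (b - a) * (5 / 16 * w ^ 2) + 4 / 5 * ∫ φ in a..b, p φ ^ 2 := fun a b w h1 h2 h3 => by
    have hsub : uIcc a b ⊆ uIcc s t := by
      rw [uIcc_of_le h2, uIcc_of_le hst]
      exact Icc_subset_Icc h1 h3
    have h4 := intervalIntegral.integral_mono_on h2 ((hp.mono_set hsub).const_mul w)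
      ((intervalIntegrable_const (c := 5 / 16 * w ^ 2)).add ((hp2.mono_set hsub).const_mul (4 / 5)))
      fun φ _ => by nlinarith [sq_nonneg (5 * w - 8 * p φ)]
    rwa [intervalIntegral.integral_add intervalIntegrable_const ((hp2.mono_set hsub).const_mul _),
      intervalIntegral.integral_const_mul, intervalIntegral.integral_const, intervalIntegral.integral_const_mul,
      integral_eq_of_hasDerivAt_off_countable_of_le W p h2 hP (hW.mono (Icc_subset_Icc h1 h3))
        (fun φ hφ => hd φ ⟨Ioo_subset_Ioo h1 h3 hφ.1, hφ.2⟩) (hp.mono_set hsub), smul_eq_mul] at h4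
  have h0 : 0 ≤ ∫ φ in s..t, p φ ^ 2 := intervalIntegral.integral_nonneg hst fun _ _ => sq_nonneg _
  refine (intervalIntegral.integral_mono_on hst ((hW.pow 2).intervalIntegrable_of_Icc hst)
    (intervalIntegrable_const (c := 4 / 5 * ∫ φ in s..t, p φ ^ 2)) fun x hx => ?_).trans ?_
  · have h1 := step s x (W x) le_rfl hx.1 hx.2
    have h2 := step x t (-W x) hx.1 hx.2 le_rfl
    have hm : x ∈ uIcc s t := mem_uIcc_of_le hx.1 hx.2
    rw [← intervalIntegral.integral_add_adjacent_intervals (hp2.mono_set (uIcc_subset_uIcc_left hm))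
      (hp2.mono_set (uIcc_subset_uIcc_right hm))]
    rw [hs] at h1
    rw [ht] at h2
    simp only [Pi.pow_apply]
    nlinarith [mul_le_mul_of_nonneg_right hL (sq_nonneg (W x))]
  · rw [intervalIntegral.integral_const, smul_eq_mul]
    nlinarith [mul_le_mul_of_nonneg_right hL h0]

/-- Quantitative Dirichlet–Wirtinger inequality. (Proved differently: `W = V - V 0 cos(φ/2)` vanishes at `-π, 0, π`, the
quadratic form does not see `cos(φ/2)`, and `wst_half` on both halves.) Recipe: `c = cos(φ/2)`, `g = V / c` on `(-π,π)`, `A = V 0`.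
On `[-π+ε, π-ε]`: `q² - V²/4 = c² g'² + (d/dφ)(-(1/2) tan(φ/2) V²)`; the boundary term has the good sign up to
`V(π-ε)² tan ≤ (C/ε) ε ∫_{π-ε}^{π} q² → 0`; hence `∫ c² g'² ≤ ∫ q² - ¼∫V²` (monotone convergence). Hardy:
`∫₀^π (g - g 0)² ≤ 4∫₀^π (π-φ)² g'²` (integrate `(g-g 0)²` by parts against `φ - π` on `[0,π-ε]`, Young) and `c ≥ (π-|φ|)/π`.
Finally `V - A c = c (g - A)`, `q + (A/2) sin(φ/2) = c g' - ½ sin(φ/2)(g - A)`. -/
theorem wirtinger_stab : ∃ C : ℝ, 1 ≤ C ∧ ∀ (V q : ℝ → ℝ) (P : Set ℝ), P.Finite → ContinuousOn V (Icc (-π) π) →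
    V (-π) = 0 → V π = 0 → (∀ φ ∈ Ioo (-π) π \ P, HasDerivAt V (q φ) φ) → Measurable q →
    IntervalIntegrable (fun φ => q φ ^ 2) volume (-π) π →
    ∃ A : ℝ, (∫ φ in (-π)..π, (q φ + A / 2 * Real.sin (φ / 2)) ^ 2) + (∫ φ in (-π)..π, (V φ - A * Real.cos (φ / 2)) ^ 2) ≤
      C * ((∫ φ in (-π)..π, q φ ^ 2) - 1 / 4 * ∫ φ in (-π)..π, V φ ^ 2) := by
  refine ⟨10, by norm_num, fun V q P hP hV h0 h1 hd hq hq2 => ⟨V 0, ?_⟩⟩
  obtain ⟨A, hA⟩ : ∃ A, V 0 = A := ⟨_, rfl⟩
  rw [hA]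
  have hπ := Real.pi_pos
  have hle : -π ≤ π := by linarith
  have hq1 : IntervalIntegrable q volume (-π) π :=
    ((intervalIntegrable_const (c := (1 : ℝ))).add hq2).mono_fun' hq.aestronglyMeasurable
      (Eventually.of_forall fun φ => by
        simp only [Real.norm_eq_abs]
        nlinarith [sq_abs (q φ), sq_nonneg (|q φ| - 1)])
  have hVu : ContinuousOn V (uIcc (-π) π) := by rwa [uIcc_of_le hle]
  have hs : ∀ φ : ℝ, HasDerivAt (fun φ => Real.sin (φ / 2)) (Real.cos (φ / 2) * (1 / 2)) φ := fun φ =>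
    ((hasDerivAt_id φ).div_const 2).sin
  have hc : ∀ φ : ℝ, HasDerivAt (fun φ => Real.cos (φ / 2)) (-Real.sin (φ / 2) * (1 / 2)) φ := fun φ =>
    ((hasDerivAt_id φ).div_const 2).cos
  have c0 : Real.cos (-π / 2) = 0 := by rw [neg_div, Real.cos_neg, Real.cos_pi_div_two]
  have hp1 : IntervalIntegrable (fun φ => q φ + A / 2 * Real.sin (φ / 2)) volume (-π) π :=
    hq1.add (Continuous.intervalIntegrable (by fun_prop) _ _)
  have hp2 : IntervalIntegrable (fun φ => (q φ + A / 2 * Real.sin (φ / 2)) ^ 2) volume (-π) π := by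
    simp only [add_sq]
    exact (hq2.add ((hq1.const_mul 2).mul_continuousOn (by fun_prop))).add
      (Continuous.intervalIntegrable (by fun_prop) _ _)
  have hW : ContinuousOn (fun φ => V φ - A * Real.cos (φ / 2)) (Icc (-π) π) := hV.sub (by fun_prop)
  have hW2 : IntervalIntegrable (fun φ => (V φ - A * Real.cos (φ / 2)) ^ 2) volume (-π) π :=
    (hW.pow 2).intervalIntegrable_of_Icc hle
  have hV2 : IntervalIntegrable (fun φ => V φ ^ 2) volume (-π) π := (hV.pow 2).intervalIntegrable_of_Icc hle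
  have hWd : ∀ φ ∈ Ioo (-π) π \ P, HasDerivAt (fun φ => V φ - A * Real.cos (φ / 2))
      (q φ + A / 2 * Real.sin (φ / 2)) φ := fun φ hφ =>
    ((hd φ hφ).sub ((hc φ).const_mul A)).congr_deriv (by ring)
  have m0 : (0 : ℝ) ∈ uIcc (-π) π := mem_uIcc_of_le (by linarith) hπ.le
  have s1 := uIcc_subset_uIcc_left m0
  have s2 := uIcc_subset_uIcc_right m0
  have w0 : V 0 - A * Real.cos (0 / 2) = 0 := by rw [hA, zero_div, Real.cos_zero, mul_one, sub_self]
  have k1 := wst_half (by linarith) (by linarith [Real.pi_lt_d2]) hP.countable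
    (hW.mono (Icc_subset_Icc_right hπ.le)) (by rw [h0, c0, mul_zero, sub_self]) w0
    (fun φ hφ => hWd φ ⟨⟨hφ.1.1, hφ.1.2.trans hπ⟩, hφ.2⟩) (hp1.mono_set s1) (hp2.mono_set s1)
  have k2 := wst_half hπ.le (by linarith [Real.pi_lt_d2]) hP.countable
    (hW.mono (Icc_subset_Icc_left (by linarith))) w0 (by rw [h1, Real.cos_pi_div_two, mul_zero, sub_self])
    (fun φ hφ => hWd φ ⟨⟨by linarith [hφ.1.1], hφ.1.2⟩, hφ.2⟩) (hp1.mono_set s2) (hp2.mono_set s2)
  have e1 := intervalIntegral.integral_add_adjacent_intervals (hp2.mono_set s1) (hp2.mono_set s2)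
  have e2 := intervalIntegral.integral_add_adjacent_intervals (hW2.mono_set s1) (hW2.mono_set s2)
  have e3 := integral_eq_of_hasDerivAt_off_countable_of_le
    (fun φ => A * (V φ * Real.sin (φ / 2)) - A ^ 2 / 2 * (Real.sin (φ / 2) * Real.cos (φ / 2)))
    (fun φ => ((q φ + A / 2 * Real.sin (φ / 2)) ^ 2 - 1 / 4 * (V φ - A * Real.cos (φ / 2)) ^ 2) -
      (q φ ^ 2 - 1 / 4 * V φ ^ 2)) hle hP.countable
    ((continuousOn_const.mul (hV.mul (by fun_prop))).sub (by fun_prop))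
    (fun φ hφ => ((((hd φ hφ).mul (hs φ)).const_mul A).sub (((hs φ).mul (hc φ)).const_mul _)).congr_deriv (by ring))
    ((hp2.sub (hW2.const_mul _)).sub (hq2.sub (hV2.const_mul _)))
  rw [intervalIntegral.integral_sub (hp2.sub (hW2.const_mul _)) (hq2.sub (hV2.const_mul _)),
    intervalIntegral.integral_sub hp2 (hW2.const_mul _), intervalIntegral.integral_sub hq2 (hV2.const_mul _),
    intervalIntegral.integral_const_mul, intervalIntegral.integral_const_mul, h0, h1, c0, Real.cos_pi_div_two] at e3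
  have e4 : 0 ≤ ∫ φ in (-π)..π, (q φ + A / 2 * Real.sin (φ / 2)) ^ 2 :=
    intervalIntegral.integral_nonneg hle fun _ _ => sq_nonneg _
  linarith

end Crest.Agent.R135
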