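import Crest.Agent.R135.Defs
import Crest.Agent.R135.TLip
import Crest.Agent.R80.CP
set_option autoImplicit false
open MeasureTheory Metric Set Filter Topology
open scoped ENNReal NNReal Real ComplexConjugate

namespace Crest.Agent.R135

/-! Newtonian potential of a smooth compactly supported function. `Γ = log‖·‖/(2π)` is locally integrable, so
`NP f = f ⋆ Γ` is smooth with derivatives falling on `f` (`HasCompactSupport.contDiff_convolution_left`,
`hasFDerivAt_convolution_left`). `∇Γ w = (2π conj w)⁻¹`; the gradient formula is an integration by parts away from a small disc (or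
replace `Γ` by the `C¹` function `log(‖w‖²+ε)/(4π)` and let `ε → 0`). `Δ NP f = f` then follows from `Crest.Agent.R80.cauchy_pompeiu`
(R80/CP.lean): `conj (gradient (NP f) z) = (2π)⁻¹ ∫ f (z - w) / w`, and `(∂₁ + i∂₂)` of it is `Δ` (real part). -/

theorem NPa_abs_log {x : ℝ} (hx : 0 ≤ x) : |Real.log x| ≤ x + x⁻¹ := by
  rcases hx.eq_or_lt with rfl | hx
  · simp
  · have h1 := Real.log_le_sub_one_of_pos hx
    have h2 := Real.log_le_sub_one_of_pos (inv_pos.2 hx)
    have h3 := inv_pos.2 hx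
    rw [Real.log_inv] at h2
    rw [abs_le]
    constructor <;> linarith

theorem NPa_loc : LocallyIntegrable (fun w : ℂ => Real.log ‖w‖ / (2 * π)) := by
  have h1 : LocallyIntegrable (fun w : ℂ => ‖w‖⁻¹) :=
    locallyIntegrable_of_norm_le_rpow (C := 1) (α := 1) (by simp) (by simp)
      (Eventually.of_forall fun w => by simp [Real.rpow_neg_one])
      measurable_norm.inv.aestronglyMeasurable
  refine (continuous_norm.locallyIntegrable.add h1).mono
    ((Real.measurable_log.comp measurable_norm).div_const _).aestronglyMeasurable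
    (Eventually.of_forall fun w => ?_)
  have hπ : 1 ≤ 2 * π := by linarith [Real.pi_gt_three]
  rw [Real.norm_eq_abs, abs_div, abs_of_nonneg (by linarith : 0 ≤ 2 * π), Pi.add_apply,
    Real.norm_of_nonneg (by positivity)]
  exact (div_le_self (abs_nonneg _) hπ).trans (NPa_abs_log (norm_nonneg w))

theorem NPa_conv (f : ℂ → ℝ) :
    NP f = convolution (fun w : ℂ => Real.log ‖w‖ / (2 * π)) f (ContinuousLinearMap.mul ℝ ℝ) volume := by
  funext z
  simp only [NP, convolution_def, ContinuousLinearMap.mul_apply', mul_comm]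

theorem NP_contDiff {f : ℂ → ℝ} (hf : ContDiff ℝ (⊤ : ℕ∞) f) (hc : HasCompactSupport f) :
    ContDiff ℝ (⊤ : ℕ∞) (NP f) := by
  rw [NPa_conv]
  exact hc.contDiff_convolution_right _ NPa_loc hf

theorem NP_fderiv {f : ℂ → ℝ} (hf : ContDiff ℝ (⊤ : ℕ∞) f) (hc : HasCompactSupport f) (z d : ℂ) :
    fderiv ℝ (NP f) z d = NP (fun w => fderiv ℝ f w d) z := by
  have h1 : ContDiff ℝ 1 f := hf.of_le (by exact_mod_cast le_top)
  rw [NPa_conv, NPa_conv, (hc.hasFDerivAt_convolution_right _ NPa_loc h1 z).fderiv,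
    convolution_precompR_apply _ NPa_loc (hc.fderiv ℝ) (h1.continuous_fderiv one_ne_zero)]

theorem npb_inv : LocallyIntegrable (fun w : ℂ => w⁻¹) :=
  locallyIntegrable_of_norm_le_rpow (C := 1) (α := 1) (by simp) (by simp)
    (Eventually.of_forall fun w => by simp [Real.rpow_neg_one]) measurable_inv.aestronglyMeasurable

theorem npb_int {g : ℂ → ℝ} (hg : Continuous g) (hc : HasCompactSupport g) :
    Integrable fun w : ℂ => (g w : ℂ) * w⁻¹ :=
  npb_inv.integrable_smul_left_of_hasCompactSupport hg hc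

theorem npb_reg {g : ℂ → ℝ} (hg : ContDiff ℝ 1 g) (hc : HasCompactSupport g) (d : ℂ) {ε : ℝ} (hε : 0 < ε) :
    ∫ w, fderiv ℝ g w d * (Real.log (‖w‖ ^ 2 + ε) / 2) =
      -∫ w, g w * ((d * conj w).re / (‖w‖ ^ 2 + ε)) := by
  have hp : ∀ w : ℂ, ‖w‖ ^ 2 + ε ≠ 0 := fun w => by positivity
  have hd : ∀ w : ℂ, HasFDerivAt (fun w : ℂ => Real.log (‖w‖ ^ 2 + ε) / 2)
      ((‖w‖ ^ 2 + ε)⁻¹ • innerSL ℝ w) w := fun w => by
    have h := (((hasStrictFDerivAt_norm_sq w).hasFDerivAt.add_const ε).log (hp w)).const_mul (1 / 2 : ℝ)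
    refine (h.congr_fderiv ?_).congr_of_eventuallyEq (Eventually.of_forall fun y => by simp only; ring)
    ext v
    simp
    ring
  have e : ∀ w : ℂ, fderiv ℝ (fun w : ℂ => Real.log (‖w‖ ^ 2 + ε) / 2) w d =
      (d * conj w).re / (‖w‖ ^ 2 + ε) := fun w => by
    rw [(hd w).fderiv, smul_apply, innerSL_apply_apply, Complex.inner, smul_eq_mul,
      div_eq_inv_mul]
  have c1 : Continuous fun w : ℂ => Real.log (‖w‖ ^ 2 + ε) / 2 :=
    (Continuous.log (by fun_prop) hp).div_const 2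
  have c2 : Continuous fun w : ℂ => (d * conj w).re / (‖w‖ ^ 2 + ε) :=
    Continuous.div (by fun_prop) (by fun_prop) hp
  have c3 : Continuous fun w => fderiv ℝ g w d := (hg.continuous_fderiv one_ne_zero).clm_apply continuous_const
  have h := integral_mul_fderiv_eq_neg_fderiv_mul_of_integrable (μ := (volume : Measure ℂ)) (f := g)
    (g := fun w : ℂ => Real.log (‖w‖ ^ 2 + ε) / 2) (v := d)
    ((c3.mul c1).integrable_of_hasCompactSupport (hc.fderiv_apply ℝ d).mul_right)
    (by simp only [e]; exact (hg.continuous.mul c2).integrable_of_hasCompactSupport hc.mul_right)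
    ((hg.continuous.mul c1).integrable_of_hasCompactSupport hc.mul_right)
    (fun w _ => hg.differentiable one_ne_zero w) (fun w _ => (hd w).differentiableAt)
  simp only [e] at h
  rw [h, neg_neg]

theorem npb_ibp {g : ℂ → ℝ} (hg : ContDiff ℝ 1 g) (hc : HasCompactSupport g) (d : ℂ) :
    ∫ w, fderiv ℝ g w d * Real.log ‖w‖ = -∫ w, g w * (d * w⁻¹).re := by
  have c3 : Continuous fun w => fderiv ℝ g w d := (hg.continuous_fderiv one_ne_zero).clm_apply continuous_const
  have hne : ∀ᵐ w : ℂ, w ≠ 0 := by simp [ae_iff, measure_singleton]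
  have hε : ∀ n : ℕ, (0 : ℝ) < 1 / ((n : ℝ) + 1) := fun n => by positivity
  have hε1 : ∀ n : ℕ, 1 / ((n : ℝ) + 1) ≤ 1 := fun n => by
    rw [div_le_one (by positivity)]; linarith [(Nat.cast_nonneg n : (0 : ℝ) ≤ n)]
  have hlim : ∀ w : ℂ, Tendsto (fun n : ℕ => ‖w‖ ^ 2 + 1 / ((n : ℝ) + 1)) atTop (𝓝 (‖w‖ ^ 2)) := fun w => by
    simpa using (tendsto_one_div_add_atTop_nhds_zero_nat (𝕜 := ℝ)).const_add (‖w‖ ^ 2)
  have l1 : LocallyIntegrable (fun w : ℂ => ‖w⁻¹‖) := fun x => (npb_inv x).norm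
  have l2 : LocallyIntegrable (fun w : ℂ => ‖w⁻¹‖ + (‖w‖ ^ 2 + 1)) :=
    l1.add (Continuous.locallyIntegrable (by fun_prop))
  have t1 : Tendsto (fun n : ℕ => ∫ w, fderiv ℝ g w d * (Real.log (‖w‖ ^ 2 + 1 / ((n : ℝ) + 1)) / 2)) atTop
      (𝓝 (∫ w, fderiv ℝ g w d * Real.log ‖w‖)) := by
    refine tendsto_integral_of_dominated_convergence
      (fun w => ‖fderiv ℝ g w d‖ • (‖w⁻¹‖ + (‖w‖ ^ 2 + 1))) (fun n => ?_)
      (l2.integrable_smul_left_of_hasCompactSupport c3.norm (hc.fderiv_apply ℝ d).norm) (fun n => ?_) ?_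
    · exact (c3.measurable.mul (by fun_prop)).aestronglyMeasurable
    · filter_upwards [hne] with w hw
      rw [norm_mul, smul_eq_mul]
      refine mul_le_mul_of_nonneg_left ?_ (norm_nonneg _)
      have h0 : 0 < ‖w‖ := norm_pos_iff.2 hw
      have h1 := Real.log_le_sub_one_of_pos (show 0 < ‖w‖ ^ 2 + 1 / ((n : ℝ) + 1) by positivity)
      have h2 : Real.log (‖w‖ ^ 2) ≤ Real.log (‖w‖ ^ 2 + 1 / ((n : ℝ) + 1)) :=
        Real.log_le_log (by positivity) (by linarith [hε n])
      have h3 := Real.one_sub_inv_le_log_of_pos h0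
      rw [Real.log_pow] at h2
      push_cast at h2
      have h4 : 0 < ‖w‖⁻¹ := by positivity
      rw [norm_inv, Real.norm_eq_abs, abs_le]
      constructor <;> nlinarith [hε1 n, sq_nonneg ‖w‖]
    · filter_upwards [hne] with w hw
      have h := ((hlim w).log (pow_ne_zero 2 (norm_ne_zero_iff.2 hw))).div_const 2
      rw [Real.log_pow, Nat.cast_ofNat, mul_div_cancel_left₀ _ two_ne_zero] at h
      exact h.const_mul _
  have t2 : Tendsto (fun n : ℕ => ∫ w, g w * ((d * conj w).re / (‖w‖ ^ 2 + 1 / ((n : ℝ) + 1)))) atTop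
      (𝓝 (∫ w, g w * (d * w⁻¹).re)) := by
    refine tendsto_integral_of_dominated_convergence (fun w => ‖d‖ * (‖g w‖ • ‖w⁻¹‖)) (fun n => ?_)
      ((l1.integrable_smul_left_of_hasCompactSupport hg.continuous.norm hc.norm).const_mul _) (fun n => ?_) ?_
    · exact (hg.continuous.measurable.mul (by fun_prop)).aestronglyMeasurable
    · filter_upwards [hne] with w hw
      have h0 : 0 < ‖w‖ := norm_pos_iff.2 hw
      rw [norm_mul, smul_eq_mul, mul_left_comm]
      refine mul_le_mul_of_nonneg_left ?_ (norm_nonneg _)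
      have h1 := Complex.abs_re_le_norm (d * conj w)
      rw [norm_mul, Complex.norm_conj] at h1
      rw [norm_div, Real.norm_eq_abs, Real.norm_eq_abs,
        abs_of_pos (show 0 < ‖w‖ ^ 2 + 1 / ((n : ℝ) + 1) by positivity), norm_inv]
      calc |(d * conj w).re| / (‖w‖ ^ 2 + 1 / ((n : ℝ) + 1)) ≤ ‖d‖ * ‖w‖ / ‖w‖ ^ 2 := by
            gcongr
            linarith [hε n]
        _ = ‖d‖ * ‖w‖⁻¹ := by field_simp
    · filter_upwards [hne] with w hw
      have h := (tendsto_const_nhds (x := (d * conj w).re)).div (hlim w) (pow_ne_zero 2 (norm_ne_zero_iff.2 hw))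
      have e : (d * w⁻¹).re = (d * conj w).re / ‖w‖ ^ 2 := by
        rw [Complex.inv_def, ← mul_assoc, Complex.re_mul_ofReal, Complex.normSq_eq_norm_sq, div_eq_mul_inv]
      rw [e]
      exact h.const_mul _
  simp only [npb_reg hg hc d (hε _)] at t1
  exact tendsto_nhds_unique t1 t2.neg

theorem npb_sub {f : ℂ → ℝ} (hf : ContDiff ℝ (⊤ : ℕ∞) f) (hc : HasCompactSupport f) (z : ℂ) :
    ContDiff ℝ 1 (fun w => f (z - w)) ∧ HasCompactSupport (fun w => f (z - w)) ∧
      ∀ w, HasFDerivAt (fun w => f (z - w)) (-fderiv ℝ f (z - w)) w := by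
  have h1 : ContDiff ℝ 1 f := hf.of_le (by simp)
  refine ⟨h1.comp (contDiff_const.sub contDiff_id), hc.comp_homeomorph (Homeomorph.subLeft z), fun w => ?_⟩
  have h := (h1.differentiable one_ne_zero (z - w)).hasFDerivAt.comp w ((hasFDerivAt_id w).const_sub z)
  refine h.congr_fderiv ?_
  ext v
  simp

theorem npb_fderiv {f : ℂ → ℝ} (hf : ContDiff ℝ (⊤ : ℕ∞) f) (hc : HasCompactSupport f) (z d : ℂ) :
    fderiv ℝ (NP f) z d = (2 * π)⁻¹ * (d * ∫ w, (f (z - w) : ℂ) * w⁻¹).re := by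
  obtain ⟨h1, h2, h3⟩ := npb_sub hf hc z
  have h := npb_ibp h1 h2 d
  simp only [(h3 _).fderiv, neg_apply, neg_mul, integral_neg, neg_inj] at h
  have hi := (npb_int h1.continuous h2).const_mul d
  rw [NP_fderiv hf hc, NP, ← integral_const_mul, ← RCLike.re_to_complex, ← integral_re hi]
  simp only [← mul_div_assoc, integral_div, h, RCLike.re_to_complex]
  rw [div_eq_inv_mul]
  congr 1
  refine integral_congr_ae (Eventually.of_forall fun w => ?_)
  simp only
  rw [mul_left_comm, Complex.re_ofReal_mul]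

theorem NP_gradient {f : ℂ → ℝ} (hf : ContDiff ℝ (⊤ : ℕ∞) f) (hc : HasCompactSupport f) (z : ℂ) :
    gradient (NP f) z = (2 * π : ℂ)⁻¹ * ∫ w, (f w : ℂ) * (conj (z - w))⁻¹ := by
  have e : ∫ w, (f w : ℂ) * (conj (z - w))⁻¹ = conj (∫ w, (f (z - w) : ℂ) * w⁻¹) := by
    rw [← integral_conj, ← integral_sub_left_eq_self _ volume z]
    simp
  refine ext_inner_right ℝ fun d => ?_
  rw [inner_gradient, npb_fderiv hf hc, e, Complex.inner, map_mul, Complex.conj_conj, mul_left_comm,
    show conj (2 * π : ℂ)⁻¹ = (((2 * π)⁻¹ : ℝ) : ℂ) by simp [Complex.conj_ofReal, map_ofNat], Complex.re_ofReal_mul]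

theorem NP_lap {f : ℂ → ℝ} (hf : ContDiff ℝ (⊤ : ℕ∞) f) (hc : HasCompactSupport f) (z : ℂ) :
    lap (NP f) z = f z := by
  have hd : ∀ d : ℂ, ContDiff ℝ (⊤ : ℕ∞) fun w => fderiv ℝ f w d := fun d =>
    (hf.fderiv_right (m := (⊤ : ℕ∞)) (by simp)).clm_apply contDiff_const
  have e : ∀ d : ℂ, (fun y => fderiv ℝ (NP f) y d) = NP fun w => fderiv ℝ f w d := fun d =>
    funext fun y => NP_fderiv hf hc y d
  obtain ⟨h1, h2, h3⟩ := npb_sub hf hc z
  have hi : ∀ d : ℂ, Integrable fun w : ℂ => (fderiv ℝ f (z - w) d : ℂ) * w⁻¹ := fun d => by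
    obtain ⟨a1, a2, -⟩ := npb_sub (hd d) (hc.fderiv_apply ℝ d) z
    exact npb_int a1.continuous a2
  have cp := R80.cauchy_pompeiu (Φ := fun w => (f (z - w) : ℂ)) (Complex.ofRealCLM.contDiff.comp h1)
    (h2.comp_left (g := fun x : ℝ => (x : ℂ)) Complex.ofReal_zero)
  have e2 : ∀ t d : ℂ, fderiv ℝ (fun w => (f (z - w) : ℂ)) t d = -(fderiv ℝ f (z - t) d : ℂ) := fun t d => by
    rw [show fderiv ℝ (fun w => (f (z - w) : ℂ)) t = _ from
      (Complex.ofRealCLM.hasFDerivAt.comp t (h3 t)).fderiv]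
    simp
  have e3 : ∫ t, (fderiv ℝ (fun w => (f (z - w) : ℂ)) t 1 +
      Complex.I * fderiv ℝ (fun w => (f (z - w) : ℂ)) t Complex.I) / t =
      -((1 * ∫ w, (fderiv ℝ f (z - w) 1 : ℂ) * w⁻¹) + Complex.I * ∫ w, (fderiv ℝ f (z - w) Complex.I : ℂ) * w⁻¹) := by
    rw [one_mul, ← integral_const_mul, ← integral_add (hi 1) ((hi Complex.I).const_mul _), ← integral_neg]
    refine integral_congr_ae (Eventually.of_forall fun t => ?_)
    simp only [e2]
    ring
  rw [e3, neg_mul, neg_inj, sub_zero] at cp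
  rw [lap, e, e, npb_fderiv (hd 1) (hc.fderiv_apply ℝ 1), npb_fderiv (hd Complex.I) (hc.fderiv_apply ℝ Complex.I),
    ← mul_add, ← Complex.add_re, cp]
  have := Real.pi_pos
  simp
  field_simp

theorem NPa_mean {E : Type} [NormedAddCommGroup E] [NormedSpace ℝ E] [CompleteSpace E] {f : ℂ → ℝ}
    (hf : Integrable f) (h0 : ∫ z, f z = 0) {K : ℂ → E} (hK : AEStronglyMeasurable K) (c : E) {B : ℝ}
    (h : ∀ w, f w ≠ 0 → ‖K w - c‖ ≤ B) : ‖∫ w, f w • K w‖ ≤ B * ∫ w, |f w| := by
  have hb : ∀ w, ‖f w • (K w - c)‖ ≤ B * |f w| := fun w => by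
    by_cases hw : f w = 0
    · simp [hw]
    · rw [norm_smul, Real.norm_eq_abs, mul_comm]
      exact mul_le_mul_of_nonneg_right (h w hw) (abs_nonneg _)
  have hi : Integrable fun w => f w • (K w - c) :=
    (hf.abs.const_mul B).mono' (hf.1.smul (hK.sub aestronglyMeasurable_const)) (Eventually.of_forall hb)
  have e : (fun w => f w • K w) = fun w => f w • (K w - c) + f w • c := by
    funext w
    rw [← smul_add, sub_add_cancel]
  rw [e, integral_add hi (hf.smul_const c), integral_smul_const, h0, zero_smul, add_zero, ← integral_const_mul]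
  exact norm_integral_le_of_norm_le (hf.abs.const_mul B) (Eventually.of_forall hb)

theorem NPa_log {a b m : ℝ} (hm : 0 < m) (ha : m ≤ a) (hb : m ≤ b) :
    Real.log a - Real.log b ≤ |a - b| / m := by
  have ha' : 0 < a := hm.trans_le ha
  have hb' : 0 < b := hm.trans_le hb
  rw [← Real.log_div ha'.ne' hb'.ne']
  refine (Real.log_le_sub_one_of_pos (div_pos ha' hb')).trans ?_
  rw [div_sub_one hb'.ne']
  exact (div_le_div_of_nonneg_right (le_abs_self _) hb'.le).trans
    (div_le_div_of_nonneg_left (abs_nonneg _) hm hb)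

/-- decay when the total mass vanishes: subtract `Γ z ∫ f = 0` -/
theorem NP_decay {f : ℂ → ℝ} (hf : ContDiff ℝ (⊤ : ℕ∞) f) (hc : HasCompactSupport f) (h0 : ∫ z, f z = 0) :
    ∃ A R : ℝ, 0 < R ∧ ∀ z : ℂ, R ≤ ‖z‖ → |NP f z| ≤ A / ‖z‖ ∧ ‖gradient (NP f) z‖ ≤ A / ‖z‖ ^ 2 := by
  obtain ⟨r, hr, hs⟩ := hc.isCompact.isBounded.exists_pos_norm_le
  have hs' : ∀ w, f w ≠ 0 → ‖w‖ ≤ r := fun w hw => hs w (subset_tsupport f hw)
  have hi : Integrable f := hf.continuous.integrable_of_hasCompactSupport hc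
  have hπ : 1 ≤ 2 * π := by linarith [Real.pi_gt_three]
  have hI : 0 ≤ ∫ w, |f w| := integral_nonneg fun w => abs_nonneg _
  refine ⟨2 * r * ∫ w, |f w|, 2 * r, by positivity, fun z hz => ?_⟩
  have hz0 : 0 < ‖z‖ := lt_of_lt_of_le (by positivity) hz
  have hl : ∀ w, f w ≠ 0 → ‖z‖ / 2 ≤ ‖z - w‖ := fun w hw => by
    have := norm_sub_norm_le z w
    have := hs' w hw
    linarith
  constructor
  · have e : NP f z = ∫ w, f w • (Real.log ‖z - w‖ / (2 * π)) := by
      rw [NP, ← integral_sub_left_eq_self _ volume z]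
      simp only [sub_sub_cancel, smul_eq_mul]
    have := NPa_mean hi h0 (K := fun w => Real.log ‖z - w‖ / (2 * π))
      ((Real.measurable_log.comp (measurable_const.sub measurable_id).norm).div_const _).aestronglyMeasurable
      (Real.log ‖z‖ / (2 * π)) (B := 2 * r / ‖z‖) fun w hw => by
        have h1 := NPa_log (half_pos hz0) (hl w hw) (half_le_self hz0.le)
        have h2 := NPa_log (half_pos hz0) (half_le_self hz0.le) (hl w hw)
        have h3 : |‖z - w‖ - ‖z‖| ≤ r := by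
          refine (abs_norm_sub_norm_le _ _).trans ?_
          rw [sub_sub_cancel_left, norm_neg]
          exact hs' w hw
        have h4 : |‖z - w‖ - ‖z‖| / (‖z‖ / 2) ≤ 2 * r / ‖z‖ := by
          refine (div_le_div_of_nonneg_right h3 (half_pos hz0).le).trans (le_of_eq ?_)
          field_simp
        rw [abs_sub_comm] at h2
        rw [← sub_div, Real.norm_eq_abs, abs_div, abs_of_nonneg (by linarith : 0 ≤ 2 * π)]
        refine (div_le_self (abs_nonneg _) hπ).trans (abs_le.2 ⟨?_, ?_⟩) <;> linarith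
    rw [e, ← Real.norm_eq_abs]
    refine this.trans (le_of_eq ?_)
    ring
  · have := NPa_mean hi h0 (K := fun w => (conj (z - w))⁻¹)
      (Complex.continuous_conj.measurable.comp (measurable_const.sub measurable_id)).inv.aestronglyMeasurable
      (conj z)⁻¹ (B := 2 * r / ‖z‖ ^ 2) fun w hw => by
        have h1 : 0 < ‖z - w‖ := (half_pos hz0).trans_le (hl w hw)
        rw [← map_inv₀, ← map_inv₀, ← map_sub, Complex.norm_conj,
          inv_sub_inv (norm_pos_iff.1 h1) (norm_pos_iff.1 hz0), sub_sub_cancel, norm_div, norm_mul]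
        refine (div_le_div₀ hr.le (hs' w hw) (mul_pos (half_pos hz0) hz0)
          (mul_le_mul_of_nonneg_right (hl w hw) hz0.le)).trans (le_of_eq ?_)
        field_simp
    simp only [Complex.real_smul] at this
    rw [NP_gradient hf hc, norm_mul]
    have h2 : ‖(2 * π : ℂ)⁻¹‖ ≤ 1 := by
      rw [norm_inv, norm_mul, Complex.norm_real, Real.norm_of_nonneg Real.pi_pos.le, Complex.norm_ofNat]
      exact inv_le_one_of_one_le₀ hπ
    refine (mul_le_of_le_one_left (norm_nonneg _) h2).trans (this.trans (le_of_eq ?_))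
    ring

end Crest.Agent.R135
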