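import Crest.Agent.R135.Defs
set_option autoImplicit false
open MeasureTheory Metric Set Filter Topology
open scoped ENNReal NNReal Real ComplexConjugate

namespace Crest.Agent.R135

/-! Dyadic kernel estimates for `VKer` (helper87, prefix `vk_`). -/

variable {F : ℂ → ℂ}

theorem vk_mass (hm : Measurable F) {p : ℂ} {s A : ℝ} (hs : 0 < s)
    (h : ∫⁻ z in ball p (s ^ 2), ‖F z‖ₑ ^ 2 ≤ ENNReal.ofReal (A * s ^ 2)) :
    ∫⁻ z in ball p (s ^ 2), ‖F z‖ₑ ≤ ENNReal.ofReal ((|A| + π) * s ^ 3) := by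
  have hπ := Real.pi_pos
  calc ∫⁻ z in ball p (s ^ 2), ‖F z‖ₑ
      ≤ ∫⁻ z in ball p (s ^ 2), (ENNReal.ofReal s * ‖F z‖ₑ ^ 2 + ENNReal.ofReal s⁻¹) := by
        refine lintegral_mono fun z => ?_
        rw [← ofReal_norm, ← ENNReal.ofReal_pow (norm_nonneg _), ← ENNReal.ofReal_mul hs.le,
          ← ENNReal.ofReal_add (by positivity) (by positivity)]
        refine ENNReal.ofReal_le_ofReal ?_
        have h1 : s * ‖F z‖ ^ 2 + s⁻¹ - 2 * ‖F z‖ = s⁻¹ * (s * ‖F z‖ - 1) ^ 2 := by field_simp; ring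
        have h2 : 0 ≤ s⁻¹ * (s * ‖F z‖ - 1) ^ 2 := by positivity
        linarith [norm_nonneg (F z)]
    _ = ENNReal.ofReal s * (∫⁻ z in ball p (s ^ 2), ‖F z‖ₑ ^ 2) +
          ENNReal.ofReal s⁻¹ * volume (ball p (s ^ 2)) := by
        rw [lintegral_add_right _ measurable_const, lintegral_const_mul _ (hm.enorm.pow_const 2),
          setLIntegral_const]
    _ ≤ ENNReal.ofReal s * ENNReal.ofReal (|A| * s ^ 2) +
          ENNReal.ofReal s⁻¹ * ENNReal.ofReal ((s ^ 2) ^ 2 * π) := by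
        refine add_le_add (mul_le_mul_right (h.trans (ENNReal.ofReal_le_ofReal ?_)) _) (le_of_eq ?_)
        · gcongr
          exact le_abs_self A
        · rw [Complex.volume_ball, ENNReal.ofReal_mul (by positivity),
            ENNReal.ofReal_pow (p := s ^ 2) (by positivity) 2, ← NNReal.coe_real_pi,
            ENNReal.ofReal_coe_nnreal]
    _ = ENNReal.ofReal ((|A| + π) * s ^ 3) := by
        rw [← ENNReal.ofReal_mul hs.le, ← ENNReal.ofReal_mul (by positivity),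
          ← ENNReal.ofReal_add (by positivity) (by positivity)]
        congr 1
        field_simp

theorem vk_piece {p : ℂ} {R r M : ℝ} {g : ℂ → ℝ} {c : ℝ} (hc : 0 ≤ c)
    (h : ∫⁻ z in ball p R, ‖F z‖ₑ ≤ ENNReal.ofReal M) (hg : ∀ z, r ≤ ‖z - p‖ → g z ≤ c * ‖F z‖) :
    ∫⁻ z in ball p R \ ball p r, ENNReal.ofReal (g z) ≤ ENNReal.ofReal (c * M) := by
  calc ∫⁻ z in ball p R \ ball p r, ENNReal.ofReal (g z)
      ≤ ∫⁻ z in ball p R \ ball p r, ENNReal.ofReal c * ‖F z‖ₑ := by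
        refine setLIntegral_mono' (measurableSet_ball.diff measurableSet_ball) fun z hz => ?_
        rw [← ofReal_norm, ← ENNReal.ofReal_mul hc]
        exact ENNReal.ofReal_le_ofReal (hg z (not_lt.1 fun h' => hz.2 (mem_ball_iff_norm.2 h')))
    _ ≤ ∫⁻ z in ball p R, ENNReal.ofReal c * ‖F z‖ₑ := lintegral_mono_set sdiff_subset
    _ ≤ ENNReal.ofReal (c * M) := by
        rw [lintegral_const_mul' _ _ ENNReal.ofReal_ne_top, ENNReal.ofReal_mul hc]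
        exact mul_le_mul_right h _

theorem vk_sum {S : Set ℂ} {T : ℕ → Set ℂ} {g : ℂ → ℝ≥0∞} {c : ℝ} (hc : 0 ≤ c) (hS : S ⊆ ⋃ n, T n)
    (h : ∀ n, ∫⁻ z in T n, g z ≤ ENNReal.ofReal (c / 2 / 2 ^ n)) : ∫⁻ z in S, g z ≤ ENNReal.ofReal c := by
  refine (lintegral_mono_set hS).trans ((lintegral_iUnion_le _ _).trans
    ((ENNReal.tsum_le_tsum h).trans (le_of_eq ?_)))
  rw [← ENNReal.ofReal_tsum_of_nonneg (fun n => by positivity) (summable_geometric_two' c),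
    tsum_geometric_two']

theorem vk_tail {p : ℂ} {s₀ B : ℝ} (hs : 0 < s₀) (hB : 0 ≤ B)
    (h : ∀ s, s₀ ≤ s → ∫⁻ z in ball p (s ^ 2), ‖F z‖ₑ ≤ ENNReal.ofReal (B * s ^ 3)) :
    ∫⁻ z in (ball p (s₀ ^ 2))ᶜ, ENNReal.ofReal (‖F z‖ / ‖z - p‖ ^ 2) ≤ ENNReal.ofReal (16 * B / s₀) := by
  refine vk_sum (T := fun n => ball p ((s₀ * 2 ^ (n + 1)) ^ 2) \ ball p ((s₀ * 2 ^ n) ^ 2))
    (by positivity) (fun z hz => ?_) fun n => ?_
  · have h1 : s₀ ^ 2 ≤ ‖z - p‖ := not_lt.1 fun h' => hz (mem_ball_iff_norm.2 h')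
    obtain ⟨n, h2, h3⟩ := exists_nat_pow_near ((one_le_div (by positivity)).2 h1) (by norm_num : (1 : ℝ) < 2 ^ 2)
    rw [le_div_iff₀ (by positivity), ← pow_mul, mul_comm 2 n, pow_mul] at h2
    rw [div_lt_iff₀ (by positivity), ← pow_mul, mul_comm 2 (n + 1), pow_mul] at h3
    refine mem_iUnion.2 ⟨n, mem_ball_iff_norm.2 (h3.trans_eq (by ring)), fun h' => ?_⟩
    exact absurd (mem_ball_iff_norm.1 h') (not_lt.2 (le_of_eq_of_le (by ring) h2))
  · refine (vk_piece (c := (((s₀ * 2 ^ n) ^ 2) ^ 2)⁻¹) (by positivity)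
      (h _ (le_mul_of_one_le_right hs.le (one_le_pow₀ one_le_two))) fun z hz => ?_).trans (le_of_eq ?_)
    · rw [div_eq_inv_mul]
      gcongr
    · congr 1
      field_simp
      ring

theorem vk_near {p : ℂ} {s₀ B : ℝ} (hs : 0 < s₀) (hB : 0 ≤ B)
    (h : ∀ s, 0 < s → ∫⁻ z in ball p (s ^ 2), ‖F z‖ₑ ≤ ENNReal.ofReal (B * s ^ 3)) :
    ∫⁻ z in ball p (s₀ ^ 2), ENNReal.ofReal (‖F z‖ / ‖z - p‖) ≤ ENNReal.ofReal (64 * B * s₀) := by
  rw [← setLIntegral_congr (sdiff_ae_eq_self.2 (measure_mono_null inter_subset_right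
    (measure_singleton p)))]
  refine vk_sum (T := fun n => ball p ((2 * s₀ / 2 ^ n) ^ 2) \ ball p ((s₀ / 2 ^ (n + 1)) ^ 2))
    (by positivity) (fun z hz => ?_) fun n => ?_
  · have h0 : 0 < ‖z - p‖ := norm_pos_iff.2 (sub_ne_zero.2 hz.2)
    have h1 : ‖z - p‖ ≤ s₀ ^ 2 := (mem_ball_iff_norm.1 hz.1).le
    obtain ⟨n, h2, h3⟩ := exists_nat_pow_near ((one_le_div h0).2 h1) (by norm_num : (1 : ℝ) < 2 ^ 2)
    rw [le_div_iff₀ h0, ← pow_mul, mul_comm 2 n, pow_mul] at h2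
    rw [div_lt_iff₀ h0, ← pow_mul, mul_comm 2 (n + 1), pow_mul] at h3
    refine mem_iUnion.2 ⟨n, mem_ball_iff_norm.2 ?_, fun h' => ?_⟩
    · rw [div_pow, lt_div_iff₀ (by positivity)]
      nlinarith [sq_pos_of_pos hs]
    · have h4 := mem_ball_iff_norm.1 h'
      rw [div_pow, lt_div_iff₀ (by positivity)] at h4
      linarith
  · refine (vk_piece (c := ((s₀ / 2 ^ (n + 1)) ^ 2)⁻¹) (by positivity)
      (h _ (by positivity)) fun z hz => ?_).trans (le_of_eq ?_)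
    · rw [div_eq_inv_mul]
      gcongr
    · congr 1
      field_simp
      ring

theorem vk_k1 (w p q z : ℂ) : ‖w * ((z - p)⁻¹ - (z - q)⁻¹)‖ ≤ ‖w‖ / ‖z - p‖ + ‖w‖ / ‖z - q‖ := by
  rw [norm_mul, div_eq_mul_inv, div_eq_mul_inv, ← mul_add, ← norm_inv, ← norm_inv]
  exact mul_le_mul_of_nonneg_left (norm_sub_le _ _) (norm_nonneg _)

theorem vk_k2 (w : ℂ) {p q z : ℂ} {r c : ℝ} (hr : 0 < r) (h : r ^ 2 ≤ c * (‖z - p‖ * ‖z - q‖)) :
    ‖w * ((z - p)⁻¹ - (z - q)⁻¹)‖ ≤ c * ‖p - q‖ * (‖w‖ / r ^ 2) := by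
  have h0 : 0 < c * (‖z - p‖ * ‖z - q‖) := (sq_pos_of_pos hr).trans_le h
  have h1 : 0 < c := pos_of_mul_pos_left h0 (by positivity)
  have h2 : 0 < ‖z - p‖ * ‖z - q‖ := pos_of_mul_pos_right h0 h1.le
  have hp : z - p ≠ 0 := fun e => by simp [e] at h2
  have hq : z - q ≠ 0 := fun e => by simp [e] at h2
  rw [inv_sub_inv hp hq, norm_mul, norm_div, norm_mul, show z - q - (z - p) = p - q by ring]
  calc ‖w‖ * (‖p - q‖ / (‖z - p‖ * ‖z - q‖))
      = c * ‖p - q‖ * (‖w‖ / (c * (‖z - p‖ * ‖z - q‖))) := by field_simp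
    _ ≤ c * ‖p - q‖ * (‖w‖ / r ^ 2) := by gcongr

theorem vk_int {S : Set ℂ} {g : ℂ → ℝ} (hg : Measurable g) (h0 : ∀ z, 0 ≤ g z) {c : ℝ}
    (h : ∫⁻ z in S, ENNReal.ofReal (g z) ≤ ENNReal.ofReal c) : IntegrableOn g S :=
  ⟨hg.aestronglyMeasurable, (hasFiniteIntegral_iff_ofReal (Eventually.of_forall h0)).2
    (h.trans_lt ENNReal.ofReal_lt_top)⟩

theorem vk_bound (hm : Measurable F) {B : ℝ} (hB : 0 ≤ B)
    (h : ∀ (p : ℂ) (s : ℝ), 0 < s → ∫⁻ z in ball p (s ^ 2), ‖F z‖ₑ ≤ ENNReal.ofReal (B * s ^ 3)) (p q : ℂ) :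
    ∫ z, ‖F z * ((z - p)⁻¹ - (z - q)⁻¹)‖ ≤ 336 * B * √‖p - q‖ := by
  rcases eq_or_ne p q with rfl | hpq
  · simp
  have hδ : 0 < ‖p - q‖ := norm_pos_iff.2 (sub_ne_zero.2 hpq)
  obtain ⟨s, hs, e⟩ : ∃ s : ℝ, 0 < s ∧ s ^ 2 = ‖p - q‖ := ⟨_, Real.sqrt_pos.2 hδ, Real.sq_sqrt hδ.le⟩
  rw [← e, Real.sqrt_sq hs.le, integral_eq_lintegral_of_nonneg_ae (Eventually.of_forall fun z => norm_nonneg _)
    (Measurable.aestronglyMeasurable (by fun_prop))]
  refine ENNReal.toReal_le_of_le_ofReal (by positivity) ?_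
  rw [← lintegral_add_compl _ (measurableSet_ball (x := p) (ε := (2 * s) ^ 2))]
  have h1 : ∫⁻ z in ball p ((2 * s) ^ 2), ENNReal.ofReal ‖F z * ((z - p)⁻¹ - (z - q)⁻¹)‖ ≤
      ENNReal.ofReal (64 * B * (2 * s)) + ENNReal.ofReal (64 * B * (3 * s)) := by
    calc _ ≤ ∫⁻ z in ball p ((2 * s) ^ 2),
          (ENNReal.ofReal (‖F z‖ / ‖z - p‖) + ENNReal.ofReal (‖F z‖ / ‖z - q‖)) :=
          lintegral_mono fun z => (ENNReal.ofReal_le_ofReal (vk_k1 _ p q z)).trans ENNReal.ofReal_add_le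
      _ ≤ _ := by
          rw [lintegral_add_left (by fun_prop)]
          refine add_le_add (vk_near (by positivity) hB (h p)) ((lintegral_mono_set
            (ball_subset_ball' ?_)).trans (vk_near (by positivity) hB (h q)))
          rw [dist_eq_norm, ← e]
          nlinarith [sq_pos_of_pos hs]
  have h2 : ∫⁻ z in (ball p ((2 * s) ^ 2))ᶜ, ENNReal.ofReal ‖F z * ((z - p)⁻¹ - (z - q)⁻¹)‖ ≤
      ENNReal.ofReal (2 * s ^ 2) * ENNReal.ofReal (16 * B / (2 * s)) := by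
    calc _ ≤ ∫⁻ z in (ball p ((2 * s) ^ 2))ᶜ,
          ENNReal.ofReal (2 * s ^ 2) * ENNReal.ofReal (‖F z‖ / ‖z - p‖ ^ 2) := by
          refine setLIntegral_mono' measurableSet_ball.compl fun z hz => ?_
          have h3 : (2 * s) ^ 2 ≤ ‖z - p‖ := not_lt.1 fun h' => hz (mem_ball_iff_norm.2 h')
          have h4 : 0 < ‖z - p‖ := lt_of_lt_of_le (by positivity) h3
          have h5 := norm_sub_le_norm_sub_add_norm_sub z q p
          rw [norm_sub_rev q p, ← e] at h5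
          rw [← ENNReal.ofReal_mul (by positivity), e]
          refine ENNReal.ofReal_le_ofReal (vk_k2 _ h4 ?_)
          have h6 : ‖z - p‖ ≤ 2 * ‖z - q‖ := by nlinarith [sq_pos_of_pos hs]
          nlinarith
      _ ≤ _ := by
          rw [lintegral_const_mul' _ _ ENNReal.ofReal_ne_top]
          exact mul_le_mul_right (vk_tail (by positivity) hB fun t ht =>
            h p t (lt_of_lt_of_le (by positivity) ht)) _
  refine (add_le_add h1 h2).trans (le_of_eq ?_)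
  rw [← ENNReal.ofReal_mul (by positivity), ← ENNReal.ofReal_add (by positivity) (by positivity),
    ← ENNReal.ofReal_add (by positivity) (by positivity)]
  congr 1
  field_simp
  ring

end Crest.Agent.R135
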