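import Crest.Agent.R135.Defs
import Crest.Agent.R135.TLip2
import Crest.Agent.R135.MEL
import Crest.Agent.R135.VKerAux1
set_option autoImplicit false
open MeasureTheory Metric Set Filter Topology
open scoped ENNReal NNReal Real ComplexConjugate

namespace Crest.Agent.R135

/-! Kernel estimates (dyadic annuli + Cauchy–Schwarz: `∫_{B(p,r)} ‖F‖ ≤ √(π r² · A r)`). -/

/-- linear growth of the `L²` energy at infinity -/
def Grow (F : ℂ → ℂ) : Prop := ∃ A : ℝ, ∀ R : ℝ, 1 ≤ R → ∫⁻ z in ball (0 : ℂ) R, ‖F z‖ₑ ^ 2 ≤ ENNReal.ofReal (A * R)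

/-- integrable singularity at `p` -/
def Sing (F : ℂ → ℂ) (p : ℂ) : Prop := IntegrableOn (fun z => ‖F z‖ / ‖z - p‖) (ball p 1)

theorem Grow.tail {F : ℂ → ℂ} (hm : Measurable F) (h : Grow F) :
    IntegrableOn (fun z => ‖F z‖ / ‖z‖ ^ 2) (ball (0 : ℂ) 1)ᶜ := by
  obtain ⟨A, hA⟩ := h
  have h1 := vk_tail (F := F) (p := 0) (B := |A| + π) one_pos (by positivity) fun s hs =>
    vk_mass hm (one_pos.trans_le hs) (hA _ (one_le_pow₀ hs))
  simp only [one_pow, sub_zero] at h1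
  exact vk_int (by fun_prop) (fun z => by positivity) h1

theorem vk_loc {F : ℂ → ℂ} (hm : Measurable F) (h : Grow F) {p : ℂ} (hp : Sing F p) {s : ℝ} (hs : 1 ≤ s) :
    IntegrableOn (fun z => ‖F z‖ / ‖z - p‖) (ball 0 (s ^ 2)) := by
  obtain ⟨A, hA⟩ := h
  have h1 : IntegrableOn F (ball 0 (s ^ 2)) := ⟨hm.aestronglyMeasurable,
    (vk_mass hm (one_pos.trans_le hs) (hA _ (one_le_pow₀ hs))).trans_lt ENNReal.ofReal_lt_top⟩
  have h2 : IntegrableOn (fun z => ‖F z‖ / ‖z - p‖) (ball 0 (s ^ 2) \ ball p 1) := by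
    refine Integrable.mono' (h1.mono_set sdiff_subset).norm (Measurable.aestronglyMeasurable (by fun_prop)) ?_
    filter_upwards [ae_restrict_mem (measurableSet_ball.diff measurableSet_ball)] with z hz
    rw [Real.norm_eq_abs, abs_of_nonneg (by positivity)]
    exact div_le_self (norm_nonneg _) (not_lt.1 fun h' => hz.2 (mem_ball_iff_norm.2 h'))
  exact (h2.union hp).mono_set fun z hz => by
    by_cases h' : z ∈ ball p 1
    · exact Or.inr h'
    · exact Or.inl ⟨hz, h'⟩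

theorem kernel_integrable {F : ℂ → ℂ} (hm : Measurable F) (h : Grow F) {p q : ℂ} (hp : Sing F p) (hq : Sing F q) :
    Integrable (fun z => F z * ((z - p)⁻¹ - (z - q)⁻¹)) := by
  have hp0 := norm_nonneg p
  have hq0 := norm_nonneg q
  obtain ⟨s, hs, h1, h2⟩ : ∃ s : ℝ, 1 ≤ s ∧ 2 * ‖p‖ ≤ s ^ 2 ∧ 2 * ‖q‖ ≤ s ^ 2 :=
    ⟨1 + ‖p‖ + ‖q‖, by linarith, by nlinarith, by nlinarith⟩
  have hs2 : 1 ≤ s ^ 2 := one_le_pow₀ hs
  have hme : Measurable fun z => F z * ((z - p)⁻¹ - (z - q)⁻¹) := by fun_prop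
  rw [← integrableOn_univ, ← union_compl_self (ball (0 : ℂ) (s ^ 2))]
  refine IntegrableOn.union ?_ ?_
  · exact Integrable.mono' ((vk_loc hm h hp hs).add (vk_loc hm h hq hs)) hme.aestronglyMeasurable
      (Eventually.of_forall fun z => vk_k1 _ p q z)
  · refine Integrable.mono' (((h.tail hm).mono_set (compl_subset_compl.2 (ball_subset_ball hs2))).const_mul
      (4 * ‖p - q‖)) hme.aestronglyMeasurable ?_
    filter_upwards [ae_restrict_mem measurableSet_ball.compl] with z hz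
    have h3 : s ^ 2 ≤ ‖z‖ := not_lt.1 fun h' => hz (mem_ball_zero_iff.2 h')
    have h4 : ‖z‖ ≤ 2 * ‖z - p‖ := by linarith [norm_sub_norm_le z p]
    have h5 : ‖z‖ ≤ 2 * ‖z - q‖ := by linarith [norm_sub_norm_le z q]
    refine vk_k2 _ (by linarith) ?_
    have := mul_le_mul h4 h5 (norm_nonneg _) (by positivity)
    nlinarith

theorem morrey_kernel {F : ℂ → ℂ} (hm : Measurable F) {A : ℝ}
    (h : ∀ (z : ℂ) (r : ℝ), 0 < r → ∫⁻ w in ball z r, ‖F w‖ₑ ^ 2 ≤ ENNReal.ofReal (A * r)) :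
    Grow F ∧ (∀ p, Sing F p) ∧ ∃ C : ℝ, ∀ p q : ℂ, ∫ z, ‖F z * ((z - p)⁻¹ - (z - q)⁻¹)‖ ≤ C * √‖p - q‖ := by
  have hB : 0 ≤ |A| + π := by positivity
  have h1 : ∀ (p : ℂ) (s : ℝ), 0 < s →
      ∫⁻ z in ball p (s ^ 2), ‖F z‖ₑ ≤ ENNReal.ofReal ((|A| + π) * s ^ 3) := fun p s hs =>
    vk_mass hm hs (h p _ (by positivity))
  refine ⟨⟨A, fun R hR => h 0 R (by linarith)⟩, fun p => ?_, _, vk_bound hm hB h1⟩
  have h2 := vk_near one_pos hB (h1 p)
  rw [one_pow] at h2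
  exact vk_int (by fun_prop) (fun z => by positivity) h2

theorem vod_iff {G : ℂ → ℂ} (hm : Measurable G) (S : Set ℂ) :
    IntegrableOn (fun z => ‖G z‖ ^ 2) S ↔ ∫⁻ z in S, ‖G z‖ₑ ^ 2 < ⊤ := by
  have e : ∀ z, ‖‖G z‖ ^ 2‖ₑ = ‖G z‖ₑ ^ 2 := fun z => by rw [enorm_pow, enorm_norm]
  constructor
  · intro h
    have := h.2
    rw [HasFiniteIntegral] at this
    simpa only [e] using this
  · intro h
    refine ⟨(hm.norm.pow_const 2).aestronglyMeasurable, ?_⟩
    rw [HasFiniteIntegral]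
    simpa only [e] using h

theorem vod_mul {ψ η : ℂ → ℝ} {z : ℂ} (hψ : DifferentiableAt ℝ ψ z) (hη : DifferentiableAt ℝ η z) :
    ‖gradient (fun y => ψ y * η y) z‖ ≤ |ψ z| * ‖gradient η z‖ + |η z| * ‖gradient ψ z‖ := by
  rw [norm_gradient, norm_gradient, norm_gradient, fderiv_fun_mul hψ hη]
  refine (norm_add_le _ _).trans (le_of_eq ?_)
  rw [norm_smul, norm_smul, Real.norm_eq_abs, Real.norm_eq_abs]

/-- orthogonality extends to decaying test functions (`exists_cutoff` at radius `R → ∞`, dominated convergence with `Grow.tail`) -/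
theorem orth_decay {K : Set ℂ} (hK : IsClosed K) (h0 : volume K = 0) {F : ℂ → ℂ} (hm : Measurable F) (hg : Grow F)
    (ho : Orth K F) {ψ : ℂ → ℝ} (hψ : LocallyLipschitzOn Kᶜ ψ) (hD : ∀ R : ℝ, Dir ψ (ball 0 R) < ⊤)
    (hd : ∃ A R : ℝ, 0 < R ∧ ∀ z ∉ K, R ≤ ‖z‖ → |ψ z| ≤ A / ‖z‖ ∧ ‖gradient ψ z‖ ≤ A / ‖z‖ ^ 2) :
    Integrable (fun z => inner ℝ (F z) (gradient ψ z)) ∧ ∫ z, inner ℝ (F z) (gradient ψ z) = 0 := by
  obtain ⟨A, R, hR, hA⟩ := hd
  obtain ⟨B, hB⟩ := exists_cutoff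
  obtain ⟨A', hA'⟩ := id hg
  set R₀ : ℝ := max R 1 with hR₀
  have hR1 : 1 ≤ R₀ := le_max_right _ _
  have hRR : R ≤ R₀ := le_max_left _ _
  have hpos : ∀ n : ℕ, 0 < R₀ + n := fun n => by positivity
  choose η hη h01 h1 h0' hgr hin hout using fun n : ℕ => hB 0 (R₀ + n) (hpos n)
  set C : ℝ := |A| + 2 * (|A| * |B|) with hC
  have hC0 : 0 ≤ C := by positivity
  have hae : ∀ᵐ z : ℂ, z ∉ K ∧ DifferentiableAt ℝ ψ z := by
    filter_upwards [ae_diff_of_locLip hK.isOpen_compl hψ, measure_eq_zero_iff_ae_notMem.1 h0] with z h1 h2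
    exact ⟨h2, h1 h2⟩
  have hb1 : ∀ (n : ℕ) (z : ℂ), ‖z‖ < R₀ + n → gradient (fun y => ψ y * η n y) z = gradient ψ z := by
    intro n z hz
    refine Filter.EventuallyEq.gradient_eq ?_
    filter_upwards [isOpen_ball.mem_nhds (mem_ball_zero_iff.2 hz)] with y hy
    rw [h1 n y (ball_subset_closedBall hy), mul_one]
  have hb3 : ∀ (n : ℕ) (z : ℂ), 2 * (R₀ + n) < ‖z‖ → gradient (fun y => ψ y * η n y) z = 0 := by
    intro n z hz
    have : (fun y => ψ y * η n y) =ᶠ[𝓝 z] fun _ => (0 : ℝ) := by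
      filter_upwards [isClosed_closedBall.isOpen_compl.mem_nhds
        (show z ∈ (closedBall (0 : ℂ) (2 * (R₀ + n)))ᶜ from fun h => (mem_closedBall_zero_iff.1 h).not_gt hz)]
        with y hy
      rw [h0' n y fun h => hy (ball_subset_closedBall h), mul_zero]
    rw [this.gradient_eq, gradient_fun_const]
  have hb0 : ∀ z : ℂ, z ∉ K → R₀ ≤ ‖z‖ → ‖gradient ψ z‖ ≤ |A| / ‖z‖ ^ 2 := fun z hz hr =>
    (hA z hz (hRR.trans hr)).2.trans (div_le_div_of_nonneg_right (le_abs_self _) (sq_nonneg _))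
  have hb2 : ∀ (n : ℕ) (z : ℂ), z ∉ K → DifferentiableAt ℝ ψ z → R₀ ≤ ‖z‖ →
      ‖gradient (fun y => ψ y * η n y) z‖ ≤ C / ‖z‖ ^ 2 := by
    intro n z hz hdz hr
    have hz0 : 0 < ‖z‖ := by linarith
    by_cases h2 : 2 * (R₀ + n) < ‖z‖
    · rw [hb3 n z h2, norm_zero]; positivity
    rw [not_lt] at h2
    have e1 : |ψ z| ≤ |A| / ‖z‖ :=
      (hA z hz (hRR.trans hr)).1.trans (div_le_div_of_nonneg_right (le_abs_self _) hz0.le)
    have e2 : ‖gradient (η n) z‖ ≤ 2 * |B| / ‖z‖ := by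
      refine (hgr n z).trans ((div_le_div_of_nonneg_right (le_abs_self _) (hpos n).le).trans ?_)
      rw [div_le_div_iff₀ (hpos n) hz0]
      nlinarith [abs_nonneg B]
    have e3 : |η n z| ≤ 1 := by rw [abs_of_nonneg (h01 n z).1]; exact (h01 n z).2
    refine (vod_mul hdz ((hη n).differentiable (by simp) z)).trans ?_
    calc |ψ z| * ‖gradient (η n) z‖ + |η n z| * ‖gradient ψ z‖
        ≤ |A| / ‖z‖ * (2 * |B| / ‖z‖) + 1 * (|A| / ‖z‖ ^ 2) :=
          add_le_add (mul_le_mul e1 e2 (norm_nonneg _) (by positivity))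
            (mul_le_mul e3 (hb0 z hz hr) (norm_nonneg _) zero_le_one)
      _ = C / ‖z‖ ^ 2 := by rw [hC]; field_simp; ring
  have iψ : IntegrableOn (fun z => ‖gradient ψ z‖ ^ 2) (ball 0 R₀) :=
    (vod_iff (measurable_gradient ψ) _).2 (hD R₀)
  have iF : IntegrableOn (fun z => ‖F z‖ ^ 2) (ball 0 R₀) :=
    (vod_iff hm _).2 ((hA' R₀ hR1).trans_lt ENNReal.ofReal_lt_top)
  have hT : ∀ n : ℕ, Tst K fun y => ψ y * η n y := by
    intro n
    refine ⟨ibp_locLip_mul hψ (locLip_of_contDiffOn hK.isOpen_compl ((hη n).of_le (by simp)).contDiffOn),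
      ⟨2 * (R₀ + n), fun z _ hz => by rw [h0' n z fun h => (mem_ball_zero_iff.1 h).not_ge hz, mul_zero]⟩, ?_⟩
    refine (vod_iff (measurable_gradient _) univ).1 ?_
    rw [integrableOn_univ]
    have i1 : Integrable fun z => (ball (0 : ℂ) R₀).indicator (fun z => ‖gradient ψ z‖ ^ 2) z +
        (closedBall (0 : ℂ) (2 * (R₀ + n))).indicator (fun _ => C ^ 2) z :=
      ((integrable_indicator_iff measurableSet_ball).2 iψ).add
        ((integrable_indicator_iff measurableSet_closedBall).2 (integrableOn_const measure_closedBall_lt_top.ne))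
    refine i1.mono' ((measurable_gradient _).norm.pow_const 2).aestronglyMeasurable ?_
    filter_upwards [hae] with z hz
    rw [Real.norm_of_nonneg (sq_nonneg _)]
    by_cases hr : ‖z‖ < R₀
    · rw [hb1 n z (by have := Nat.cast_nonneg (α := ℝ) n; linarith), indicator_of_mem (mem_ball_zero_iff.2 hr)]
      exact le_add_of_nonneg_right (indicator_nonneg (fun _ _ => sq_nonneg _) _)
    rw [not_lt] at hr
    by_cases h2 : 2 * (R₀ + n) < ‖z‖
    · rw [hb3 n z h2, norm_zero, zero_pow two_ne_zero]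
      exact add_nonneg (indicator_nonneg (fun _ _ => sq_nonneg _) _) (indicator_nonneg (fun _ _ => sq_nonneg _) _)
    rw [not_lt] at h2
    rw [indicator_of_mem (mem_closedBall_zero_iff.2 h2)]
    have e1 : ‖gradient (fun y => ψ y * η n y) z‖ ≤ C :=
      (hb2 n z hz.1 hz.2 hr).trans (div_le_self hC0 (one_le_pow₀ (hR1.trans hr)))
    exact le_add_of_nonneg_of_le (indicator_nonneg (fun _ _ => sq_nonneg _) _)
      (pow_le_pow_left₀ (norm_nonneg _) e1 2)
  set H : ℂ → ℝ := fun z => (ball (0 : ℂ) R₀).indicator (fun z => ‖F z‖ ^ 2 + ‖gradient ψ z‖ ^ 2) z +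
    (ball (0 : ℂ) 1)ᶜ.indicator (fun z => C * (‖F z‖ / ‖z‖ ^ 2)) z with hH
  have iH : Integrable H :=
    ((integrable_indicator_iff measurableSet_ball).2 (iF.add iψ)).add
      ((integrable_indicator_iff measurableSet_ball.compl).2 ((hg.tail hm).const_mul C))
  have hbd : ∀ (z G : ℂ), (‖z‖ < R₀ → G = gradient ψ z) → (R₀ ≤ ‖z‖ → ‖G‖ ≤ C / ‖z‖ ^ 2) →
      ‖inner ℝ (F z) G‖ ≤ H z := by
    intro z G g1 g2
    refine (norm_inner_le_norm _ _).trans ?_
    simp only [hH]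
    by_cases hr : ‖z‖ < R₀
    · rw [g1 hr, indicator_of_mem (mem_ball_zero_iff.2 hr)]
      refine le_add_of_le_of_nonneg ?_ (indicator_nonneg (fun _ _ => by positivity) _)
      nlinarith [sq_nonneg (‖F z‖ - ‖gradient ψ z‖), norm_nonneg (F z), norm_nonneg (gradient ψ z)]
    rw [not_lt] at hr
    rw [indicator_of_mem (show z ∈ (ball (0 : ℂ) 1)ᶜ from fun h => (mem_ball_zero_iff.1 h).not_ge (hR1.trans hr))]
    refine le_add_of_nonneg_of_le (indicator_nonneg (fun _ _ => by positivity) _) ?_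
    calc ‖F z‖ * ‖G‖ ≤ ‖F z‖ * (C / ‖z‖ ^ 2) := mul_le_mul_of_nonneg_left (g2 hr) (norm_nonneg _)
      _ = _ := by ring
  have hms : ∀ w : ℂ → ℝ, AEStronglyMeasurable (fun z => inner ℝ (F z) (gradient w z)) volume := fun w =>
    (hm.inner (measurable_gradient w)).aestronglyMeasurable
  refine ⟨iH.mono' (hms ψ) ?_, ?_⟩
  · filter_upwards [hae] with z hz
    refine hbd z _ (fun _ => rfl) fun hr => (hb0 z hz.1 hr).trans (div_le_div_of_nonneg_right ?_ (sq_nonneg _))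
    rw [hC]
    exact le_add_of_nonneg_right (by positivity)
  have hlim := tendsto_integral_of_dominated_convergence (μ := volume)
    (F := fun (n : ℕ) z => inner ℝ (F z) (gradient (fun y => ψ y * η n y) z))
    (f := fun z => inner ℝ (F z) (gradient ψ z)) H (fun n => hms _) iH (fun n => by
      filter_upwards [hae] with z hz
      exact hbd z _ (fun hr => hb1 n z (by have := Nat.cast_nonneg (α := ℝ) n; linarith))
        fun hr => hb2 n z hz.1 hz.2 hr) (Eventually.of_forall fun z => by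
      refine tendsto_const_nhds.congr' ?_
      obtain ⟨N, hN⟩ := exists_nat_gt ‖z‖
      filter_upwards [eventually_ge_atTop N] with n hn
      have : (N : ℝ) ≤ n := by exact_mod_cast hn
      rw [hb1 n z (by linarith)])
  simp only [fun n => ho _ (hT n)] at hlim
  exact (tendsto_nhds_unique tendsto_const_nhds hlim).symm


end Crest.Agent.R135
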