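import Crest.Agent.R135.Defs
import Crest.Agent.R135.MEL
import Crest.Agent.R135.TNP
import Crest.Agent.R135.VKer
set_option autoImplicit false
open MeasureTheory Metric Set Filter Topology
open scoped ENNReal NNReal Real ComplexConjugate

namespace Crest.Agent.R135

theorem esp_lap_congr {v w : ℂ → ℝ} {z : ℂ} (h : v =ᶠ[𝓝 z] w) : lap v z = lap w z := by
  have h1 : ∀ d : ℂ, (fun y => fderiv ℝ v y d) =ᶠ[𝓝 z] fun y => fderiv ℝ w y d := fun d =>
    (h.fderiv (𝕜 := ℝ)).mono fun y hy => by simp only [hy]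
  unfold lap
  rw [(h1 1).fderiv_eq, (h1 Complex.I).fderiv_eq]

theorem esp_lap_zero (z : ℂ) : lap (fun _ => (0 : ℝ)) z = 0 := by
  simp [lap]

theorem esp_lap_sub {v w : ℂ → ℝ} {z : ℂ} (hv : ContDiffAt ℝ 2 v z) (hw : ContDiffAt ℝ 2 w z) :
    lap (fun y => v y - w y) z = lap v z - lap w z := by
  have h1 : ∀ d : ℂ, (fun y => fderiv ℝ (fun y => v y - w y) y d) =ᶠ[𝓝 z]
      fun y => fderiv ℝ v y d - fderiv ℝ w y d := by
    intro d
    filter_upwards [hv.eventually (by simp), hw.eventually (by simp)] with y h1 h2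
    rw [fderiv_fun_sub (h1.differentiableAt (by simp)) (h2.differentiableAt (by simp))]
    rfl
  have h2 : ∀ d e : ℂ, fderiv ℝ (fun y => fderiv ℝ (fun y => v y - w y) y d) z e =
      fderiv ℝ (fun y => fderiv ℝ v y d) z e - fderiv ℝ (fun y => fderiv ℝ w y d) z e := by
    intro d e
    rw [(h1 d).fderiv_eq, fderiv_fun_sub (tl2_fd2 hv d).differentiableAt
      (tl2_fd2 hw d).differentiableAt]
    rfl
  unfold lap
  rw [h2, h2]; ring

theorem esp_lap_smooth {v : ℂ → ℝ} {z : ℂ} (hv : ContDiffAt ℝ (⊤ : ℕ∞) v z) :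
    ContDiffAt ℝ (⊤ : ℕ∞) (lap v) z := by
  have h1 : ∀ {g : ℂ → ℝ}, ContDiffAt ℝ (⊤ : ℕ∞) g z → ∀ d : ℂ,
      ContDiffAt ℝ (⊤ : ℕ∞) (fun y => fderiv ℝ g y d) z := fun hg d =>
    (hg.fderiv_right (m := (⊤ : ℕ∞)) (by rfl)).clm_apply contDiffAt_const
  exact (h1 (h1 hv 1) 1).add (h1 (h1 hv Complex.I) Complex.I)

theorem esp_Dir_sub {v w : ℂ → ℝ} (S : Set ℂ)
    (hd : ∀ᵐ z, DifferentiableAt ℝ v z ∧ DifferentiableAt ℝ w z) :
    Dir (fun z => v z - w z) S ≤ 2 * Dir v S + 2 * Dir w S := by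
  rw [mela_Dir, mela_Dir, mela_Dir, ← lintegral_const_mul' _ _ (by simp),
    ← lintegral_const_mul' _ _ (by simp), ← lintegral_add_left
      (((measurable_gradient v).norm.pow_const 2).ennreal_ofReal.const_mul 2)]
  refine lintegral_mono_ae (ae_restrict_of_ae ?_)
  filter_upwards [hd] with z hz
  have h1 : ‖gradient (fun z => v z - w z) z‖ ≤ ‖gradient v z‖ + ‖gradient w z‖ := by
    rw [norm_gradient, norm_gradient, norm_gradient, fderiv_fun_sub hz.1 hz.2]
    exact norm_sub_le _ _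
  have h2 : ‖gradient (fun z => v z - w z) z‖ ^ 2 ≤ 2 * ‖gradient v z‖ ^ 2 + 2 * ‖gradient w z‖ ^ 2 := by
    have := norm_nonneg (gradient (fun z => v z - w z) z)
    nlinarith [sq_nonneg (‖gradient v z‖ - ‖gradient w z‖)]
  refine (ENNReal.ofReal_le_ofReal h2).trans (le_of_eq ?_)
  rw [ENNReal.ofReal_add (by positivity) (by positivity), ENNReal.ofReal_mul (by norm_num),
    ENNReal.ofReal_mul (by norm_num)]
  simp

theorem esp_Dir_decay {N : ℂ → ℝ} (hN : ContDiff ℝ 1 N) {A R : ℝ} (hR : 0 < R)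
    (hd : ∀ z : ℂ, R ≤ ‖z‖ → ‖gradient N z‖ ≤ A / ‖z‖ ^ 2) : Dir N univ < ⊤ := by
  obtain ⟨M, hM⟩ := grad_bdd_of_locLip isOpen_univ (locLip_of_contDiffOn isOpen_univ hN.contDiffOn)
    (isCompact_closedBall (0 : ℂ) R) (subset_univ _)
  rw [mela_iff, integrableOn_univ]
  have hi : Integrable fun z : ℂ => (1 + ‖z‖) ^ (-(4 : ℝ)) :=
    integrable_one_add_norm (by simp; norm_num)
  set B : ℝ := max (|M| * (1 + R) ^ 2) (|A| * (1 + R⁻¹) ^ 2) with hB
  refine (hi.const_mul (B ^ 2)).mono'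
    ((measurable_gradient N).norm.pow_const 2).aestronglyMeasurable (Eventually.of_forall fun z => ?_)
  have h0 : 0 < 1 + ‖z‖ := by positivity
  have h1 : ‖gradient N z‖ * (1 + ‖z‖) ^ 2 ≤ B := by
    rcases le_total ‖z‖ R with hz | hz
    · refine le_trans ?_ (le_max_left _ _)
      have := (hM z (by simpa using hz)).trans (le_abs_self M)
      gcongr
    · refine le_trans ?_ (le_max_right _ _)
      have hz0 : 0 < ‖z‖ := hR.trans_le hz
      have h2 : ‖gradient N z‖ ≤ |A| / ‖z‖ ^ 2 :=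
        (hd z hz).trans (div_le_div_of_nonneg_right (le_abs_self A) (by positivity))
      have h3 : 1 + ‖z‖ ≤ (1 + R⁻¹) * ‖z‖ := by
        have : 1 ≤ R⁻¹ * ‖z‖ := by rw [inv_mul_eq_div, le_div_iff₀ hR]; linarith
        linarith
      calc ‖gradient N z‖ * (1 + ‖z‖) ^ 2 ≤ |A| / ‖z‖ ^ 2 * ((1 + R⁻¹) * ‖z‖) ^ 2 := by gcongr
        _ = |A| * (1 + R⁻¹) ^ 2 := by field_simp
  rw [Real.norm_eq_abs, abs_of_nonneg (sq_nonneg _), Real.rpow_neg h0.le, ← div_eq_mul_inv,
    le_div_iff₀ (by positivity)]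
  have h4 : (1 + ‖z‖) ^ (4 : ℝ) = ((1 + ‖z‖) ^ 2) ^ 2 := by
    rw [show (4 : ℝ) = ((4 : ℕ) : ℝ) by norm_num, Real.rpow_natCast]; ring
  rw [h4, ← mul_pow]
  exact pow_le_pow_left₀ (by positivity) h1 2

/-- `χ` smooth, `1` near `Q`, supported off `K \ Q` (`exists_cutoff_compact`); `f = u Δχ + 2⟪∇χ,∇u⟫` is smooth with compact support in `Kᶜ`
(`Glob.harm`; `f = 0` near `K`), `∫ f = 0` (`Glob.orth` with `χ`, `green_locLip`/`ibp_locLip`); `a = χ u - NP f`, `b = (1-χ) u + NP f`;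
`lap_eq_zero_iff`, `NP_lap`, `NP_decay`. -/
theorem exists_split {K Q : Set ℂ} {u : ℂ → ℝ} (h : Glob K u) (hQ : Isl K Q) : ∃ a b : ℂ → ℝ, Split K Q u a b := by
  classical
  have hKc : IsClosed K := h.ms.closed
  have hKo : IsOpen Kᶜ := hKc.isOpen_compl
  obtain ⟨χ, hχ, hχc, hχs, -, hχ1⟩ := exists_cutoff_compact hQ.cpt hQ.closed.isOpen_compl
    (fun z hz hz' => hz'.2 hz)
  obtain ⟨N, hNo, hQN, hN1⟩ := mem_nhdsSet_iff_exists.mp hχ1
  set D : Set ℂ := tsupport χ \ N with hD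
  have hDc : IsCompact D := hχc.isCompact.diff hNo
  have hDK : D ⊆ Kᶜ := fun z hz hzK => hχs hz.1 ⟨hzK, fun hzQ => hz.2 (hQN hzQ)⟩
  have hP0 : ∀ z, z ∉ tsupport χ → χ =ᶠ[𝓝 z] fun _ => 0 := fun z hz =>
    notMem_tsupport_iff_eventuallyEq.mp hz
  have hP1 : ∀ z, z ∈ N → χ =ᶠ[𝓝 z] fun _ => 1 := fun z hz =>
    Filter.mem_of_superset (hNo.mem_nhds hz) fun y hy => hN1 hy
  set v : ℂ → ℝ := fun z => χ z * u z with hv
  have hv0 : ∀ z, z ∉ tsupport χ → v =ᶠ[𝓝 z] fun _ => 0 := fun z hz =>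
    (hP0 z hz).mono fun y hy => by simp only [hv, hy, zero_mul]
  have hv1 : ∀ z, z ∈ N → v =ᶠ[𝓝 z] u := fun z hz =>
    (hP1 z hz).mono fun y hy => by simp only [hv, hy, one_mul]
  have hu : ∀ z ∉ K, ContDiffAt ℝ (⊤ : ℕ∞) u z := fun z hz =>
    h.harm.2.contDiffAt (hKo.mem_nhds hz)
  have le2 : (2 : WithTop ℕ∞) ≤ (⊤ : ℕ∞) := WithTop.coe_le_coe.mpr (le_top : (2 : ℕ∞) ≤ ⊤)
  have le1 : (1 : WithTop ℕ∞) ≤ (⊤ : ℕ∞) := by exact_mod_cast le_top
  have hlu : ∀ z ∉ K, lap u z = 0 :=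
    (lap_eq_zero_iff hKo (h.harm.2.of_le le2)).mp h.harm.1
  have hvs : ∀ z ∉ K, ContDiffAt ℝ (⊤ : ℕ∞) v z := fun z hz => hχ.contDiffAt.mul (hu z hz)
  set f : ℂ → ℝ := fun z => if z ∈ K then 0 else lap v z with hf
  have hf0 : ∀ z ∉ D, f z = 0 := by
    intro z hz
    simp only [hf]
    split_ifs with hzK
    · rfl
    · by_cases h1 : z ∈ tsupport χ
      · have h2 : z ∈ N := by by_contra h3; exact hz ⟨h1, h3⟩
        rw [esp_lap_congr (hv1 z h2), hlu z hzK]
      · rw [esp_lap_congr (hv0 z h1), esp_lap_zero]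
  have hfK : ∀ z ∉ K, f z = lap v z := fun z hz => by simp only [hf, if_neg hz]
  have hfs : ContDiff ℝ (⊤ : ℕ∞) f := by
    rw [contDiff_iff_contDiffAt]
    intro z
    by_cases hz : z ∈ D
    · refine (esp_lap_smooth (hvs z (hDK hz))).congr_of_eventuallyEq ?_
      exact Filter.mem_of_superset (hKo.mem_nhds (hDK hz)) fun y hy => hfK y hy
    · refine (contDiffAt_const (c := (0 : ℝ))).congr_of_eventuallyEq ?_
      exact Filter.mem_of_superset (hDc.isClosed.isOpen_compl.mem_nhds hz) fun y hy => hf0 y hy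
  have hfc : HasCompactSupport f := HasCompactSupport.intro hDc hf0
  have hae : ∀ᵐ z : ℂ, z ∉ K := measure_eq_zero_iff_ae_notMem.mp h.vol_zero
  have hres : volume.restrict Kᶜ = (volume : Measure ℂ) := Measure.restrict_eq_self_of_ae_mem hae
  have hvC : ContDiffOn ℝ 2 v Kᶜ := fun z hz => ((hvs z hz).of_le le2).contDiffWithinAt
  -- the mean of `f` vanishes
  have hint : ∫ z, f z = 0 := by
    obtain ⟨θ, hθ, hθc, hθs, -, hθ1⟩ := exists_cutoff_compact hDc hKo hDK
    have hg := green_locLip hKo hvC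
      (locLip_of_contDiffOn hKo (hθ.of_le le1).contDiffOn) hθc.isCompact hθs
      (fun z hz => image_eq_zero_of_notMem_tsupport hz.2)
    rw [hres] at hg
    have hψ : ContDiff ℝ (⊤ : ℕ∞) fun z => χ z * (θ z - 1) := hχ.mul (hθ.sub contDiff_const)
    have ho := h.orth _ (Tst.of_smooth K (hψ.of_le le1) (hχc.mul_right))
    have e1 : ∫ z, f z = ∫ z, lap v z * θ z := by
      refine integral_congr_ae (hae.mono fun z hz => ?_)
      by_cases hzD : z ∈ D
      · simp only [hfK z hz, (hθ1.self_of_nhdsSet z hzD), mul_one]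
      · have := hf0 z hzD
        simp only [this, ← hfK z hz, zero_mul]
    have e2 : ∫ z, inner ℝ (gradient v z) (gradient θ z) =
        ∫ z, inner ℝ (gradient u z) (gradient (fun z => χ z * (θ z - 1)) z) := by
      refine integral_congr_ae (hae.mono fun z hz => ?_)
      by_cases hzD : z ∈ D
      · have h1 : θ =ᶠ[𝓝 z] fun _ => 1 := hθ1.filter_mono (nhds_le_nhdsSet hzD)
        have h2 : (fun z => χ z * (θ z - 1)) =ᶠ[𝓝 z] fun _ => 0 :=
          h1.mono fun y hy => by simp only [hy, sub_self, mul_zero]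
        simp only [h1.gradient_eq, h2.gradient_eq, gradient_fun_const, inner_zero_right]
      · by_cases h1 : z ∈ tsupport χ
        · have h2 : z ∈ N := by by_contra h3; exact hzD ⟨h1, h3⟩
          have h3 : (fun z => χ z * (θ z - 1)) =ᶠ[𝓝 z] fun z => θ z - 1 :=
            (hP1 z h2).mono fun y hy => by simp only [hy, one_mul]
          have h4 : gradient (fun z => θ z - 1) z = gradient θ z := by
            simp only [gradient, fderiv_sub_const]
          simp only [(hv1 z h2).gradient_eq, h3.gradient_eq, h4]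
        · have h3 : (fun z => χ z * (θ z - 1)) =ᶠ[𝓝 z] fun _ => 0 :=
            (hP0 z h1).mono fun y hy => by simp only [hy, zero_mul]
          simp only [(hv0 z h1).gradient_eq, h3.gradient_eq, gradient_fun_const, inner_zero_right,
            inner_zero_left]
    rw [e1]
    rw [e2, ho] at hg
    linarith
  have hNP : ContDiff ℝ (⊤ : ℕ∞) (NP f) := NP_contDiff hfs hfc
  obtain ⟨A, R, hR, hdec⟩ := NP_decay hfs hfc hint
  obtain ⟨R₁, hR₁⟩ := hχc.isCompact.isBounded.subset_ball (0 : ℂ)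
  set a : ℂ → ℝ := fun z => v z - NP f z with ha
  have hvs' : ∀ z ∉ K ∩ Q, ContDiffAt ℝ 2 v z := by
    intro z hz
    by_cases hzK : z ∈ K
    · have : z ∉ tsupport χ := fun h1 => hχs h1 ⟨hzK, fun h2 => hz ⟨hzK, h2⟩⟩
      exact contDiffAt_const.congr_of_eventuallyEq (hv0 z this)
    · exact (hvs z hzK).of_le le2
  have has : ∀ z ∉ K ∩ Q, ContDiffAt ℝ 2 a z := fun z hz =>
    (hvs' z hz).sub (hNP.contDiffAt.of_le le2)
  have hla : ∀ z ∉ K ∩ Q, lap a z = 0 := by
    intro z hz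
    rw [esp_lap_sub (hvs' z hz) (hNP.contDiffAt.of_le le2), NP_lap hfs hfc]
    by_cases hzK : z ∈ K
    · have : z ∉ tsupport χ := fun h1 => hχs h1 ⟨hzK, fun h2 => hz ⟨hzK, h2⟩⟩
      rw [esp_lap_congr (hv0 z this), esp_lap_zero, hf0 z fun h1 => this h1.1, sub_zero]
    · rw [hfK z hzK, sub_self]
  set b : ℂ → ℝ := fun z => u z - a z with hb
  have hbN : ∀ z ∈ Q, b =ᶠ[𝓝 z] NP f := fun z hz =>
    (hv1 z (hQN hz)).mono fun y hy => by simp only [hb, ha, hy]; ring
  have hbs : ∀ z ∉ K \ Q, ContDiffAt ℝ 2 b z := by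
    intro z hz
    by_cases hzK : z ∈ K
    · have : z ∈ Q := by by_contra h1; exact hz ⟨hzK, h1⟩
      exact (hNP.contDiffAt.of_le le2).congr_of_eventuallyEq (hbN z this)
    · exact ((hu z hzK).of_le le2).sub (has z fun h1 => hzK h1.1)
  have hlb : ∀ z ∉ K \ Q, lap b z = 0 := by
    intro z hz
    by_cases hzK : z ∈ K
    · have : z ∈ Q := by by_contra h1; exact hz ⟨hzK, h1⟩
      rw [esp_lap_congr (hbN z this), NP_lap hfs hfc]
      exact hf0 z fun h1 => hDK h1 hzK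
    · rw [esp_lap_sub ((hu z hzK).of_le le2) (has z fun h1 => hzK h1.1), hlu z hzK,
        hla z fun h1 => hzK h1.1, sub_zero]
  have hKQo : IsOpen (K ∩ Q)ᶜ := (hKc.inter hQ.cpt.isClosed).isOpen_compl
  have hca : ContDiffOn ℝ 2 a (K ∩ Q)ᶜ := fun z hz => (has z hz).contDiffWithinAt
  have hcb : ContDiffOn ℝ 2 b (K \ Q)ᶜ := fun z hz => (hbs z hz).contDiffWithinAt
  -- energy of `v`
  have hDv : Dir v univ < ⊤ := by
    obtain ⟨M, hM⟩ := grad_bdd_of_locLip hKo (locLip_of_contDiffOn hKo (hvC.of_le (by norm_num)))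
      hDc hDK
    have hu2 : IntegrableOn (fun z => ‖gradient u z‖ ^ 2) (closedBall 0 R₁) :=
      mela_iff.mp (h.ms.Dir_lt_top (subset_univ _))
    have hi : IntegrableOn (fun z => ‖gradient u z‖ ^ 2 + M ^ 2) (closedBall 0 R₁) :=
      hu2.add (integrableOn_const (measure_closedBall_lt_top.ne))
    rw [mela_iff, integrableOn_univ]
    refine ((integrable_indicator_iff measurableSet_closedBall).mpr hi).mono'
      ((measurable_gradient v).norm.pow_const 2).aestronglyMeasurable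
      (Eventually.of_forall fun z => ?_)
    rw [Real.norm_eq_abs, abs_of_nonneg (sq_nonneg _)]
    by_cases h1 : z ∈ tsupport χ
    · rw [indicator_of_mem (ball_subset_closedBall (hR₁ h1))]
      by_cases h2 : z ∈ N
      · rw [(hv1 z h2).gradient_eq]; nlinarith [sq_nonneg M]
      · have := pow_le_pow_left₀ (norm_nonneg _) (hM z ⟨h1, h2⟩) 2
        nlinarith [sq_nonneg ‖gradient u z‖]
    · rw [(hv0 z h1).gradient_eq, gradient_fun_const, norm_zero, zero_pow two_ne_zero]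
      exact indicator_nonneg (fun y _ => by positivity) z
  have hDN : Dir (NP f) univ < ⊤ := esp_Dir_decay (hNP.of_le le1) hR fun z hz => (hdec z hz).2
  have hDa : Dir a univ < ⊤ := by
    refine (esp_Dir_sub univ (hae.mono fun z hz => ⟨(hvs z hz).differentiableAt (by simp),
      hNP.differentiable (by simp) z⟩)).trans_lt ?_
    exact ENNReal.add_lt_top.mpr ⟨ENNReal.mul_lt_top (by simp) hDv, ENNReal.mul_lt_top (by simp) hDN⟩
  refine ⟨a, b, fun z _ => by simp only [hb]; ring, hca, (lap_eq_zero_iff hKQo hca).mpr hla, hcb,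
    (lap_eq_zero_iff hQ.closed.isOpen_compl hcb).mpr hlb, ⟨A, max R R₁, lt_max_of_lt_left hR, ?_⟩,
    hDa, ⟨4 * π + 2 * (Dir a univ).toReal, fun r hr => ?_⟩⟩
  · intro z hz
    have h1 : z ∉ tsupport χ := fun h1 => by
      have := mem_ball_zero_iff.mp (hR₁ h1)
      linarith [le_max_right R R₁]
    have h2 : a =ᶠ[𝓝 z] fun y => -NP f y := (hv0 z h1).mono fun y hy => by
      simp only [ha, hy, zero_sub]
    have h3 := hdec z ((le_max_left _ _).trans hz)
    rw [h2.self_of_nhds, h2.gradient_eq, abs_neg, norm_gradient, fderiv_fun_neg, norm_neg,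
      ← norm_gradient]
    exact h3
  · have hr0 : 0 < r := by linarith
    refine (esp_Dir_sub (ball 0 r) (hae.mono fun z hz => ⟨(hu z hz).differentiableAt (by simp),
      (has z fun h1 => hz h1.1).differentiableAt (by simp)⟩)).trans ?_
    have h1 : Dir u (ball 0 r) ≤ ENNReal.ofReal (2 * π * r) := h.growth 0 hr0
    have h2 : Dir a (ball 0 r) ≤ ENNReal.ofReal ((Dir a univ).toReal * r) := by
      refine le_trans (lintegral_mono_set (subset_univ _)) ?_
      refine le_trans (le_of_eq (ENNReal.ofReal_toReal hDa.ne).symm) (ENNReal.ofReal_le_ofReal ?_)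
      exact le_mul_of_one_le_right ENNReal.toReal_nonneg hr
    have hpi := Real.pi_pos
    have h3 : ENNReal.ofReal ((4 * π + 2 * (Dir a univ).toReal) * r) =
        2 * ENNReal.ofReal (2 * π * r) + 2 * ENNReal.ofReal ((Dir a univ).toReal * r) := by
      rw [show (4 * π + 2 * (Dir a univ).toReal) * r =
        2 * (2 * π * r) + 2 * ((Dir a univ).toReal * r) by ring,
        ENNReal.ofReal_add (by positivity) (by positivity), ENNReal.ofReal_mul (p := 2) (by norm_num),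
        ENNReal.ofReal_mul (p := 2) (q := (Dir a univ).toReal * r) (by norm_num)]
      simp
    rw [h3]
    gcongr

end Crest.Agent.R135
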