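import Crest.Agent.R135.Defs
import Crest.Agent.R135.MEL
import Crest.Agent.R135.TLip2
set_option autoImplicit false
open MeasureTheory Metric Set Filter Topology
open scoped ENNReal NNReal Real ComplexConjugate

namespace Crest.Agent.R135

variable {K C : Set ℂ} {y : ℂ} {r : ℝ} {η α : ℂ → ℝ}

theorem erema_off (hC : IsCompact C) (h0 : ∀ z ∉ C, α z = 0) {z : ℂ} (hz : z ∉ C) : gradient α z = 0 := by
  have e : α =ᶠ[𝓝 z] fun _ => 0 := by
    filter_upwards [hC.isClosed.isOpen_compl.mem_nhds hz] with w hw using h0 w hw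
  rw [e.gradient_eq, gradient_fun_const]

theorem erema_mul {z : ℂ} (h1 : DifferentiableAt ℝ α z) (h2 : DifferentiableAt ℝ η z) :
    gradient (fun z => α z * η z) z = α z * gradient η z + η z * gradient α z := by
  simp only [tl2_grad, fderiv_fun_mul h1 h2, add_apply, smul_apply, smul_eq_mul]
  push_cast
  ring

theorem erema_grad (hK : IsClosed K) (h0 : volume K = 0) (hη : LocallyLipschitzOn (ball y r \ K) η)
    (hC : IsCompact C) (hCB : C ⊆ ball y r) (hα : ContDiff ℝ 1 α) (hα0 : ∀ z ∉ C, α z = 0) :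
    ∀ᵐ z, gradient (fun z => α z * η z) z = α z * gradient η z + η z * gradient α z := by
  filter_upwards [ae_diff_of_locLip (isOpen_ball.sdiff hK) hη, measure_eq_zero_iff_ae_notMem.1 h0] with z h1 h2
  by_cases hz : z ∈ C
  · exact erema_mul (hα.differentiable one_ne_zero z) (h1 ⟨hCB hz, h2⟩)
  · rw [erema_off hC hα0 hz, erema_off hC (fun w hw => by simp [hα0 w hw]) hz, hα0 z hz]
    simp

theorem erema_int (hK : IsClosed K) (h0 : volume K = 0) (hη : LocallyLipschitzOn (ball y r \ K) η) {B : ℝ}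
    (hB : ∀ z ∈ ball y r \ K, |η z| ≤ B) (hD : Dir η (ball y r) < ⊤) :
    IntegrableOn (gradient η) (ball y r) ∧ IntegrableOn (fun z => (η z : ℂ)) (ball y r) := by
  have hW := (isOpen_ball (x := y) (ε := r)).sdiff hK
  constructor
  · refine Integrable.mono' ((mela_iff.1 hD).add (integrableOn_const (C := (1 : ℝ)) measure_ball_lt_top.ne))
      (measurable_gradient η).aestronglyMeasurable (Eventually.of_forall fun z => ?_)
    simp only [Pi.add_apply]
    nlinarith [sq_nonneg (‖gradient η z‖ - 1)]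
  · refine IntegrableOn.congr_set_ae (t := ball y r \ K) ?_ (diff_null_ae_eq_self h0).symm
    exact Integrable.ofReal (IntegrableOn.of_bound ((measure_mono diff_subset).trans_lt measure_ball_lt_top)
      (hη.continuousOn.aestronglyMeasurable hW.measurableSet) B (ae_restrict_of_forall_mem hW.measurableSet hB))

theorem erema_tst (hK : IsClosed K) (h0 : volume K = 0) (hη : LocallyLipschitzOn (ball y r \ K) η) {B : ℝ}
    (hB : ∀ z ∈ ball y r \ K, |η z| ≤ B) (hD : Dir η (ball y r) < ⊤)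
    (hC : IsCompact C) (hCB : C ⊆ ball y r) (hα : ContDiff ℝ 1 α) (hα0 : ∀ z ∉ C, α z = 0) :
    Tst K fun z => α z * η z := by
  have hW := (isOpen_ball (x := y) (ε := r)).sdiff hK
  refine ⟨fun z hz => ?_, ?_, mela_iff.2 ?_⟩
  · by_cases hzC : z ∈ C
    · obtain ⟨L, s, hs, hL⟩ := ibp_locLip_mul (locLip_of_contDiffOn hW hα.contDiffOn) hη ⟨hCB hzC, hz⟩
      rw [hW.nhdsWithin_eq ⟨hCB hzC, hz⟩] at hs
      exact ⟨L, s, mem_nhdsWithin_of_mem_nhds hs, hL⟩
    · exact ⟨0, Cᶜ, mem_nhdsWithin_of_mem_nhds (hC.isClosed.isOpen_compl.mem_nhds hzC),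
        fun a ha b hb => by simp [hα0 a ha, hα0 b hb]⟩
  · obtain ⟨R, -, hR⟩ := hC.isBounded.subset_ball_lt 0 0
    exact ⟨R, fun z _ hz => by rw [hα0 z fun h => hz.not_gt (mem_ball_zero_iff.1 (hR h)), zero_mul]⟩
  · obtain ⟨A, hA⟩ := hC.exists_bound_of_continuousOn hα.continuous.continuousOn
    obtain ⟨A', hA'⟩ := hC.exists_bound_of_continuousOn
      ((continuousOn_gradient isOpen_univ hα.contDiffOn).mono (subset_univ C))
    have h1 : IntegrableOn (fun z => 2 * A ^ 2 * ‖gradient η z‖ ^ 2 + 2 * (B * A') ^ 2) C :=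
      (((mela_iff.1 hD).mono_set hCB).const_mul _).add (integrableOn_const hC.measure_ne_top)
    rw [integrableOn_univ]
    refine ((integrable_indicator_iff hC.measurableSet).2 h1).mono'
      ((measurable_gradient _).norm.pow_const 2).aestronglyMeasurable ?_
    filter_upwards [erema_grad hK h0 hη hC hCB hα hα0, measure_eq_zero_iff_ae_notMem.1 h0] with z h2 h3
    rw [Real.norm_of_nonneg (sq_nonneg _), h2]
    by_cases hz : z ∈ C
    · have h4 := hB z ⟨hCB hz, h3⟩
      have h5 : ‖α z * gradient η z + η z * gradient α z‖ ≤ A * ‖gradient η z‖ + B * A' := by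
        refine (norm_add_le _ _).trans ?_
        rw [norm_mul, norm_mul, Complex.norm_real, Complex.norm_real]
        exact add_le_add (mul_le_mul_of_nonneg_right (hA z hz) (norm_nonneg _))
          (mul_le_mul h4 (hA' z hz) (norm_nonneg _) ((abs_nonneg _).trans h4))
      rw [indicator_of_mem hz]
      nlinarith [pow_le_pow_left₀ (norm_nonneg _) h5 2, sq_nonneg (A * ‖gradient η z‖ - B * A')]
    · rw [indicator_of_notMem hz, erema_off hC hα0 hz, hα0 z hz]
      simp

theorem erema_cd {ζ w : ℂ → ℝ} (hC : IsCompact C) (hCB : C ⊆ ball y r) (hζ : ContDiff ℝ 1 ζ)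
    (h0 : ∀ z ∉ C, ζ z = 0) (hw : ContDiffOn ℝ 1 w (ball y r)) : ContDiff ℝ 1 fun z => ζ z * w z := by
  refine contDiff_iff_contDiffAt.2 fun z => ?_
  by_cases hz : z ∈ C
  · exact hζ.contDiffAt.mul (hw.contDiffAt (isOpen_ball.mem_nhds (hCB hz)))
  · refine (contDiffAt_const (c := (0 : ℝ))).congr_of_eventuallyEq ?_
    filter_upwards [hC.isClosed.isOpen_compl.mem_nhds hz] with v hv
    rw [h0 v hv, zero_mul]

/-- Cauchy–Riemann -/
theorem erema_cr {g : ℂ → ℂ} {z : ℂ} (hg : DifferentiableAt ℂ g z) :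
    gradient (fun z => (g z).re) z + Complex.I * gradient (fun z => (g z).im) z = 0 := by
  have h := hg.hasDerivAt.hasFDerivAt.restrictScalars ℝ
  have h1 : fderiv ℝ (fun z => (g z).re) z = _ := (Complex.reCLM.hasFDerivAt.comp z h).fderiv
  have h2 : fderiv ℝ (fun z => (g z).im) z = _ := (Complex.imCLM.hasFDerivAt.comp z h).fderiv
  rw [tl2_grad, tl2_grad, h1, h2]
  apply Complex.ext <;> simp

end Crest.Agent.R135
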