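import Crest.Agent.R135.Defs
import Crest.Agent.R135.MEL
import Crest.Agent.R135.ERemAuxA
import Crest.Agent.R135.MGood
set_option autoImplicit false
open MeasureTheory Metric Set Filter Topology
open scoped ENNReal NNReal Real ComplexConjugate

namespace Crest.Agent.R135

/-- cracked functions have no jump across `K` in `ball y r` -/
def NoJump (K : Set ℂ) (y : ℂ) (r : ℝ) : Prop :=
  ∀ η : ℂ → ℝ, LocallyLipschitzOn (ball y r \ K) η → (∃ B : ℝ, ∀ z ∈ ball y r \ K, |η z| ≤ B) → Dir η (ball y r) < ⊤ →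
    ∀ ζ : ℂ → ℝ, ContDiff ℝ (⊤ : ℕ∞) ζ → HasCompactSupport ζ → tsupport ζ ⊆ ball y r → ∀ d : ℂ,
      ∫ z, η z * fderiv ℝ ζ z d = - ∫ z, fderiv ℝ η z d * ζ z

/-- Test with the real and imaginary parts of `ζ η / Φ` (extended by zero): for complex `ψ = ψ₁ + iψ₂`, `∇ψ₁ + i∇ψ₂ = ∂₁ψ + i∂₂ψ`, which kills holomorphic
factors (Cauchy–Riemann), so `∫ ∇(ζη) = 0`. -/
theorem nojump {K : Set ℂ} (hK : IsClosed K) (h0 : volume K = 0) {y : ℂ} {r : ℝ} {Φ : ℂ → ℂ}
    (hΦ : DifferentiableOn ℂ Φ (ball y r)) (hne : ∀ z ∈ ball y r, Φ z ≠ 0)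
    (h : ∀ ψ : ℂ → ℝ, Tst K ψ → (∀ z ∉ ball y r, ψ z = 0) → ∫ z, Φ z * gradient ψ z = 0) : NoJump K y r := by
  rintro η hη ⟨B, hB⟩ hD ζ hζ hC hCB d
  have hζ1 : ContDiff ℝ 1 ζ := hζ.of_le (by simp)
  have hζ0 : ∀ z ∉ tsupport ζ, ζ z = 0 := fun z => image_eq_zero_of_notMem_tsupport
  obtain ⟨i1, i2⟩ := erema_int hK h0 hη hB hD
  have int : ∀ {k : ℂ → ℂ} {α : ℂ → ℝ}, ContinuousOn k (tsupport ζ) → ContDiff ℝ 1 α → (∀ z ∉ tsupport ζ, α z = 0) →
      Integrable (fun z => k z * (α z * gradient η z)) ∧ Integrable fun z => k z * (η z * gradient α z) := by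
    intro k α hk hα hα0
    refine ⟨(((i1.mono_set hCB).continuousOn_mul (Complex.continuous_ofReal.comp hα.continuous).continuousOn
      hC).continuousOn_mul hk hC).integrable_of_forall_notMem_eq_zero fun z hz => by simp [hα0 z hz],
      (((i2.mono_set hCB).mul_continuousOn ((continuousOn_gradient isOpen_univ hα.contDiffOn).mono (subset_univ _))
      hC).continuousOn_mul hk hC).integrable_of_forall_notMem_eq_zero fun z hz => by simp [erema_off hC hα0 hz]⟩
  have key : ∀ {w : ℂ → ℝ}, ContDiffOn ℝ 1 w (ball y r) →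
      Integrable (fun z => Φ z * ((ζ z * w z : ℝ) * gradient η z + η z * gradient (fun z => ζ z * w z) z)) ∧
        ∫ z, Φ z * ((ζ z * w z : ℝ) * gradient η z + η z * gradient (fun z => ζ z * w z) z) = 0 := by
    intro w hw
    have hα := erema_cd hC hCB hζ1 hζ0 hw
    have hα0 : ∀ z ∉ tsupport ζ, ζ z * w z = 0 := fun z hz => by rw [hζ0 z hz, zero_mul]
    obtain ⟨j1, j2⟩ := int (hΦ.continuousOn.mono hCB) hα hα0
    refine ⟨by simpa only [mul_add] using j1.fun_add j2, ?_⟩
    rw [← h _ (erema_tst hK h0 hη hB hD hC hCB hα hα0) fun z hz => by rw [hα0 z fun h => hz (hCB h), zero_mul]]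
    refine integral_congr_ae ?_
    filter_upwards [erema_grad hK h0 hη hC hCB hα hα0] with z hz
    rw [hz]
  have hg : DifferentiableOn ℂ (fun z => (Φ z)⁻¹) (ball y r) := hΦ.inv hne
  have hg1 : ContDiffOn ℝ 1 (fun z => (Φ z)⁻¹) (ball y r) := (hg.contDiffOn isOpen_ball).restrict_scalars ℝ
  have hre : ContDiffOn ℝ 1 (fun z => ((Φ z)⁻¹).re) (ball y r) := Complex.reCLM.contDiff.comp_contDiffOn hg1
  have him : ContDiffOn ℝ 1 (fun z => ((Φ z)⁻¹).im) (ball y r) := Complex.imCLM.contDiff.comp_contDiffOn hg1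
  obtain ⟨a1, a2⟩ := key hre
  obtain ⟨b1, b2⟩ := key him
  obtain ⟨c1, c2⟩ := int (k := fun _ => 1) continuousOn_const hζ1 hζ0
  simp only [one_mul] at c1 c2
  have h3 : (∫ z, (ζ z : ℂ) * gradient η z) + ∫ z, (η z : ℂ) * gradient ζ z = 0 := by
    rw [← integral_add c1 c2, ← add_zero (0 : ℂ)]
    nth_rw 1 [← a2]
    rw [← mul_zero Complex.I, ← b2, ← integral_const_mul, ← integral_add a1 (b1.const_mul _)]
    congr 1
    funext z
    by_cases hz : z ∈ tsupport ζ
    · have hn := isOpen_ball.mem_nhds (hCB hz)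
      have hd := hζ1.differentiable one_ne_zero z
      rw [erema_mul hd ((hre.contDiffAt hn).differentiableAt one_ne_zero),
        erema_mul hd ((him.contDiffAt hn).differentiableAt one_ne_zero)]
      have e1 := erema_cr (hg.differentiableAt hn)
      have e2 : Φ z * (((Φ z)⁻¹).re + ((Φ z)⁻¹).im * Complex.I) = 1 := by
        rw [Complex.re_add_im, mul_inv_cancel₀ (hne z (hCB hz))]
      push_cast
      linear_combination (-(ζ z * gradient η z + η z * gradient ζ z)) * e2 - Φ z * η z * ζ z * e1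
    · have e : ∀ w : ℂ → ℝ, gradient (fun z => ζ z * w z) z = 0 := fun w =>
        erema_off hC (fun v hv => by rw [hζ0 v hv, zero_mul]) hz
      simp [erema_off hC hζ0 hz, e, hζ0 z hz]
  have h4 := congrArg (fun v => inner ℝ d v) h3
  simp only [inner_add_right, inner_zero_right, ← integral_inner c1, ← integral_inner c2] at h4
  simp only [← Complex.real_smul, real_inner_comm _ d, real_inner_smul_left, inner_gradient] at h4
  simp only [mul_comm _ (ζ _)]
  linarith

/-- locally constant functions are constant: `η = arctan ∘ Λ`; `weyl_field` for the real field `η` gives a holomorphic function that is a.e. (hence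
everywhere) real, so constant -/
theorem NoJump.const {K : Set ℂ} (hK : IsClosed K) (h0 : volume K = 0) {y : ℂ} {r : ℝ} (h : NoJump K y r) {Λ : ℂ → ℝ}
    (hΛ : LC (ball y r \ K) Λ) : ∃ c : ℝ, ∀ z ∈ ball y r \ K, Λ z = c := by
  rcases le_or_gt r 0 with hr | hr
  · exact ⟨0, fun z hz => by simp [ball_eq_empty.2 hr] at hz⟩
  have hW : IsOpen (ball y r \ K) := isOpen_ball.sdiff hK
  have hae : ∀ᵐ z, z ∉ K := compl_mem_ae_iff.2 h0
  set η : ℂ → ℝ := fun z => Real.arctan (Λ z) with hη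
  have hl : LC (ball y r \ K) η := fun z hz => (hΛ z hz).mono fun w hw => by simp only [hη, hw]
  have hb : ∀ z, |η z| ≤ π / 2 := fun z =>
    abs_le.2 ⟨(Real.neg_pi_div_two_lt_arctan _).le, (Real.arctan_lt_pi_div_two _).le⟩
  have hD : Dir η (ball y r) < ⊤ := by
    have : Dir η (ball y r) = 0 := by
      refine lintegral_eq_zero_of_ae_eq_zero ?_
      filter_upwards [ae_restrict_mem measurableSet_ball, ae_restrict_of_ae hae] with z h1 h2
      simp [hl.gradient_eq ⟨h1, h2⟩]
    simp [this]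
  have key : ∀ ψ : ℂ → ℝ, ContDiff ℝ (⊤ : ℕ∞) ψ → HasCompactSupport ψ → tsupport ψ ⊆ ball y r → ∀ d : ℂ,
      ∫ z, inner ℝ (d * η z) (gradient ψ z) = 0 := fun ψ h1 h2 h3 d => by
    have e : ∀ z, inner ℝ (d * η z) (gradient ψ z) = η z * fderiv ℝ ψ z d := fun z => by
      rw [← inner_gradient, mul_comm d, ← Complex.real_smul, real_inner_smul_left, real_inner_comm]
    simp only [e]
    rw [h η (locLip_of_contDiffOn hW (hl.contDiffOn 1)) ⟨_, fun z _ => hb z⟩ hD ψ h1 h2 h3 d, neg_eq_zero]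
    refine integral_eq_zero_of_ae ?_
    filter_upwards [hae] with z hz
    by_cases hz' : z ∈ ball y r
    · simp [← inner_gradient, hl.gradient_eq ⟨hz', hz⟩]
    · simp [image_eq_zero_of_notMem_tsupport fun h => hz' (h3 h)]
  have hc : ContinuousOn (fun z => (η z : ℂ)) (ball y r \ K) :=
    Complex.continuous_ofReal.comp_continuousOn (hl.contDiffOn 0).continuousOn
  have hi : IntegrableOn (fun z => (η z : ℂ)) (ball y r) := by
    refine IntegrableOn.congr_set_ae (t := ball y r \ K) ⟨hc.aestronglyMeasurable hW.measurableSet,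
      .restrict_of_bounded (C := π / 2) ((measure_mono sdiff_subset).trans_lt measure_ball_lt_top)
        (Eventually.of_forall fun z => by simpa using hb z)⟩ (sdiff_null_ae_eq_self h0).symm
  obtain ⟨H, hH, hHe⟩ := weyl_field isOpen_ball hi.locallyIntegrableOn
    (fun ψ h1 h2 h3 => by simpa only [one_mul] using key ψ h1 h2 h3 1) fun ψ h1 h2 h3 => key ψ h1 h2 h3 _
  have him : EqOn (fun z => (H z).im) (fun _ => 0) (ball y r) :=
    Measure.eqOn_open_of_ae_eq (μ := volume) ((ae_restrict_iff' measurableSet_ball).2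
      (hHe.mono fun z hz hz' => by simp [hz hz'])) isOpen_ball
      (Complex.continuous_im.comp_continuousOn hH.continuousOn) continuousOn_const
  obtain ⟨c, hc'⟩ := (hH.analyticOnNhd isOpen_ball).eq_const_of_im_eq_const him isOpen_ball
    (isConnected_ball hr)
  have he : EqOn (fun z => (η z : ℂ)) (fun _ => c) (ball y r \ K) :=
    Measure.eqOn_open_of_ae_eq (μ := volume) ((ae_restrict_iff' hW.measurableSet).2
      (hHe.mono fun z hz hz' => by simpa [hc' z hz'.1] using (hz hz'.1).symm)) hW hc continuousOn_const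
  refine ⟨Real.tan c.re, fun z hz => ?_⟩
  rw [← show (η z : ℂ) = c from he hz, Complex.ofReal_re, Real.tan_arctan]

theorem erem_int {K : Set ℂ} {u : ℂ → ℝ} (h : Glob K u) {y : ℂ} {r : ℝ} (hr : 0 < r) {g : ℂ → ℝ} (hg : Continuous g)
    (hc : HasCompactSupport g) (hs : tsupport g ⊆ ball y r) (d : ℂ) : Integrable fun z => fderiv ℝ u z d * g z := by
  obtain ⟨C, hC⟩ := hg.bounded_above_of_compact_support hc
  have i1 : IntegrableOn (fun z => fderiv ℝ u z d) (ball y r) :=
    ((h.ms.ce1_int hr.le (subset_univ _)).1.mul_const ‖d‖).mono'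
      (measurable_fderiv_apply_const ℝ u d).aestronglyMeasurable (Eventually.of_forall fun z => tl2_fderiv_le u z d)
  refine (integrableOn_iff_integrable_of_support_subset (s := ball y r) fun z hz => ?_).1
    (i1.mul_bdd hg.aestronglyMeasurable (Eventually.of_forall hC))
  exact hs (subset_tsupport g (right_ne_zero_of_mul hz))

theorem erem_curl {K : Set ℂ} {u : ℂ → ℝ} (h : Glob K u) {y : ℂ} {r : ℝ} (hr : 0 < r) (hn : NoJump K y r)
    (ψ : ℂ → ℝ) (hψ : ContDiff ℝ (⊤ : ℕ∞) ψ) (hc : HasCompactSupport ψ) (hs : tsupport ψ ⊆ ball y r) :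
    ∫ z, inner ℝ (Complex.I * gradient u z) (gradient ψ z) = 0 := by
  have hK := h.ms.closed
  have hW : IsOpen (ball y r \ K) := isOpen_ball.sdiff hK
  have hae : ∀ᵐ z, z ∉ K := compl_mem_ae_iff.2 h.vol_zero
  have h2 : ContDiff ℝ 2 ψ := hψ.of_le (WithTop.coe_le_coe.2 le_top)
  have c1 : ∀ e, ContDiff ℝ (⊤ : ℕ∞) fun z => fderiv ℝ ψ z e := fun e =>
    (hψ.fderiv_right (m := (⊤ : ℕ∞)) le_rfl).clm_apply contDiff_const
  have c2 : ∀ e, HasCompactSupport fun z => fderiv ℝ ψ z e := fun e => hc.fderiv_apply ℝ e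
  have c3 : ∀ e, tsupport (fun z => fderiv ℝ ψ z e) ⊆ ball y r := fun e => (tsupport_fderiv_apply_subset ℝ e).trans hs
  have hi := fun d e => erem_int h hr (c1 e).continuous (c2 e) (c3 e) d
  choose Φ s1 s2 s3 s4 s5 s6 using fun n : ℕ => exists_trunc ((n : ℝ) + 1) (by positivity)
  have hu : ∀ z ∉ K, DifferentiableAt ℝ u z := fun z hz =>
    (h.ms.c1.contDiffAt ((isOpen_univ.sdiff hK).mem_nhds ⟨trivial, hz⟩)).differentiableAt one_ne_zero
  have fd : ∀ n, ∀ z ∉ K, fderiv ℝ (fun w => Φ n (u w)) z = deriv (Φ n) (u z) • fderiv ℝ u z := fun n z hz =>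
    (((s1 n).differentiable (by simp) _).hasDerivAt.comp_hasFDerivAt z (hu z hz).hasFDerivAt).fderiv
  have lim : ∀ d e, Tendsto (fun n => ∫ z, fderiv ℝ (fun w => Φ n (u w)) z d * fderiv ℝ ψ z e) atTop
      (𝓝 (∫ z, fderiv ℝ u z d * fderiv ℝ ψ z e)) := fun d e => by
    refine tendsto_integral_of_dominated_convergence _ (fun n => ((measurable_fderiv_apply_const ℝ _ d).mul
      (measurable_fderiv_apply_const ℝ _ e)).aestronglyMeasurable) (hi d e).norm (fun n => ?_) ?_
    · filter_upwards [hae] with z hz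
      rw [fd n z hz, smul_apply, smul_eq_mul, mul_assoc, norm_mul, Real.norm_of_nonneg (s4 n _).1]
      exact mul_le_of_le_one_left (norm_nonneg _) (s4 n _).2
    · filter_upwards [hae] with z hz
      refine tendsto_const_nhds.congr' ?_
      filter_upwards [tendsto_natCast_atTop_atTop.eventually_ge_atTop |u z|] with n hn
      rw [fd n z hz, s3 n _ (by linarith), one_smul]
  have eq : ∀ n, ∫ z, fderiv ℝ (fun w => Φ n (u w)) z 1 * fderiv ℝ ψ z Complex.I =
      ∫ z, fderiv ℝ (fun w => Φ n (u w)) z Complex.I * fderiv ℝ ψ z 1 := fun n => by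
    have hD : Dir (fun w => Φ n (u w)) (ball y r) < ⊤ := by
      refine lt_of_le_of_lt (lintegral_mono_ae ?_) (h.growth y hr |>.trans_lt ENNReal.ofReal_lt_top)
      filter_upwards [ae_restrict_of_ae hae] with z hz
      refine pow_le_pow_left' (enorm_le_iff_norm_le.2 ?_) 2
      rw [norm_gradient, norm_gradient, fd n z hz, norm_smul, Real.norm_of_nonneg (s4 n _).1]
      exact mul_le_of_le_one_left (norm_nonneg _) (s4 n _).2
    have ibp := fun d e => hn (fun w => Φ n (u w)) (locLip_of_contDiffOn hW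
      (((s1 n).of_le (by simp)).comp_contDiffOn (h.ms.c1.mono fun z hz => ⟨trivial, hz.2⟩)))
      ⟨_, fun z _ => s6 n _⟩ hD _ (c1 e) (c2 e) (c3 e) d
    have a1 := ibp 1 Complex.I
    have a2 := ibp Complex.I 1
    simp only [fun z => tl2_symm (h2.contDiffAt (x := z)) Complex.I 1] at a1
    linarith
  have e1 : ∀ z, inner ℝ (Complex.I * gradient u z) (gradient ψ z) =
      fderiv ℝ u z 1 * fderiv ℝ ψ z Complex.I - fderiv ℝ u z Complex.I * fderiv ℝ ψ z 1 := fun z => by
    rw [tl2_grad u, tl2_grad ψ]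
    simp
    ring
  simp only [e1]
  rw [integral_sub (hi _ _) (hi _ _), sub_eq_zero]
  exact tendsto_nhds_unique ((lim 1 Complex.I).congr eq) (lim _ _)

theorem erem_glue {K B : Set ℂ} (hK : IsClosed K) (hB : IsOpen B) {f g : ℂ → ℝ} (h : ∀ z ∈ B \ K, f z = g z) :
    ∃ w : ℂ → ℝ, (∀ z ∈ B, w =ᶠ[𝓝 z] g) ∧ ∀ z ∉ K, w =ᶠ[𝓝 z] f := by
  classical
  refine ⟨B.piecewise g f, fun z hz => (hB.eventually_mem hz).mono fun w hw => piecewise_eq_of_mem _ _ _ hw,
    fun z hz => (hK.isOpen_compl.eventually_mem hz).mono fun w hw => ?_⟩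
  by_cases hb : w ∈ B
  · rw [piecewise_eq_of_mem _ _ _ hb, h w ⟨hb, hw⟩]
  · exact piecewise_eq_of_notMem _ _ _ hb

/-- `∇u` is curl-free in the ball (`η = Φ_M(u)`, `ζ = ∂ψ`, `M → ∞`) and divergence-free (`Glob.orth`), `weyl_field`, `exists_potential` `v`; `u - v` is
locally constant off `K`, hence constant; remove `K ∩ ball y (r/2)` with `w = v + c` (`Adm` by `NoJump.const`): `Lr K y (r/2) = 0` contradicts `dlb`. -/
theorem removable {K : Set ℂ} {u : ℂ → ℝ} (h : Glob K u) {y : ℂ} (hy : y ∈ K) {r : ℝ} (hr : 0 < r) (hn : NoJump K y r) :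
    False := by
  have hK := h.ms.closed
  have hW : IsOpen (ball y r \ K) := isOpen_ball.sdiff hK
  have hae : ∀ᵐ z, z ∉ K := compl_mem_ae_iff.2 h.vol_zero
  have hi : IntegrableOn (gradient u) (ball y r) :=
    (h.ms.ce1_int hr.le (subset_univ _)).1.mono' (measurable_gradient u).aestronglyMeasurable
      (Eventually.of_forall fun _ => le_rfl)
  obtain ⟨H, hH, hHe⟩ := weyl_field isOpen_ball hi.locallyIntegrableOn
    (fun ψ h1 h2 _ => h.orth ψ (Tst.of_smooth K (h1.of_le (by simp)) h2)) (erem_curl h hr hn)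
  obtain ⟨v, hv⟩ := exists_potential hH
  have hv1 : ∀ z ∈ ball y r, ContDiffAt ℝ 1 v z := fun z hz =>
    contDiffAt_one_iff.2 ⟨fun w => InnerProductSpace.toDual ℝ ℂ (conj (H w)), ball y r, isOpen_ball.mem_nhds hz,
      (InnerProductSpace.toDual ℝ ℂ).continuous.comp_continuousOn
        (Complex.continuous_conj.comp_continuousOn hH.continuousOn), fun w hw => (hv w hw).hasFDerivAt⟩
  have hu1 : ∀ z ∉ K, ContDiffAt ℝ 1 u z := fun z hz =>
    h.ms.c1.contDiffAt ((isOpen_univ.sdiff hK).mem_nhds ⟨trivial, hz⟩)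
  have hL : LC (ball y r \ K) fun z => u z - v z := by
    refine LC_of_grad_zero hW (locLip_of_contDiffOn hW fun z hz =>
      ((hu1 z hz.2).sub (hv1 z hz.1)).contDiffWithinAt) (hHe.mono fun z hz hz' => ?_)
    have a1 := ((hu1 z hz'.2).differentiableAt one_ne_zero).hasGradientAt.hasFDerivAt
    have a2 := (hv z hz'.1).hasFDerivAt
    rw [hz hz'.1, Complex.conj_conj] at a2
    rw [gradient, (a1.fun_sub a2).fderiv, sub_self, map_zero]
  obtain ⟨c, hc⟩ := hn.const hK h.vol_zero hL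
  obtain ⟨w, g1, g2⟩ := erem_glue hK isOpen_ball (f := u) (g := fun z => v z + c) fun z hz => by
    linarith [hc z hz]
  have hsub : ball y (r / 2) ⊆ ball y r := ball_subset_ball (by linarith)
  have cases : ∀ z ∈ univ \ (K \ ball y (r / 2)), z ∈ ball y r ∨ z ∉ K := fun z hz => by
    by_contra hcon
    push Not at hcon
    exact hz.2 ⟨hcon.2, fun hb => hcon.1 (hsub hb)⟩
  have out : ∀ z ∈ (univ \ (K \ ball y (r / 2))) \ closedBall y (r / 2), z ∉ K := fun z hz hk =>
    hz.1.2 ⟨hk, fun hb => hz.2 (ball_subset_closedBall hb)⟩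
  have key := h.ms.min (K \ ball y (r / 2)) w y (r / 2) (subset_univ _)
    ⟨hK.sdiff isOpen_ball, by rw [sdiff_sdiff, union_eq_right.2 ball_subset_closedBall],
      fun z hz => (g2 z (out z hz)).eq_of_nhds,
      locLip_of_contDiffOn (isOpen_univ.sdiff (hK.sdiff isOpen_ball)) fun z hz =>
        ((cases z hz).elim (fun a => ((hv1 z a).add contDiffAt_const).congr_of_eventuallyEq (g1 z a))
          fun a => (hu1 z a).congr_of_eventuallyEq (g2 z a)).contDiffWithinAt⟩
    fun Λ hΛ => by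
      obtain ⟨c', hc'⟩ := hn.const hK h.vol_zero (Λ := Λ) fun z hz => hΛ z ⟨trivial, hz.2⟩
      obtain ⟨Λ', k1, k2⟩ := erem_glue hK isOpen_ball (f := Λ) (g := fun _ => c') hc'
      refine ⟨Λ', fun z hz => ?_, fun z hz => (k2 z (out z hz)).eq_of_nhds⟩
      rcases cases z hz with a | a
      · exact (k1 z a).mono fun w hw => hw.trans (k1 z a).eq_of_nhds.symm
      · filter_upwards [k2 z a, hΛ z ⟨trivial, a⟩] with w h1 h2
        rw [h1, h2, (k2 z a).eq_of_nhds]
  have eD : Dir w (closedBall y (r / 2)) = Dir u (closedBall y (r / 2)) :=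
    lintegral_congr_ae ((ae_restrict_of_ae hae).mono fun z hz => by simp only [(g2 z hz).gradient_eq])
  rw [En, En, Err, ENNReal.ofReal_zero, zero_mul, add_zero, eD,
    ENNReal.add_le_add_iff_left (h.ms.Dir_lt_top (subset_univ _)).ne,
    ← measure_inter_add_sdiff (K ∩ closedBall y (r / 2)) (measurableSet_ball (x := y) (ε := r / 2)),
    inter_assoc, inter_eq_right.2 ball_subset_closedBall, inter_sdiff_right_comm] at key
  have fin : H1 ((K \ ball y (r / 2)) ∩ closedBall y (r / 2)) ≠ ⊤ :=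
    ((measure_mono (inter_subset_inter_left _ sdiff_subset)).trans_lt (h.ms.H1_lt_top (subset_univ _))).ne
  have z0 : H1 (K ∩ ball y (r / 2)) = 0 :=
    nonpos_iff_eq_zero.1 (ENNReal.le_of_add_le_add_right fin (key.trans_eq (zero_add _).symm))
  obtain ⟨c₀, hc₀, hd⟩ := h.dlb
  have := hd y hy (r / 2) (half_pos hr)
  rw [Lr, z0, ENNReal.toReal_zero] at this
  exact absurd this (not_le.2 (by positivity))

end Crest.Agent.R135
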