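import Crest.Agent.R135.Defs
import Crest.Agent.R135.MEL
import Crest.Agent.R135.VKer
set_option autoImplicit false
open MeasureTheory Metric Set Filter Topology
open scoped ENNReal NNReal Real ComplexConjugate

namespace Crest.Agent.R135

theorem ec_adm {K Q : Set ℂ} (hne : Q.Nonempty) {δ R₀ ρ : ℝ} (hδ : 0 < δ)
    (h1 : ∀ y, infDist y Q < 4 * δ → y ∉ K \ Q) (hR : Q ⊆ closedBall 0 R₀) (hρ : R₀ + 2 * δ ≤ ρ) {l : ℂ}
    (hl : ‖l‖ < δ) : Adm univ K ((K \ Q) ∪ (fun z => z - l) ⁻¹' (K ∩ Q)) 0 ρ := by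
  classical
  intro Λ hΛ
  have h0 : ∀ y, 0 < infDist y Q → y ∉ Q := fun y hy hq => by rw [infDist_zero_of_mem hq] at hy; exact lt_irrefl _ hy
  have hc : Continuous fun y : ℂ => infDist y Q := continuous_infDist_pt Q
  refine ⟨fun z => if infDist z Q < 2 * δ then Λ (z - l) else Λ z, fun z hz => ?_, fun z hz => ?_⟩
  · have hz1 : z ∉ K \ Q := fun h => hz.2 (Or.inl h)
    have hz2 : z - l ∉ K ∩ Q := fun h => hz.2 (Or.inr h)
    rcases lt_trichotomy (infDist z Q) (2 * δ) with hd | hd | hd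
    · have h2 : z - l ∉ K := by
        intro hk
        by_cases hq : z - l ∈ Q
        · exact hz2 ⟨hk, hq⟩
        · refine h1 (z - l) ?_ ⟨hk, hq⟩
          have := infDist_le_infDist_add_dist (x := z - l) (y := z) (s := Q)
          rw [dist_eq_norm, sub_sub_cancel_left, norm_neg] at this
          linarith
      have h3 : Tendsto (fun y : ℂ => y - l) (𝓝 z) (𝓝 (z - l)) := (continuous_id.sub continuous_const).tendsto z
      filter_upwards [h3.eventually (hΛ _ ⟨trivial, h2⟩), hc.continuousAt.eventually (gt_mem_nhds hd)] with y a1 a2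
      rw [if_pos a2, if_pos hd, a1]
    · have h2 : ball z (2 * δ) ⊆ univ \ K := by
        intro y hy
        have a1 := infDist_le_infDist_add_dist (x := z) (y := y) (s := Q)
        have a2 := infDist_le_infDist_add_dist (x := y) (y := z) (s := Q)
        have a3 := mem_ball.1 hy
        rw [dist_comm] at a1
        refine ⟨trivial, fun hk => h1 y (by linarith) ⟨hk, h0 y (by linarith)⟩⟩
      have h3 : ∀ y ∈ ball z (2 * δ), Λ y = Λ z := fun y hy =>
        hΛ.eq_of_preconnected (convex_ball z _).isPreconnected h2 hy (mem_ball_self (by linarith))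
      filter_upwards [ball_mem_nhds z hδ] with y hy
      have a3 := mem_ball.1 hy
      rw [if_neg (show ¬ infDist z Q < 2 * δ by rw [hd]; exact lt_irrefl _)]
      split_ifs
      · refine h3 _ (mem_ball.2 ?_)
        have := dist_triangle (y - l) y z
        rw [dist_eq_norm (y - l) y, sub_sub_cancel_left, norm_neg] at this
        linarith
      · exact h3 _ (mem_ball.2 (by linarith))
    · have h2 : z ∉ K := fun hk => hz1 ⟨hk, h0 z (by linarith)⟩
      filter_upwards [hΛ _ ⟨trivial, h2⟩, hc.continuousAt.eventually (lt_mem_nhds hd)] with y a1 a2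
      rw [if_neg (not_lt.2 a2.le), if_neg (not_lt.2 hd.le), a1]
  · have h2 : ρ < ‖z‖ := by simpa using hz.2
    have h3 : 2 * δ ≤ infDist z Q := by
      refine (le_infDist hne).2 fun y hy => ?_
      have a1 : ‖y‖ ≤ R₀ := by simpa using hR hy
      have a2 := norm_sub_norm_le z y
      rw [dist_eq_norm]
      linarith
    simp only [if_neg (not_lt.2 h3)]

theorem ec_len {K Q B : Set ℂ} (hQ : MeasurableSet Q) (hB : Q ⊆ B) (l : ℂ) :
    H1 (((K \ Q) ∪ (fun z => z - l) ⁻¹' (K ∩ Q)) ∩ B) ≤ H1 (K ∩ B) := by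
  have h1 := H1_preimage_affine (-l) 1 one_ne_zero (K ∩ Q)
  have e : (fun z : ℂ => -l + 1 * z) = fun z => z - l := by funext z; ring
  rw [e] at h1
  simp only [norm_one, ENNReal.ofReal_one, mul_one] at h1
  rw [← measure_inter_add_sdiff (K ∩ B) hQ, add_comm]
  refine le_trans (measure_mono (t := ((K ∩ B) \ Q) ∪ (fun z => z - l) ⁻¹' (K ∩ Q)) ?_) ((measure_union_le _ _).trans ?_)
  · rintro z ⟨h | h, hz⟩
    · exact Or.inl ⟨⟨h.1, hz⟩, h.2⟩
    · exact Or.inr h
  · rw [h1]
    exact add_le_add le_rfl (measure_mono fun z hz => ⟨⟨hz.1, hB hz.2⟩, hz.2⟩)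

theorem ec_grad {a b η ψ : ℂ → ℝ} {z l : ℂ} (ha : DifferentiableAt ℝ a z) (hl : DifferentiableAt ℝ a (z - l))
    (hb : DifferentiableAt ℝ b z) (hη : DifferentiableAt ℝ η z) (hψ : DifferentiableAt ℝ ψ z) :
    gradient (fun y => (b y + η y * a (y - l) + (1 - η y) * a y) + ψ y) z =
      gradient b z + gradient a z + (η z • (gradient a (z - l) - gradient a z) +
        (a (z - l) - a z) • gradient η z + gradient ψ z) := by
  have h1 : HasFDerivAt (fun y => a (y - l)) (fderiv ℝ a (z - l)) z := by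
    have := hl.hasFDerivAt.comp z ((hasFDerivAt_id z).sub_const l)
    rw [ContinuousLinearMap.comp_id] at this
    exact this
  have h2 := ((hb.hasFDerivAt.add (hη.hasFDerivAt.mul h1)).add
    ((hη.hasFDerivAt.const_sub 1).mul ha.hasFDerivAt)).add hψ.hasFDerivAt
  have h3 : fderiv ℝ (fun y => (b y + η y * a (y - l) + (1 - η y) * a y) + ψ y) z = _ := h2.fderiv
  simp only [gradient, h3, map_add, map_smul, map_neg, smul_neg]
  module

theorem ec_T2 : Integrable (fun z : ℂ => (1 / (1 + ‖z‖) ^ 2) ^ 2) := by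
  have h := integrable_one_add_norm (E := ℂ) (μ := volume) (r := 4) (by simp; norm_num)
  refine h.congr (Eventually.of_forall fun z => ?_)
  have : 0 < 1 + ‖z‖ := by positivity
  simp only
  rw [Real.rpow_neg this.le, show (4 : ℝ) = (4 : ℕ) by norm_num, Real.rpow_natCast]
  field_simp

theorem ec_mul_int {F : ℂ → ℂ} (hm : Measurable F) (hg : Grow F) {Y : ℂ → ℝ} (hY : Measurable Y) (hY0 : ∀ z, 0 ≤ Y z)
    (h2 : Integrable fun z => Y z ^ 2) {C R : ℝ} (hR : 1 ≤ R) (hd : ∀ᵐ z : ℂ, R ≤ ‖z‖ → Y z ≤ C / ‖z‖ ^ 2) :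
    Integrable fun z => ‖F z‖ * Y z := by
  rw [← integrableOn_univ, ← union_compl_self (ball (0 : ℂ) R)]
  refine IntegrableOn.union ?_ ?_
  · obtain ⟨A, hA⟩ := hg
    have h1 : IntegrableOn (fun z => ‖F z‖ ^ 2) (ball (0 : ℂ) R) := by
      refine ⟨(hm.norm.pow_const 2).aestronglyMeasurable, ?_⟩
      refine lt_of_le_of_lt (le_of_eq ?_) ((hA R hR).trans_lt ENNReal.ofReal_lt_top)
      simp only [enorm_pow, enorm_norm]
    refine Integrable.mono' (h1.add h2.integrableOn) (hm.norm.mul hY).aestronglyMeasurable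
      (Eventually.of_forall fun z => ?_)
    rw [Real.norm_of_nonneg (mul_nonneg (norm_nonneg _) (hY0 z))]
    simp only [Pi.add_apply]
    nlinarith [sq_nonneg (‖F z‖ - Y z), mul_nonneg (norm_nonneg (F z)) (hY0 z)]
  · have h1 := ((hg.tail hm).mono_set (compl_subset_compl.2 (ball_subset_ball hR))).const_mul C
    refine Integrable.mono' h1 (hm.norm.mul hY).aestronglyMeasurable ?_
    filter_upwards [ae_restrict_of_ae hd, ae_restrict_mem measurableSet_ball.compl] with z a1 a2
    have a3 : R ≤ ‖z‖ := by simpa using a2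
    rw [Real.norm_of_nonneg (mul_nonneg (norm_nonneg _) (hY0 z))]
    calc ‖F z‖ * Y z ≤ ‖F z‖ * (C / ‖z‖ ^ 2) := mul_le_mul_of_nonneg_left (a1 a3) (norm_nonneg _)
      _ = C * (‖F z‖ / ‖z‖ ^ 2) := by ring

/-- the competitor inequality for one cutoff -/
theorem ec_min {K Q : Set ℂ} {u a b : ℂ → ℝ} (h : Glob K u) (hQ : Isl K Q) (hs : Split K Q u a b) {δ R₀ R : ℝ}
    (hδ : 0 < δ) (h1 : ∀ y, infDist y Q < 4 * δ → y ∉ K \ Q) (hR : Q ⊆ closedBall 0 R₀) (hρ : R₀ + 2 * δ ≤ R)
    (hR0 : 0 < R) {l : ℂ} (hl : ‖l‖ < δ) {ψ η : ℂ → ℝ} (hψ : LocallyLipschitzOn (K \ Q)ᶜ ψ)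
    (hψ0 : ∀ z ∉ K \ Q, R ≤ ‖z‖ → ψ z = 0) (hη : ContDiff ℝ (⊤ : ℕ∞) η) (hη1 : ∀ z ∈ closedBall (0 : ℂ) R, η z = 1)
    (hη0 : ∀ z ∉ ball (0 : ℂ) (2 * R), η z = 0) (hη2 : ∀ z ∉ closedBall (0 : ℂ) (2 * R), gradient η z = 0)
    {X : ℂ → ℂ} (hX : ∀ z, X z = η z • (gradient a (z - l) - gradient a z) +
        (a (z - l) - a z) • gradient η z + gradient ψ z)
    (hi : Integrable fun z => 2 * inner ℝ (gradient b z + gradient a z) (X z) + ‖X z‖ ^ 2) :
    0 ≤ ∫ z, (2 * inner ℝ (gradient b z + gradient a z) (X z) + ‖X z‖ ^ 2) := by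
  set K' : Set ℂ := (K \ Q) ∪ (fun z => z - l) ⁻¹' (K ∩ Q) with hK'
  set w : ℂ → ℝ := fun y => (b y + η y * a (y - l) + (1 - η y) * a y) + ψ y with hw
  have hK0 : IsClosed (K ∩ Q) := h.ms.closed.inter hQ.cpt.isClosed
  have hcl : IsClosed K' := hQ.closed.union (hK0.preimage (continuous_id.sub continuous_const))
  have hfar : ∀ z : ℂ, R ≤ ‖z‖ → z ∉ Q ∧ z - l ∉ Q := by
    intro z hz
    refine ⟨fun hq => ?_, fun hq => ?_⟩
    · have a1 : ‖z‖ ≤ R₀ := by simpa using hR hq
      linarith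
    · have a1 : ‖z - l‖ ≤ R₀ := by simpa using hR hq
      have a2 := norm_sub_norm_le z l
      linarith
  have hη' : ContDiff ℝ 1 η := hη.of_le (by simp)
  have ca : ∀ z ∉ K ∩ Q, ContDiffAt ℝ 1 a z := fun z hz =>
    (hs.ca.contDiffAt (hK0.isOpen_compl.mem_nhds hz)).of_le (by norm_num)
  have cb : ∀ z ∉ K \ Q, ContDiffAt ℝ 1 b z := fun z hz =>
    (hs.cb.contDiffAt (hQ.closed.isOpen_compl.mem_nhds hz)).of_le (by norm_num)
  have hc : Comp univ K u K' w 0 (2 * R) := by
    refine ⟨hcl, ?_, fun z hz => ?_, ?_⟩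
    · ext z
      simp only [hK', Set.mem_sdiff, mem_union, mem_preimage, mem_inter_iff, mem_closedBall, dist_zero_right, not_le]
      constructor
      · rintro ⟨h2 | h2, h3⟩
        · exact ⟨h2.1, h3⟩
        · exact absurd h2.2 (hfar z (by linarith)).2
      · rintro ⟨h2, h3⟩
        exact ⟨Or.inl ⟨h2, (hfar z (by linarith)).1⟩, h3⟩
    · have a1 : 2 * R < ‖z‖ := by simpa using hz.2
      have a2 : z ∉ K \ Q := fun hk => hz.1.2 (Or.inl hk)
      have a3 : z ∉ K := fun hk => a2 ⟨hk, (hfar z (by linarith)).1⟩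
      simp only [hw, hη0 z (by simpa using a1.le), hψ0 z a2 (by linarith), hs.sum z a3]
      ring
    · have e : univ \ K' = K'ᶜ := by ext; simp
      rw [e]
      refine LocallyLipschitzOn.add (locLip_of_contDiffOn hcl.isOpen_compl fun z hz => ?_)
        (hψ.mono (compl_subset_compl.2 subset_union_left))
      have a2 : z ∉ K \ Q := fun hk => hz (Or.inl hk)
      have a3 : z - l ∉ K ∩ Q := fun hk => hz (Or.inr hk)
      refine (((cb z a2).add (hη'.contDiffAt.mul
        ((ca _ a3).comp z (contDiffAt_id.sub contDiffAt_const)))).add ?_).contDiffWithinAt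
      by_cases a4 : z ∈ K ∩ Q
      · have a5 : ‖z‖ < R := lt_of_not_ge fun hh => (hfar z hh).1 a4.2
        refine (contDiffAt_const (c := (0 : ℝ))).congr_of_eventuallyEq ?_
        filter_upwards [isOpen_ball.mem_nhds (mem_ball_zero_iff.2 a5)] with y hy
        rw [hη1 y (ball_subset_closedBall hy)]
        ring
      · exact (contDiffAt_const.sub hη'.contDiffAt).mul (ca z a4)
  have hm := h.ms.min K' w 0 (2 * R) (subset_univ _) hc
    (ec_adm (hQ.ne.mono inter_subset_right) hδ h1 hR (by linarith) hl)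
  have hQB : Q ⊆ closedBall 0 (2 * R) := hR.trans (closedBall_subset_closedBall (by linarith))
  have h5 : Dir u (closedBall 0 (2 * R)) ≤ Dir w (closedBall 0 (2 * R)) := by
    simp only [En, Err, ENNReal.ofReal_zero, zero_mul, add_zero] at hm
    exact ENNReal.le_of_add_le_add_right (h.ms.H1_lt_top (subset_univ _)).ne
      (hm.trans (add_le_add le_rfl (ec_len hQ.cpt.measurableSet hQB l)))
  have hK : ∀ᵐ z, z ∉ K := measure_eq_zero_iff_ae_notMem.1 h.vol_zero
  have hae : ∀ᵐ z, ‖gradient w z‖ ^ 2 = ‖gradient u z‖ ^ 2 +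
      (2 * inner ℝ (gradient b z + gradient a z) (X z) + ‖X z‖ ^ 2) := by
    filter_upwards [hK, (measurePreserving_sub_right volume l).quasiMeasurePreserving.ae hK,
      ae_diff_of_locLip hQ.closed.isOpen_compl hψ] with z a1 a2 a3
    have da := (ca z fun hk => a1 hk.1).differentiableAt one_ne_zero
    have db := (cb z fun hk => a1 hk.1).differentiableAt one_ne_zero
    have e1 : gradient u z = gradient b z + gradient a z := by
      have : u =ᶠ[𝓝 z] fun y => b y + a y := by
        filter_upwards [h.ms.closed.isOpen_compl.mem_nhds a1] with y hy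
        rw [hs.sum y hy, add_comm]
      rw [this.gradient_eq]
      simp only [gradient, fderiv_fun_add db da, map_add]
    rw [hw, ec_grad da ((ca _ fun hk => a2 hk.1).differentiableAt one_ne_zero) db
      (hη'.differentiable one_ne_zero z) (a3 fun hk => a1 hk.1), ← hX, e1, norm_add_sq_real]
    ring
  have iu := mela_iff.1 (h.ms.Dir_lt_top (x := 0) (ρ := 2 * R) (subset_univ _))
  have iw : IntegrableOn (fun z => ‖gradient w z‖ ^ 2) (closedBall 0 (2 * R)) :=
    (iu.add hi.integrableOn).congr (ae_restrict_of_ae (hae.mono fun z hz => hz.symm))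
  have h6 := ENNReal.toReal_mono (mela_iff.2 iw).ne h5
  rw [mela_toReal, mela_toReal, integral_congr_ae (ae_restrict_of_ae hae), integral_add iu hi.integrableOn] at h6
  rw [← setIntegral_eq_integral_of_ae_compl_eq_zero (s := closedBall 0 (2 * R))]
  · linarith
  · filter_upwards [hK] with z a1 a2
    have a3 : 2 * R < ‖z‖ := by simpa using a2
    have a4 : gradient ψ z = 0 := by
      refine melb_zero ?_
      filter_upwards [h.ms.closed.isOpen_compl.mem_nhds a1,
        (isOpen_lt continuous_const continuous_norm).mem_nhds (show R < ‖z‖ by linarith)] with y b1 b2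
      exact hψ0 y (fun hk => b1 hk.1) (le_of_lt b2)
    simp [hX, hη0 z (by simpa using a3.le), hη2 z a2, a4]

theorem ec_sq {f g : ℂ → ℝ} (hf : Measurable f) (hg : Measurable g) (h1 : Integrable fun z => f z ^ 2)
    (h2 : Integrable fun z => g z ^ 2) : Integrable fun z => (f z + g z) ^ 2 := by
  refine Integrable.mono' ((h1.add h2).const_mul 2) ((hf.add hg).pow_const 2).aestronglyMeasurable
    (Eventually.of_forall fun z => ?_)
  rw [Real.norm_of_nonneg (sq_nonneg _)]
  simp only [Pi.add_apply]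
  nlinarith [sq_nonneg (f z - g z)]

theorem ec_inner {F G : ℂ → ℂ} {Y : ℂ → ℝ} (hF : Measurable F) (hG : Measurable G)
    (h : Integrable fun z => ‖F z‖ * Y z) (hle : ∀ z, ‖G z‖ ≤ Y z) : Integrable fun z => inner ℝ (F z) (G z) := by
  refine Integrable.mono' h (hF.inner hG).aestronglyMeasurable (Eventually.of_forall fun z => ?_)
  exact (norm_inner_le_norm (𝕜 := ℝ) _ _).trans (mul_le_mul_of_nonneg_left (hle z) (norm_nonneg _))

theorem ec_mul2 {F : ℂ → ℂ} {Y : ℂ → ℝ} (hF : Measurable F) (hY : Measurable Y) (h1 : Integrable fun z => ‖F z‖ ^ 2)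
    (h2 : Integrable fun z => Y z ^ 2) : Integrable fun z => ‖F z‖ * Y z := by
  refine Integrable.mono' (h1.add h2) (hF.norm.mul hY).aestronglyMeasurable (Eventually.of_forall fun z => ?_)
  rw [Real.norm_eq_abs, abs_mul, abs_norm]
  simp only [Pi.add_apply]
  nlinarith [sq_nonneg (‖F z‖ - |Y z|), sq_abs (Y z), mul_nonneg (norm_nonneg (F z)) (abs_nonneg (Y z))]

/-- Earnshaw's competitor: translate the island. Take `δ > 0` with `cthickening (4δ) Q` disjoint from `K \ Q`, `r = δ`.
`K' = (K \ Q) ∪ ((K ∩ Q) + λ)`, `w = b + η_R a(·-λ) + (1-η_R) a + ψ` in `closedBall 0 (2R)` (`exists_cutoff`). `Adm`: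
`Λ' z = if infDist z Q < 2δ then Λ (z-λ) else Λ z` (near `infDist = 2δ` a ball of radius `2δ` misses `K`). Lengths are equal. Expand the energies,
let `R → ∞` by dominated convergence. -/
theorem split_comp {K Q : Set ℂ} {u a b : ℂ → ℝ} (h : Glob K u) (hQ : Isl K Q) (hs : Split K Q u a b) :
    ∃ r : ℝ, 0 < r ∧ ∀ l : ℂ, ‖l‖ < r → Integrable (fun z => inner ℝ (gradient b z) (gradient a (z - l))) ∧
      ∀ ψ : ℂ → ℝ, Tst (K \ Q) ψ →
        0 ≤ 2 * ((∫ z, inner ℝ (gradient b z) (gradient a (z - l))) - ∫ z, inner ℝ (gradient b z) (gradient a z)) +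
          2 * (∫ z, inner ℝ (gradient b z + gradient a (z - l)) (gradient ψ z)) + (Dir ψ univ).toReal := by
  have hne : Q.Nonempty := hQ.ne.mono inter_subset_right
  obtain ⟨δ₀, hδ₀, hth⟩ := hQ.cpt.exists_cthickening_subset_open hQ.closed.isOpen_compl (fun z hz hk => hk.2 hz)
  set δ : ℝ := min (δ₀ / 4) 1 with hδdef
  have hδ : 0 < δ := lt_min (by linarith) one_pos
  have hδ1 : δ ≤ 1 := min_le_right _ _
  have h1 : ∀ y, infDist y Q < 4 * δ → y ∉ K \ Q := fun y hy =>
    hth (thickening_subset_cthickening _ _ ((mem_thickening_iff_infDist_lt hne).2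
      (by have := min_le_left (δ₀ / 4) 1; linarith)))
  obtain ⟨R₀, hR₀⟩ := hQ.cpt.isBounded.subset_closedBall (0 : ℂ)
  obtain ⟨A, Ra, hRa, hdec⟩ := hs.dec
  have hA : 0 ≤ A := by
    have h2 := (hdec (Ra : ℂ) (by simp [abs_of_pos hRa])).1
    have h3 : 0 < ‖(Ra : ℂ)‖ := by simpa using hRa.ne'
    exact (div_nonneg_iff.1 ((abs_nonneg _).trans h2)).elim (·.1) fun hh => absurd hh.2 (not_le.2 h3)
  have ma := measurable_gradient a
  have mb := measurable_gradient b
  have gb : Grow (gradient b) := hs.grow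
  have ia : Integrable fun z => ‖gradient a z‖ ^ 2 := integrableOn_univ.1 (mela_iff.1 hs.fin)
  refine ⟨δ, hδ, fun l hl => ?_⟩
  have ml : Measurable fun z => gradient a (z - l) := ma.comp (measurable_id.sub_const l)
  have il : Integrable fun z => ‖gradient a (z - l)‖ ^ 2 := ia.comp_sub_right l
  have hfar : ∀ z : ℂ, Ra + 2 ≤ ‖z‖ → |a (z - l)| ≤ 2 * A / ‖z‖ ∧ ‖gradient a (z - l)‖ ≤ 4 * A / ‖z‖ ^ 2 := by
    intro z hz
    have a1 := norm_sub_norm_le z l
    have a2 : ‖z‖ / 2 ≤ ‖z - l‖ := by linarith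
    have a3 : 0 < ‖z‖ := by linarith
    obtain ⟨b1, b2⟩ := hdec (z - l) (by linarith)
    refine ⟨b1.trans ?_, b2.trans ?_⟩
    · calc A / ‖z - l‖ ≤ A / (‖z‖ / 2) := div_le_div_of_nonneg_left hA (by positivity) a2
        _ = 2 * A / ‖z‖ := by field_simp
    · calc A / ‖z - l‖ ^ 2 ≤ A / (‖z‖ / 2) ^ 2 := div_le_div_of_nonneg_left hA (by positivity) (by gcongr)
        _ = 4 * A / ‖z‖ ^ 2 := by field_simp; ring
  have i1 : Integrable fun z => inner ℝ (gradient b z) (gradient a (z - l)) :=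
    ec_inner mb ml (ec_mul_int mb gb ml.norm (fun _ => norm_nonneg _) il (C := 4 * A) (R := Ra + 2) (by linarith)
      (Eventually.of_forall fun z hz => (hfar z hz).2)) fun _ => le_rfl
  refine ⟨i1, fun ψ hψ => ?_⟩
  obtain ⟨Rψ, hRψ⟩ := hψ.supp
  have mp := measurable_gradient ψ
  have ip : Integrable fun z => ‖gradient ψ z‖ ^ 2 := integrableOn_univ.1 (mela_iff.1 hψ.fin)
  have hK : ∀ᵐ z, z ∉ K := measure_eq_zero_iff_ae_notMem.1 h.vol_zero
  have hp0 : ∀ᵐ z, Rψ + 1 ≤ ‖z‖ → gradient ψ z = 0 := by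
    filter_upwards [hK] with z a1 a2
    refine melb_zero ?_
    filter_upwards [h.ms.closed.isOpen_compl.mem_nhds a1,
      (isOpen_lt continuous_const continuous_norm).mem_nhds (show Rψ < ‖z‖ by linarith)] with y b1 b2
    exact hRψ y (fun hk => b1 hk.1) (le_of_lt b2)
  obtain ⟨B, hB⟩ := exists_cutoff
  choose! η hη using hB 0
  have hB0 : 0 ≤ B := by simpa using (norm_nonneg _).trans ((hη 1 one_pos).2.2.2.2.1 0)
  set R₁ : ℝ := max (max (R₀ + 2) (Ra + 2)) (Rψ + 1) with hR₁
  have r1 : R₀ + 2 ≤ R₁ := (le_max_left _ _).trans (le_max_left _ _)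
  have r2 : Ra + 2 ≤ R₁ := (le_max_right _ _).trans (le_max_left _ _)
  have r3 : Rψ + 1 ≤ R₁ := le_max_right _ _
  set Y : ℂ → ℝ := fun z => ‖gradient a (z - l)‖ + ‖gradient a z‖ + ‖gradient ψ z‖ + 24 * A * B * (1 / (1 + ‖z‖) ^ 2)
    with hY
  have mT : Measurable fun z : ℂ => 24 * A * B * (1 / (1 + ‖z‖) ^ 2) := by fun_prop
  have mY : Measurable Y := ((ml.norm.add ma.norm).add mp.norm).add mT
  have hT0 : ∀ z : ℂ, 0 ≤ 24 * A * B * (1 / (1 + ‖z‖) ^ 2) := fun z => by positivity
  have hY0 : ∀ z, 0 ≤ Y z := fun z => by have := hT0 z; positivity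
  have iY : Integrable fun z => Y z ^ 2 := by
    refine ec_sq ((ml.norm.add ma.norm).add mp.norm) mT
      (ec_sq (ml.norm.add ma.norm) mp.norm (ec_sq ml.norm ma.norm il ia) ip) ?_
    exact (ec_T2.const_mul ((24 * A * B) ^ 2)).congr (Eventually.of_forall fun z => (mul_pow _ _ _).symm)
  have iYb : Integrable fun z => ‖gradient b z‖ * Y z := by
    refine ec_mul_int mb gb mY hY0 iY (C := 5 * A + 24 * A * B) (R := R₁) (by linarith) ?_
    filter_upwards [hp0] with z a1 a2
    have a3 : 0 < ‖z‖ := by linarith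
    have a4 : 1 / (1 + ‖z‖) ^ 2 ≤ 1 / ‖z‖ ^ 2 := by gcongr; linarith
    have a5 := mul_le_mul_of_nonneg_left a4 (show 0 ≤ 24 * A * B by positivity)
    have a6 := (hfar z (by linarith)).2
    have a7 := (hdec z (by linarith)).2
    simp only [hY, a1 (by linarith), norm_zero]
    have e : (5 * A + 24 * A * B) / ‖z‖ ^ 2 = 4 * A / ‖z‖ ^ 2 + A / ‖z‖ ^ 2 + 24 * A * B * (1 / ‖z‖ ^ 2) := by ring
    linarith
  have iYa := ec_mul2 ma mY ia iY
  set X : ℕ → ℂ → ℂ := fun n z => η (R₁ + n) z • (gradient a (z - l) - gradient a z) +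
    (a (z - l) - a z) • gradient (η (R₁ + n)) z + gradient ψ z with hX
  have hRn : ∀ n : ℕ, R₁ ≤ R₁ + n := fun n => le_add_of_nonneg_right (Nat.cast_nonneg n)
  have hRn0 : ∀ n : ℕ, 0 < R₁ + n := fun n => by have := hRn n; linarith
  have hXY : ∀ n z, ‖X n z‖ ≤ Y z := by
    intro n z
    obtain ⟨-, c1, -, -, c2, c3, c4⟩ := hη _ (hRn0 n)
    have d1 : ‖η (R₁ + n) z • (gradient a (z - l) - gradient a z)‖ ≤ ‖gradient a (z - l)‖ + ‖gradient a z‖ := by
      rw [norm_smul, Real.norm_of_nonneg (c1 z).1]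
      exact (mul_le_of_le_one_left (norm_nonneg _) (c1 z).2).trans (norm_sub_le _ _)
    have d2 : ‖(a (z - l) - a z) • gradient (η (R₁ + n)) z‖ ≤ 24 * A * B * (1 / (1 + ‖z‖) ^ 2) := by
      by_cases e1 : z ∈ ball (0 : ℂ) (R₁ + n)
      · simpa [c3 z e1] using hT0 z
      by_cases e2 : z ∈ closedBall (0 : ℂ) (2 * (R₁ + n))
      swap
      · simpa [c4 z e2] using hT0 z
      have f1 : R₁ + n ≤ ‖z‖ := by simpa using e1
      have f2 : ‖z‖ ≤ 2 * (R₁ + n) := by simpa using e2
      have f3 := hRn n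
      have f4 : 0 < ‖z‖ := by linarith
      have f5 : |a (z - l) - a z| ≤ 3 * A / ‖z‖ := by
        have g1 := (hfar z (by linarith)).1
        have g2 := (hdec z (by linarith)).1
        have g3 := abs_sub (a (z - l)) (a z)
        have e : 3 * A / ‖z‖ = 2 * A / ‖z‖ + A / ‖z‖ := by ring
        linarith
      have f6 : B / (R₁ + n) ≤ 2 * B / ‖z‖ := by
        rw [div_le_div_iff₀ (hRn0 n) f4]
        nlinarith
      rw [norm_smul, Real.norm_eq_abs]
      calc _ ≤ 3 * A / ‖z‖ * (2 * B / ‖z‖) := mul_le_mul f5 ((c2 z).trans f6) (norm_nonneg _) (by positivity)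
        _ = 24 * A * B * (1 / (‖z‖ + ‖z‖) ^ 2) := by field_simp; ring
        _ ≤ _ := by gcongr; linarith
    refine (norm_add₃_le).trans ?_
    simp only [hY]
    linarith
  have hK0 : IsClosed (K ∩ Q) := h.ms.closed.inter hQ.cpt.isClosed
  have mA : AEStronglyMeasurable a volume := by
    have := (hs.ca.continuousOn).aestronglyMeasurable (μ := volume) hK0.isOpen_compl.measurableSet
    rwa [Measure.restrict_eq_self_of_ae_mem (s := (K ∩ Q)ᶜ) (hK.mono fun z hz hk => hz hk.1)] at this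
  have mX : ∀ n, AEStronglyMeasurable (X n) volume := fun n =>
    (((hη _ (hRn0 n)).1.continuous.aestronglyMeasurable.smul (ml.sub ma).aestronglyMeasurable).add
      (((mA.comp_quasiMeasurePreserving (measurePreserving_sub_right volume l).quasiMeasurePreserving).sub mA).smul
        (measurable_gradient _).aestronglyMeasurable)).add mp.aestronglyMeasurable
  have mg : ∀ n, AEStronglyMeasurable
      (fun z => 2 * inner ℝ (gradient b z + gradient a z) (X n z) + ‖X n z‖ ^ 2) volume := fun n =>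
    (((mb.add ma).aestronglyMeasurable.inner (mX n)).const_mul 2).add ((mX n).norm.pow 2)
  have ibd : Integrable fun z => 2 * (‖gradient b z‖ * Y z + ‖gradient a z‖ * Y z) + Y z ^ 2 :=
    ((iYb.add iYa).const_mul 2).add iY
  have hbd : ∀ n z, ‖2 * inner ℝ (gradient b z + gradient a z) (X n z) + ‖X n z‖ ^ 2‖ ≤
      2 * (‖gradient b z‖ * Y z + ‖gradient a z‖ * Y z) + Y z ^ 2 := by
    intro n z
    refine (norm_add_le _ _).trans (add_le_add ?_ ?_)
    · rw [norm_mul, Real.norm_two, ← add_mul]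
      exact mul_le_mul_of_nonneg_left ((norm_inner_le_norm (𝕜 := ℝ) _ _).trans
        (mul_le_mul (norm_add_le _ _) (hXY n z) (norm_nonneg _) (by positivity))) two_pos.le
    · rw [Real.norm_of_nonneg (sq_nonneg _)]
      exact pow_le_pow_left₀ (norm_nonneg _) (hXY n z) 2
  have hlim := tendsto_integral_of_dominated_convergence (f := fun z => 2 * inner ℝ (gradient b z + gradient a z)
    (gradient a (z - l) - gradient a z + gradient ψ z) + ‖gradient a (z - l) - gradient a z + gradient ψ z‖ ^ 2) _ mg ibd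
    (fun n => Eventually.of_forall (hbd n)) (Eventually.of_forall fun z => by
      refine tendsto_const_nhds.congr' ?_
      filter_upwards [eventually_gt_atTop ⌈‖z‖⌉₊] with n hn
      have a1 : z ∈ ball (0 : ℂ) (R₁ + n) := by
        have b1 := Nat.le_ceil ‖z‖
        have b2 : (⌈‖z‖⌉₊ : ℝ) < n := by exact_mod_cast hn
        rw [mem_ball_zero_iff]
        linarith
      obtain ⟨-, -, c1, -, -, c3, -⟩ := hη _ (hRn0 n)
      simp only [hX, c1 z (ball_subset_closedBall a1), c3 z a1, one_smul, smul_zero, add_zero])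
  have hpos := ge_of_tendsto' hlim fun n => by
    obtain ⟨c0, -, c1, c2, -, -, c4⟩ := hη _ (hRn0 n)
    have := hRn n
    exact ec_min h hQ hs hδ h1 hR₀ (by linarith) (hRn0 n) hl hψ.lip (fun z hz hh => hRψ z hz (by linarith)) c0 c1 c2 c4
      (fun z => rfl) (ibd.mono' (mg n) (Eventually.of_forall (hbd n)))
  have hle : ∀ z, ‖gradient a z‖ ≤ Y z ∧ ‖gradient ψ z‖ ≤ Y z := fun z => by
    have := hT0 z
    have := norm_nonneg (gradient a (z - l))
    have := norm_nonneg (gradient a z)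
    have := norm_nonneg (gradient ψ z)
    simp only [hY]
    constructor <;> linarith
  have i2 := ec_inner mb ma iYb fun z => (hle z).1
  have i3 : Integrable fun z => inner ℝ (gradient b z + gradient a (z - l)) (gradient ψ z) := by
    simp only [inner_add_left]
    exact (ec_inner mb mp iYb fun z => (hle z).2).add (ec_inner ml mp (ec_mul2 ml mY il iY) fun z => (hle z).2)
  have e : ∀ z, 2 * inner ℝ (gradient b z + gradient a z) (gradient a (z - l) - gradient a z + gradient ψ z) +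
      ‖gradient a (z - l) - gradient a z + gradient ψ z‖ ^ 2 =
      2 * (inner ℝ (gradient b z) (gradient a (z - l)) - inner ℝ (gradient b z) (gradient a z)) +
        2 * inner ℝ (gradient b z + gradient a (z - l)) (gradient ψ z) + ‖gradient ψ z‖ ^ 2 +
        (‖gradient a (z - l)‖ ^ 2 - ‖gradient a z‖ ^ 2) := fun z => by
    simp only [← real_inner_self_eq_norm_sq, inner_add_left, inner_add_right, inner_sub_left, inner_sub_right,
      real_inner_comm (gradient a z) (gradient a (z - l)), real_inner_comm (gradient ψ z) (gradient a (z - l)),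
      real_inner_comm (gradient ψ z) (gradient a z)]
    ring
  simp only [e] at hpos
  have j1 : Integrable fun z => 2 * (inner ℝ (gradient b z) (gradient a (z - l)) -
    inner ℝ (gradient b z) (gradient a z)) := (i1.sub i2).const_mul 2
  have j2 := i3.const_mul 2
  have j3 : Integrable fun z => 2 * (inner ℝ (gradient b z) (gradient a (z - l)) -
    inner ℝ (gradient b z) (gradient a z)) + 2 * inner ℝ (gradient b z + gradient a (z - l)) (gradient ψ z) := j1.add j2
  have j4 : Integrable fun z => 2 * (inner ℝ (gradient b z) (gradient a (z - l)) -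
    inner ℝ (gradient b z) (gradient a z)) + 2 * inner ℝ (gradient b z + gradient a (z - l)) (gradient ψ z) +
    ‖gradient ψ z‖ ^ 2 := j3.add ip
  have j5 : Integrable fun z => ‖gradient a (z - l)‖ ^ 2 - ‖gradient a z‖ ^ 2 := il.sub ia
  rw [integral_add j4 j5, integral_add j3 ip, integral_add j1 j2, integral_const_mul,
    integral_const_mul, integral_sub i1 i2, integral_sub il ia,
    integral_sub_right_eq_self (fun z => ‖gradient a z‖ ^ 2) l] at hpos
  rw [mela_toReal, Measure.restrict_univ]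
  linarith

end Crest.Agent.R135
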