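import Crest.Agent.R135.Defs
import Crest.Agent.R135.MEL
import Crest.Agent.R135.VKer
set_option autoImplicit false
open MeasureTheory Metric Set Filter Topology
open scoped ENNReal NNReal Real ComplexConjugate

namespace Crest.Agent.R135

theorem ehol_fin {ψ : ℂ → ℝ} (h : LocallyLipschitzOn univ ψ) (R : ℝ) : Dir ψ (ball 0 R) < ⊤ := by
  obtain ⟨M, hM⟩ := grad_bdd_of_locLip isOpen_univ h (isCompact_closedBall (0 : ℂ) R) (subset_univ _)
  refine mela_iff.2 (Measure.integrableOn_of_bounded (M := M ^ 2) measure_ball_lt_top.ne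
    ((measurable_gradient ψ).norm.pow_const 2).aestronglyMeasurable ?_)
  filter_upwards [ae_restrict_mem measurableSet_ball] with z hz
  rw [Real.norm_of_nonneg (sq_nonneg _)]
  exact pow_le_pow_left₀ (norm_nonneg _) (hM z (ball_subset_closedBall hz)) 2

theorem ehol_off {ψ : ℂ → ℝ} {R : ℝ} (h0 : ∀ z, R ≤ ‖z‖ → ψ z = 0) {z : ℂ} (hz : z ∉ ball (0 : ℂ) (R + 1)) :
    gradient ψ z = 0 := by
  refine melb_zero ?_
  have h1 : R < ‖z‖ := by
    rw [mem_ball_zero_iff, not_lt] at hz; linarith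
  filter_upwards [(isOpen_lt continuous_const continuous_norm).mem_nhds h1] with w hw using h0 w hw.le

theorem ehol_int {v ψ : ℂ → ℝ} (hv : ∀ R : ℝ, Dir v (ball 0 R) < ⊤) (h : LocallyLipschitzOn univ ψ) {R : ℝ}
    (h0 : ∀ z, R ≤ ‖z‖ → ψ z = 0) : Integrable fun z => inner ℝ (gradient v z) (gradient ψ z) :=
  (integrableOn_inner (hv (R + 1)) (ehol_fin h _)).integrable_of_forall_notMem_eq_zero fun z hz => by
    rw [ehol_off h0 hz, inner_zero_right]

theorem ehol_green {W C : Set ℂ} (hW : IsOpen W) (hW0 : volume Wᶜ = 0) {N ψ : ℂ → ℝ} (hN : ContDiffOn ℝ 2 N W)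
    (hh : DifferentiableOn ℂ (fun z => conj (gradient N z)) W) (hψ : LocallyLipschitzOn univ ψ) (hC : IsCompact C)
    (hCW : C ⊆ W) (h0 : ∀ z ∈ W \ C, ψ z = 0) : ∫ z, inner ℝ (gradient N z) (gradient ψ z) = 0 := by
  have h1 := green_locLip hW hN (hψ.mono (subset_univ _)) hC hCW h0
  rw [Measure.restrict_eq_self_of_ae_mem (s := W) hW0] at h1
  rw [h1, neg_eq_zero]
  refine integral_eq_zero_of_ae ?_
  filter_upwards [(show ∀ᵐ z, z ∈ W from hW0)] with z hz
  simp [(lap_eq_zero_iff hW hN).1 hh z hz]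

theorem ehol_orth {K Q : Set ℂ} {u a b χ : ℂ → ℝ} (h : Glob K u) (hQ : Isl K Q) (hs : Split K Q u a b)
    (hχ : ContDiff ℝ (⊤ : ℕ∞) χ) (hc : HasCompactSupport χ) (hsub : tsupport χ ⊆ (K \ Q)ᶜ)
    (h1 : ∀ᶠ z in 𝓝ˢ Q, χ z = 1) : Orth ∅ (gradient b) := by
  intro ψ hψ
  have hl : LocallyLipschitzOn univ ψ := by simpa using hψ.lip
  obtain ⟨R, hR⟩ := hψ.supp
  have hR' : ∀ z, R ≤ ‖z‖ → ψ z = 0 := fun z hz => hR z (notMem_empty z) hz
  have hK := h.ms.closed
  have hKQ : IsClosed (K ∩ Q) := hK.inter hQ.cpt.isClosed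
  have l1 : LocallyLipschitzOn univ fun z => χ z * ψ z :=
    ibp_locLip_mul (locLip_of_contDiffOn isOpen_univ (hχ.of_le (by simp)).contDiffOn) hl
  have l2 : LocallyLipschitzOn univ fun z => (1 - χ z) * ψ z :=
    ibp_locLip_mul (locLip_of_contDiffOn isOpen_univ ((contDiff_const.sub hχ).of_le (by simp)).contDiffOn) hl
  have z1 : ∀ z, R ≤ ‖z‖ → χ z * ψ z = 0 := fun z hz => by rw [hR' z hz, mul_zero]
  have z2 : ∀ z, R ≤ ‖z‖ → (1 - χ z) * ψ z = 0 := fun z hz => by rw [hR' z hz, mul_zero]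
  have fa : ∀ R : ℝ, Dir a (ball 0 R) < ⊤ := fun R => (lintegral_mono_set (subset_univ _)).trans_lt hs.fin
  have fu : ∀ R : ℝ, Dir u (ball 0 R) < ⊤ := fun R =>
    (lintegral_mono_set ball_subset_closedBall).trans_lt (h.ms.Dir_lt_top (subset_univ _))
  have fb : ∀ R : ℝ, Dir b (ball 0 R) < ⊤ := fun R => by
    obtain ⟨A, hA⟩ := hs.grow
    exact (lintegral_mono_set (ball_subset_ball (le_max_left R 1))).trans_lt
      ((hA _ (le_max_right _ _)).trans_lt ENNReal.ofReal_lt_top)
  have i1 := ehol_int fb l1 z1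
  have i2 := ehol_int fu l2 z2
  have i3 := ehol_int fa l2 z2
  have e1 : ∫ z, inner ℝ (gradient b z) (gradient (fun z => χ z * ψ z) z) = 0 :=
    ehol_green hQ.closed.isOpen_compl (by rw [compl_compl]; exact measure_mono_null sdiff_subset h.vol_zero) hs.cb hs.hb l1
      hc.isCompact hsub fun z hz => by rw [image_eq_zero_of_notMem_tsupport hz.2, zero_mul]
  have e2 : ∫ z, inner ℝ (gradient u z) (gradient (fun z => (1 - χ z) * ψ z) z) = 0 := by
    refine h.orth _ ⟨l2.mono (subset_univ _), ⟨R, fun z _ hz => z2 z hz⟩, ?_⟩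
    rw [mela_iff]
    exact ((mela_iff.1 (ehol_fin l2 (R + 1))).integrable_of_forall_notMem_eq_zero fun z hz => by
      rw [ehol_off z2 hz]; simp).integrableOn
  have e3 : ∫ z, inner ℝ (gradient a z) (gradient (fun z => (1 - χ z) * ψ z) z) = 0 := by
    obtain ⟨O, hO, hQO, hO1⟩ := mem_nhdsSet_iff_exists.1 h1
    refine ehol_green hKQ.isOpen_compl (by rw [compl_compl]; exact measure_mono_null inter_subset_left h.vol_zero)
      hs.ca hs.ha l2 ((isCompact_closedBall (0 : ℂ) R).diff hO) (fun z hz hz' => hz.2 (hQO hz'.2)) fun z hz => ?_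
    by_cases hzO : z ∈ O
    · rw [show χ z = 1 from hO1 hzO, sub_self, zero_mul]
    · exact z2 z (not_le.1 fun h' => hz.2 ⟨mem_closedBall_zero_iff.2 h', hzO⟩).le
  have key : (fun z => inner ℝ (gradient b z) (gradient ψ z)) =ᵐ[volume] fun z =>
      inner ℝ (gradient b z) (gradient (fun z => χ z * ψ z) z) +
        (inner ℝ (gradient u z) (gradient (fun z => (1 - χ z) * ψ z) z) -
          inner ℝ (gradient a z) (gradient (fun z => (1 - χ z) * ψ z) z)) := by
    filter_upwards [ae_diff_of_locLip isOpen_univ l1, ae_diff_of_locLip isOpen_univ l2,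
      (show ∀ᵐ z, z ∉ K by simpa [ae_iff] using h.vol_zero)] with z d1 d2 hz
    have da : DifferentiableAt ℝ a z :=
      (hs.ca.contDiffAt (hKQ.isOpen_compl.mem_nhds fun h' => hz h'.1)).differentiableAt (by simp)
    have db : DifferentiableAt ℝ b z :=
      (hs.cb.contDiffAt (hQ.closed.isOpen_compl.mem_nhds fun h' => hz h'.1)).differentiableAt (by simp)
    have eu : gradient u z = gradient a z + gradient b z := by
      have : u =ᶠ[𝓝 z] fun y => a y + b y := by
        filter_upwards [hK.isOpen_compl.mem_nhds hz] with y hy using hs.sum y hy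
      rw [this.gradient_eq]
      simp only [gradient, fderiv_fun_add da db, map_add]
    have eψ : gradient ψ z = gradient (fun z => χ z * ψ z) z + gradient (fun z => (1 - χ z) * ψ z) z := by
      have : ψ = fun y => χ y * ψ y + (1 - χ y) * ψ y := funext fun y => by ring
      conv_lhs => rw [this]
      simp only [gradient, fderiv_fun_add (d1 trivial) (d2 trivial), map_add]
    rw [eu, eψ, inner_add_left, inner_add_right]
    ring
  rw [integral_congr_ae key, integral_add i1 (i2.sub' i3), integral_sub i2 i3, e1, e2, e3]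
  simp

theorem ehol_grad_shift (g : ℂ → ℝ) (l z : ℂ) : gradient (fun y => g (y - l)) z = gradient g (z - l) := by
  simp only [gradient, fderiv_comp_sub]

theorem ehol_param {W T : Set ℂ} (hW : IsOpen W) (hT : IsCompact T) {δ : ℝ} (hδ : cthickening δ T ⊆ W) {f H : ℂ → ℂ}
    (hm : Measurable f) (hf : DifferentiableOn ℂ f W) (hH : Integrable H) (h0 : ∀ z ∉ T, H z = 0) :
    (∀ l ∈ ball (0 : ℂ) δ, Integrable fun z => H z * f (z + l)) ∧
      DifferentiableOn ℂ (fun l => ∫ z, H z * f (z + l)) (ball 0 δ) := by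
  have hmem : ∀ z ∈ T, ∀ l ∈ ball (0 : ℂ) δ, z + l ∈ cthickening δ T := fun z hz l hl =>
    mem_cthickening_of_dist_le _ z δ T hz (by simpa using (mem_ball_zero_iff.1 hl).le)
  obtain ⟨M, hM⟩ := hT.cthickening.exists_bound_of_continuousOn (hf.continuousOn.mono hδ)
  obtain ⟨M', hM'⟩ := hT.cthickening.exists_bound_of_continuousOn ((hf.deriv hW).continuousOn.mono hδ)
  have bd : ∀ {g : ℂ → ℂ} {M : ℝ}, (∀ x ∈ cthickening δ T, ‖g x‖ ≤ M) → ∀ z, ∀ l ∈ ball (0 : ℂ) δ,
      ‖H z * g (z + l)‖ ≤ ‖H z‖ * M := fun {g M} hg z l hl => by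
    by_cases hz : z ∈ T
    · rw [norm_mul]
      exact mul_le_mul_of_nonneg_left (hg _ (hmem z hz l hl)) (norm_nonneg _)
    · simp [h0 z hz]
  have ms : ∀ {g : ℂ → ℂ}, Measurable g → ∀ l, AEStronglyMeasurable fun z => H z * g (z + l) := fun hg l =>
    hH.1.mul (hg.comp (measurable_add_const l)).aestronglyMeasurable
  have hi : ∀ l ∈ ball (0 : ℂ) δ, Integrable fun z => H z * f (z + l) := fun l hl =>
    (hH.norm.mul_const M).mono' (ms hm l) (Eventually.of_forall fun z => bd hM z l hl)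
  refine ⟨hi, fun l hl => ?_⟩
  refine (hasDerivAt_integral_of_dominated_loc_of_deriv_le (F := fun l z => H z * f (z + l))
    (F' := fun l z => H z * deriv f (z + l)) (isOpen_ball.mem_nhds hl) (Eventually.of_forall (ms hm)) (hi l hl)
    (ms (measurable_deriv f) l) (Eventually.of_forall fun z => bd hM' z) (hH.norm.mul_const M')
    (Eventually.of_forall fun z x hx => ?_)).2.differentiableAt.differentiableWithinAt
  by_cases hz : z ∈ T
  · exact ((hf.differentiableAt (hW.mem_nhds (hδ (hmem z hz x hx)))).hasDerivAt.comp_const_add z x).const_mul _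
  · simpa [h0 z hz] using hasDerivAt_const x (0 : ℂ)

/-- The interaction energy is harmonic in the translation. `χ` smooth, `1` on `thickening δ Q`, supported in `thickening (2δ) Q`; `χ_l = χ(·-l)`,
`a_l = a(·-l)`, `ψ = (1-χ_l) a_l` is `C²`, zero near `K ∩ Q`, decaying. `orth_decay` for `∇u` and for `∇a` tested off `K ∩ Q` (`green_locLip` with cutoffs) gives
`∫⟪∇b,∇ψ⟫ = 0`, so the integral equals `∫ ⟪∇b(z + l), H z⟫`, `H = ∇(χ a)` integrable with compact support; `Φ l = ∫ conj(∇b (z+l)) H z` is holomorphic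
(`hasDerivAt_integral_of_dominated_loc_of_deriv_le`, or `DifferentiableOn` through continuity of the derivative on a compact set). -/
theorem split_hol {K Q : Set ℂ} {u a b : ℂ → ℝ} (h : Glob K u) (hQ : Isl K Q) (hs : Split K Q u a b) :
    ∃ r : ℝ, 0 < r ∧ ∃ Φ : ℂ → ℂ, DifferentiableOn ℂ Φ (ball 0 r) ∧
      ∀ l ∈ ball (0 : ℂ) r, ∫ z, inner ℝ (gradient b z) (gradient a (z - l)) = (Φ l).re := by
  have hW := hQ.closed.isOpen_compl
  have hKQ : IsClosed (K ∩ Q) := h.ms.closed.inter hQ.cpt.isClosed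
  obtain ⟨χ, hχ, hc, hsub, -, h1⟩ := exists_cutoff_compact hQ.cpt hW fun z hz hz' => hz'.2 hz
  have ho := ehol_orth h hQ hs hχ hc hsub h1
  obtain ⟨δ, hδ, hδW⟩ := hc.isCompact.exists_cthickening_subset_open hW hsub
  set g : ℂ → ℝ := fun z => (1 - χ z) * a z with hg
  have g1 : ContDiff ℝ 1 g := contDiff_iff_contDiffAt.2 fun z => by
    by_cases hz : z ∈ Q
    · refine (contDiffAt_const (c := 0)).congr_of_eventuallyEq ?_
      filter_upwards [h1.filter_mono (nhds_le_nhdsSet hz)] with y hy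
      simp [hg, hy]
    · exact ((contDiff_const.sub hχ).of_le (by simp)).contDiffAt.mul
        ((hs.ca.contDiffAt (hKQ.isOpen_compl.mem_nhds fun h' => hz h'.2)).of_le (by simp))
  have ga : ∀ z ∉ tsupport χ, g =ᶠ[𝓝 z] a := fun z hz => by
    filter_upwards [notMem_tsupport_iff_eventuallyEq.1 hz] with y hy
    simp [hg, hy]
  set H : ℂ → ℂ := fun z => gradient a z - gradient g z with hH
  have H0 : ∀ z ∉ tsupport χ, H z = 0 := fun z hz => by simp [hH, (ga z hz).gradient_eq]
  have Hi : Integrable H := by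
    refine IntegrableOn.integrable_of_forall_notMem_eq_zero (s := tsupport χ) (Integrable.sub ?_ ?_) H0
    · refine Integrable.mono' ((mela_iff.1 hs.fin).mono_set (subset_univ _) |>.add
        (integrableOn_const (C := (1 : ℝ)) hc.isCompact.measure_lt_top.ne))
        (measurable_gradient a).aestronglyMeasurable (Eventually.of_forall fun z => ?_)
      simp only [Pi.add_apply]
      nlinarith [sq_nonneg (‖gradient a z‖ - 1), norm_nonneg (gradient a z)]
    · exact ((continuousOn_gradient isOpen_univ g1.contDiffOn).mono (subset_univ _)).integrableOn_compact hc.isCompact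
  obtain ⟨hi, hd⟩ := ehol_param hW hc.isCompact hδW (f := fun z => conj (gradient b z))
    (Complex.continuous_conj.measurable.comp (measurable_gradient b)) hs.hb Hi H0
  refine ⟨δ, hδ, _, hd, fun l hl => ?_⟩
  have hl' := mem_ball_zero_iff.1 hl
  have l1 : LocallyLipschitzOn univ fun y => g (y - l) :=
    locLip_of_contDiffOn isOpen_univ (g1.comp (contDiff_id.sub contDiff_const)).contDiffOn
  obtain ⟨A, R, hR, hA⟩ := hs.dec
  obtain ⟨ρ, hρ0, hρ⟩ := hc.isCompact.isBounded.subset_ball_lt 0 (0 : ℂ)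
  obtain ⟨i1, e1⟩ := orth_decay isClosed_empty measure_empty (measurable_gradient b) hs.grow ho
    (ψ := fun y => g (y - l)) (by simpa using l1) (ehol_fin l1) ⟨4 * A, 2 * (R + ρ + δ), by linarith, fun z _ hz => by
      have n1 : ‖z‖ - ‖l‖ ≤ ‖z - l‖ := norm_sub_norm_le z l
      have n2 : z - l ∉ tsupport χ := fun h' => by
        have := mem_ball_zero_iff.1 (hρ h'); linarith
      obtain ⟨b1, b2⟩ := hA (z - l) (by linarith)
      have p1 : 0 < ‖z - l‖ := by linarith
      have p2 : 0 < ‖z‖ := by linarith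
      have hA0 : 0 ≤ A := by
        by_contra hn
        exact absurd ((abs_nonneg _).trans b1) (not_le.2 (div_neg_of_neg_of_pos (not_le.1 hn) p1))
      have n3 : ‖z‖ ≤ 2 * ‖z - l‖ := by linarith
      rw [ehol_grad_shift, (ga _ n2).gradient_eq, (ga _ n2).eq_of_nhds]
      refine ⟨b1.trans ?_, b2.trans ?_⟩
      · rw [div_le_div_iff₀ p1 p2]
        nlinarith
      · rw [div_le_div_iff₀ (pow_pos p1 2) (pow_pos p2 2)]
        nlinarith [mul_le_mul_of_nonneg_left (pow_le_pow_left₀ p2.le n3 2) hA0]⟩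
  simp only [ehol_grad_shift] at i1 e1
  have i2 : Integrable fun z => (H (z - l) * conj (gradient b z)).re := by
    simpa using ((hi l hl).comp_sub_right l).re
  have e : ∀ z, inner ℝ (gradient b z) (gradient a (z - l)) =
      inner ℝ (gradient b z) (gradient g (z - l)) + (H (z - l) * conj (gradient b z)).re := fun z => by
    rw [← Complex.inner, ← inner_add_right]
    simp [hH]
  simp only [e]
  rw [integral_add i1 i2, e1, zero_add, ← integral_add_right_eq_self _ l]
  simp only [add_sub_cancel_right]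
  exact integral_re (hi l hl)

end Crest.Agent.R135
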