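import Crest.Agent.R135.Defs
import Crest.Agent.R135.EComp
import Crest.Agent.R135.EHol
set_option autoImplicit false
open MeasureTheory Metric Set Filter Topology
open scoped ENNReal NNReal Real ComplexConjugate

namespace Crest.Agent.R135

theorem etest_zero {K Q : Set ℂ} {u : ℂ → ℝ} (h : Glob K u) (hQ : Isl K Q) {ψ : ℂ → ℝ} (hψ : Tst (K \ Q) ψ) :
    ∃ R : ℝ, 1 ≤ R ∧ ∀ᵐ z, z ∉ ball (0 : ℂ) R → gradient ψ z = 0 := by
  obtain ⟨R, hR⟩ := hψ.supp
  refine ⟨max R 0 + 1, by linarith [le_max_right R 0], ?_⟩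
  have hae : ∀ᵐ z, z ∉ K := compl_mem_ae_iff.2 h.vol_zero
  filter_upwards [hae] with z hz hz2
  have h1 : R < ‖z‖ := by
    simp only [mem_ball_zero_iff, not_lt] at hz2
    linarith [le_max_left R 0]
  have h2 : ψ =ᶠ[𝓝 z] fun _ => 0 := by
    filter_upwards [hQ.closed.isOpen_compl.mem_nhds (show z ∈ (K \ Q)ᶜ from fun h => hz h.1),
      (isOpen_lt continuous_const continuous_norm).mem_nhds (show z ∈ {y : ℂ | R < ‖y‖} from h1)] with y hy hy2
    exact hR y hy (le_of_lt hy2)
  rw [h2.gradient_eq]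
  simp

theorem etest_loc {Φ : ℂ → ℂ} {r : ℝ} (hr : 0 < r) (hΦ : DifferentiableOn ℂ Φ (ball 0 r))
    (hm : ∀ᶠ l in 𝓝 (0 : ℂ), (Φ 0).re ≤ (Φ l).re) : ∀ᶠ l in 𝓝 (0 : ℂ), (Φ l).re = (Φ 0).re := by
  have hd : ∀ᶠ l in 𝓝 (0 : ℂ), DifferentiableAt ℂ (fun l => Complex.exp (-Φ l)) l := by
    filter_upwards [isOpen_ball.mem_nhds (mem_ball_self hr)] with l hl
    exact (hΦ.differentiableAt (isOpen_ball.mem_nhds hl)).neg.cexp
  have hc : IsLocalMax (norm ∘ fun l => Complex.exp (-Φ l)) 0 := by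
    filter_upwards [hm] with l hl
    simp only [Function.comp, Complex.norm_exp, Complex.neg_re]
    exact Real.exp_le_exp.2 (by linarith)
  filter_upwards [Complex.norm_eventually_eq_of_isLocalMax hd hc] with l hl
  simp only [Complex.norm_exp, Complex.neg_re] at hl
  linarith [Real.exp_injective hl]

theorem etest_der {g : ℂ → ℂ} {g' : ℂ} (hg : HasDerivAt g g' 0) (hc : ∀ᶠ l in 𝓝 (0 : ℂ), (g l).re = (g 0).re) :
    g' = 0 := by
  have key : ∀ v : ℂ, (g' * v).re = 0 := fun v => by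
    have h1 : HasDerivAt (fun t : ℝ => (t : ℂ) * v) v 0 := by
      simpa using ((hasDerivAt_id ((0 : ℝ) : ℂ)).mul_const v).comp_ofReal
    have h2 : HasDerivAt (fun t : ℝ => g ((t : ℂ) * v)) (g' * v) 0 := by
      have h3 : HasDerivAt (fun s : ℂ => g (s * v)) (g' * v) ((0 : ℝ) : ℂ) := by
        have h4 : HasDerivAt g g' (((0 : ℝ) : ℂ) * v) := by simpa using hg
        have h5 := h4.comp ((0 : ℝ) : ℂ) ((hasDerivAt_id ((0 : ℝ) : ℂ)).mul_const v)
        rw [one_mul] at h5
        exact h5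
      exact h3.comp_ofReal
    have h5 : HasDerivAt (fun t : ℝ => (g ((t : ℂ) * v)).re) (g' * v).re 0 :=
      Complex.reCLM.hasFDerivAt.comp_hasDerivAt (0 : ℝ) h2
    have h6 : (fun t : ℝ => (g ((t : ℂ) * v)).re) =ᶠ[𝓝 0] fun _ => (g 0).re := by
      have h7 : Tendsto (fun t : ℝ => (t : ℂ) * v) (𝓝 0) (𝓝 0) := by
        simpa using h1.continuousAt.tendsto
      exact h7.eventually hc
    exact h5.unique ((hasDerivAt_const (0 : ℝ) (g 0).re).congr_of_eventuallyEq h6)
  have h1 := key 1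
  have h2 := key Complex.I
  apply Complex.ext <;> simp_all

theorem etest_lin {J D : ℝ} (h : ∀ t : ℝ, 0 ≤ 2 * (t * J) + t ^ 2 * D) : J = 0 := by
  have hD : 0 ≤ D := by linarith [h 1, h (-1)]
  have := mela_alg (J := J) (I := 0) hD fun t => by linarith [h t]
  exact abs_nonpos_iff.1 (by linarith)

theorem etest_smul {K : Set ℂ} {ψ : ℂ → ℝ} (hψ : Tst K ψ) (t : ℝ) :
    Tst K (fun z => t * ψ z) ∧ (Dir (fun z => t * ψ z) univ).toReal = t ^ 2 * (Dir ψ univ).toReal := by
  have e : ∀ z, ‖gradient (fun z => t * ψ z) z‖ ^ 2 = t ^ 2 * ‖gradient ψ z‖ ^ 2 := fun z => by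
    rw [mela_grad, norm_smul, mul_pow, Real.norm_eq_abs, sq_abs]
  refine ⟨⟨mela_lip t hψ.lip, ?_, ?_⟩, ?_⟩
  · obtain ⟨R, hR⟩ := hψ.supp
    exact ⟨R, fun z hz h => by rw [hR z hz h, mul_zero]⟩
  · rw [mela_iff]
    simp only [e]
    exact (mela_iff.1 hψ.fin).const_mul _
  · rw [mela_toReal, mela_toReal]
    simp only [e, integral_const_mul]

/-- `ψ = 0` in `split_comp`: `re Φ` has a local minimum at `0`, so it is locally constant (maximum modulus for `exp (-Φ)`,
`Complex.eventually_eq_of_isLocalMax_norm`). Then `tψ`, `t → 0±`, and `Glob.orth` give `∫⟪∇a(z-l) - ∇a z, ∇ψ⟫ = 0` for small `l`, i.e.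
`re (g l - g 0) = 0` for the holomorphic `g l = ∫ conj(∇a(z-l)) ∇ψ z`; hence `g' 0 = 0` (directions `1` and `I`). -/
theorem split_test {K Q : Set ℂ} {u a b : ℂ → ℝ} (h : Glob K u) (hQ : Isl K Q) (hs : Split K Q u a b) {ψ : ℂ → ℝ}
    (hψ : Tst (K \ Q) ψ) {δ : ℝ} (hδ : 0 < δ) (h0 : ∀ z ∈ cthickening δ Q, ψ z = 0) :
    ∫ z, deriv (fun w => conj (gradient a w)) z * gradient ψ z = 0 := by
  obtain ⟨r1, hr1, h1⟩ := split_comp h hQ hs
  obtain ⟨r2, hr2, Φ, hΦ, h2⟩ := split_hol h hQ hs
  obtain ⟨R, hR1, hR⟩ := etest_zero h hQ hψ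
  have hb1 : ∀ᶠ l in 𝓝 (0 : ℂ), ‖l‖ < r1 := by
    filter_upwards [ball_mem_nhds (0 : ℂ) hr1] with l hl using mem_ball_zero_iff.1 hl
  have hI0 : ∫ z, inner ℝ (gradient b z) (gradient a z) = (Φ 0).re := by
    simpa using h2 0 (mem_ball_self hr2)
  have hI : ∀ᶠ l in 𝓝 (0 : ℂ), (Φ l).re = (Φ 0).re := by
    refine etest_loc hr2 hΦ ?_
    filter_upwards [hb1, ball_mem_nhds (0 : ℂ) hr2] with l hl hl2
    have h3 := (h1 l hl).2 _ (etest_smul hψ 0).1
    rw [(etest_smul hψ 0).2, h2 l hl2, hI0] at h3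
    simp only [mela_grad, zero_smul, inner_zero_right, integral_zero] at h3
    linarith
  have hJ : ∀ᶠ l in 𝓝 (0 : ℂ), ∫ z, inner ℝ (gradient b z + gradient a (z - l)) (gradient ψ z) = 0 := by
    filter_upwards [hb1, ball_mem_nhds (0 : ℂ) hr2, hI] with l hl hl2 hl3
    refine etest_lin (D := (Dir ψ univ).toReal) fun t => ?_
    have h3 := (h1 l hl).2 _ (etest_smul hψ t).1
    rw [(etest_smul hψ t).2, h2 l hl2, hI0, hl3] at h3
    simp only [mela_grad, real_inner_smul_right, integral_const_mul] at h3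
    linarith
  have hfin : Dir ψ (ball 0 R) < ⊤ := (lintegral_mono_set (subset_univ _)).trans_lt hψ.fin
  have ib : Integrable fun z => inner ℝ (gradient b z) (gradient ψ z) := by
    obtain ⟨A, hA⟩ := hs.grow
    refine (integrableOn_inner ((hA R hR1).trans_lt ENNReal.ofReal_lt_top) hfin).integrable_of_ae_notMem_eq_zero ?_
    filter_upwards [hR] with z hz hz2
    rw [hz hz2, inner_zero_right]
  have iψ : Integrable fun z => ‖gradient ψ z‖ := by
    refine IntegrableOn.integrable_of_ae_notMem_eq_zero (s := ball 0 R) ?_ ?_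
    · refine Integrable.mono' ((integrableOn_const (C := (1 : ℝ)) (s := ball (0 : ℂ) R)
        measure_ball_lt_top.ne).add (mela_iff.1 hfin)) (measurable_gradient ψ).norm.aestronglyMeasurable
        (Eventually.of_forall fun z => ?_)
      simp only [Pi.add_apply, norm_norm]
      nlinarith [sq_nonneg (‖gradient ψ z‖ - 1), norm_nonneg (gradient ψ z)]
    · filter_upwards [hR] with z hz hz2
      rw [hz hz2, norm_zero]
  set A : ℂ → ℂ := fun w => conj (gradient a w) with hA
  have hAm : Measurable A := Complex.continuous_conj.measurable.comp (measurable_gradient a)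
  have hW : IsOpen (K ∩ Q)ᶜ := (h.ms.closed.inter hQ.cpt.isClosed).isOpen_compl
  set C : Set ℂ := closedBall 0 (R + δ) \ thickening (δ / 2) Q with hC
  have hCc : IsCompact C := (isCompact_closedBall _ _).diff isOpen_thickening
  have hCW : C ⊆ (K ∩ Q)ᶜ := fun z hz hz2 => hz.2 (self_subset_thickening (half_pos hδ) Q hz2.2)
  obtain ⟨M1, hM1⟩ := hCc.exists_bound_of_continuousOn (hs.ha.continuousOn.mono hCW)
  obtain ⟨M2, hM2⟩ := hCc.exists_bound_of_continuousOn ((hs.ha.deriv hW).continuousOn.mono hCW)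
  have hz : ∀ᵐ z, gradient ψ z = 0 ∨ ∀ l ∈ ball (0 : ℂ) (δ / 2), z - l ∈ C := by
    filter_upwards [hR] with z hz
    by_cases hz1 : z ∈ ball (0 : ℂ) R
    · by_cases hz2 : z ∈ thickening δ Q
      · left
        have h3 : ψ =ᶠ[𝓝 z] fun _ => 0 := by
          filter_upwards [isOpen_thickening.mem_nhds hz2] with y hy
          exact h0 y (thickening_subset_cthickening δ Q hy)
        rw [h3.gradient_eq]
        simp
      · right
        intro l hl
        rw [mem_ball_zero_iff] at hl hz1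
        refine ⟨mem_closedBall_zero_iff.2 ((norm_sub_le _ _).trans (by linarith)), fun h3 => hz2 ?_⟩
        obtain ⟨y, hy, hy2⟩ := mem_thickening_iff.1 h3
        refine mem_thickening_iff.2 ⟨y, hy, ?_⟩
        have h4 : dist z (z - l) = ‖l‖ := by simp
        linarith [dist_triangle z (z - l) y]
    · exact Or.inl (hz hz1)
  have hm : ∀ l : ℂ, AEStronglyMeasurable (fun z => A (z - l) * gradient ψ z) volume := fun l =>
    ((hAm.comp (measurable_id.sub_const l)).mul (measurable_gradient ψ)).aestronglyMeasurable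
  have hi : ∀ l ∈ ball (0 : ℂ) (δ / 2), Integrable fun z => A (z - l) * gradient ψ z := fun l hl => by
    refine Integrable.mono' (iψ.const_mul M1) (hm l) ?_
    filter_upwards [hz] with z hz
    rcases hz with hz | hz
    · simp [hz]
    · rw [norm_mul]
      exact mul_le_mul_of_nonneg_right (hM1 _ (hz l hl)) (norm_nonneg _)
  have hg := (hasDerivAt_integral_of_dominated_loc_of_deriv_le (μ := volume) (𝕜 := ℂ)
    (F := fun l z => A (z - l) * gradient ψ z) (F' := fun l z => -(deriv A (z - l) * gradient ψ z))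
    (bound := fun z => M2 * ‖gradient ψ z‖) (ball_mem_nhds (0 : ℂ) (half_pos hδ)) (Eventually.of_forall hm)
    (hi 0 (mem_ball_self (half_pos hδ)))
    ((((measurable_deriv A).comp (measurable_id.sub_const 0)).mul (measurable_gradient ψ)).neg.aestronglyMeasurable)
    (by
      filter_upwards [hz] with z hz l hl
      rcases hz with hz | hz
      · simp [hz]
      · rw [norm_neg, norm_mul]
        exact mul_le_mul_of_nonneg_right (hM2 _ (hz l hl)) (norm_nonneg _))
    (iψ.const_mul M2)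
    (by
      filter_upwards [hz] with z hz l hl
      rcases hz with hz | hz
      · simpa [hz] using hasDerivAt_const l (0 : ℂ)
      · have h3 : HasDerivAt A (deriv A (z - l)) (z - l) :=
          (hs.ha.differentiableAt (hW.mem_nhds (hCW (hz l hl)))).hasDerivAt
        have h4 := (h3.comp l ((hasDerivAt_id l).const_sub z)).mul_const (gradient ψ z)
        rw [mul_neg, mul_one, neg_mul] at h4
        exact h4)).2
  have hre : ∀ᶠ l in 𝓝 (0 : ℂ), (∫ z, A (z - l) * gradient ψ z).re = -∫ z, inner ℝ (gradient b z) (gradient ψ z) := by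
    filter_upwards [hJ, ball_mem_nhds (0 : ℂ) (half_pos hδ)] with l hl hl2
    have e : ∀ z, inner ℝ (gradient a (z - l)) (gradient ψ z) = Complex.reCLM (A (z - l) * gradient ψ z) := fun z => by
      rw [Complex.inner, mul_comm]
      rfl
    have i2 : Integrable fun z => Complex.reCLM (A (z - l) * gradient ψ z) := Complex.reCLM.integrable_comp (hi l hl2)
    simp only [inner_add_left, e] at hl
    rw [integral_add ib i2, Complex.reCLM.integral_comp_comm (hi l hl2)] at hl
    simp only [Complex.reCLM_apply] at hl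
    linarith
  have h5 := etest_der hg (hre.mono fun l hl => hl.trans hre.self_of_nhds.symm)
  simpa [integral_neg] using h5

end Crest.Agent.R135
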