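import Crest.Agent.R135.Defs
import Crest.Agent.R135.ETest
import Crest.Agent.R135.ERem
set_option autoImplicit false
open MeasureTheory Metric Set Filter Topology
open scoped ENNReal NNReal Real ComplexConjugate

namespace Crest.Agent.R135

theorem eza_le {Q : Set ℂ} (hQ : IsCompact Q) {c R : ℝ} {g : ℝ → ℝ} (hg : Tendsto g atTop (𝓝 0))
    (h : ∀ z ∉ Q, R ≤ ‖z‖ → c ≤ g ‖z‖) : c ≤ 0 := by
  obtain ⟨M, hM⟩ := hQ.isBounded.subset_closedBall (0 : ℂ)
  refine ge_of_tendsto hg ?_
  filter_upwards [eventually_gt_atTop M, eventually_ge_atTop R, eventually_ge_atTop 0] with t h1 h2 h3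
  have e : ‖(t : ℂ)‖ = t := by rw [Complex.norm_real, Real.norm_of_nonneg h3]
  have := h t (fun hq => by
    have := hM hq
    rw [mem_closedBall, dist_zero_right, e] at this
    linarith) (by rw [e]; exact h2)
  rwa [e] at this

theorem eza_deriv {K Q : Set ℂ} {u a b : ℂ → ℝ} (h : Glob K u) (hQ : Isl K Q) (hs : Split K Q u a b)
    {p : ℂ} (hp : p ∈ K \ Q) : deriv (fun w => conj (gradient a w)) p = 0 := by
  by_contra hne
  have hO : IsOpen Qᶜ := hQ.cpt.isClosed.isOpen_compl
  have hA : AnalyticOnNhd ℂ (deriv fun w => conj (gradient a w)) Qᶜ :=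
    ((hs.ha.mono (compl_subset_compl.2 inter_subset_right)).analyticOnNhd hO).deriv
  have h1 : ∀ᶠ z in 𝓝 p, z ∈ Qᶜ ∧ deriv (fun w => conj (gradient a w)) z ≠ 0 :=
    (hO.eventually_mem hp.2).and ((hA p hp.2).continuousAt.eventually_ne hne)
  obtain ⟨ε, hε, hball⟩ := Metric.eventually_nhds_iff_ball.1 h1
  have hsub : ball p (ε / 2) ⊆ ball p ε := ball_subset_ball (by linarith)
  refine removable h hp.1 (half_pos hε) (nojump h.ms.closed h.vol_zero
    (Φ := deriv fun w => conj (gradient a w)) ?_ (fun z hz => (hball z (hsub hz)).2) fun ψ hψ h0 => ?_)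
  · exact (hA.mono fun z hz => (hball z (hsub hz)).1).differentiableOn
  · have hz : ∀ z ∈ thickening (ε / 2) Q, ψ z = 0 := by
      intro z hz
      refine h0 z fun hz' => ?_
      obtain ⟨q, hq, hd⟩ := mem_thickening_iff.1 hz
      refine (hball q ?_).1 hq
      rw [mem_ball] at hz' ⊢
      linarith [dist_triangle_left q p z, dist_comm z p]
    refine split_test h hQ hs (δ := ε / 4) ⟨fun z hz' => ?_, ⟨‖p‖ + ε / 2, fun z _ hz' => h0 z fun hb => ?_⟩, hψ.fin⟩
      (by positivity) fun z hz' => hz z (cthickening_subset_thickening' (half_pos hε) (by linarith) Q hz')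
    · by_cases hK : z ∈ K
      · have hzQ : z ∈ Q := by
          by_contra hq
          exact hz' ⟨hK, hq⟩
        refine ⟨0, thickening (ε / 2) Q, mem_nhdsWithin_of_mem_nhds
          (isOpen_thickening.mem_nhds (self_subset_thickening (half_pos hε) Q hzQ)), fun x hx y hy => ?_⟩
        rw [hz x hx, hz y hy]; simp
      · obtain ⟨L, t, ht, hL⟩ := hψ.lip hK
        rw [h.ms.closed.isOpen_compl.nhdsWithin_eq hK] at ht
        exact ⟨L, t, mem_nhdsWithin_of_mem_nhds ht, hL⟩
    · rw [mem_ball, dist_eq_norm] at hb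
      linarith [norm_le_norm_add_norm_sub' z p]

theorem eza_freq {K : Set ℂ} {u : ℂ → ℝ} (h : Glob K u) {y : ℂ} (hy : y ∈ K) : ∃ᶠ z in 𝓝[≠] y, z ∈ K := by
  by_contra hn
  rw [not_frequently, eventually_nhdsWithin_iff] at hn
  obtain ⟨t, ht, hb⟩ := Metric.eventually_nhds_iff_ball.1 hn
  obtain ⟨c, hc, hd⟩ := h.dlb
  have h1 := hd y hy t ht
  have h2 : (K ∩ ball y t).Finite := (finite_singleton y).subset fun z hz => by
    by_contra hne
    exact hb z hz.2 hne hz.1
  rw [Lr, H1_finite h2, ENNReal.toReal_zero] at h1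
  nlinarith

theorem eza_grad1 {K Q : Set ℂ} {u a b : ℂ → ℝ} (h : Glob K u) (hQ : Isl K Q) (hs : Split K Q u a b)
    {y : ℂ} (hy : y ∈ K \ Q) : ∀ z ∉ Q, gradient a z = 0 := by
  have hO : IsOpen Qᶜ := hQ.cpt.isClosed.isOpen_compl
  have hd : DifferentiableOn ℂ (fun w => conj (gradient a w)) Qᶜ :=
    hs.ha.mono (compl_subset_compl.2 inter_subset_right)
  have hA : AnalyticOnNhd ℂ (deriv fun w => conj (gradient a w)) Qᶜ := (hd.analyticOnNhd hO).deriv
  have hf : ∃ᶠ z in 𝓝[≠] y, deriv (fun w => conj (gradient a w)) z = 0 :=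
    ((eza_freq h hy.1).and_eventually (mem_nhdsWithin_of_mem_nhds (hO.mem_nhds hy.2))).mono
      fun z hz => eza_deriv h hQ hs ⟨hz.1, hz.2⟩
  have h0 := hA.eqOn_zero_of_preconnected_of_frequently_eq_zero hQ.conn hy.2 hf
  intro z hz
  obtain ⟨A, R, hR, hA⟩ := hs.dec
  have hg : Tendsto (fun t : ℝ => A / t ^ 2) atTop (𝓝 0) :=
    tendsto_const_nhds.div_atTop (tendsto_pow_atTop two_ne_zero)
  refine norm_le_zero_iff.1 (eza_le hQ.cpt hg (R := R) fun w hw hw' => ?_)
  have e := hO.is_const_of_deriv_eq_zero hQ.conn hd h0 (x := z) (y := w) hz hw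
  have e' : gradient a z = gradient a w := (starRingEnd ℂ).injective e
  rw [e']
  exact (hA w hw').2

theorem eza_grad2 {K Q : Set ℂ} {u a b : ℂ → ℝ} (h : Glob K u) (hs : Split K Q u a b)
    (he : K \ Q = ∅) : ∀ᵐ z, gradient a z = 0 := by
  have hK := h.ms.closed
  obtain ⟨B, hB⟩ := hs.grow
  have hb := hs.hb
  have cb := hs.cb
  rw [he, compl_empty] at hb cb
  have hb0 : ∀ z, gradient b z = 0 := by
    intro z
    have := entire_zero_of_growth (differentiableOn_univ.1 hb) (A := B) (fun R hR => by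
      refine le_trans (le_of_eq ?_) (hB R hR)
      refine lintegral_congr fun w => ?_
      rw [← ofReal_norm, ← ofReal_norm, Complex.norm_conj]) z
    simpa using this
  have ca : ContDiffOn ℝ 1 a Kᶜ :=
    (hs.ca.mono (compl_subset_compl.2 inter_subset_left)).of_le (by norm_num)
  have hgr : ∀ z ∉ K, gradient u z = gradient a z := by
    intro z hz
    have e : u =ᶠ[𝓝 z] fun w => a w + b w := by
      filter_upwards [hK.isOpen_compl.mem_nhds hz] with w hw using hs.sum w hw
    have da : DifferentiableAt ℝ a z :=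
      (ca.contDiffAt (hK.isOpen_compl.mem_nhds hz)).differentiableAt (by norm_num)
    have db : DifferentiableAt ℝ b z := (contDiffOn_univ.1 cb).differentiable (by norm_num) z
    have h0 : fderiv ℝ b z = 0 := by
      rw [← norm_eq_zero, ← norm_gradient, hb0, norm_zero]
    rw [e.gradient_eq, gradient, gradient, fderiv_fun_add da db, h0, add_zero]
  obtain ⟨A, R, hR, hA⟩ := hs.dec
  obtain ⟨hI, h0⟩ := orth_decay hK h.vol_zero (measurable_gradient u)
    ⟨2 * π, fun R hR => h.growth 0 (by linarith)⟩ h.orth (locLip_of_contDiffOn hK.isOpen_compl ca)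
    (fun R => lt_of_le_of_lt (lintegral_mono_set (subset_univ _)) hs.fin) ⟨A, R, hR, fun z _ hz => hA z hz⟩
  have hae : (fun z => inner ℝ (gradient u z) (gradient a z)) =ᵐ[volume] fun z => ‖gradient a z‖ ^ 2 := by
    filter_upwards [measure_eq_zero_iff_ae_notMem.1 h.vol_zero] with z hz
    rw [hgr z hz, real_inner_self_eq_norm_sq]
  rw [integral_congr_ae hae, integral_eq_zero_iff_of_nonneg (fun z => by positivity) (hI.congr hae)] at h0
  filter_upwards [h0] with z hz
  simpa using hz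

/-- `F = conj ∇a` is holomorphic on the open preconnected `Qᶜ`. If `K \ Q ∋ y`: `F' = 0` at every point of `K \ Q` (else `split_test`, `nojump`, `removable` on a small ball),
these accumulate at `y` (`dlb`: `K ∩ ball y t` has positive length, so is infinite), identity theorem, `F` constant, `0` by decay.
If `K \ Q = ∅`: `conj ∇b` is entire, `entire_zero_of_growth`; then `∇u = ∇a` a.e. and `orth_decay` with `ψ = a` gives `Dir a = 0`. Finally `a` is constant on `Qᶜ`, `0` by decay. -/
theorem split_a_zero {K Q : Set ℂ} {u a b : ℂ → ℝ} (h : Glob K u) (hQ : Isl K Q) (hs : Split K Q u a b) :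
    ∀ z ∉ Q, a z = 0 := by
  have hO : IsOpen Qᶜ := hQ.cpt.isClosed.isOpen_compl
  have hg : ∀ᵐ z, z ∈ Qᶜ → gradient a z = 0 := by
    rcases (K \ Q).eq_empty_or_nonempty with he | ⟨y, hy⟩
    · filter_upwards [eza_grad2 h hs he] with z hz _ using hz
    · exact Eventually.of_forall (eza_grad1 h hQ hs hy)
  have hL : LC Qᶜ a := LC_of_grad_zero hO (locLip_of_contDiffOn hO
    ((hs.ca.mono (compl_subset_compl.2 inter_subset_right)).of_le (by norm_num))) hg
  intro z hz
  obtain ⟨A, R, hR, hA⟩ := hs.dec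
  have hg : Tendsto (fun t : ℝ => A / t) atTop (𝓝 0) := tendsto_const_nhds.div_atTop tendsto_id
  refine abs_nonpos_iff.1 (eza_le hQ.cpt hg (R := R) fun w hw hw' => ?_)
  rw [hL.eq_of_preconnected hQ.conn Subset.rfl (p := z) (q := w) hz hw]
  exact (hA w hw').1

/-- `χ` smooth, `1` near `Q`, supported off `K \ Q`. `Glob.orth` with `ψ = χ b 1_{Qᶜ}` (`frontier Q ⊆ K`) and `green_locLip` for `∫⟪∇b, ∇(χ b)⟫ = 0`. -/
theorem split_b_zero {K Q : Set ℂ} {u a b : ℂ → ℝ} (h : Glob K u) (hQ : Isl K Q) (hs : Split K Q u a b)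
    (ha : ∀ z ∉ Q, a z = 0) : ∀ᵐ z, z ∈ Q → gradient b z = 0 := by
  have hW : IsOpen (K \ Q)ᶜ := hQ.closed.isOpen_compl
  have hQW : Q ⊆ (K \ Q)ᶜ := fun z hz h' => h'.2 hz
  have hKW : Kᶜ ⊆ (K \ Q)ᶜ := fun z hz h' => hz h'.1
  have hQo : IsOpen Qᶜ := hQ.cpt.isClosed.isOpen_compl
  have hKo : IsOpen Kᶜ := h.ms.closed.isOpen_compl
  have hae : ∀ᵐ z : ℂ, z ∉ K := measure_eq_zero_iff_ae_notMem.1 h.vol_zero
  obtain ⟨χ, hχ, hc, hCW, -, h1⟩ := exists_cutoff_compact hQ.cpt hW hQW
  have hb1 : ContDiffOn ℝ 1 b (K \ Q)ᶜ := hs.cb.of_le (by norm_num)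
  set g : ℂ → ℝ := fun z => χ z * b z with hg
  have hg1 : ContDiffOn ℝ 1 g (K \ Q)ᶜ := (hχ.of_le (by norm_cast)).contDiffOn.mul hb1
  have hgl := locLip_of_contDiffOn hW hg1
  have hg0 : ∀ z ∉ tsupport χ, g z = 0 := fun z hz => by
    simp only [hg, image_eq_zero_of_notMem_tsupport hz, zero_mul]
  have hG0 : ∀ z ∉ tsupport χ, gradient g z = 0 := fun z hz =>
    melb_zero (eventually_of_mem ((isClosed_tsupport χ).isOpen_compl.mem_nhds hz) hg0)
  have hGb := continuousOn_gradient hW hb1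
  have hGg := continuousOn_gradient hW hg1
  have hF : Integrable fun z => inner ℝ (gradient b z) (gradient g z) :=
    (((hGb.inner hGg).mono hCW).integrableOn_compact hc).integrable_of_forall_notMem_eq_zero
      fun z hz => by rw [hG0 z hz, inner_zero_right]
  have hin : ∀ z ∈ Q, z ∉ K → Qᶜ.indicator g =ᶠ[𝓝 z] 0 := fun z hz hK => by
    have hi : z ∈ interior Q := by
      by_contra hi
      exact hK (hQ.front ⟨subset_closure hz, hi⟩)
    filter_upwards [mem_interior_iff_mem_nhds.1 hi] with y hy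
    exact indicator_of_notMem (not_not.2 hy) _
  have hout : ∀ z ∉ Q, Qᶜ.indicator g =ᶠ[𝓝 z] g := fun z hz => by
    filter_upwards [hQo.mem_nhds hz] with y hy
    exact indicator_of_mem hy _
  have hψ : Tst K (Qᶜ.indicator g) := by
    refine ⟨fun z hz => ?_, ?_, ?_⟩
    · by_cases hzQ : z ∈ Q
      · refine ⟨0, _, mem_nhdsWithin_of_mem_nhds (hin z hzQ hz), fun y hy y' hy' => ?_⟩
        rw [show Qᶜ.indicator g y = 0 from hy, show Qᶜ.indicator g y' = 0 from hy']
        simp
      · obtain ⟨L, t, ht, hL⟩ := hgl (hKW hz)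
        rw [hW.nhdsWithin_eq (hKW hz)] at ht
        refine ⟨L, t ∩ Qᶜ, mem_nhdsWithin_of_mem_nhds (inter_mem ht (hQo.mem_nhds hzQ)),
          fun y hy y' hy' => ?_⟩
        rw [indicator_of_mem hy.2, indicator_of_mem hy'.2]
        exact hL hy.1 hy'.1
    · obtain ⟨R, hR⟩ := hc.isBounded.subset_ball 0
      refine ⟨R, fun z _ hz => indicator_apply_eq_zero.2 fun _ => hg0 z fun h' => ?_⟩
      exact absurd (mem_ball_zero_iff.1 (hR h')) (not_lt.2 hz)
    · have hD : Dir g univ < ⊤ := mela_iff.2 (Integrable.integrableOn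
        ((((hGg.norm.pow 2).mono hCW).integrableOn_compact hc).integrable_of_forall_notMem_eq_zero
          fun z hz => by simp [hG0 z hz]))
      refine lt_of_le_of_lt (lintegral_mono_ae (ae_restrict_of_ae (hae.mono fun z hz => ?_))) hD
      by_cases hzQ : z ∈ Q
      · simp [melb_zero (hin z hzQ hz)]
      · rw [(hout z hzQ).gradient_eq]
  have e1 : ∫ z in Qᶜ, inner ℝ (gradient b z) (gradient g z) = 0 := by
    rw [← integral_indicator hQo.measurableSet, ← h.orth _ hψ]
    refine integral_congr_ae (hae.mono fun z hz => ?_)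
    by_cases hzQ : z ∈ Q
    · simp only [melb_zero (hin z hzQ hz), inner_zero_right]
      exact indicator_of_notMem (not_not.2 hzQ) _
    · have e : u =ᶠ[𝓝 z] b := by
        filter_upwards [hQo.mem_nhds hzQ, hKo.mem_nhds hz] with y hy hy'
        rw [hs.sum y hy', ha y hy, zero_add]
      simp only [(hout z hzQ).gradient_eq, e.gradient_eq]
      exact indicator_of_mem hzQ _
  have e2 : ∫ z, inner ℝ (gradient b z) (gradient g z) = 0 := by
    have := green_locLip hW hs.cb hgl hc hCW fun z hz => hg0 z hz.2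
    rw [setIntegral_congr_fun hW.measurableSet (g := fun _ => (0 : ℝ)) (f := fun z => lap b z * g z)
      (fun z hz => by simp only [(lap_eq_zero_iff hW hs.cb).1 hs.hb z hz, zero_mul]),
      setIntegral_eq_integral_of_forall_compl_eq_zero fun z hz => by
        rw [hG0 z fun h' => hz (hCW h'), inner_zero_right]] at this
    simpa using this
  have e3 : ∫ z in Q, ‖gradient b z‖ ^ 2 = 0 := by
    rw [← integral_add_compl hQ.cpt.measurableSet hF, e1, add_zero] at e2
    rw [← e2]
    refine setIntegral_congr_fun hQ.cpt.measurableSet fun z hz => ?_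
    have e : g =ᶠ[𝓝 z] b := by
      filter_upwards [h1.filter_mono (nhds_le_nhdsSet hz)] with y hy
      simp only [hg, hy, one_mul]
    simp only [e.gradient_eq, real_inner_self_eq_norm_sq]
  rw [setIntegral_eq_zero_iff_of_nonneg_ae (Eventually.of_forall fun z => sq_nonneg _)
    (((hGb.norm.pow 2).mono hQW).integrableOn_compact hQ.cpt)] at e3
  filter_upwards [(ae_restrict_iff' hQ.cpt.measurableSet).1 e3] with z hz hzQ
  simpa using hz hzQ

end Crest.Agent.R135
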