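import Crest.Agent.R135.Defs
set_option autoImplicit false
open MeasureTheory Metric Set Filter Topology
open scoped ENNReal NNReal Real ComplexConjugate

namespace Crest.Agent.R135

/-- `L` is a branch of `log ((z-p)/(z-q))` on `O` -/
def TLogB (O : Set ℂ) (p q : ℂ) (L : ℂ → ℂ) : Prop :=
  ∀ z ∈ O, HasDerivAt L ((z - p)⁻¹ - (z - q)⁻¹) z ∧ Complex.exp (L z) = (z - p) / (z - q)

theorem tlog_loc {p q z : ℂ} (h : ‖q - p‖ < ‖z - q‖) :
    HasDerivAt (fun z => Complex.log ((z - p) / (z - q))) ((z - p)⁻¹ - (z - q)⁻¹) z ∧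
      Complex.exp (Complex.log ((z - p) / (z - q))) = (z - p) / (z - q) := by
  have hq : z - q ≠ 0 := norm_pos_iff.1 ((norm_nonneg _).trans_lt h)
  have e : (z - p) / (z - q) = 1 + (q - p) / (z - q) := by field_simp; ring
  have hs : (z - p) / (z - q) ∈ Complex.slitPlane := by
    rw [e]
    refine Complex.mem_slitPlane_of_norm_lt_one ?_
    rw [norm_div, div_lt_one (norm_pos_iff.2 hq)]
    exact h
  have h0 := Complex.slitPlane_ne_zero hs
  have hp : z - p ≠ 0 := fun h' => h0 (by rw [h', zero_div])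
  refine ⟨?_, Complex.exp_log h0⟩
  have := (((hasDerivAt_id z).sub_const p).fun_div ((hasDerivAt_id z).sub_const q) hq).clog hs
  refine this.congr_deriv ?_
  simp only [id]
  field_simp

theorem tlog_far {C : Set ℂ} (hc : IsPreconnected C) {p q : ℂ} (hp : p ∈ C) (hq : q ∈ C) {δ : ℝ}
    (hδ : 0 < δ) : ∃ L, TLogB {z | δ < infDist z C} p q L := by
  have key : ∀ x ∈ C, ∀ y ∈ C, dist y x < δ → ∃ L, TLogB {z | δ < infDist z C} x y L := by
    intro x _ y hy hxy
    refine ⟨_, fun z hz => tlog_loc ?_⟩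
    rw [← dist_eq_norm, ← dist_eq_norm]
    exact hxy.trans (lt_of_lt_of_le hz (infDist_le_dist_of_mem hy))
  refine hc.induction₂' (fun p q => ∃ L, TLogB {z | δ < infDist z C} p q L) (fun x hx => ?_) ?_ hp hq
  · filter_upwards [self_mem_nhdsWithin, mem_nhdsWithin_of_mem_nhds (ball_mem_nhds x hδ)] with y hy hxy
    exact ⟨key x hx y hy hxy, key y hy x hx (by rw [dist_comm]; exact hxy)⟩
  · rintro x y w - hy - ⟨L, hL⟩ ⟨M, hM⟩
    refine ⟨fun z => L z + M z, fun z hz => ⟨((hL z hz).1.fun_add (hM z hz).1).congr_deriv (by ring), ?_⟩⟩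
    have h0 : z - y ≠ 0 := by
      rw [sub_ne_zero, ← dist_pos]
      exact hδ.trans (lt_of_lt_of_le hz (infDist_le_dist_of_mem hy))
    rw [Complex.exp_add, (hL z hz).2, (hM z hz).2]
    field_simp

theorem tlog_sub {W : Set ℂ} (hW : IsOpen W) (hc : IsPreconnected W) {L M d : ℂ → ℂ}
    (hL : ∀ z ∈ W, HasDerivAt L (d z) z) (hM : ∀ z ∈ W, HasDerivAt M (d z) z) {x y : ℂ} (hx : x ∈ W)
    (hy : y ∈ W) : L x - L y = M x - M y := by
  obtain ⟨a, ha⟩ := hW.exists_eq_add_of_deriv_eq hc
    (fun z hz => (hL z hz).differentiableAt.differentiableWithinAt)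
    (fun z hz => (hM z hz).differentiableAt.differentiableWithinAt)
    (fun z hz => (hL z hz).deriv.trans (hM z hz).deriv.symm)
  rw [ha hx, ha hy]; ring

theorem tlog_glue {U : Set ℂ} {O : ℕ → Set ℂ} (ho : ∀ n, IsOpen (O n)) (hm : Monotone O)
    (hU : ∀ n, O n ⊆ U) (hU' : ∀ z ∈ U, ∃ n, z ∈ O n) {p q : ℂ} (hp : p ∉ U) (hq : q ∉ U)
    (h : ∀ n, ∃ L, TLogB (O n) p q L) : ∃ L, TLogB U p q L := by
  choose L hL using h
  let β : ℂ → ℂ := fun z => Classical.epsilon (· ∈ connectedComponentIn U z)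
  have hβ : ∀ z ∈ U, β z ∈ connectedComponentIn U z := fun z hz =>
    Classical.epsilon_spec (p := (· ∈ connectedComponentIn U z)) ⟨z, mem_connectedComponentIn hz⟩
  have hN : ∀ z, ∃ n, z ∈ U → β z ∈ connectedComponentIn (O n) z := by
    intro z
    by_cases hz : z ∈ U
    · suffices ∃ n, β z ∈ connectedComponentIn (O n) z from this.imp fun n h _ => h
      refine isPreconnected_connectedComponentIn.induction₂
        (fun x y => ∃ n, y ∈ connectedComponentIn (O n) x) (fun x hx => ?_) ?_ ?_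
        (mem_connectedComponentIn hz) (hβ z hz)
      · obtain ⟨n, hn⟩ := hU' x (connectedComponentIn_subset _ _ hx)
        filter_upwards [mem_nhdsWithin_of_mem_nhds
          ((ho n).connectedComponentIn.mem_nhds (mem_connectedComponentIn hn))] with y hy using ⟨n, hy⟩
      · rintro x y w - - - ⟨n, hn⟩ ⟨m, hm'⟩
        refine ⟨max n m, ?_⟩
        rw [connectedComponentIn_eq (connectedComponentIn_mono x (hm (le_max_left n m)) hn)]
        exact connectedComponentIn_mono y (hm (le_max_right n m)) hm'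
      · rintro x y - - ⟨n, hn⟩
        refine ⟨n, ?_⟩
        rw [← connectedComponentIn_eq hn]
        exact mem_connectedComponentIn (connectedComponentIn_nonempty_iff.1 ⟨y, hn⟩)
    · exact ⟨0, fun h => absurd h hz⟩
  choose N hN using hN
  have step : ∀ {n m : ℕ} {w b : ℂ}, n ≤ m → b ∈ connectedComponentIn (O n) w →
      L n w - L n b = L m w - L m b := by
    intro n m w b hnm hb
    exact tlog_sub (ho n).connectedComponentIn isPreconnected_connectedComponentIn
      (fun z hz => (hL n z (connectedComponentIn_subset _ _ hz)).1)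
      (fun z hz => (hL m z (hm hnm (connectedComponentIn_subset _ _ hz))).1)
      (mem_connectedComponentIn (connectedComponentIn_nonempty_iff.1 ⟨b, hb⟩)) hb
  refine ⟨fun z => L (N z) z - L (N z) (β z) + Complex.log ((β z - p) / (β z - q)), fun z hz => ?_⟩
  have hzO : z ∈ O (N z) := connectedComponentIn_nonempty_iff.1 ⟨_, hN z hz⟩
  have hbO : β z ∈ O (N z) := connectedComponentIn_subset _ _ (hN z hz)
  constructor
  · refine ((((hL _ z hzO).1.sub_const (L (N z) (β z))).add_const
      (Complex.log ((β z - p) / (β z - q))))).congr_of_eventuallyEq ?_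
    filter_upwards [(ho (N z)).connectedComponentIn.mem_nhds (mem_connectedComponentIn hzO)] with w hw
    have hwU : w ∈ U := hU _ (connectedComponentIn_subset _ _ hw)
    have e : β w = β z := by
      simp only [β]
      rw [connectedComponentIn_eq (connectedComponentIn_mono z (hU _) hw)]
    have h1 := hN w hwU
    have h2 := hN z hz
    rw [connectedComponentIn_eq hw] at h2
    rw [e] at h1 ⊢
    rw [step (le_max_left (N w) (N z)) h1, step (le_max_right (N w) (N z)) h2]
  · have b1 : β z - p ≠ 0 := sub_ne_zero.2 fun e => hp (e ▸ hU _ hbO)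
    have b2 : β z - q ≠ 0 := sub_ne_zero.2 fun e => hq (e ▸ hU _ hbO)
    rw [Complex.exp_add, Complex.exp_sub, (hL _ z hzO).2, (hL _ _ hbO).2, Complex.exp_log (div_ne_zero b1 b2),
      div_mul_cancel₀ _ (div_ne_zero b1 b2)]

theorem tlog_ext {R : ℝ} (hR : 0 < R) : IsPreconnected {z : ℂ | R < ‖z‖} := by
  have e : {z : ℂ | R < ‖z‖} = Complex.exp '' {w | Real.log R < w.re} := by
    ext z
    constructor
    · intro hz
      have h0 : z ≠ 0 := norm_pos_iff.1 (hR.trans hz)
      exact ⟨Complex.log z, by rw [mem_ofPred_eq, Complex.log_re]; exact Real.log_lt_log hR hz,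
        Complex.exp_log h0⟩
    · rintro ⟨w, hw, rfl⟩
      rw [mem_ofPred_eq, Complex.norm_exp]
      exact (Real.log_lt_iff_lt_exp hR).1 hw
  rw [e]
  exact (convex_halfSpace_re_gt _).isPreconnected.image _ Complex.continuous_exp.continuousOn

/-- Branch of `log ((z-p)/(z-q))` off a continuum containing `p` and `q`.
Recipe: for each `n` fix a chain `p = c₀, …, c_m = q` in `C` with steps `< δ_n = 1/(n+1)` (preconnectedness), and let
`L_n z = ∑ log ((z - c_i)/(z - c_{i+1}))` (principal logs; the ratios are within `1/2` of `1` when `infDist z C > 3δ_n`),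
holomorphic on `O_n = {infDist · C > 3δ_n}` with derivative `(z-p)⁻¹ - (z-q)⁻¹` (telescoping) and `exp L_n = (z-p)/(z-q)`.
`L_n - L_m` is locally constant on `O_n ∩ O_m`. Pick a base point `β` in every component `O` of `Cᶜ` (a far point for the
unbounded one, where `L_n β = log((β-p)/(β-q))` since both are `O(1/‖β‖)`… or normalise afterwards), and let `L z = lim_n (L_n z - L_n β + log((β-p)/(β-q)))`: the
sequence is eventually constant near each point (join `z` to `β` by a compact path in the open connected set `O`).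
For large `‖z‖`, `L z - log((z-p)/(z-q))` is continuous with values in `2πiℤ` on the connected set `{‖z‖ ≥ R}` and `0` at `β`. -/
theorem log_branch {C : Set ℂ} (hC : IsCompact C) (hc : IsPreconnected C) {p q : ℂ} (hp : p ∈ C) (hq : q ∈ C) :
    ∃ L : ℂ → ℂ, (∀ z ∉ C, HasDerivAt L ((z - p)⁻¹ - (z - q)⁻¹) z) ∧
      (∀ z ∉ C, Complex.exp (L z) = (z - p) / (z - q)) ∧
      ∃ A R : ℝ, 0 < R ∧ ∀ z : ℂ, R ≤ ‖z‖ → ‖L z‖ ≤ A / ‖z‖ := by
  obtain ⟨L, hL⟩ := tlog_glue (U := Cᶜ) (O := fun n => {z | 1 / ((n : ℝ) + 1) < infDist z C})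
    (fun n => isOpen_lt continuous_const (continuous_infDist_pt C))
    (fun n m hnm z (hz : 1 / ((n : ℝ) + 1) < infDist z C) =>
      show 1 / ((m : ℝ) + 1) < infDist z C from lt_of_le_of_lt (Nat.one_div_le_one_div hnm) hz)
    (fun n z hz h => by
      have : 1 / ((n : ℝ) + 1) < infDist z C := hz
      rw [infDist_zero_of_mem h] at this
      exact absurd this (not_lt.2 (by positivity)))
    (fun z hz => exists_nat_one_div_lt ((hC.isClosed.notMem_iff_infDist_pos ⟨p, hp⟩).1 hz))
    (p := p) (q := q) (fun h => h hp) (fun h => h hq)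
    (fun n => tlog_far hc hp hq (by positivity))
  obtain ⟨R, hR0, hR⟩ := hC.isBounded.subset_closedBall_lt 0 0
  have np : ‖p‖ ≤ R := mem_closedBall_zero_iff.1 (hR hp)
  have nq : ‖q‖ ≤ R := mem_closedBall_zero_iff.1 (hR hq)
  have npq : ‖q - p‖ ≤ 2 * R := (norm_sub_le _ _).trans (by linarith)
  have hE : ∀ z : ℂ, 7 * R < ‖z‖ → z ∉ C ∧ ‖z‖ / 2 ≤ ‖z - q‖ := fun z hz =>
    ⟨fun h => by have := mem_closedBall_zero_iff.1 (hR h); linarith,
      by have := norm_sub_norm_le z q; linarith⟩
  have hl : ∀ z : ℂ, 7 * R < ‖z‖ → ‖q - p‖ < ‖z - q‖ := fun z hz => by have := (hE z hz).2; linarith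
  have hb : 7 * R < ‖((8 * R : ℝ) : ℂ)‖ := by
    rw [Complex.norm_real, Real.norm_of_nonneg (by positivity)]; linarith
  set b : ℂ := ((8 * R : ℝ) : ℂ)
  set k := L b - Complex.log ((b - p) / (b - q)) with hk
  have ek : Complex.exp k = 1 := by
    rw [hk, Complex.exp_sub, (hL b (hE b hb).1).2, (tlog_loc (hl b hb)).2, div_self]
    rw [← (hL b (hE b hb).1).2]
    exact Complex.exp_ne_zero _
  refine ⟨fun z => L z - k, fun z hz => (hL z hz).1.sub_const k, fun z hz => ?_, 6 * R, 8 * R, by positivity,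
    fun z hz => ?_⟩
  · rw [Complex.exp_sub, ek, div_one, (hL z hz).2]
  · have hz' : 7 * R < ‖z‖ := by linarith
    have h1 := tlog_sub (W := {z : ℂ | 7 * R < ‖z‖}) (isOpen_lt continuous_const continuous_norm)
      (tlog_ext (by positivity)) (fun w hw => (hL w (hE w hw).1).1) (fun w hw => (tlog_loc (hl w hw)).1) hz' hb
    have h2 : L z - k = Complex.log ((z - p) / (z - q)) := by rw [hk]; linear_combination h1
    have z0 : 0 < ‖z‖ := by linarith
    have h3 := (hE z hz').2
    have hq0 : z - q ≠ 0 := norm_pos_iff.1 (by linarith)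
    have e : (z - p) / (z - q) = 1 + (q - p) / (z - q) := by field_simp; ring
    have h4 : ‖(q - p) / (z - q)‖ ≤ 4 * R / ‖z‖ := by
      rw [norm_div, div_le_div_iff₀ (by linarith) z0]
      nlinarith [norm_nonneg (q - p)]
    have h5 : 4 * R / ‖z‖ ≤ 1 / 2 := by rw [div_le_iff₀ z0]; linarith
    change ‖L z - k‖ ≤ _
    rw [h2, e]
    refine (Complex.norm_log_one_add_half_le_self (h4.trans h5)).trans ?_
    have : 6 * R / ‖z‖ = 3 / 2 * (4 * R / ‖z‖) := by ring
    rw [this]
    linarith

end Crest.Agent.R135
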