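import Crest.Agent.R135.Defs
import Crest.Agent.R135.TLog
set_option autoImplicit false
open MeasureTheory Metric Set Filter Topology
open scoped ENNReal NNReal Real ComplexConjugate

namespace Crest.Agent.R135

/-- a function with zero complex derivative on an open preconnected set is constant -/
theorem sepA_const {W : Set ℂ} (hW : IsOpen W) (hc : IsPreconnected W) {D : ℂ → ℂ}
    (h : ∀ z ∈ W, HasDerivAt D 0 z) {a b : ℂ} (ha : a ∈ W) (hb : b ∈ W) : D a = D b := by
  refine hW.is_const_of_deriv_eq_zero hc (fun z hz => (h z hz).differentiableAt.differentiableWithinAt)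
    (fun z hz => (h z hz).deriv) ha hb

theorem sepA_arg_ge {w : ℂ} (h : ‖w‖ ≤ 2 * w.im) (h0 : 0 < w.im) : 1 / 2 ≤ w.arg := by
  have hw : w ≠ 0 := by
    rintro rfl
    simp at h0
  have hn : 0 < ‖w‖ := norm_pos_iff.2 hw
  have h1 : 0 ≤ w.arg := Complex.arg_nonneg_iff.2 h0.le
  have h2 := Real.sin_le h1
  rw [Complex.sin_arg] at h2
  refine le_trans ?_ h2
  rw [le_div_iff₀ hn]
  linarith

/-- normalised version of `sep` -/
theorem sepA_zero {C : Set ℂ} (hC : IsCompact C) (hc : IsPreconnected C) {δ t : ℝ}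
    (hδ : 0 ≤ δ) (ht : 0 < t) (hs : ∀ z ∈ C, |z.im| ≤ δ) {p q : ℂ} (hp : p ∈ C) (hq : q ∈ C)
    (h1 : p.re ≤ -t) (h2 : t ≤ q.re) :
    ∃ Λ : ℂ → ℝ, LC ({z | |z.re| < t} \ C) Λ ∧ (∀ z, Λ z = 0 ∨ Λ z = 1) ∧
      (∀ z : ℂ, |z.re| < t → δ < z.im → Λ z = 1) ∧
      ∀ z : ℂ, |z.re| < t → z.im < -δ → Λ z = 0 := by
  classical
  obtain ⟨L, hL, -, A, R, hR, hA⟩ := log_branch hC hc hp hq
  set D : ℂ → ℂ := fun z => L z - Complex.log (z - p) + Complex.log (q - z) with hD
  have hSo : IsOpen {z : ℂ | |z.re| < t} := isOpen_lt (by fun_prop) continuous_const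
  have hW : IsOpen ({z : ℂ | |z.re| < t} \ C) := hSo.sdiff hC.isClosed
  have hder : ∀ z ∈ ({z : ℂ | |z.re| < t} \ C), HasDerivAt D 0 z := by
    rintro z ⟨hz, hzC⟩
    have hz' : |z.re| < t := hz
    rw [abs_lt] at hz'
    have a1 : z - p ∈ Complex.slitPlane := Or.inl (by simp only [Complex.sub_re]; linarith)
    have a2 : q - z ∈ Complex.slitPlane := Or.inl (by simp only [Complex.sub_re]; linarith)
    have b1 : HasDerivAt (fun z => Complex.log (z - p)) (1 / (z - p)) z :=
      ((hasDerivAt_id z).sub_const p).clog a1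
    have b2 : HasDerivAt (fun z => Complex.log (q - z)) ((-1) / (q - z)) z :=
      ((hasDerivAt_id z).const_sub q).clog a2
    have := ((hL z hzC).sub b1).add b2
    have e0 : (z - p)⁻¹ - (z - q)⁻¹ - 1 / (z - p) + -1 / (q - z) = 0 := by
      have e : q - z = -(z - q) := by ring
      rw [e, neg_div_neg_eq, one_div, one_div]
      ring
    rw [e0] at this
    exact this
  -- top and bottom half strips
  have hTo : IsOpen {z : ℂ | |z.re| < t ∧ δ < z.im} :=
    hSo.inter (isOpen_lt continuous_const Complex.continuous_im)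
  have hBo : IsOpen {z : ℂ | |z.re| < t ∧ z.im < -δ} :=
    hSo.inter (isOpen_lt Complex.continuous_im continuous_const)
  have hS : Convex ℝ {z : ℂ | |z.re| < t} := by
    have : {z : ℂ | |z.re| < t} = {z : ℂ | -t < z.re} ∩ {z : ℂ | z.re < t} := by
      ext z; simp [abs_lt]
    rw [this]
    exact (convex_halfSpace_re_gt _).inter (convex_halfSpace_re_lt _)
  have hTc : IsPreconnected {z : ℂ | |z.re| < t ∧ δ < z.im} :=
    (hS.inter (convex_halfSpace_im_gt δ)).isPreconnected
  have hBc : IsPreconnected {z : ℂ | |z.re| < t ∧ z.im < -δ} :=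
    (hS.inter (convex_halfSpace_im_lt (-δ))).isPreconnected
  have hTs : {z : ℂ | |z.re| < t ∧ δ < z.im} ⊆ {z : ℂ | |z.re| < t} \ C := by
    rintro z ⟨hz1, hz2⟩
    refine ⟨hz1, fun hzC => ?_⟩
    have := (abs_le.1 (hs z hzC)).2
    linarith
  have hBs : {z : ℂ | |z.re| < t ∧ z.im < -δ} ⊆ {z : ℂ | |z.re| < t} \ C := by
    rintro z ⟨hz1, hz2⟩
    refine ⟨hz1, fun hzC => ?_⟩
    have := (abs_le.1 (hs z hzC)).1
    linarith
  -- a far height
  set Y : ℝ := δ + R + 3 * ‖p‖ + 4 * |A| + 1 with hY
  have hA0 : 0 ≤ |A| := abs_nonneg A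
  have hp0 : 0 ≤ ‖p‖ := norm_nonneg p
  have hY0 : 0 < Y := by positivity
  have hT : (Y * Complex.I : ℂ) ∈ {z : ℂ | |z.re| < t ∧ δ < z.im} := by
    refine ⟨by simpa using ht, ?_⟩
    simp only [Complex.mul_im, Complex.ofReal_re, Complex.I_im, Complex.ofReal_im, Complex.I_re]
    linarith
  have hB : (-(Y * Complex.I) : ℂ) ∈ {z : ℂ | |z.re| < t ∧ z.im < -δ} := by
    refine ⟨by simpa using ht, ?_⟩
    simp only [Complex.neg_im, Complex.mul_im, Complex.ofReal_re, Complex.I_im, Complex.ofReal_im, Complex.I_re]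
    linarith
  have hne : D (-(Y * Complex.I)) ≠ D (Y * Complex.I) := by
    intro he
    have he' := congrArg Complex.im he
    simp only [hD, Complex.add_im, Complex.sub_im, Complex.log_im] at he'
    have n1 : ‖(Y * Complex.I : ℂ)‖ = Y := by simp [abs_of_pos hY0]
    have n2 : ‖(-(Y * Complex.I) : ℂ)‖ = Y := by rw [norm_neg, n1]
    have hb : A / Y < 1 / 4 := by
      rw [div_lt_iff₀ hY0]
      have := le_abs_self A
      linarith
    have c1 := hA (Y * Complex.I) (by rw [n1]; linarith)
    have c2 := hA (-(Y * Complex.I)) (by rw [n2]; linarith)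
    rw [n1] at c1
    rw [n2] at c2
    have d1 := abs_le.1 ((Complex.abs_im_le_norm _).trans c1)
    have d2 := abs_le.1 ((Complex.abs_im_le_norm _).trans c2)
    have pi := abs_le.1 (hs p hp)
    have qi := abs_le.1 (hs q hq)
    have pn := abs_le.1 (Complex.abs_im_le_norm p)
    have e1 : 1 / 2 ≤ (Y * Complex.I - p : ℂ).arg := by
      apply sepA_arg_ge
      · have := norm_sub_le (Y * Complex.I : ℂ) p
        rw [n1] at this
        simp only [Complex.sub_im, Complex.mul_im, Complex.ofReal_re, Complex.I_im, Complex.ofReal_im,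
          Complex.I_re]
        linarith
      · simp only [Complex.sub_im, Complex.mul_im, Complex.ofReal_re, Complex.I_im, Complex.ofReal_im,
          Complex.I_re]
        linarith
    have e2 : (-(Y * Complex.I) - p : ℂ).arg < 0 := by
      rw [Complex.arg_neg_iff]
      simp only [Complex.sub_im, Complex.neg_im, Complex.mul_im, Complex.ofReal_re, Complex.I_im,
        Complex.ofReal_im, Complex.I_re]
      linarith
    have e3 : (q - Y * Complex.I : ℂ).arg < 0 := by
      rw [Complex.arg_neg_iff]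
      simp only [Complex.sub_im, Complex.mul_im, Complex.ofReal_re, Complex.I_im,
        Complex.ofReal_im, Complex.I_re]
      linarith
    have e4 : 0 ≤ (q - -(Y * Complex.I) : ℂ).arg := by
      rw [Complex.arg_nonneg_iff]
      simp only [Complex.sub_im, Complex.neg_im, Complex.mul_im, Complex.ofReal_re, Complex.I_im,
        Complex.ofReal_im, Complex.I_re]
      linarith
    linarith
  refine ⟨fun z => if D z = D (Y * Complex.I) then 1 else 0, ?_, ?_, ?_, ?_⟩
  · intro z hz
    obtain ⟨ε, hε, hb⟩ := Metric.isOpen_iff.1 hW z hz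
    filter_upwards [ball_mem_nhds z hε] with w hw
    have : D w = D z := sepA_const isOpen_ball (convex_ball z ε).isPreconnected
      (fun v hv => hder v (hb hv)) hw (mem_ball_self hε)
    simp only [this]
  · intro z
    by_cases h : D z = D (Y * Complex.I) <;> simp [h]
  · intro z hz1 hz2
    have : D z = D (Y * Complex.I) := sepA_const hTo hTc (fun v hv => hder v (hTs hv)) ⟨hz1, hz2⟩ hT
    simp only [this, if_true]
  · intro z hz1 hz2
    have : D z = D (-(Y * Complex.I)) := sepA_const hBo hBc (fun v hv => hder v (hBs hv)) ⟨hz1, hz2⟩ hB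
    simp only [this, hne, if_false]

end Crest.Agent.R135
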