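import Crest.Agent.R135.Defs
import Crest.Agent.R135.TLog
import Crest.Agent.R135.TLip
import Crest.Agent.R135.TSepAux1
set_option autoImplicit false
open MeasureTheory Metric Set Filter Topology
open scoped ENNReal NNReal Real ComplexConjugate

namespace Crest.Agent.R135

/-- A continuum crossing a strip separates top from bottom. Recipe (after the change of variable `ζ = (z - y) conj τ`): `L` from
`log_branch`; on the strip `|re| < t`, `L₀ = log (ζ-p) - log (q-ζ) + πi` is continuous, `exp L₀ = exp L`, so `m = (L - L₀)/(2πi) ∈ ℤ` is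
locally constant off `C`, constant on the convex top and bottom half strips; letting `ζ = ± iY`, `Y → ∞` gives `m = -1` on top, `0` at
the bottom. `Λ = if m = -1 then 1 else 0`. -/
theorem sep {C : Set ℂ} (hC : IsCompact C) (hc : IsPreconnected C) (y τ : ℂ) (hτ : ‖τ‖ = 1) {δ t : ℝ}
    (hδ : 0 ≤ δ) (ht : 0 < t) (hs : ∀ z ∈ C, |((z - y) * conj τ).im| ≤ δ) {p q : ℂ} (hp : p ∈ C) (hq : q ∈ C)
    (h1 : ((p - y) * conj τ).re ≤ -t) (h2 : t ≤ ((q - y) * conj τ).re) :
    ∃ Λ : ℂ → ℝ, LC ({z | |((z - y) * conj τ).re| < t} \ C) Λ ∧ (∀ z, Λ z = 0 ∨ Λ z = 1) ∧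
      (∀ z, |((z - y) * conj τ).re| < t → δ < ((z - y) * conj τ).im → Λ z = 1) ∧
      ∀ z, |((z - y) * conj τ).re| < t → ((z - y) * conj τ).im < -δ → Λ z = 0 := by
  set φ : ℂ → ℂ := fun z => (z - y) * conj τ with hφ
  have hφc : Continuous φ := by fun_prop
  have hτ0 : conj τ ≠ 0 := by
    rw [map_ne_zero]
    rintro rfl
    simp at hτ
  have hφi : Function.Injective φ := by
    intro a b hab
    have := mul_right_cancel₀ hτ0 hab
    exact sub_left_injective this
  obtain ⟨Λ, hΛ, h01, hT, hB⟩ := sepA_zero (hC.image hφc) (hc.image φ hφc.continuousOn) hδ ht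
    (by rintro _ ⟨z, hz, rfl⟩; exact hs z hz) (mem_image_of_mem φ hp) (mem_image_of_mem φ hq) h1 h2
  refine ⟨fun z => Λ (φ z), ?_, fun z => h01 _, fun z => hT _, fun z => hB _⟩
  rintro z ⟨hz, hzC⟩
  have : φ z ∈ {z : ℂ | |z.re| < t} \ φ '' C := ⟨hz, fun h => hzC ((hφi.mem_set_image).1 h)⟩
  exact (hφc.tendsto z).eventually (hΛ _ this)

/-- Boundary bumping: if no nonempty compact piece of `K` is relatively open, each point is joined to every sphere.
Recipe: in the compact `X = K ∩ closedBall x R` the component of `x` is the intersection of its clopen neighbourhoods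
(`connectedComponent_eq_iInter_isClopen` in the subtype); if it misses the sphere, so does one clopen set `K₀` by compactness. -/
theorem bump {K : Set ℂ} (hK : IsClosed K)
    (h : ∀ K₀ : Set ℂ, K₀ ⊆ K → IsCompact K₀ → IsClosed (K \ K₀) → K₀ = ∅) {x : ℂ} (hx : x ∈ K) {R : ℝ} (hR : 0 < R) :
    ∃ C : Set ℂ, IsCompact C ∧ IsPreconnected C ∧ C ⊆ K ∩ closedBall x R ∧ x ∈ C ∧ (C ∩ sphere x R).Nonempty := by
  have hX : IsCompact (K ∩ closedBall x R) := (isCompact_closedBall x R).inter_left hK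
  have : CompactSpace (K ∩ closedBall x R : Set ℂ) := isCompact_iff_compactSpace.1 hX
  let x' : (K ∩ closedBall x R : Set ℂ) := ⟨x, hx, mem_closedBall_self hR.le⟩
  refine ⟨Subtype.val '' connectedComponent x',
    isClosed_connectedComponent.isCompact.image continuous_subtype_val,
    isPreconnected_connectedComponent.image _ continuous_subtype_val.continuousOn,
    Subtype.coe_image_subset _ _, ⟨x', mem_connectedComponent, rfl⟩, ?_⟩
  by_contra hcon
  have hS : IsCompact (Subtype.val ⁻¹' sphere x R : Set (K ∩ closedBall x R : Set ℂ)) :=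
    (isClosed_sphere.preimage continuous_subtype_val).isCompact
  obtain ⟨u, hu⟩ := hS.elim_finite_subfamily_closed
    (fun s : {s : Set (K ∩ closedBall x R : Set ℂ) // IsClopen s ∧ x' ∈ s} => s.1) (fun s => s.2.1.isClosed) (by
      rw [← connectedComponent_eq_iInter_isClopen, eq_empty_iff_forall_notMem]
      exact fun z hz => hcon ⟨z.1, ⟨z, hz.2, rfl⟩, hz.1⟩)
  have hZ : IsClopen (⋂ s ∈ u, s.1) := isClopen_biInter_finset fun s _ => s.2.1
  have hxZ : x' ∈ ⋂ s ∈ u, s.1 := mem_iInter₂.2 fun s _ => s.2.2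
  generalize (⋂ s ∈ u, s.1) = Z at hu hZ hxZ
  have h0 := h (Subtype.val '' Z) ((Subtype.coe_image_subset _ _).trans inter_subset_left)
    (hZ.isClosed.isCompact.image continuous_subtype_val) (by
      have e : K \ Subtype.val '' Z = (K \ ball x R) ∪ Subtype.val '' Zᶜ := by
        ext z
        constructor
        · rintro ⟨hzK, hz⟩
          by_cases hb : z ∈ ball x R
          · exact Or.inr ⟨⟨z, hzK, ball_subset_closedBall hb⟩, fun h' => hz ⟨_, h', rfl⟩, rfl⟩
          · exact Or.inl ⟨hzK, hb⟩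
        · rintro (⟨hzK, hb⟩ | ⟨w, hw, rfl⟩)
          · refine ⟨hzK, ?_⟩
            rintro ⟨w, hw, rfl⟩
            exact (eq_empty_iff_forall_notMem.1 hu w) ⟨le_antisymm w.2.2 (not_lt.1 hb), hw⟩
          · refine ⟨w.2.1, ?_⟩
            rintro ⟨w', hw', e⟩
            exact hw (Subtype.ext e ▸ hw')
      rw [e]
      exact (hK.sdiff isOpen_ball).union (hZ.compl.isClosed.isCompact.image continuous_subtype_val).isClosed)
  exact (eq_empty_iff_forall_notMem.1 h0 x) ⟨x', hxZ, rfl⟩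

theorem tsepb_ext (R : ℝ) : IsPreconnected (ball (0 : ℂ) R)ᶜ := by
  have e : (ball (0 : ℂ) R)ᶜ =
      (fun q : ℝ × ℝ => (q.1 : ℂ) * Complex.exp (q.2 * Complex.I)) '' (Ici R ×ˢ univ) := by
    ext z
    rw [mem_compl_iff, mem_ball_zero_iff, not_lt]
    constructor
    · exact fun h => ⟨(‖z‖, z.arg), ⟨h, mem_univ _⟩, Complex.norm_mul_exp_arg_mul_I z⟩
    · rintro ⟨q, ⟨hq, -⟩, rfl⟩
      rw [norm_mul, Complex.norm_exp_ofReal_mul_I, mul_one, Complex.norm_real]
      exact le_trans hq (le_abs_self _)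
  rw [e]
  exact (isPreconnected_Ici.prod isPreconnected_univ).image _ (by fun_prop)

/-- Filling: `Q` is the complement of the unbounded component `W` of `K₀ᶜ` (`W ⊇ {‖z‖ > R}`, open, `frontier W ⊆ K₀`);
`K \ Q = (K \ K₀) ∩ W = (K \ K₀) ∩ closure W`. -/
theorem exists_isl {K K₀ : Set ℂ} (hK : IsClosed K) (h0 : K₀ ⊆ K) (hc : IsCompact K₀) (hne : K₀.Nonempty)
    (h1 : IsClosed (K \ K₀)) : ∃ Q : Set ℂ, Isl K Q := by
  obtain ⟨R, -, hK₀⟩ := hc.isBounded.subset_ball_lt 0 0
  have hp : (R : ℂ) ∈ (ball (0 : ℂ) R)ᶜ := by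
    rw [mem_compl_iff, mem_ball_zero_iff, not_lt, Complex.norm_real]
    exact le_abs_self R
  have hop : IsOpen K₀ᶜ := hc.isClosed.isOpen_compl
  have hE : (ball (0 : ℂ) R)ᶜ ⊆ connectedComponentIn K₀ᶜ (R : ℂ) :=
    (tsepb_ext R).subset_connectedComponentIn hp (compl_subset_compl.2 hK₀)
  have hsub : connectedComponentIn K₀ᶜ (R : ℂ) ⊆ K₀ᶜ := connectedComponentIn_subset _ _
  have hW : IsOpen (connectedComponentIn K₀ᶜ (R : ℂ)) := hop.connectedComponentIn
  have hcl : ∀ z ∈ closure (connectedComponentIn K₀ᶜ (R : ℂ)), z ∉ K₀ → z ∈ connectedComponentIn K₀ᶜ (R : ℂ) := by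
    intro z hz hz0
    obtain ⟨y, hy1, hy2⟩ := mem_closure_iff.1 hz _ hop.connectedComponentIn (mem_connectedComponentIn hz0)
    rw [connectedComponentIn_eq hy2, ← connectedComponentIn_eq hy1]
    exact mem_connectedComponentIn hz0
  refine ⟨(connectedComponentIn K₀ᶜ (R : ℂ))ᶜ, ?_, ?_, ?_, ?_, ?_⟩
  · exact isCompact_of_isClosed_isBounded hW.isClosed_compl (isBounded_ball.subset (compl_subset_comm.1 hE))
  · rw [compl_compl]
    exact isPreconnected_connectedComponentIn
  · rw [frontier_compl, hW.frontier_eq]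
    exact fun z hz => h0 (by_contra fun h => hz.2 (hcl z hz.1 h))
  · exact hne.mono fun z hz => ⟨h0 hz, fun h => hsub h hz⟩
  · have e : K \ (connectedComponentIn K₀ᶜ (R : ℂ))ᶜ =
        (K \ K₀) ∩ closure (connectedComponentIn K₀ᶜ (R : ℂ)) := by
      ext z
      rw [sdiff_compl]
      exact ⟨fun h => ⟨⟨h.1, hsub h.2⟩, subset_closure h.2⟩, fun h => ⟨h.1.1, hcl z h.2 h.1.2⟩⟩
    rw [e]
    exact h1.inter isClosed_closure

end Crest.Agent.R135
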