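import Crest.Agent.R135.Defs
import Crest.Agent.R135.EZero
import Crest.Agent.R135.ESplit
import Crest.Agent.R135.TSep
set_option autoImplicit false
open MeasureTheory Metric Set Filter Topology
open scoped ENNReal NNReal Real ComplexConjugate

namespace Crest.Agent.R135

theorem econt_b {K Q : Set ℂ} {u : ℂ → ℝ} (h : Glob K u) (hQ : Isl K Q) : ∃ b : ℂ → ℝ,
    ContDiffOn ℝ 1 b (K \ Q)ᶜ ∧ (∀ z ∉ K, z ∉ Q → b z = u z) ∧
      ∀ᵐ z, z ∉ K ∧ gradient b z = Qᶜ.indicator (gradient u) z := by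
  obtain ⟨a, b, hs⟩ := exists_split h hQ
  have ha := split_a_zero h hQ hs
  have e : ∀ z ∉ K, z ∉ Q → b z = u z := fun z hz hz' => by rw [hs.sum z hz, ha z hz', zero_add]
  refine ⟨b, hs.cb.of_le one_le_two, e, ?_⟩
  filter_upwards [split_b_zero h hQ hs ha, measure_eq_zero_iff_ae_notMem.1 h.vol_zero] with z h1 h2
  refine ⟨h2, ?_⟩
  by_cases hz : z ∈ Q
  · rw [h1 hz, indicator_of_notMem (not_not.2 hz)]
  · rw [indicator_of_mem (show z ∈ Qᶜ from hz)]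
    refine EventuallyEq.gradient_eq ?_
    filter_upwards [h.ms.closed.isOpen_compl.mem_nhds h2, hQ.cpt.isClosed.isOpen_compl.mem_nhds hz]
      with y hy hy' using e y hy hy'

/-- Remove the island: `K' = K \ Q`, `w = b`. `Adm`: split `u + Λ` too (`Glob.addLC`), `Λ' = b₂ - b₁`, `LC_of_grad_zero`. `H1 (K ∩ Q) > 0` by `dlb`. -/
theorem no_island {K Q : Set ℂ} {u : ℂ → ℝ} (h : Glob K u) (hQ : Isl K Q) : False := by
  obtain ⟨b, hb, e, hg⟩ := econt_b h hQ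
  obtain ⟨ρ, hρ⟩ := hQ.cpt.isBounded.subset_closedBall (0 : ℂ)
  have hW : IsOpen (K \ Q)ᶜ := hQ.closed.isOpen_compl
  have out : ∀ z ∈ (univ \ (K \ Q)) \ closedBall (0 : ℂ) ρ, z ∉ K ∧ z ∉ Q := fun z hz =>
    ⟨fun hK => hz.1.2 ⟨hK, fun h' => hz.2 (hρ h')⟩, fun h' => hz.2 (hρ h')⟩
  have hc : Comp univ K u (K \ Q) b 0 ρ := by
    refine ⟨hQ.closed, ?_, fun z hz => e z (out z hz).1 (out z hz).2, ?_⟩
    · ext z
      exact ⟨fun hz => ⟨hz.1.1, hz.2⟩, fun hz => ⟨⟨hz.1, fun h' => hz.2 (hρ h')⟩, hz.2⟩⟩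
    · rw [← compl_eq_univ_sdiff]
      exact locLip_of_contDiffOn hW hb
  have ha : Adm univ K (K \ Q) 0 ρ := by
    intro Λ hΛ
    obtain ⟨b₂, hb₂, e₂, hg₂⟩ := econt_b (h.addLC (by rwa [compl_eq_univ_sdiff])) hQ
    refine ⟨fun z => b₂ z - b z, ?_, fun z hz => ?_⟩
    · rw [← compl_eq_univ_sdiff]
      refine LC_of_grad_zero hW (locLip_of_contDiffOn hW (hb₂.sub hb)) ?_
      filter_upwards [hg, hg₂] with z h1 h2 hz
      have d1 := (hb.contDiffAt (hW.mem_nhds hz)).differentiableAt one_ne_zero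
      have d2 := (hb₂.contDiffAt (hW.mem_nhds hz)).differentiableAt one_ne_zero
      have e3 : gradient b₂ z = gradient b z := by
        rw [h1.2, h2.2]
        by_cases hz' : z ∈ Q
        · rw [indicator_of_notMem (not_not.2 hz'), indicator_of_notMem (not_not.2 hz')]
        · rw [indicator_of_mem (show z ∈ Qᶜ from hz'), indicator_of_mem (show z ∈ Qᶜ from hz'),
            mbb_grad hΛ u ⟨mem_univ z, h1.1⟩]
      have e4 : fderiv ℝ b₂ z = fderiv ℝ b z := (InnerProductSpace.toDual ℝ ℂ).symm.injective e3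
      rw [gradient, fderiv_fun_sub d2 d1, e4, sub_self, map_zero]
    · simp only [e z (out z hz).1 (out z hz).2, e₂ z (out z hz).1 (out z hz).2, add_sub_cancel_left]
  have h1 := h.ms.min _ _ 0 ρ (subset_univ _) hc ha
  simp only [Err, ENNReal.ofReal_zero, zero_mul, add_zero, En] at h1
  have h2 : Dir b (closedBall 0 ρ) ≤ Dir u (closedBall 0 ρ) := by
    refine lintegral_mono_ae (ae_restrict_of_ae ?_)
    filter_upwards [hg] with z hz
    rw [hz.2]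
    gcongr
    exact enorm_indicator_le_enorm_self _ _
  have h3 := (ENNReal.add_le_add_iff_left (h.ms.Dir_lt_top (subset_univ _)).ne).1
    (h1.trans (add_le_add_left h2 _))
  have h4 : H1 (K ∩ closedBall 0 ρ ∩ Q) + H1 ((K ∩ closedBall 0 ρ) \ Q) = H1 (K ∩ closedBall 0 ρ) :=
    measure_inter_add_sdiff _ hQ.cpt.measurableSet
  have h5 : K \ Q ∩ closedBall 0 ρ = (K ∩ closedBall 0 ρ) \ Q := by
    ext z; simp only [mem_inter_iff, Set.mem_sdiff]; tauto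
  have h6 : H1 ((K ∩ closedBall 0 ρ) \ Q) ≠ ⊤ :=
    ((measure_mono sdiff_subset).trans_lt (h.ms.H1_lt_top (subset_univ _))).ne
  rw [h5, ← h4] at h3
  have h7 : H1 (K ∩ closedBall 0 ρ ∩ Q) = 0 :=
    nonpos_iff_eq_zero.1 ((ENNReal.add_le_add_iff_right h6).1 (h3.trans_eq (zero_add _).symm))
  obtain ⟨y, hy⟩ := hQ.ne
  obtain ⟨t, ht, hB⟩ := Metric.isOpen_iff.1 hW y fun h' => h'.2 hy.2
  obtain ⟨c, hc0, hd⟩ := h.dlb
  have h8 : H1 (K ∩ ball y t) = 0 := measure_mono_null (fun z hz => by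
    have : z ∈ Q := by_contra fun h' => hB hz.2 ⟨hz.1, h'⟩
    exact ⟨⟨hz.1, hρ this⟩, this⟩) h7
  have h9 := hd y hy.1 t ht
  rw [Lr, h8, ENNReal.toReal_zero] at h9
  exact absurd h9 (not_le.2 (mul_pos hc0 ht))

theorem Glob.cont {K : Set ℂ} {u : ℂ → ℝ} (h : Glob K u) {x : ℂ} (hx : x ∈ K) {R : ℝ} (hR : 0 < R) :
    ∃ C : Set ℂ, IsCompact C ∧ IsPreconnected C ∧ C ⊆ K ∩ closedBall x R ∧ x ∈ C ∧ (C ∩ sphere x R).Nonempty := by
  refine bump h.ms.closed (fun K₀ h0 hc h1 => ?_) hx hR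
  by_contra hne
  obtain ⟨Q, hQ⟩ := exists_isl h.ms.closed h0 hc (nonempty_iff_ne_empty.2 hne) h1
  exact no_island h hQ

end Crest.Agent.R135
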