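import Crest.Agent.R135.Defs
import Crest.Agent.R135.VKer
import Crest.Agent.R135.TLog
set_option autoImplicit false
open MeasureTheory Metric Set Filter Topology
open scoped ENNReal NNReal Real ComplexConjugate

namespace Crest.Agent.R135

theorem varg_cut (p : ℂ) : ∃ (A : ℝ) (χ : ℕ → ℂ → ℝ), (∀ n, ContDiff ℝ 1 (χ n)) ∧ (∀ n z, |χ n z| ≤ 1) ∧
    (∀ n, ∃ ε, 0 < ε ∧ ∀ z, (χ n z ≠ 0 → ε ≤ ‖z - p‖) ∧ ‖fderiv ℝ (χ n) z‖ ≤ A / ε) ∧
    (∀ n z, ‖fderiv ℝ (χ n) z‖ ≤ (ball p 1).indicator (fun z => A / ‖z - p‖) z) ∧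
    ∀ z ≠ p, ∀ᶠ n in atTop, χ n z = 1 ∧ fderiv ℝ (χ n) z = 0 := by
  obtain ⟨A, hA⟩ := exists_cutoff
  have hε : ∀ n : ℕ, 0 < 1 / ((n : ℝ) + 1) / 3 := fun n => by positivity
  choose η η1 η2 η3 η4 η5 η6 η7 using fun n : ℕ => hA p _ (hε n)
  have hD : ∀ n z, ‖fderiv ℝ (fun y => 1 - η n y) z‖ = ‖gradient (η n) z‖ := fun n z => by
    rw [fderiv_const_sub, norm_neg, norm_gradient]
  have hB : ∀ n z, ‖gradient (η n) z‖ ≤ |A| / (1 / ((n : ℝ) + 1) / 3) := fun n z =>
    (η5 n z).trans (div_le_div_of_nonneg_right (le_abs_self A) (hε n).le)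
  refine ⟨2 * |A|, fun n y => 1 - η n y, fun n => contDiff_const.sub ((η1 n).of_le (by simp)),
    fun n z => abs_le.2 ⟨by linarith [(η2 n z).2], by linarith [(η2 n z).1]⟩, fun n => ⟨_, hε n, fun z =>
      ⟨fun h => not_lt.1 fun h' => h (sub_eq_zero.2 (η3 n z (mem_closedBall_iff_norm.2 h'.le)).symm), ?_⟩⟩,
    fun n z => ?_, fun z hz => ?_⟩
  · rw [hD]
    exact (hB n z).trans (div_le_div_of_nonneg_right (by linarith [abs_nonneg A]) (hε n).le)
  · have h0 : 0 ≤ (ball p 1).indicator (fun z => 2 * |A| / ‖z - p‖) z := indicator_nonneg (fun _ _ => by positivity) z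
    rw [hD]
    by_cases h1 : z ∈ ball p (1 / ((n : ℝ) + 1) / 3)
    · rwa [η6 n z h1, norm_zero]
    by_cases h2 : z ∈ closedBall p (2 * (1 / ((n : ℝ) + 1) / 3))
    swap
    · rwa [η7 n z h2, norm_zero]
    have h3 : 1 / ((n : ℝ) + 1) ≤ 1 := (div_le_one (by positivity)).2 (by linarith [n.cast_nonneg (α := ℝ)])
    rw [mem_ball_iff_norm, not_lt] at h1
    rw [mem_closedBall_iff_norm] at h2
    rw [indicator_of_mem (mem_ball_iff_norm.2 (by linarith))]
    refine (hB n z).trans ?_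
    rw [div_le_div_iff₀ (hε n) ((hε n).trans_le h1)]
    nlinarith [abs_nonneg A]
  · filter_upwards [(tendsto_one_div_add_atTop_nhds_zero_nat (𝕜 := ℝ)).eventually_lt_const
      (norm_pos_iff.2 (sub_ne_zero.2 hz))] with n hn
    have h1 : z ∉ closedBall p (2 * (1 / ((n : ℝ) + 1) / 3)) := by
      rw [mem_closedBall_iff_norm, not_le]
      linarith [hε n]
    exact ⟨by rw [η4 n z fun h => h1 (ball_subset_closedBall h), sub_zero],
      norm_eq_zero.1 (by rw [hD, η7 n z h1, norm_zero])⟩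

theorem varg_step {K C : Set ℂ} (hK : IsClosed K) (h0 : volume K = 0) {F : ℂ → ℂ} (hm : Measurable F) (hg : Grow F)
    (ho : Orth K F) (hC : IsClosed C) (hCK : C ⊆ K) {p q : ℂ} {L : ℂ → ℂ}
    (hL : ∀ z ∉ C, HasDerivAt L ((z - p)⁻¹ - (z - q)⁻¹) z)
    (hd : ∃ A R : ℝ, 0 < R ∧ ∀ z : ℂ, R ≤ ‖z‖ → ‖L z‖ ≤ A / ‖z‖) {Φ : ℝ → ℝ} (hΦ : ContDiff ℝ 1 Φ)
    (Φ1 : ∀ t, |deriv Φ t| ≤ 1) (Φ2 : ∀ t, |Φ t| ≤ |t|) {M : ℝ} (Φ3 : ∀ t, |Φ t| ≤ M) {χ : ℂ → ℝ}
    (hχ : ContDiff ℝ 1 χ) (χ1 : ∀ z, |χ z| ≤ 1) {ε B R₀ : ℝ} (hε : 0 < ε)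
    (χ2 : ∀ z, χ z ≠ 0 → ε ≤ ‖z - p‖ ∧ ε ≤ ‖z - q‖) (χ3 : ∀ z, ‖fderiv ℝ χ z‖ ≤ B)
    (χ4 : ∀ z, R₀ ≤ ‖z‖ → fderiv ℝ χ z = 0) :
    Integrable (fun z => deriv Φ (L z).im * χ z * (F z * ((z - p)⁻¹ - (z - q)⁻¹)).im +
      Φ (L z).im * fderiv ℝ χ z (F z)) ∧
    ∫ z, (deriv Φ (L z).im * χ z * (F z * ((z - p)⁻¹ - (z - q)⁻¹)).im + Φ (L z).im * fderiv ℝ χ z (F z)) = 0 := by
  have hM : 0 ≤ M := (abs_nonneg _).trans (Φ3 0)
  have hae : ∀ᵐ z, z ∉ C := (measure_eq_zero_iff_ae_notMem.1 h0).mono fun z hz h => hz (hCK h)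
  have key : ∀ z ∉ C, ∀ d, fderiv ℝ (fun y => Φ (L y).im * χ y) z d =
      deriv Φ (L z).im * χ z * (d * ((z - p)⁻¹ - (z - q)⁻¹)).im + Φ (L z).im * fderiv ℝ χ z d := fun z hz d => by
    have h1 := Complex.imCLM.hasFDerivAt.comp z ((hL z hz).hasFDerivAt.restrictScalars ℝ)
    have h2 := ((hΦ.differentiable one_ne_zero (L z).im).hasDerivAt.comp_hasFDerivAt z h1).fun_mul
      (hχ.differentiable one_ne_zero z).hasFDerivAt
    refine (congrArg (fun T : ℂ →L[ℝ] ℝ => T d) h2.fderiv).trans ?_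
    simp
    ring
  have hb : ∀ z ∉ C, ‖gradient (fun y => Φ (L y).im * χ y) z‖ ≤
      |χ z| * ‖(z - p)⁻¹ - (z - q)⁻¹‖ + M * ‖fderiv ℝ χ z‖ := fun z hz => by
    rw [norm_gradient]
    refine ContinuousLinearMap.opNorm_le_bound _ (by positivity) fun d => ?_
    rw [key z hz, add_mul]
    refine (abs_add_le _ _).trans (add_le_add ?_ ?_)
    · rw [abs_mul, abs_mul, mul_assoc (|χ z|), mul_comm _ ‖d‖, ← norm_mul]
      exact mul_le_mul (mul_le_of_le_one_left (abs_nonneg _) (Φ1 _)) (Complex.abs_im_le_norm _) (abs_nonneg _)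
        (abs_nonneg _)
    · rw [abs_mul, mul_assoc]
      exact mul_le_mul (Φ3 _) ((fderiv ℝ χ z).le_opNorm d) (abs_nonneg _) hM
  have hL1 : ContDiffOn ℝ 1 L Cᶜ :=
    (DifferentiableOn.contDiffOn (fun z hz => (hL z hz).differentiableAt.differentiableWithinAt)
      hC.isOpen_compl).restrict_scalars ℝ
  obtain ⟨A, R, hR, hA⟩ := hd
  obtain ⟨i, e⟩ := orth_decay hK h0 hm hg ho (ψ := fun y => Φ (L y).im * χ y)
    (locLip_of_contDiffOn hK.isOpen_compl (((hΦ.comp_contDiffOn (Complex.imCLM.contDiff.comp_contDiffOn hL1)).mul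
      hχ.contDiffOn).mono (compl_subset_compl.2 hCK))) (fun r => by
      refine (setLIntegral_mono_ae' measurableSet_ball (g := fun _ => ENNReal.ofReal (ε⁻¹ + ε⁻¹ + M * B) ^ 2)
        (hae.mono fun z hz _ => ?_)).trans_lt ?_
      · rw [← ofReal_norm]
        gcongr
        refine (hb z hz).trans (add_le_add ?_ (mul_le_mul_of_nonneg_left (χ3 z) hM))
        by_cases h : χ z = 0
        · rw [h, abs_zero, zero_mul]
          positivity
        refine (mul_le_of_le_one_left (norm_nonneg _) (χ1 z)).trans ((norm_sub_le _ _).trans ?_)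
        rw [norm_inv, norm_inv]
        exact add_le_add (inv_anti₀ hε (χ2 z h).1) (inv_anti₀ hε (χ2 z h).2)
      · rw [setLIntegral_const]
        exact ENNReal.mul_lt_top (ENNReal.pow_lt_top ENNReal.ofReal_lt_top) measure_ball_lt_top)
    ⟨|A| + 4 * ‖p - q‖, R + |R₀| + 2 * ‖p‖ + 2 * ‖q‖, by positivity, fun z hz hR' => by
      have n1 := norm_nonneg p
      have n2 := norm_nonneg q
      have n3 := abs_nonneg R₀
      have hz0 : 0 < ‖z‖ := by linarith
      constructor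
      · rw [abs_mul]
        refine (mul_le_of_le_one_right (abs_nonneg _) (χ1 z)).trans ((Φ2 _).trans
          ((Complex.abs_im_le_norm _).trans ((hA z (by linarith)).trans ?_)))
        gcongr
        linarith [le_abs_self A, norm_nonneg (p - q)]
      · have h1 : ‖z‖ / 2 ≤ ‖z - p‖ := by linarith [norm_sub_norm_le z p]
        have h2 : ‖z‖ / 2 ≤ ‖z - q‖ := by linarith [norm_sub_norm_le z q]
        refine (hb z fun h => hz (hCK h)).trans ?_
        rw [χ4 z (by linarith [le_abs_self R₀]), norm_zero, mul_zero, add_zero,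
          inv_sub_inv (norm_pos_iff.1 (by linarith)) (norm_pos_iff.1 (by linarith)), sub_sub_sub_cancel_left,
          norm_div, norm_mul]
        calc _ ≤ 1 * (‖p - q‖ / (‖z‖ / 2 * (‖z‖ / 2))) := by gcongr; exact χ1 z
          _ = 4 * ‖p - q‖ / ‖z‖ ^ 2 := by field_simp; ring
          _ ≤ _ := by gcongr; linarith [abs_nonneg A]⟩
  have e' := hae.mono fun z hz => ((real_inner_comm _ _).trans (inner_gradient _ z (F z))).trans (key z hz (F z))
  exact ⟨i.congr e', (integral_congr_ae e').symm.trans e⟩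

/-- No flux through a continuum of cracks. `h = im L` (`log_branch`), `gradient h = I * conj k`, `k = (z-p)⁻¹ - (z-q)⁻¹`, so
`⟪F, ∇h⟫ = im (F k)`. Test with `ψ = Φ_M(h) (1 - η_{p,ε}) (1 - η_{q,ε})` (`exists_trunc`, `exists_cutoff`; decays like `h` at infinity, use `orth_decay`);
the cutoff terms are `≤ C M ∫_{ball p 2ε} ‖F‖/‖z-p‖ → 0`; then `ε → 0`, `M → ∞` by dominated convergence (`kernel_integrable`). -/
theorem arg_zero {K : Set ℂ} (hK : IsClosed K) (h0 : volume K = 0) {F : ℂ → ℂ} (hm : Measurable F) (hg : Grow F)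
    (ho : Orth K F) {C : Set ℂ} (hC : IsCompact C) (hc : IsPreconnected C) (hCK : C ⊆ K) {p q : ℂ} (hp : p ∈ C)
    (hq : q ∈ C) (sp : Sing F p) (sq : Sing F q) : kI F p q = 0 := by
  obtain ⟨L, hL, -, hd⟩ := log_branch hC hc hp hq
  obtain ⟨A, χ, c1, c2, c3, c4, c5⟩ := varg_cut p
  obtain ⟨A', χ', d1, d2, d3, d4, d5⟩ := varg_cut q
  choose ε hε e using c3
  choose ε' hε' e' using d3
  have hk := kernel_integrable hm hg sp sq
  have hae : ∀ᵐ z, z ∉ C := (measure_eq_zero_iff_ae_notMem.1 h0).mono fun z hz h => hz (hCK h)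
  have hLm : AEStronglyMeasurable (fun z => (L z).im) volume := by
    rw [← Measure.restrict_eq_self_of_ae_mem (s := Cᶜ) hae]
    exact (Complex.continuous_im.comp_continuousOn fun z hz =>
      (hL z hz).continuousAt.continuousWithinAt).aestronglyMeasurable hC.isClosed.measurableSet.compl
  have hD : ∀ n z, fderiv ℝ (fun y => χ n y * χ' n y) z = χ n z • fderiv ℝ (χ' n) z + χ' n z • fderiv ℝ (χ n) z :=
    fun n z => fderiv_fun_mul ((c1 n).differentiable one_ne_zero z) ((d1 n).differentiable one_ne_zero z)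
  have hD' : ∀ n z, ‖fderiv ℝ (fun y => χ n y * χ' n y) z‖ ≤ ‖fderiv ℝ (χ n) z‖ + ‖fderiv ℝ (χ' n) z‖ := fun n z => by
    rw [hD, add_comm]
    refine (norm_add_le _ _).trans (add_le_add ?_ ?_) <;> rw [norm_smul]
    exacts [mul_le_of_le_one_left (norm_nonneg _) (d2 n z), mul_le_of_le_one_left (norm_nonneg _) (c2 n z)]
  have hχ : ∀ n z, |χ n z * χ' n z| ≤ 1 := fun n z => by
    rw [abs_mul]
    exact mul_le_one₀ (c2 n z) (abs_nonneg _) (d2 n z)
  choose Φ Φ1 _ Φ3 Φ4 Φ5 Φ6 using fun m : ℕ => exists_trunc ((m : ℝ) + 1) (by positivity)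
  have Φ4' : ∀ m t, |deriv (Φ m) t| ≤ 1 := fun m t => abs_le.2 ⟨by linarith [(Φ4 m t).1], (Φ4 m t).2⟩
  have hb : ∀ (c : ℝ) (w : ℂ), |c| ≤ 1 → |c * w.im| ≤ ‖w‖ := fun c w hc => by
    rw [abs_mul]
    exact (mul_le_of_le_one_left (abs_nonneg _) hc).trans (Complex.abs_im_le_norm w)
  have main : ∀ m, ∫ z, deriv (Φ m) (L z).im * (F z * ((z - p)⁻¹ - (z - q)⁻¹)).im = 0 := fun m => by
    have hs := fun n => varg_step hK h0 hm hg ho hC.isClosed hCK hL hd ((Φ1 m).of_le (by simp)) (Φ4' m) (Φ5 m) (Φ6 m)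
        ((c1 n).mul (d1 n)) (hχ n) (lt_min (hε n) (hε' n)) (fun z hz => ⟨(min_le_left _ _).trans
          ((e n z).1 (left_ne_zero_of_mul hz)), (min_le_right _ _).trans ((e' n z).1 (right_ne_zero_of_mul hz))⟩)
        (fun z => (hD' n z).trans (add_le_add (e n z).2 (e' n z).2)) (R₀ := ‖p‖ + ‖q‖ + 1) fun z hz => by
          have h1 := (hD' n z).trans (add_le_add (c4 n z) (d4 n z))
          rwa [indicator_of_notMem (by
            rw [mem_ball_iff_norm, not_lt]; linarith [norm_sub_norm_le z p, norm_nonneg q]), indicator_of_notMem (by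
            rw [mem_ball_iff_norm, not_lt]; linarith [norm_sub_norm_le z q, norm_nonneg p]), add_zero,
            norm_le_zero_iff] at h1
    have h1 := tendsto_integral_of_dominated_convergence (f := fun z =>
      deriv (Φ m) (L z).im * (F z * ((z - p)⁻¹ - (z - q)⁻¹)).im)
      (fun z => ‖F z * ((z - p)⁻¹ - (z - q)⁻¹)‖ + 2 * ((m : ℝ) + 1) *
        ((ball p 1).indicator (fun z => A * (‖F z‖ / ‖z - p‖)) z +
          (ball q 1).indicator (fun z => A' * (‖F z‖ / ‖z - q‖)) z)) (fun n => (hs n).1.1)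
      (hk.norm.add ((((integrable_indicator_iff measurableSet_ball).2 (sp.const_mul A)).add
        ((integrable_indicator_iff measurableSet_ball).2 (sq.const_mul A'))).const_mul _))
      (fun n => Eventually.of_forall fun z => (abs_add_le _ _).trans (add_le_add (hb _ _ (by
        rw [abs_mul]
        exact mul_le_one₀ (Φ4' m _) (abs_nonneg _) (hχ n z))) (by
        rw [abs_mul]
        refine mul_le_mul (Φ6 m _) (((fderiv ℝ _ z).le_opNorm _).trans ((mul_le_mul_of_nonneg_right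
          ((hD' n z).trans (add_le_add (c4 n z) (d4 n z))) (norm_nonneg _)).trans_eq ?_)) (abs_nonneg _)
          (by positivity)
        simp only [indicator]
        split_ifs <;> ring)))
      (hae.mono fun z hz => tendsto_const_nhds.congr' (by
        filter_upwards [c5 z fun h => hz (h ▸ hp), d5 z fun h => hz (h ▸ hq)] with n e e'
        simp [hD, e.1, e.2, e'.1, e'.2]))
    simp only [fun n => (hs n).2] at h1
    exact tendsto_nhds_unique h1 tendsto_const_nhds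
  have h1 := tendsto_integral_of_dominated_convergence (f := fun z => (F z * ((z - p)⁻¹ - (z - q)⁻¹)).im)
    (F := fun m z => deriv (Φ m) (L z).im * (F z * ((z - p)⁻¹ - (z - q)⁻¹)).im) _
    (fun m => ((((Φ1 m).continuous_deriv (by simp)).comp_aestronglyMeasurable hLm).mul hk.im.1)) hk.norm
    (fun m => Eventually.of_forall fun z => hb _ _ (Φ4' m _))
    (Eventually.of_forall fun z => tendsto_const_nhds.congr' (by
      filter_upwards [tendsto_natCast_atTop_atTop.eventually_ge_atTop |(L z).im|] with m hm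
      rw [Φ3 m _ (by linarith), one_mul]))
  simp only [main] at h1
  exact tendsto_nhds_unique h1 tendsto_const_nhds

end Crest.Agent.R135
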