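import Crest.Agent.R135.Defs
set_option autoImplicit false
open MeasureTheory Metric Set Filter Topology
open scoped ENNReal NNReal Real ComplexConjugate

namespace Crest.Agent.R135

theorem vrz_scale {E : Type} [NormedAddCommGroup E] [NormedSpace ℝ E] [MeasurableSpace E] [BorelSpace E]
    [FiniteDimensional ℝ E] (μ : Measure E) [μ.IsAddHaarMeasure] {f : E → ℝ≥0∞} (hf : Measurable f) (p : E)
    {t : ℝ} (ht : 0 < t) :
    ∫⁻ z, f (t⁻¹ • (z - p)) ∂μ = ENNReal.ofReal (t ^ Module.finrank ℝ E) * ∫⁻ z, f z ∂μ := by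
  rw [lintegral_sub_right_eq_self (fun z => f (t⁻¹ • z)) p, ← lintegral_map hf (measurable_const_smul _),
    Measure.map_addHaar_smul μ (inv_ne_zero ht.ne'), lintegral_smul_measure, inv_pow, inv_inv,
    abs_of_pos (pow_pos ht _), smul_eq_mul]

noncomputable def vrzφ (v : ℝ) : ℝ := (ball (0 : ℝ) 1).indicator (fun v => (√|v|)⁻¹) v

noncomputable def vrzψ (s : ℝ) : ℝ := (s * √s * (s + 1) ^ 2)⁻¹

theorem vrz_meas : Measurable vrzφ := Measurable.indicator (by fun_prop) measurableSet_ball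

theorem vrz_φ0 (v : ℝ) : 0 ≤ vrzφ v := indicator_nonneg (fun _ _ => by positivity) v

theorem vrz_φ : ∫⁻ v, ENNReal.ofReal (vrzφ v) ≠ ⊤ := by
  refine (Integrable.lintegral_lt_top ((integrable_indicator_iff measurableSet_ball).2 ?_)).ne
  refine integrableOn_ball_of_norm_le_rpow (C := 1) (α := 1 / 2) (by simp) (by norm_num)
    (ae_of_all _ fun v => ?_) (Measurable.aestronglyMeasurable (by fun_prop))
  rw [one_mul, Real.norm_of_nonneg (by positivity), Real.rpow_neg (norm_nonneg _), Real.sqrt_eq_rpow,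
    Real.norm_eq_abs]

theorem vrz_ψ : ∫⁻ w : ℂ, ENNReal.ofReal (vrzψ ‖w‖) ≠ ⊤ := by
  have hm : Measurable fun w : ℂ => vrzψ ‖w‖ := by unfold vrzψ; fun_prop
  have h0 (w : ℂ) : ‖vrzψ ‖w‖‖ = (‖w‖ * √‖w‖ * (‖w‖ + 1) ^ 2)⁻¹ := Real.norm_of_nonneg (by unfold vrzψ; positivity)
  refine (Integrable.lintegral_lt_top ?_).ne
  rw [← integrableOn_univ, ← union_compl_self (ball (0 : ℂ) 1), integrableOn_union]
  constructor
  · refine integrableOn_ball_of_norm_le_rpow (C := 1) (α := 1 + 1 / 2) (by simp) (by norm_num)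
      (ae_of_all _ fun w => ?_) hm.aestronglyMeasurable
    rw [h0, one_mul, Real.rpow_neg (norm_nonneg _), Real.rpow_add' (norm_nonneg _) (by norm_num), Real.rpow_one,
      ← Real.sqrt_eq_rpow, mul_inv]
    exact mul_le_of_le_one_right (by positivity)
      (inv_le_one_of_one_le₀ (one_le_pow₀ (by linarith [norm_nonneg w])))
  · refine Integrable.mono' ((integrable_one_add_norm (E := ℂ) (μ := volume) (r := 3)
      (by norm_num)).const_mul 2).integrableOn hm.aestronglyMeasurable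
      ((ae_restrict_iff' measurableSet_ball.compl).2 (ae_of_all _ fun w hw => ?_))
    have h1 : 1 ≤ ‖w‖ := by simpa using hw
    have h2 : 1 ≤ √‖w‖ := Real.one_le_sqrt.2 h1
    rw [h0, Real.rpow_neg (by positivity), show (3 : ℝ) = (3 : ℕ) by norm_num, Real.rpow_natCast,
      ← div_eq_mul_inv, ← inv_div]
    refine inv_anti₀ (by positivity) ?_
    have : (1 + ‖w‖) / 2 ≤ ‖w‖ * √‖w‖ := by nlinarith
    calc (1 + ‖w‖) ^ 3 / 2 = (1 + ‖w‖) / 2 * (‖w‖ + 1) ^ 2 := by ring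
      _ ≤ _ := by gcongr

theorem vrz_pt {f s t R u ε : ℝ} (hR : 0 < R) (h1 : R ≤ t) (h2 : t ≤ 2 * R) (hu : u ≠ 0) (hs : |u| ≤ s)
    (hε : 0 < ε) :
    f * (t / (s * (s + t))) ≤ 2 / ε * (f ^ 2 * (1 + vrzφ (R⁻¹ * u))) + ε / t ^ 2 * vrzψ (s / t) := by
  have hu' := abs_pos.2 hu
  have ht : 0 < t := hR.trans_le h1
  have hs0 : 0 < s := hu'.trans_le hs
  obtain ⟨σ, hσ, rfl⟩ : ∃ σ, 0 < σ ∧ s = σ ^ 2 * t :=
    ⟨√(s / t), by positivity, by rw [Real.sq_sqrt (by positivity)]; field_simp⟩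
  have h3 : σ⁻¹ ≤ 2 * (1 + vrzφ (R⁻¹ * u)) := by
    by_cases hv : R⁻¹ * u ∈ ball (0 : ℝ) 1
    · have h4 : √|R⁻¹ * u| / 2 ≤ σ := by
        rw [div_le_iff₀ two_pos, Real.sqrt_le_left (by positivity), abs_mul, abs_of_pos (inv_pos.2 hR),
          inv_mul_le_iff₀ hR]
        nlinarith [sq_nonneg σ]
      have h5 := inv_anti₀ (by positivity) h4
      rw [inv_div, div_eq_mul_inv] at h5
      rw [vrzφ, indicator_of_mem hv]
      linarith
    · rw [vrzφ, indicator_of_notMem hv, add_zero, mul_one, inv_le_comm₀ hσ two_pos]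
      rw [mem_ball_zero_iff, Real.norm_eq_abs, abs_mul, abs_of_pos (inv_pos.2 hR), inv_mul_lt_iff₀ hR,
        not_lt] at hv
      by_contra h6
      have : σ ^ 2 < 2⁻¹ := by nlinarith
      nlinarith
  have h4 : f ^ 2 / ε * σ⁻¹ ≤ 2 / ε * (f ^ 2 * (1 + vrzφ (R⁻¹ * u))) :=
    (mul_le_mul_of_nonneg_left h3 (by positivity)).trans_eq (by ring)
  refine le_trans ?_ (add_le_add h4 le_rfl)
  rw [vrzψ, mul_div_cancel_right₀ _ ht.ne', Real.sqrt_sq hσ.le, ← sub_nonneg]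
  have e : f ^ 2 / ε * σ⁻¹ + ε / t ^ 2 * (σ ^ 2 * σ * (σ ^ 2 + 1) ^ 2)⁻¹ -
      f * (t / (σ ^ 2 * t * (σ ^ 2 * t + t))) = (ε * σ)⁻¹ * ((f - ε / (2 * t * σ * (σ ^ 2 + 1))) ^ 2 +
        3 * (ε / (2 * t * σ * (σ ^ 2 + 1))) ^ 2) := by
    field_simp
    ring
  rw [e]
  positivity

/-- the choice of the radius -/
theorem vrz_avg {G : ℂ → ℝ≥0∞} (hG : Measurable G) (x : ℂ) {R : ℝ} (hR : 0 < R) : ∃ t ∈ Icc R (2 * R),
    ∫⁻ z, G z * ENNReal.ofReal (1 + vrzφ (R⁻¹ * (t - ‖z - x‖))) ≤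
      (1 + ∫⁻ v, ENNReal.ofReal (vrzφ v)) * ∫⁻ z, G z := by
  have hv : volume (Icc R (2 * R)) = ENNReal.ofReal R := by rw [Real.volume_Icc]; congr 1; ring
  have hm : Measurable (Function.uncurry fun (t : ℝ) (z : ℂ) =>
      G z * ENNReal.ofReal (1 + vrzφ (R⁻¹ * (t - ‖z - x‖)))) :=
    (hG.comp measurable_snd).mul (measurable_const.add (vrz_meas.comp (by fun_prop))).ennreal_ofReal
  have hR' : ENNReal.ofReal R ≠ 0 := by simpa using hR
  obtain ⟨t, ht, h⟩ := exists_le_setLAverage (μ := volume) (s := Icc R (2 * R)) (hv ▸ hR') (by simp)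
    (hm.lintegral_prod_right (ν := volume)).aemeasurable
  refine ⟨t, ht, h.trans ?_⟩
  rw [setLAverage_eq, hv, lintegral_lintegral_swap hm.aemeasurable]
  refine ENNReal.div_le_of_le_mul ?_
  rw [mul_right_comm, ← lintegral_const_mul _ hG]
  refine lintegral_mono fun z => ?_
  have m : Measurable fun t : ℝ => ENNReal.ofReal (1 + vrzφ (R⁻¹ * (t - ‖z - x‖))) :=
    (measurable_const.add (vrz_meas.comp (by fun_prop))).ennreal_ofReal
  rw [lintegral_const_mul _ m, mul_comm]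
  gcongr
  simp only [ENNReal.ofReal_add zero_le_one (vrz_φ0 _), ENNReal.ofReal_one]
  rw [lintegral_add_left measurable_const, setLIntegral_one, hv, add_mul, one_mul]
  gcongr
  refine (setLIntegral_le_lintegral _ _).trans_eq ?_
  have := vrz_scale volume vrz_meas.ennreal_ofReal ‖z - x‖ hR
  rwa [Module.finrank_self, pow_one, mul_comm] at this

theorem vrz_main {F : ℂ → ℂ} (hm : Measurable F) (h2 : ∫⁻ z, ‖F z‖ₑ ^ 2 < ⊤) (x : ℂ) {η : ℝ≥0∞} (hη : η ≠ 0)
    (R₀ : ℝ) : ∃ t : ℝ, R₀ ≤ t ∧ 0 < t ∧ ∀ p ∈ sphere x t,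
      ∫⁻ z, ENNReal.ofReal (‖F z‖ * (t / (‖z - p‖ * (‖z - p‖ + t)))) ≤ η + η + η := by
  obtain ⟨ε, hε, hε'⟩ := ENNReal.exists_nnreal_pos_mul_lt vrz_ψ hη
  have hε0 : (0 : ℝ) < ε := hε
  have hG (M : ℝ) : Measurable ((ball x M)ᶜ.indicator fun z => ‖F z‖ₑ ^ 2) :=
    (hm.enorm.pow_const 2).indicator measurableSet_ball.compl
  have l1 : Tendsto (fun n : ℕ => ∫⁻ z, (ball x n)ᶜ.indicator (fun z => ‖F z‖ₑ ^ 2) z) atTop
      (𝓝 (∫⁻ _ : ℂ, 0)) := by
    refine tendsto_lintegral_of_dominated_convergence _ (fun n => hG n)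
      (fun n => ae_of_all _ fun z => indicator_le_self _ _ z) h2.ne (ae_of_all _ fun z => ?_)
    refine tendsto_const_nhds.congr' ?_
    filter_upwards [tendsto_natCast_atTop_atTop.eventually_gt_atTop (dist z x)] with n hn
    rw [indicator_of_notMem (by simpa using hn)]
  rw [lintegral_zero] at l1
  have l2 := ENNReal.Tendsto.const_mul (a := ENNReal.ofReal (2 / ε) * (1 + ∫⁻ v, ENNReal.ofReal (vrzφ v))) l1
    (Or.inr (ENNReal.mul_ne_top ENNReal.ofReal_ne_top (ENNReal.add_ne_top.2 ⟨by simp, vrz_φ⟩)))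
  rw [mul_zero] at l2
  obtain ⟨M, hM⟩ := (l2.eventually (ge_mem_nhds hη.bot_lt)).exists
  have hA : ∫⁻ z in ball x M, ‖F z‖ₑ ≠ ⊤ := by
    refine (lt_of_le_of_lt (lintegral_mono (g := fun z => 1 + ‖F z‖ₑ ^ 2) fun z => ?_) ?_).ne
    · rcases le_total ‖F z‖ₑ 1 with h | h
      · exact h.trans le_self_add
      · exact (le_self_pow h two_ne_zero).trans le_add_self
    · rw [lintegral_add_left measurable_const, setLIntegral_one]
      exact ENNReal.add_lt_top.2 ⟨measure_ball_lt_top, (setLIntegral_le_lintegral _ _).trans_lt h2⟩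
  obtain ⟨δ, hδ, hδ'⟩ := ENNReal.exists_nnreal_pos_mul_lt hA hη
  have hδ0 : (0 : ℝ) < δ := hδ
  set R := max R₀ (M + (δ : ℝ)⁻¹) with hR
  have hR1 : M + (δ : ℝ)⁻¹ ≤ R := le_max_right _ _
  have hR0 : 0 < R := lt_of_lt_of_le (by positivity) hR1
  obtain ⟨t, ht, hJ⟩ := vrz_avg (hG M) x hR0
  have ht0 : 0 < t := hR0.trans_le ht.1
  refine ⟨t, (le_max_left _ _).trans ht.1, ht0, fun p hp => ?_⟩
  have hψ : Measurable fun w : ℂ => ENNReal.ofReal (vrzψ ‖w‖) := by unfold vrzψ; fun_prop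
  have hae : ∀ᵐ z : ℂ, z ∉ sphere x t := compl_mem_ae_iff.2 (Measure.addHaar_sphere _ _ _)
  calc _ ≤ ∫⁻ z, (δ * (ball x M).indicator (fun z => ‖F z‖ₑ) z + ENNReal.ofReal (ε / t ^ 2) *
        ENNReal.ofReal (vrzψ ‖t⁻¹ • (z - p)‖)) + ENNReal.ofReal (2 / ε) *
        ((ball x M)ᶜ.indicator (fun z => ‖F z‖ₑ ^ 2) z *
          ENNReal.ofReal (1 + vrzφ (R⁻¹ * (t - ‖z - x‖)))) := by
        refine lintegral_mono_ae (hae.mono fun z hz => ?_)
        have h3 : |t - ‖z - x‖| ≤ ‖z - p‖ := by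
          rw [← mem_sphere_iff_norm.1 hp, norm_sub_rev z p, ← sub_sub_sub_cancel_right p z x]
          exact abs_norm_sub_norm_le _ _
        by_cases hz' : z ∈ ball x M
        · refine le_add_right (le_add_right ?_)
          rw [indicator_of_mem hz', ← ofReal_norm, ← ENNReal.ofReal_coe_nnreal, ← ENNReal.ofReal_mul hδ0.le,
            mul_comm]
          have h4 : (δ : ℝ)⁻¹ ≤ ‖z - p‖ := by
            linarith [mem_ball_iff_norm.1 hz', le_abs_self (t - ‖z - x‖), ht.1]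
          have h5 : 0 < ‖z - p‖ := lt_of_lt_of_le (by positivity) h4
          refine ENNReal.ofReal_le_ofReal (mul_le_mul_of_nonneg_right ?_ (norm_nonneg _))
          rw [div_le_iff₀ (by positivity), ← mul_assoc]
          rw [inv_le_iff_one_le_mul₀' hδ0] at h4
          nlinarith
        · have h0 := vrz_φ0 (R⁻¹ * (t - ‖z - x‖))
          rw [indicator_of_notMem hz', indicator_of_mem (mem_compl hz'), mul_zero, zero_add, ← ofReal_norm,
            ← ENNReal.ofReal_pow (norm_nonneg _), ← ENNReal.ofReal_mul (by positivity),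
            ← ENNReal.ofReal_mul (by positivity), ← ENNReal.ofReal_mul (by positivity),
            ← ENNReal.ofReal_add (by unfold vrzψ; positivity) (by positivity), norm_smul,
            Real.norm_of_nonneg (inv_pos.2 ht0).le, ← div_eq_inv_mul, add_comm (_ * vrzψ _)]
          exact ENNReal.ofReal_le_ofReal (vrz_pt hR0 ht.1 ht.2
            (fun h => hz (mem_sphere_iff_norm.2 (by linarith))) h3 hε0)
    _ ≤ _ := by
        have m1 := (hm.enorm.indicator (measurableSet_ball (x := x) (ε := M))).const_mul δ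
        have m2 : Measurable fun z : ℂ => ENNReal.ofReal (vrzψ ‖t⁻¹ • (z - p)‖) := hψ.comp (by fun_prop)
        rw [lintegral_add_left (m1.fun_add (m2.const_mul _)), lintegral_add_left m1,
          lintegral_const_mul' _ _ ENNReal.coe_ne_top, lintegral_const_mul' _ _ ENNReal.ofReal_ne_top,
          lintegral_const_mul' _ _ ENNReal.ofReal_ne_top, lintegral_indicator measurableSet_ball,
          vrz_scale volume hψ p ht0, Complex.finrank_real_complex, ← mul_assoc,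
          ← ENNReal.ofReal_mul (by positivity), div_mul_cancel₀ _ (by positivity), ENNReal.ofReal_coe_nnreal]
        refine add_le_add (add_le_add hδ'.le hε'.le) (le_trans ?_ hM)
        rw [mul_assoc]
        gcongr

theorem vrz_ker {a b : ℂ} {t : ℝ} (ht : 0 < t) (ha : a ≠ 0) (hab : ‖a‖ ≤ ‖b‖) (h : ‖b - a‖ ≤ 2 * t) :
    ‖a⁻¹ - b⁻¹‖ ≤ 4 * (t / (‖a‖ * (‖a‖ + t))) := by
  have ha' := norm_pos_iff.2 ha
  have hb' := ha'.trans_le hab
  have h1 := norm_sub_le b a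
  rw [inv_sub_inv ha (norm_pos_iff.1 hb'), norm_div, norm_mul, ← mul_div_assoc,
    div_le_div_iff₀ (by positivity) (by positivity)]
  have h2 : ‖b - a‖ * (‖a‖ + t) ≤ 4 * t * ‖b‖ := by
    nlinarith [mul_le_mul h hab ha'.le (by positivity), mul_le_mul_of_nonneg_right h1 ht.le]
  nlinarith [mul_le_mul_of_nonneg_left h2 ha'.le]

end Crest.Agent.R135
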