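import Crest.Agent.R135.Defs
import Crest.Agent.R135.VKer
import Crest.Agent.R135.VRieszAux
set_option autoImplicit false
open MeasureTheory Metric Set Filter Topology
open scoped ENNReal NNReal Real ComplexConjugate

namespace Crest.Agent.R135

theorem vrz_sq (f : ℂ → ℂ) (μ : Measure ℂ) : eLpNorm f 2 μ ^ 2 = ∫⁻ z, ‖f z‖ₑ ^ 2 ∂μ := by
  have := eLpNorm_nnreal_pow_eq_lintegral (f := f) (μ := μ) (p := 2) two_ne_zero
  simpa using this

theorem vrz_mem {f : ℂ → ℂ} {μ : Measure ℂ} (hm : AEStronglyMeasurable f μ) :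
    MemLp f 2 μ ↔ ∫⁻ z, ‖f z‖ₑ ^ 2 ∂μ < ⊤ := by
  rw [← vrz_sq, ENNReal.pow_lt_top_iff]
  simp [MemLp, hm]

theorem vrz_norm (v : Lp ℂ 2 (volume : Measure ℂ)) : ∫⁻ z, ‖v z‖ₑ ^ 2 = ENNReal.ofReal (‖v‖ ^ 2) := by
  rw [← vrz_sq, ENNReal.ofReal_pow (norm_nonneg _), Lp.norm_def, ENNReal.ofReal_toReal (Lp.eLpNorm_ne_top v)]

theorem vrz_inner {f g : ℂ → ℂ} (hf : MemLp f 2) (hg : MemLp g 2) : Integrable fun z => inner ℝ (f z) (g z) :=
  (hf.norm.integrable_mul hg.norm).mono' (hf.1.inner hg.1) (Eventually.of_forall fun _ => norm_inner_le_norm _ _)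

theorem vrz_grad {K : Set ℂ} {ψ : ℂ → ℝ} (h : Tst K ψ) : MemLp (gradient ψ) 2 :=
  (vrz_mem (measurable_gradient ψ).aestronglyMeasurable).2 (by simpa [Dir] using h.fin)

theorem vrz_lin {K : Set ℂ} (hK : IsClosed K) (h0 : volume K = 0) {ψ χ : ℂ → ℝ} (h : Tst K ψ) (h' : Tst K χ)
    (c : ℝ) : Tst K (fun z => c * ψ z + χ z) ∧
      gradient (fun z => c * ψ z + χ z) =ᵐ[volume] fun z => c • gradient ψ z + gradient χ z := by
  have e : gradient (fun z => c * ψ z + χ z) =ᵐ[volume] fun z => c • gradient ψ z + gradient χ z := by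
    filter_upwards [ae_diff_of_locLip hK.isOpen_compl h.lip, ae_diff_of_locLip hK.isOpen_compl h'.lip,
      measure_eq_zero_iff_ae_notMem.1 h0] with z h1 h2 hz
    rw [gradient, (((h1 hz).hasFDerivAt.const_mul c).fun_add (h2 hz).hasFDerivAt).fderiv, map_add, map_smul]
    rfl
  refine ⟨⟨(ibp_locLip_mul (LipschitzWith.const c).locallyLipschitz.locallyLipschitzOn h.lip).add h'.lip, ?_, ?_⟩, e⟩
  · obtain ⟨R, hR⟩ := h.supp
    obtain ⟨R', hR'⟩ := h'.supp
    refine ⟨max R R', fun z hz hz' => ?_⟩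
    rw [hR z hz ((le_max_left _ _).trans hz'), hR' z hz ((le_max_right _ _).trans hz'), mul_zero, add_zero]
  · have := (vrz_mem (measurable_gradient _).aestronglyMeasurable).1
      ((((vrz_grad h).const_smul c).add (vrz_grad h')).ae_eq e.symm)
    simpa [Dir] using this

theorem vrz_int {K : Set ℂ} (hK : IsClosed K) (h0 : volume K = 0) {G : ℂ → ℂ} (hm : Measurable G) (hg : Grow G)
    {ψ : ℂ → ℝ} (h : Tst K ψ) : Integrable fun z => inner ℝ (G z) (gradient ψ z) := by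
  obtain ⟨R, hR⟩ := h.supp
  obtain ⟨A, hA⟩ := hg
  have h1 : MemLp ((ball (0 : ℂ) (|R| + 1)).indicator G) 2 :=
    (memLp_indicator_iff_restrict measurableSet_ball).2 ((vrz_mem hm.aestronglyMeasurable).2
      ((hA _ (le_add_of_nonneg_left (abs_nonneg R))).trans_lt ENNReal.ofReal_lt_top))
  refine (vrz_inner h1 (vrz_grad h)).congr ?_
  filter_upwards [measure_eq_zero_iff_ae_notMem.1 h0] with z hz
  by_cases h2 : z ∈ ball (0 : ℂ) (|R| + 1)
  · rw [indicator_of_mem h2]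
  · have h3 : R < ‖z‖ := by
      rw [mem_ball_zero_iff, not_lt] at h2
      linarith [le_abs_self R]
    have h4 : ψ =ᶠ[𝓝 z] fun _ => 0 := by
      filter_upwards [hK.isOpen_compl.mem_nhds hz, continuous_norm.continuousAt.eventually (lt_mem_nhds h3)]
        with y h5 h6 using hR y h5 h6.le
    simp [h4.gradient_eq]

/-- Riesz. `H = Lp ℂ 2 volume` is a real Hilbert space (`L2.innerProductSpace` with `𝕜 = ℝ`). `V = {[∇ψ] | Tst K ψ}` is a real subspace
(a.e. differentiability off the null set `K`); `[∇ψ] ↦ ∫ ⟪G, ∇ψ⟫` is well defined and bounded by `√σ`; Hahn–Banach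
(`exists_extension_of_le_sublinear` on a `LinearPMap`, or `exists_extension_norm_eq`) and `InnerProductSpace.toDual`; take a measurable representative. -/
theorem riesz {K : Set ℂ} (hK : IsClosed K) (h0 : volume K = 0) {G : ℂ → ℂ} (hm : Measurable G) (hg : Grow G) {σ : ℝ}
    (hσ : 0 ≤ σ) (h : ∀ ψ, Tst K ψ → (∫ z, inner ℝ (G z) (gradient ψ z)) ^ 2 ≤ σ * (Dir ψ univ).toReal) :
    ∃ F₀ : ℂ → ℂ, Measurable F₀ ∧ ∫⁻ z, ‖F₀ z‖ₑ ^ 2 ≤ ENNReal.ofReal σ ∧ Orth K (fun z => G z - F₀ z) := by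
  have hz : Tst K fun _ => 0 := ⟨(LipschitzWith.const 0).locallyLipschitz.locallyLipschitzOn,
    ⟨0, fun _ _ _ => rfl⟩, by simp [Dir]⟩
  let V : Submodule ℝ (Lp ℂ 2 (volume : Measure ℂ)) :=
    { carrier := {v | ∃ ψ, Tst K ψ ∧ v =ᵐ[volume] gradient ψ}
      add_mem' := by
        rintro v w ⟨ψ, h1, h2⟩ ⟨χ, h3, h4⟩
        refine ⟨_, (vrz_lin hK h0 h1 h3 1).1, ?_⟩
        filter_upwards [(vrz_lin hK h0 h1 h3 1).2, h2, h4, Lp.coeFn_add v w] with z a1 a2 a3 a4
        rw [a1, a4, Pi.add_apply, a2, a3, one_smul]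
      zero_mem' := ⟨_, hz, (Lp.coeFn_zero _ _ _).trans (Eventually.of_forall fun z => by simp)⟩
      smul_mem' := by
        rintro c v ⟨ψ, h1, h2⟩
        refine ⟨_, (vrz_lin hK h0 h1 hz c).1, ?_⟩
        filter_upwards [(vrz_lin hK h0 h1 hz c).2, h2, Lp.coeFn_smul c v] with z a1 a2 a3
        rw [a1, a3, Pi.smul_apply, a2]
        simp }
  have hi : ∀ v : V, Integrable fun z => inner ℝ (G z) (v.1 z) := by
    rintro ⟨v, ψ, h1, h2⟩
    exact (vrz_int hK h0 hm hg h1).congr (h2.mono fun z hz => by simp only [hz])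
  let l : V →ₗ[ℝ] ℝ :=
    { toFun := fun v => ∫ z, inner ℝ (G z) (v.1 z)
      map_add' := fun v w => by
        rw [← integral_add (hi v) (hi w)]
        refine integral_congr_ae ((Lp.coeFn_add v.1 w.1).mono fun z hz => ?_)
        simp only [Submodule.coe_add, hz, Pi.add_apply, inner_add_right]
      map_smul' := fun c v => by
        rw [RingHom.id_apply, smul_eq_mul, ← integral_const_mul]
        refine integral_congr_ae ((Lp.coeFn_smul c v.1).mono fun z hz => ?_)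
        simp only [Submodule.coe_smul, hz, Pi.smul_apply, inner_smul_right] }
  have hl : ∀ v : V, ‖l v‖ ≤ √σ * ‖v‖ := by
    rintro ⟨v, ψ, h1, h2⟩
    have h3 := h ψ h1
    have h4 : Dir ψ univ = ENNReal.ofReal (‖v‖ ^ 2) := by
      rw [← vrz_norm, Dir, Measure.restrict_univ]
      exact lintegral_congr_ae (h2.mono fun z hz => by simp only [hz])
    rw [h4, ENNReal.toReal_ofReal (sq_nonneg _),
      ← integral_congr_ae (f := fun z => inner ℝ (G z) (v z)) (h2.mono fun z hz => by simp only [hz])] at h3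
    refine abs_le_of_sq_le_sq ?_ (by positivity)
    rw [mul_pow, Real.sq_sqrt hσ]
    exact h3
  obtain ⟨g, hg1, hg2⟩ := exists_extension_norm_eq V (l.mkContinuous _ hl)
  have hn : ‖(InnerProductSpace.toDual ℝ _).symm g‖ ≤ √σ := by
    rw [LinearIsometryEquiv.norm_map, hg2]
    exact l.mkContinuous_norm_le (Real.sqrt_nonneg σ) hl
  refine ⟨((InnerProductSpace.toDual ℝ _).symm g : Lp ℂ 2 (volume : Measure ℂ)), (Lp.stronglyMeasurable _).measurable, ?_, fun ψ hψ => ?_⟩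
  · rw [vrz_norm]
    refine ENNReal.ofReal_le_ofReal ((pow_le_pow_left₀ (norm_nonneg _) hn 2).trans_eq (Real.sq_sqrt hσ))
  · have h2 := (vrz_grad hψ).coeFn_toLp
    have h3 := hg1 ⟨(vrz_grad hψ).toLp _, ψ, hψ, h2⟩
    simp only [inner_sub_left]
    rw [integral_sub (vrz_int hK h0 hm hg hψ) (vrz_inner (Lp.memLp _) (vrz_grad hψ)), sub_eq_zero]
    rw [← InnerProductSpace.toDual_symm_apply, L2.inner_def] at h3
    refine Eq.trans ?_ (h3.symm.trans ?_)
    · exact integral_congr_ae (h2.mono fun z hz => by simp only [hz])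
    · exact integral_congr_ae (h2.mono fun z hz => by simp only [hz])

/-- Tail estimate for `L²` fields. Let `A = {R/2 ≤ ‖z-x‖ ≤ 4R}`. The average over `t ∈ [R,2R]` of `∫_A ‖F‖² (R/|‖z-x‖-t|)^{1/2}` is
`≤ C ∫_A ‖F‖²` (Tonelli), pick `t` (Chebyshev). For `p ∈ sphere x t`: `∫_A ‖F‖/‖z-p‖ ≤ (∫_A ‖F‖²(R/‖z-p‖)^{1/2})^{1/2} (∫_A ‖z-p‖^{-3/2}R^{-1/2})^{1/2}`
and `‖z-p‖ ≥ |‖z-x‖-t|`. Inside `ball x (R/2)` the kernel is `≤ 4/R`: split at a fixed radius `M`. Outside `ball x (4R)` it is `≤ C R/‖z-x‖²`. -/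
theorem tail_small {F : ℂ → ℂ} (hm : Measurable F) (h2 : ∫⁻ z, ‖F z‖ₑ ^ 2 < ⊤) (x : ℂ) {η : ℝ} (hη : 0 < η) (R₀ : ℝ) :
    ∃ t : ℝ, R₀ ≤ t ∧ ∀ p ∈ sphere x t, Sing F p ∧
      ∀ q ∈ sphere x t, ∫⁻ z, ‖F z * ((z - p)⁻¹ - (z - q)⁻¹)‖ₑ ≤ ENNReal.ofReal η := by
  obtain ⟨t, h1, ht, h⟩ := vrz_main hm h2 x (η := ENNReal.ofReal (η / 24)) (by simpa using hη) R₀
  have m (p : ℂ) : Measurable fun z => ENNReal.ofReal (‖F z‖ * (t / (‖z - p‖ * (‖z - p‖ + t)))) := by fun_prop
  have ae (p : ℂ) : ∀ᵐ z : ℂ, z ≠ p := Measure.ae_ne _ _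
  refine ⟨t, h1, fun p hp => ⟨⟨Measurable.aestronglyMeasurable (by fun_prop), ?_⟩, fun q hq => ?_⟩⟩
  · refine lt_of_le_of_lt (lintegral_mono_ae (g := fun z => ENNReal.ofReal ((1 + t) / t) *
      ENNReal.ofReal (‖F z‖ * (t / (‖z - p‖ * (‖z - p‖ + t))))) ?_) ?_
    · filter_upwards [ae_restrict_mem measurableSet_ball, ae_restrict_of_ae (ae p)] with z hz hz'
      have h3 := norm_pos_iff.2 (sub_ne_zero.2 hz')
      have h4 := mem_ball_iff_norm.1 hz
      rw [← ofReal_norm, ← ENNReal.ofReal_mul (by positivity), Real.norm_of_nonneg (by positivity)]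
      refine ENNReal.ofReal_le_ofReal ?_
      rw [show (1 + t) / t * (‖F z‖ * (t / (‖z - p‖ * (‖z - p‖ + t)))) =
        ‖F z‖ / ‖z - p‖ * ((1 + t) / (‖z - p‖ + t)) by field_simp]
      exact le_mul_of_one_le_right (by positivity) ((one_le_div (by positivity)).2 (by linarith))
    · rw [lintegral_const_mul _ (m p)]
      exact ENNReal.mul_lt_top ENNReal.ofReal_lt_top
        (((setLIntegral_le_lintegral _ _).trans (h p hp)).trans_lt (by simp))
  · have hpq : ‖p - q‖ ≤ 2 * t := by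
      have := norm_sub_le (p - x) (q - x)
      rw [sub_sub_sub_cancel_right, mem_sphere_iff_norm.1 hp, mem_sphere_iff_norm.1 hq] at this
      linarith
    calc _ ≤ ∫⁻ z, ENNReal.ofReal 4 * (ENNReal.ofReal (‖F z‖ * (t / (‖z - p‖ * (‖z - p‖ + t)))) +
          ENNReal.ofReal (‖F z‖ * (t / (‖z - q‖ * (‖z - q‖ + t))))) := by
          refine lintegral_mono_ae ?_
          filter_upwards [ae p, ae q] with z hz hz'
          rw [← ofReal_norm, ← ENNReal.ofReal_add (by positivity) (by positivity),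
            ← ENNReal.ofReal_mul (by positivity), norm_mul, ← mul_add, mul_left_comm]
          refine ENNReal.ofReal_le_ofReal (mul_le_mul_of_nonneg_left ?_ (norm_nonneg _))
          rw [mul_add]
          rcases le_total ‖z - p‖ ‖z - q‖ with h3 | h3
          · exact (vrz_ker ht (sub_ne_zero.2 hz) h3 (by rwa [sub_sub_sub_cancel_left])).trans
              (le_add_of_nonneg_right (by positivity))
          · rw [norm_sub_rev]
            exact (vrz_ker ht (sub_ne_zero.2 hz') h3 (by rwa [sub_sub_sub_cancel_left, norm_sub_rev])).trans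
              (le_add_of_nonneg_left (by positivity))
      _ ≤ _ := by
          rw [lintegral_const_mul _ ((m p).fun_add (m q)), lintegral_add_left (m p)]
          refine (mul_le_mul_right (add_le_add (h p hp) (h q hq)) _).trans_eq ?_
          have h0 : 0 ≤ η / 24 := by positivity
          rw [← ENNReal.ofReal_add h0 h0, ← ENNReal.ofReal_add (by positivity) h0,
            ← ENNReal.ofReal_add (by positivity) (by positivity), ← ENNReal.ofReal_mul (by positivity)]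
          congr 1
          ring

end Crest.Agent.R135
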