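import Crest.Agent.R135.Defs
import Crest.Agent.R135.ECont
import Crest.Agent.R135.VArg
import Crest.Agent.R135.VRiesz
import Crest.Agent.R135.TNP
set_option autoImplicit false
open MeasureTheory Metric Set Filter Topology
open scoped ENNReal NNReal Real ComplexConjugate

namespace Crest.Agent.R135

theorem vcj_add {F : ℂ → ℂ} (hm : Measurable F) (hg : Grow F) {p q r : ℂ} (hp : Sing F p) (hq : Sing F q)
    (hr : Sing F r) : kI F p r = kI F p q + kI F q r := by
  have i1 : Integrable fun z => (F z * ((z - p)⁻¹ - (z - q)⁻¹)).im := (kernel_integrable hm hg hp hq).im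
  have i2 : Integrable fun z => (F z * ((z - q)⁻¹ - (z - r)⁻¹)).im := (kernel_integrable hm hg hq hr).im
  rw [kI, kI, kI, ← integral_add i1 i2]
  simp only [← Complex.add_im, ← mul_add, sub_add_sub_cancel]

theorem vcj_le {F : ℂ → ℂ} {p q : ℂ} (hi : Integrable fun z => F z * ((z - p)⁻¹ - (z - q)⁻¹)) :
    |kI F p q| ≤ ∫ z, ‖F z * ((z - p)⁻¹ - (z - q)⁻¹)‖ :=
  norm_integral_le_of_norm_le (f := fun z => (F z * ((z - p)⁻¹ - (z - q)⁻¹)).im) hi.norm (Eventually.of_forall fun _ => Complex.abs_im_le_norm _)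

theorem vcj_sing {F G : ℂ → ℂ} (hF : Measurable F) (hG : Measurable G) {p : ℂ} (h1 : Sing F p) (h2 : Sing G p) :
    Sing (fun z => F z - G z) p := by
  refine Integrable.mono' (h1.add h2) (Measurable.aestronglyMeasurable (by fun_prop)) (Eventually.of_forall fun z => ?_)
  rw [Real.norm_of_nonneg (by positivity), Pi.add_apply, ← add_div]
  exact div_le_div_of_nonneg_right (norm_sub_le _ _) (norm_nonneg _)

theorem vcj_grow {F G : ℂ → ℂ} (hF : Measurable F) (h1 : Grow F) (h2 : Grow G) : Grow fun z => F z - G z := by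
  obtain ⟨A, hA⟩ := h1
  obtain ⟨B, hB⟩ := h2
  refine ⟨2 * (|A| + |B|), fun R hR => ?_⟩
  have hR0 : 0 ≤ R := zero_le_one.trans hR
  have key : ∀ z, ‖F z - G z‖ₑ ^ 2 ≤ 2 * (‖F z‖ₑ ^ 2 + ‖G z‖ₑ ^ 2) := fun z => by
    simp only [← ofReal_norm, ← ENNReal.ofReal_pow (norm_nonneg _)]
    rw [← ENNReal.ofReal_add (by positivity) (by positivity), ← ENNReal.ofReal_ofNat 2,
      ← ENNReal.ofReal_mul (by positivity)]
    refine ENNReal.ofReal_le_ofReal ?_
    nlinarith [norm_sub_le (F z) (G z), norm_nonneg (F z - G z), sq_nonneg (‖F z‖ - ‖G z‖)]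
  refine (lintegral_mono key).trans ?_
  rw [lintegral_const_mul' _ _ ENNReal.ofNat_ne_top, lintegral_add_left (by fun_prop), mul_assoc,
    ENNReal.ofReal_mul zero_le_two, ENNReal.ofReal_ofNat, add_mul,
    ENNReal.ofReal_add (by positivity) (by positivity)]
  gcongr
  · exact (hA R hR).trans (ENNReal.ofReal_le_ofReal (mul_le_mul_of_nonneg_right (le_abs_self A) hR0))
  · exact (hB R hR).trans (ENNReal.ofReal_le_ofReal (mul_le_mul_of_nonneg_right (le_abs_self B) hR0))

/-- No flux between points of `K`. Add the crack `segment p q` (`Glob.el_add`, `riesz` on `K ∪ segment`, `G = F₀ + F₁`). `tail_small` gives `t ≥ ‖p-q‖`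
(centre `p`); `Glob.cont` at `p` (radius `t`) and at `q` (radius `2t`) give continua meeting `sphere p t` at `p_t, q_t`. `arg_zero` for `G`:
`kI G p p_t = kI G q q_t = 0`; for `F₁` on the union of both continua and the segment: `kI F₁ p_t q_t = 0`. So `|kI G p q| = |kI F₀ p_t q_t| ≤ η`. -/
theorem Glob.kI_zero {K : Set ℂ} {u : ℂ → ℝ} (h : Glob K u) {p q : ℂ} (hp : p ∈ K) (hq : q ∈ K) :
    kI (gradient u) p q = 0 := by
  have hm := measurable_gradient u
  obtain ⟨hg, hs, -⟩ := morrey_kernel hm fun z r hr => h.growth z hr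
  have hS : IsCompact (segment ℝ p q) := by
    rw [segment_eq_image]
    exact isCompact_Icc.image (by fun_prop)
  have hK' : IsClosed (K ∪ segment ℝ p q) := h.ms.closed.union hS.isClosed
  have hsub : (K ∪ segment ℝ p q) \ K ⊆ segment ℝ p q := fun z hz => hz.1.resolve_left hz.2
  have h0 : volume (K ∪ segment ℝ p q) = 0 :=
    measure_union_null h.vol_zero (vol_zero_of_H1 ((H1_segment p q).trans_lt ENNReal.ofReal_lt_top))
  obtain ⟨F₀, hm₀, h2, ho⟩ := riesz hK' h0 hm hg (norm_nonneg (p - q)) fun ψ hψ =>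
    h.el_add hK' subset_union_left (hS.isBounded.subset hsub) (norm_nonneg _)
      ((measure_mono hsub).trans_eq (H1_segment p q)) hψ
  have hg₀ : Grow F₀ := ⟨‖p - q‖, fun R hR => (setLIntegral_le_lintegral _ _).trans
    (h2.trans (ENNReal.ofReal_le_ofReal (le_mul_of_one_le_right (norm_nonneg _) hR)))⟩
  refine abs_nonpos_iff.1 (le_of_forall_pos_le_add fun η hη => ?_)
  obtain ⟨t, ht, hT⟩ := tail_small hm₀ (h2.trans_lt ENNReal.ofReal_lt_top) p hη (dist q p + 1)
  have ht0 : 0 < t := by linarith [dist_nonneg (x := q) (y := p)]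
  obtain ⟨C₁, c1, k1, s1, m1, p', hp', hp''⟩ := h.cont hp ht0
  obtain ⟨C₂, c2, k2, s2, m2, r, hr, hr'⟩ := h.cont hq (R := 2 * t) (by positivity)
  obtain ⟨q', hq', hq''⟩ := conn_meets_sphere k2 (x := p) (ρ := t) m2 hr (by linarith) (by
    have := dist_triangle r p q
    rw [mem_sphere.1 hr', dist_comm p q] at this
    linarith)
  have s1' : C₁ ⊆ K := s1.trans inter_subset_left
  have s2' : C₂ ⊆ K := s2.trans inter_subset_left
  have e1 := arg_zero h.ms.closed h.vol_zero hm hg h.orth c1 k1 s1' m1 hp' (hs _) (hs _)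
  have e2 := arg_zero h.ms.closed h.vol_zero hm hg h.orth c2 k2 s2' hq' m2 (hs _) (hs _)
  have e3 := arg_zero hK' h0 (hm.sub hm₀) (vcj_grow hm hg hg₀) ho ((c1.union hS).union c2)
    ((k1.union p m1 (left_mem_segment ℝ p q) (convex_segment p q).isPreconnected).union q
      (Or.inr (right_mem_segment ℝ p q)) m2 k2)
    (union_subset (union_subset (s1'.trans subset_union_left) subset_union_right) (s2'.trans subset_union_left))
    (Or.inl (Or.inl hp')) (Or.inr hq') (vcj_sing hm hm₀ (hs _) (hT _ hp'').1) (vcj_sing hm hm₀ (hs _) (hT _ hq'').1)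
  have i0 := kernel_integrable hm₀ hg₀ (hT _ hp'').1 (hT _ hq'').1
  have e4 : kI (gradient u - F₀) p' q' = kI (gradient u) p' q' - kI F₀ p' q' := by
    have i1 : Integrable fun z => (gradient u z * ((z - p')⁻¹ - (z - q')⁻¹)).im :=
      (kernel_integrable hm hg (hs _) (hs _)).im
    have i2 : Integrable fun z => (F₀ z * ((z - p')⁻¹ - (z - q')⁻¹)).im := i0.im
    rw [kI, kI, kI, ← integral_sub i1 i2]
    simp only [Pi.sub_apply, sub_mul, Complex.sub_im]
  have e5 := vcj_add hm hg (hs p) (hs p') (hs q')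
  have e6 := vcj_add hm hg (hs p) (hs q') (hs q)
  have e7 : kI (gradient u) p q = kI F₀ p' q' := by linarith
  rw [e7, zero_add]
  refine (vcj_le i0).trans ?_
  rw [integral_norm_eq_lintegral_enorm i0.aestronglyMeasurable]
  exact ENNReal.toReal_le_of_le_ofReal hη.le ((hT _ hp'').2 _ hq'')

theorem kiw_der {φ : ℂ → ℝ} (hφ : ContDiff ℝ (⊤ : ℕ∞) φ) (hc : HasCompactSupport φ) (d : ℂ) :
    ContDiff ℝ (⊤ : ℕ∞) (fun w => fderiv ℝ φ w d) ∧ HasCompactSupport (fun w => fderiv ℝ φ w d) ∧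
      ∫ w, fderiv ℝ φ w d = 0 := by
  refine ⟨(hφ.fderiv_right (m := (⊤ : ℕ∞)) (by exact_mod_cast le_top)).clm_apply contDiff_const,
    hc.fderiv_apply ℝ d, ?_⟩
  have := integral_fderiv_eq_zero isOpen_univ
    (locLip_of_contDiffOn isOpen_univ (hφ.of_le (by exact_mod_cast le_top)).contDiffOn) hc.isCompact (subset_univ _)
    (fun z hz => image_eq_zero_of_notMem_tsupport hz.2) d
  rwa [Measure.restrict_univ] at this

theorem kiw_dir {ψ : ℂ → ℝ} (hψ : ContDiff ℝ 1 ψ) (R : ℝ) : Dir ψ (ball 0 R) < ⊤ := by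
  obtain ⟨M, hM⟩ := grad_bdd_of_locLip isOpen_univ (locLip_of_contDiffOn isOpen_univ hψ.contDiffOn)
    (isCompact_closedBall (0 : ℂ) R) (subset_univ _)
  calc Dir ψ (ball 0 R) ≤ ∫⁻ _ in ball (0 : ℂ) R, ENNReal.ofReal M ^ 2 :=
        setLIntegral_mono' measurableSet_ball fun z hz => by
          rw [← ofReal_norm]
          exact pow_le_pow_left' (ENNReal.ofReal_le_ofReal (hM z (ball_subset_closedBall hz))) 2
    _ < ⊤ := by
      rw [setLIntegral_const]
      exact ENNReal.mul_lt_top (ENNReal.pow_lt_top ENNReal.ofReal_lt_top) measure_ball_lt_top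

theorem kiw_inner {f : ℂ → ℝ} (hf : ContDiff ℝ (⊤ : ℕ∞) f) (hc : HasCompactSupport f) (h0 : ∫ w, f w = 0)
    (G x z : ℂ) : (2 * π)⁻¹ * (∫ p, (f p : ℂ) * (G * ((z - p)⁻¹ - (z - x)⁻¹))).im =
      - inner ℝ (Complex.I * G) (gradient (NP f) z) := by
  have i1 : Integrable fun p : ℂ => (f p : ℂ) * (z - p)⁻¹ := by
    have := (npb_int (npb_sub hf hc z).1.continuous (npb_sub hf hc z).2.1).comp_sub_left z
    simpa only [sub_sub_cancel] using this
  have i2 : Integrable fun p : ℂ => (f p : ℂ) * (z - x)⁻¹ :=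
    (hf.continuous.integrable_of_hasCompactSupport hc).ofReal.mul_const _
  have e1 : ∫ p, (f p : ℂ) * (G * ((z - p)⁻¹ - (z - x)⁻¹)) = G * ∫ p, (f p : ℂ) * (z - p)⁻¹ := by
    have : ∀ p, (f p : ℂ) * (G * ((z - p)⁻¹ - (z - x)⁻¹)) = G * ((f p : ℂ) * (z - p)⁻¹ - (f p : ℂ) * (z - x)⁻¹) :=
      fun p => by ring
    simp only [this]
    rw [integral_const_mul, integral_sub i1 i2, integral_mul_const, integral_complex_ofReal, h0]
    simp
  have e2 : ∫ w, (f w : ℂ) * (conj (z - w))⁻¹ = conj (∫ p, (f p : ℂ) * (z - p)⁻¹) := by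
    rw [← integral_conj]
    simp only [map_mul, Complex.conj_ofReal, map_inv₀]
  rw [e1, NP_gradient hf hc, e2, Complex.inner]
  generalize ∫ p, (f p : ℂ) * (z - p)⁻¹ = B
  rw [show (2 * π : ℂ)⁻¹ = (((2 * π)⁻¹ : ℝ) : ℂ) by push_cast; rfl]
  generalize (2 * π)⁻¹ = c
  simp
  ring

theorem kiw_fubini {G : ℂ → ℂ} (hm : Measurable G) {A : ℝ}
    (h : ∀ (z : ℂ) (r : ℝ), 0 < r → ∫⁻ w in ball z r, ‖G w‖ₑ ^ 2 ≤ ENNReal.ofReal (A * r)) (x : ℂ) {f : ℂ → ℝ}
    (hf : ContDiff ℝ (⊤ : ℕ∞) f) (hc : HasCompactSupport f) (h0 : ∫ w, f w = 0) :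
    Integrable (fun z => inner ℝ (Complex.I * G z) (gradient (NP f) z)) ∧
      ∫ p, kI G p x / (2 * π) * f p = - ∫ z, inner ℝ (Complex.I * G z) (gradient (NP f) z) := by
  obtain ⟨hg, hs, C, hC⟩ := morrey_kernel hm h
  have hk : ∀ p, Integrable fun z => G z * ((z - p)⁻¹ - (z - x)⁻¹) := fun p => kernel_integrable hm hg (hs p) (hs x)
  have hfm := hf.continuous.measurable
  have hH : Measurable fun q : ℂ × ℂ => (f q.1 : ℂ) * (G q.2 * ((q.2 - q.1)⁻¹ - (q.2 - x)⁻¹)) := by fun_prop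
  have hI : Integrable (fun q : ℂ × ℂ => (f q.1 : ℂ) * (G q.2 * ((q.2 - q.1)⁻¹ - (q.2 - x)⁻¹))) (volume.prod volume) := by
    refine (integrable_prod_iff hH.aestronglyMeasurable).2 ⟨Eventually.of_forall fun p => (hk p).const_mul (f p : ℂ), ?_⟩
    have hb : Integrable fun p : ℂ => ‖f p‖ * (C * √‖p - x‖) :=
      Continuous.integrable_of_hasCompactSupport (hf.continuous.norm.mul (by fun_prop)) hc.norm.mul_right
    refine hb.mono' hH.stronglyMeasurable.norm.integral_prod_right'.aestronglyMeasurable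
      (Eventually.of_forall fun p => ?_)
    rw [Real.norm_of_nonneg (integral_nonneg fun _ => norm_nonneg _)]
    simp only [norm_mul (f p : ℂ), Complex.norm_real]
    rw [integral_const_mul]
    exact mul_le_mul_of_nonneg_left (hC p x) (norm_nonneg _)
  have j1 := hI.integral_prod_left
  have j2 := hI.integral_prod_right
  have e := integral_integral_swap (f := fun p z => (f p : ℂ) * (G z * ((z - p)⁻¹ - (z - x)⁻¹))) hI
  have e1 : ∀ p, kI G p x / (2 * π) * f p = (2 * π)⁻¹ * (∫ z, (f p : ℂ) * (G z * ((z - p)⁻¹ - (z - x)⁻¹))).im := by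
    intro p
    have := Complex.imCLM.integral_comp_comm (hk p)
    simp only [Complex.imCLM_apply] at this
    rw [integral_const_mul, Complex.im_ofReal_mul, kI, this]
    ring
  have k1 := Complex.imCLM.integral_comp_comm j1
  have k2 := Complex.imCLM.integral_comp_comm j2
  have k3 := (Complex.imCLM.integrable_comp j2).const_mul (2 * π)⁻¹
  simp only [Complex.imCLM_apply] at k1 k2 k3
  simp only [kiw_inner hf hc h0] at k3
  refine ⟨by simpa using k3.neg, ?_⟩
  simp only [e1]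
  rw [integral_const_mul, k1, e, ← k2, ← integral_const_mul, ← integral_neg]
  simp only [kiw_inner hf hc h0]

/-- Weak gradient of `v p = kI G p x/(2π)`. Fubini (`morrey_kernel`), `∫ ∂_dφ = 0`, `NP_gradient`: `∫ v ∂_dφ = -∫⟪iG, ∇NP(∂_dφ)⟫`; with `N = NP φ`,
`∇∂_d N = (ΔN) d + i ∇∂_{i d} N` (symmetry of second derivatives, `NP_fderiv`, `NP_lap`), and `orth_decay` for `NP(∂_{id}φ)` (`NP_decay`). -/
theorem Glob.kI_weak {K : Set ℂ} {u : ℂ → ℝ} (h : Glob K u) (x : ℂ) {φ : ℂ → ℝ} (hφ : ContDiff ℝ (⊤ : ℕ∞) φ)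
    (hc : HasCompactSupport φ) (d : ℂ) :
    ∫ p, kI (gradient u) p x / (2 * π) * fderiv ℝ φ p d = - ∫ z, inner ℝ (Complex.I * gradient u z) d * φ z := by
  have hm := measurable_gradient u
  have hgr := fun z r hr => h.growth z (r := r) hr
  obtain ⟨f1, f2, f3⟩ := kiw_der hφ hc d
  obtain ⟨g1, g2, g3⟩ := kiw_der hφ hc (Complex.I * d)
  obtain ⟨i1, e1⟩ := kiw_fubini hm hgr x f1 f2 f3
  have hN : ContDiff ℝ 1 (NP fun w => fderiv ℝ φ w (Complex.I * d)) :=
    (NP_contDiff g1 g2).of_le (by exact_mod_cast le_top)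
  obtain ⟨A, R, hR, hd⟩ := NP_decay g1 g2 g3
  obtain ⟨i2, e2⟩ := orth_decay h.ms.closed h.vol_zero hm (morrey_kernel hm hgr).1 h.orth
    (locLip_of_contDiffOn h.ms.closed.isOpen_compl hN.contDiffOn) (kiw_dir hN) ⟨A, R, hR, fun z _ hz => hd z hz⟩
  rw [e1, ← sub_zero (∫ z, inner ℝ (Complex.I * gradient u z) (gradient (NP fun w => fderiv ℝ φ w d) z)), ← e2,
    ← integral_sub i1 i2]
  congr 2
  funext z
  have := treg_ptw (NP_contDiff hφ hc) z (Complex.I * gradient u z) d
  simp only [NP_fderiv hφ hc] at this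
  rw [NP_lap hφ hc, ← mul_assoc, Complex.I_mul_I, neg_one_mul, inner_neg_left] at this
  linarith

/-- the harmonic conjugate (`morrey_kernel` for continuity, `hasGradientAt_of_weak`) -/
theorem Glob.conj {K : Set ℂ} {u : ℂ → ℝ} (h : Glob K u) {x : ℂ} (hx : x ∈ K) :
    ∃ v : ℂ → ℝ, Continuous v ∧ (∀ z ∈ K, v z = 0) ∧ ∀ z ∉ K, HasGradientAt v (Complex.I * gradient u z) z := by
  have hm := measurable_gradient u
  obtain ⟨hg, hs, C, hC⟩ := morrey_kernel hm fun z r hr => h.growth z hr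
  have hv : Continuous fun p => kI (gradient u) p x := by
    refine continuous_iff_continuousAt.2 fun q => tendsto_iff_norm_sub_tendsto_zero.2 ?_
    have h1 : Continuous fun p : ℂ => C * √‖p - q‖ := by fun_prop
    refine squeeze_zero (fun _ => norm_nonneg _) (fun p => ?_) (by simpa using h1.tendsto q)
    rw [vcj_add hm hg (hs p) (hs q) (hs x), add_sub_cancel_right]
    exact (vcj_le (kernel_integrable hm hg (hs p) (hs q))).trans (hC p q)
  have hc : ContinuousOn (gradient u) Kᶜ :=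
    continuousOn_gradient h.ms.closed.isOpen_compl (by rw [compl_eq_univ_sdiff]; exact h.ms.c1)
  refine ⟨fun p => kI (gradient u) p x / (2 * π), hv.div_const _, fun z hz => ?_,
    hasGradientAt_of_weak h.ms.closed.isOpen_compl (hv.div_const _).continuousOn (continuousOn_const.mul hc)
      fun φ hφ hφc _ d => h.kI_weak x hφ hφc d⟩
  simp only [h.kI_zero hz hx, zero_div]

end Crest.Agent.R135
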