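import Crest.Agent.R135.Defs
import Crest.Agent.R135.VConj
import Crest.Agent.R135.MCI2
import Crest.Agent.R135.TWir
import Crest.Agent.R135.TGron
set_option autoImplicit false
open MeasureTheory Metric Set Filter Topology
open scoped ENNReal NNReal Real ComplexConjugate

namespace Crest.Agent.R135

theorem gbon_fin {K : Set ℂ} {u : ℂ → ℝ} {x : ℂ} {ρ : ℝ} (hG : Good K u x ρ) (φ₀ : ℝ) :
    {φ ∈ Icc (-π) π | circleMap x ρ (φ₀ + φ) ∈ K}.Finite :=
  ((finite_angles hG.pos hG.fin (φ₀ - π) (φ₀ + π)).preimage (add_right_injective φ₀).injOn).subset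
    fun _ hφ => ⟨⟨by linarith [hφ.1.1], by linarith [hφ.1.2]⟩, hφ.2⟩

theorem gbon_int {f : ℝ → ℝ} (h : ∀ s t, IntervalIntegrable f volume s t) (φ₀ : ℝ) :
    IntervalIntegrable (fun φ => f (φ₀ + φ)) volume (-π) π := by
  simpa using (h (φ₀ - π) (φ₀ + π)).comp_add_left φ₀

theorem gbon_neg {K : Set ℂ} {x : ℂ} {ρ φ₀ : ℝ} (hp : circleMap x ρ (φ₀ + π) ∈ K) :
    circleMap x ρ (φ₀ + -π) ∈ K := by
  rwa [← periodic_circleMap x ρ, show φ₀ + -π + 2 * π = φ₀ + π by ring]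

/-- On a good circle through a point of `K` at angle `φ₀ + π`: `V φ = v (circleMap (φ₀+φ))` has derivative `cq` off the bad angles, vanishes there;
`ci2` (`Λ = 0`), `circle_shift`, `ibp_finite`. -/
theorem Glob.bon_circle {K : Set ℂ} {u v : ℂ → ℝ} (h : Glob K u) (hv : Continuous v) (h0 : ∀ z ∈ K, v z = 0)
    (hg : ∀ z ∉ K, HasGradientAt v (Complex.I * gradient u z) z) {x : ℂ} {ρ φ₀ : ℝ} (hG : Good K u x ρ)
    (hp : circleMap x ρ (φ₀ + π) ∈ K) :
    (∀ φ, circleMap x ρ (φ₀ + φ) ∉ K → HasDerivAt (fun θ => v (circleMap x ρ (φ₀ + θ))) (cq u x ρ (φ₀ + φ)) φ) ∧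
      Dr u x ρ = - ∫ φ in (-π)..π, cp u x ρ (φ₀ + φ) * v (circleMap x ρ (φ₀ + φ)) := by
  have h1 : ∀ φ, circleMap x ρ (φ₀ + φ) ∉ K →
      HasDerivAt (fun θ => v (circleMap x ρ (φ₀ + θ))) (cq u x ρ (φ₀ + φ)) φ := fun φ hφ => by
    refine ((hasDerivAt_circle (hg _ hφ).differentiableAt).comp_const_add φ₀ φ).congr_deriv ?_
    rw [cp, cq, (hg _ hφ).gradient]
    simp only [Complex.inner, map_mul, Complex.conj_I]
    congr 1
    linear_combination (-(circleMap x ρ (φ₀ + φ) - x) * conj (gradient u (circleMap x ρ (φ₀ + φ)))) *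
      Complex.I_mul_I
  refine ⟨h1, ?_⟩
  have h2 := (h.ms.ci2 hG (lt_add_one ρ) (subset_univ _) (Λ := fun _ => 0)
    (fun _ _ => Eventually.of_forall fun _ => rfl) (by simp)).2
  simp only [sub_zero, mul_zero, zero_mul, abs_nonpos_iff, sub_eq_zero] at h2
  rw [h2]
  refine (circle_shift x ρ φ₀ fun z => u z * inner ℝ (gradient u z) (z - x)).symm.trans ?_
  refine (ibp_finite (g := fun φ => u (circleMap x ρ (φ₀ + φ))) (q := fun φ => cq u x ρ (φ₀ + φ))
    (by linarith [Real.pi_pos]) (gbon_fin hG φ₀) (fun φ hφ => ?_) (gbon_int (fun s t => (hG.int_pq s t).2.2.1) φ₀)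
    (by fun_prop) (fun φ hφ => h0 _ hφ.1.2) (h0 _ (gbon_neg hp)) (h0 _ hp)
    (fun φ hφ => h1 φ fun hK => hφ.2 ⟨Ioo_subset_Icc_self hφ.1, hK⟩)
    (gbon_int (fun s t => (hG.int_pq s t).2.2.2) φ₀)).2
  have hK : circleMap x ρ (φ₀ + φ) ∈ univ \ K := ⟨mem_univ _, fun hK => hφ.2 ⟨Ioo_subset_Icc_self hφ.1, hK⟩⟩
  exact (hasDerivAt_circle ((h.ms.c1.contDiffAt ((isOpen_univ.sdiff h.ms.closed).mem_nhds hK)).differentiableAt
    one_ne_zero)).comp_const_add φ₀ φ

/-- Bonnet's monotonicity: `Dr ≤ ∫ P² + ¼∫V² ≤ ∫ P² + Q² = ρ ce` (`wirtinger_stab`) on good circles (they meet `K` by `Glob.cont`), `gron_full` with `β = 1`. -/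
theorem Glob.bonnet {K : Set ℂ} {u : ℂ → ℝ} (h : Glob K u) {x : ℂ} (hx : x ∈ K) :
    MonotoneOn (fun r => Dr u x r / r) (Ioi 0) := by
  obtain ⟨v, hv, h0, hg⟩ := h.conj hx
  obtain ⟨C, hC, hw⟩ := wirtinger_stab
  have hπ : -π ≤ π := by linarith [Real.pi_pos]
  have key : ∀ ρ, Good K u x ρ → Dr u x ρ ≤ ρ * ce u x ρ := fun ρ hG => by
    obtain ⟨D, -, -, hD, -, z, hz, hz'⟩ := h.cont hx hG.pos
    obtain ⟨θ, rfl⟩ : z ∈ range (circleMap x ρ) := by rwa [range_circleMap, abs_of_pos hG.pos]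
    have hp : circleMap x ρ (θ - π + π) ∈ K := by simpa using (hD hz).1
    obtain ⟨h1, h2⟩ := h.bon_circle hv h0 hg hG hp
    have hP := gbon_int (fun s t => (hG.int_pq s t).1) (θ - π)
    have hQ := gbon_int (fun s t => (hG.int_pq s t).2.1) (θ - π)
    have hV : Continuous fun φ => v (circleMap x ρ (θ - π + φ)) := by fun_prop
    obtain ⟨A, hA⟩ := hw (fun φ => v (circleMap x ρ (θ - π + φ))) (fun φ => cq u x ρ (θ - π + φ)) _
      (gbon_fin hG (θ - π)) hV.continuousOn (h0 _ (gbon_neg hp)) (h0 _ hp)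
      (fun φ hφ => h1 φ fun hK => hφ.2 ⟨Ioo_subset_Icc_self hφ.1, hK⟩)
      ((measurable_cq u x ρ).comp (measurable_const_add _)) hQ
    have h3 := nonneg_of_mul_nonneg_right ((add_nonneg
      (intervalIntegral.integral_nonneg hπ fun _ _ => sq_nonneg _)
      (intervalIntegral.integral_nonneg hπ fun _ _ => sq_nonneg _)).trans hA) (one_pos.trans_le hC)
    have hV2 := ((hV.fun_pow 2).intervalIntegrable (μ := volume) (-π) π).const_mul (1 / 4)
    have h4 := intervalIntegral.integral_mono_on hπ ((gbon_int (fun s t => (hG.int_pq s t).2.2.1)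
      (θ - π)).mul_continuousOn hV.continuousOn).neg (hP.add hV2) fun φ _ => by
        simp only [Pi.neg_apply]
        nlinarith [sq_nonneg (cp u x ρ (θ - π + φ) + v (circleMap x ρ (θ - π + φ)) / 2)]
    have h5 := intervalIntegral.integral_comp_add_left (a := -π) (b := π)
      (fun φ => cp u x ρ φ ^ 2 + cq u x ρ φ ^ 2) (θ - π)
    rw [show θ - π + π = θ - π + -π + 2 * π by ring, hG.integral_pq, intervalIntegral.integral_add hP hQ] at h5
    simp only [Pi.neg_apply, intervalIntegral.integral_neg] at h4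
    rw [intervalIntegral.integral_add hP hV2, intervalIntegral.integral_const_mul] at h4
    linarith
  intro t ht r hr htr
  have ht' : 0 < t := ht
  have hr' : 0 < r := hr
  obtain ⟨h1, h2⟩ := h.ms.ce_int (x := x) hr'.le (subset_univ _)
  have h3 := gron_full (Y := Dr u x) (y := ce u x) (β := 1) (c := 0) ht' htr one_lt_two le_rfl
    (h1.mono_set (by rw [uIcc_of_le htr, uIcc_of_le hr'.le]; exact Icc_subset_Icc ht'.le le_rfl))
    (fun s hs => h2 t s ht'.le hs.1 hs.2) (by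
      filter_upwards [h.ms.ae_good (x := x) (R := r) (subset_univ _)] with ρ hG hρ
      have h0 := ht'.trans hρ.1
      rw [one_mul, zero_mul, sub_zero, div_le_iff₀' h0]
      exact key ρ (hG ⟨h0, hρ.2⟩))
  simp only [zero_div, zero_mul, add_zero, Real.rpow_one] at h3
  exact (div_le_iff₀ ht').2 (h3.trans_eq (by ring))

end Crest.Agent.R135
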