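import Crest.Agent.R135.Defs
set_option autoImplicit false
open MeasureTheory Metric Set Filter Topology
open scoped ENNReal NNReal Real ComplexConjugate

namespace Crest.Agent.R135

/-- data of an inner variation `z ↦ z + t ζ(‖z-x‖) v` -/
structure Bump (ζ : ℝ → ℝ) (s s' : ℝ) : Prop where
  pos : 0 < s
  lt : s < s'
  smooth : ContDiff ℝ (⊤ : ℕ∞) ζ
  anti : Antitone ζ
  one : ∀ r ≤ s, ζ r = 1
  zero : ∀ r, s' ≤ r → ζ r = 0

noncomputable def jΦ (x v : ℂ) (ζ : ℝ → ℝ) (t : ℝ) (z : ℂ) : ℂ := z + ((t * ζ ‖z - x‖ : ℝ) : ℂ) * v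

theorem mj0_homeo {g : ℂ → ℂ} (hg : ContDiff ℝ 1 g) (hL : LipschitzWith (1 / 2) g) :
    ∃ Ψ : ℂ ≃ₜ ℂ, (∀ z, Ψ z = z + g z) ∧ ContDiff ℝ 1 Ψ ∧ ContDiff ℝ 1 Ψ.symm := by
  have hA : ApproximatesLinearOn (fun z => z + g z)
      ((ContinuousLinearEquiv.refl ℝ ℂ : ℂ ≃L[ℝ] ℂ) : ℂ →L[ℝ] ℂ) univ (1 / 2) := by
    intro a _ b _
    have h := hL.norm_sub_le a b
    have e : a + g a - (b + g b) - ((ContinuousLinearEquiv.refl ℝ ℂ : ℂ ≃L[ℝ] ℂ) : ℂ →L[ℝ] ℂ) (a - b)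
        = g a - g b := by
      simp; ring
    rw [e]; exact h
  have hc : Subsingleton ℂ ∨ (1 / 2 : ℝ≥0) <
      ‖((ContinuousLinearEquiv.refl ℝ ℂ : ℂ ≃L[ℝ] ℂ).symm : ℂ →L[ℝ] ℂ)‖₊⁻¹ := by
    right
    have : ((ContinuousLinearEquiv.refl ℝ ℂ : ℂ ≃L[ℝ] ℂ).symm : ℂ →L[ℝ] ℂ) = ContinuousLinearMap.id ℝ ℂ := rfl
    rw [this, ContinuousLinearMap.nnnorm_id]
    norm_num
  let Ψ : ℂ ≃ₜ ℂ := hA.toHomeomorph _ hc
  have hΨ : (Ψ : ℂ → ℂ) = fun z => z + g z := rfl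
  have hΨ1 : ContDiff ℝ 1 Ψ := by rw [hΨ]; exact contDiff_id.add hg
  have hD : ∀ a : ℂ, ∃ e : ℂ ≃L[ℝ] ℂ, HasFDerivAt Ψ (e : ℂ →L[ℝ] ℂ) a := by
    intro a
    have hga : HasFDerivAt g (fderiv ℝ g a) a := (hg.differentiable (by norm_num) a).hasFDerivAt
    have hn : ‖fderiv ℝ g a‖ ≤ (1 / 2 : ℝ≥0) := norm_fderiv_le_of_lipschitz ℝ hL
    have hn' : ‖fderiv ℝ g a‖ ≤ 1 / 2 := by simpa using hn
    set T : ℂ →L[ℝ] ℂ := ContinuousLinearMap.id ℝ ℂ + fderiv ℝ g a with hT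
    have hker : LinearMap.ker (T : ℂ →ₗ[ℝ] ℂ) = ⊥ := by
      rw [LinearMap.ker_eq_bot']
      intro w hw
      have hw' : w + fderiv ℝ g a w = 0 := by simpa [hT] using hw
      have h1 : ‖w‖ = ‖fderiv ℝ g a w‖ := by
        have : w = -(fderiv ℝ g a w) := by linear_combination hw'
        conv_lhs => rw [this]
        rw [norm_neg]
      have h2 : ‖fderiv ℝ g a w‖ ≤ 1 / 2 * ‖w‖ :=
        ((fderiv ℝ g a).le_opNorm w).trans (by gcongr)
      have : ‖w‖ ≤ 0 := by linarith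
      exact norm_le_zero_iff.1 this
    have hrange : LinearMap.range (T : ℂ →ₗ[ℝ] ℂ) = ⊤ :=
      LinearMap.ker_eq_bot_iff_range_eq_top.1 hker
    refine ⟨ContinuousLinearEquiv.ofBijective T hker hrange, ?_⟩
    rw [ContinuousLinearEquiv.coe_ofBijective, hΨ]
    exact (hasFDerivAt_id a).add hga
  choose e he using hD
  exact ⟨Ψ, fun z => rfl, hΨ1, Ψ.contDiff_symm he hΨ1⟩

theorem mj0_deriv_bdd {ζ : ℝ → ℝ} {s s' : ℝ} (hζ : Bump ζ s s') :
    ∃ C : ℝ, 0 ≤ C ∧ ∀ r, |deriv ζ r| ≤ C := by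
  have hc : Continuous (deriv ζ) := hζ.smooth.continuous_deriv (by exact_mod_cast le_top)
  obtain ⟨C, hC⟩ := isCompact_Icc.exists_bound_of_continuousOn (s := Icc s s') hc.continuousOn
  refine ⟨max C 0, le_max_right _ _, fun r => ?_⟩
  by_cases h1 : r < s
  · have : ζ =ᶠ[𝓝 r] fun _ => 1 := by
      filter_upwards [Iio_mem_nhds h1] with y hy using hζ.one y (le_of_lt hy)
    rw [this.deriv_eq]; simp
  by_cases h2 : s' < r
  · have : ζ =ᶠ[𝓝 r] fun _ => 0 := by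
      filter_upwards [Ioi_mem_nhds h2] with y hy using hζ.zero y (le_of_lt hy)
    rw [this.deriv_eq]; simp
  · exact (hC r ⟨not_lt.1 h1, not_lt.1 h2⟩).trans (le_max_left _ _)

theorem mj0_contDiff (x : ℂ) {ζ : ℝ → ℝ} {s s' : ℝ} (hζ : Bump ζ s s') :
    ContDiff ℝ 1 fun z : ℂ => ζ ‖z - x‖ := by
  rw [contDiff_iff_contDiffAt]
  intro z
  by_cases hz : z = x
  · subst hz
    have : (fun w : ℂ => ζ ‖w - z‖) =ᶠ[𝓝 z] fun _ => 1 := by
      filter_upwards [ball_mem_nhds z hζ.pos] with w hw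
      exact hζ.one _ (by rw [mem_ball, dist_eq_norm] at hw; exact hw.le)
    exact contDiffAt_const.congr_of_eventuallyEq this
  · have h1 : ContDiffAt ℝ 1 (fun w : ℂ => ‖w - x‖) z :=
      (contDiffAt_id.sub contDiffAt_const).norm ℝ (sub_ne_zero.2 hz)
    exact ((hζ.smooth.of_le (by exact_mod_cast le_top)).contDiffAt).comp z h1

theorem mj0_mem {ζ : ℝ → ℝ} {s s' : ℝ} (hζ : Bump ζ s s') (r : ℝ) : 0 ≤ ζ r ∧ ζ r ≤ 1 := by
  constructor
  · have := hζ.anti (le_max_left r s')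
    rw [hζ.zero _ (le_max_right r s')] at this
    exact this
  · have := hζ.anti (min_le_left r s)
    rw [hζ.one _ (min_le_right r s)] at this
    exact this

/-- For small `t` the variation is a `C¹` diffeomorphism (`ApproximatesLinearOn.toHomeomorph` with the identity, the perturbation being
`1/2`-Lipschitz; `Homeomorph.contDiff_symm` or the inverse function theorem). `z ↦ ζ ‖z-x‖` is smooth since `ζ` is constant near `0`. -/
theorem exists_jΨ (x v : ℂ) (hv : ‖v‖ = 1) {ζ : ℝ → ℝ} {s s' : ℝ} (hζ : Bump ζ s s') :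
    ∃ t₀ : ℝ, 0 < t₀ ∧ ∀ t ∈ Ioo 0 t₀, (∀ r, t * |deriv ζ r| ≤ 1 / 2) ∧ ∃ Ψ : ℂ ≃ₜ ℂ, (∀ z, Ψ z = jΦ x v ζ t z) ∧
      ContDiff ℝ 1 Ψ ∧ ContDiff ℝ 1 Ψ.symm ∧ (∀ z, s' ≤ ‖z - x‖ → Ψ z = z) ∧
      Ψ '' closedBall x s' = closedBall x s' ∧ ∀ z, ‖Ψ.symm z - z‖ ≤ t := by
  obtain ⟨C, hC0, hC⟩ := mj0_deriv_bdd hζ
  refine ⟨1 / (2 * (C + 1)), by positivity, fun t ht => ?_⟩
  have ht0 : 0 < t := ht.1
  have htC : t * C ≤ 1 / 2 := by
    have h1 : t * (2 * (C + 1)) < 1 := by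
      have := ht.2
      rwa [lt_div_iff₀ (by positivity)] at this
    nlinarith
  refine ⟨fun r => (mul_le_mul_of_nonneg_left (hC r) ht0.le).trans htC, ?_⟩
  have hdiff : Differentiable ℝ ζ := hζ.smooth.differentiable (by simp)
  have hLζ : LipschitzWith ⟨C, hC0⟩ ζ :=
    lipschitzWith_of_nnnorm_deriv_le hdiff fun r => by
      rw [← NNReal.coe_le_coe]
      exact hC r
  set g : ℂ → ℂ := fun z => ((t * ζ ‖z - x‖ : ℝ) : ℂ) * v with hg
  have hg1 : ContDiff ℝ 1 g :=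
    (Complex.ofRealCLM.contDiff.comp (contDiff_const.mul (mj0_contDiff x hζ))).mul contDiff_const
  have hgL : LipschitzWith (1 / 2) g := by
    refine LipschitzWith.of_dist_le_mul fun a b => ?_
    rw [dist_eq_norm, dist_eq_norm]
    have e : g a - g b = ((t * (ζ ‖a - x‖ - ζ ‖b - x‖) : ℝ) : ℂ) * v := by
      simp only [hg]; push_cast; ring
    have h1 : |ζ ‖a - x‖ - ζ ‖b - x‖| ≤ C * ‖a - b‖ := by
      have h2 := hLζ.dist_le_mul ‖a - x‖ ‖b - x‖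
      rw [Real.dist_eq, Real.dist_eq] at h2
      have h3 : |‖a - x‖ - ‖b - x‖| ≤ ‖a - b‖ := by
        have := abs_norm_sub_norm_le (a - x) (b - x)
        simpa using this
      exact h2.trans (mul_le_mul_of_nonneg_left h3 hC0)
    rw [e, norm_mul, hv, mul_one, Complex.norm_real, Real.norm_eq_abs, abs_mul, abs_of_pos ht0]
    have h4 : t * (C * ‖a - b‖) ≤ 1 / 2 * ‖a - b‖ := by
      rw [← mul_assoc]; exact mul_le_mul_of_nonneg_right htC (norm_nonneg _)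
    have := mul_le_mul_of_nonneg_left h1 ht0.le
    simpa using this.trans h4
  obtain ⟨Ψ, hΨ, h1, h2⟩ := mj0_homeo hg1 hgL
  have hfix : ∀ z, s' ≤ ‖z - x‖ → Ψ z = z := by
    intro z hz
    rw [hΨ]; simp [hg, hζ.zero _ hz]
  refine ⟨Ψ, fun z => hΨ z, h1, h2, hfix, ?_, fun z => ?_⟩
  · have hcompl : Ψ '' (closedBall x s')ᶜ = (closedBall x s')ᶜ := by
      have : EqOn Ψ id (closedBall x s')ᶜ := by
        intro z hz
        rw [mem_compl_iff, mem_closedBall, dist_eq_norm, not_le] at hz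
        exact hfix z hz.le
      rw [this.image_eq, image_id]
    rw [image_compl_eq Ψ.bijective] at hcompl
    exact compl_injective hcompl
  · have h3 := hΨ (Ψ.symm z)
    rw [Ψ.apply_symm_apply] at h3
    have e : Ψ.symm z - z = -g (Ψ.symm z) := by linear_combination -h3
    obtain ⟨h5, h6⟩ := mj0_mem hζ ‖Ψ.symm z - x‖
    rw [e, norm_neg]
    simp only [hg]
    rw [norm_mul, hv, mul_one, Complex.norm_real, Real.norm_eq_abs, abs_of_nonneg (by positivity)]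
    nlinarith

end Crest.Agent.R135
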