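import Crest.Agent.R135.Defs
import Crest.Agent.R135.MJ0
import Crest.Agent.R135.MGood
import Crest.Agent.R135.MEL
set_option autoImplicit false
open MeasureTheory Metric Set Filter Topology
open scoped ENNReal NNReal Real ComplexConjugate

namespace Crest.Agent.R135

/-- the unit radial vector -/
noncomputable def mj1_e (x z : ℂ) : ℂ := (‖z - x‖⁻¹ : ℝ) • (z - x)

/-- the integrand of `cJ` -/
noncomputable def mj1_f (u : ℂ → ℝ) (x z : ℂ) : ℂ := gradient u z ^ 2 * conj (mj1_e x z)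

theorem mj1_e_le (x z : ℂ) : ‖mj1_e x z‖ ≤ 1 := by
  rw [mj1_e, norm_smul, norm_inv, norm_norm]
  exact inv_mul_le_one_of_le₀ le_rfl (norm_nonneg _)

theorem mj1_norm (x : ℂ) {ρ : ℝ} (hρ : 0 < ρ) (φ : ℝ) : ‖circleMap x ρ φ - x‖ = ρ := by
  rw [← dist_eq_norm, tpolar_dist x hρ]

theorem mj1_polar (u : ℂ → ℝ) (x : ℂ) {ρ : ℝ} (hρ : 0 < ρ) :
    ρ • ∫ φ in (-π)..π, mj1_f u x (circleMap x ρ φ) = cJ u x ρ := by
  rw [cJ, Complex.real_smul]
  congr 1
  refine intervalIntegral.integral_congr fun φ _ => ?_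
  simp only [mj1_f, mj1_e, mj1_norm x hρ]
  congr 1
  have : (ρ : ℂ) ≠ 0 := by exact_mod_cast hρ.ne'
  simp only [circleMap, add_sub_cancel_left, Complex.real_smul, Complex.ofReal_inv, ← mul_assoc,
    inv_mul_cancel₀ this, one_mul, ← Complex.exp_conj, map_mul, Complex.conj_ofReal, Complex.conj_I, mul_neg]

theorem mj1_sq {u : ℂ → ℝ} {S : Set ℂ} (h : Dir u S < ⊤) : IntegrableOn (fun z => ‖gradient u z‖ ^ 2) S := by
  simpa only [real_inner_self_eq_norm_sq] using integrableOn_inner h h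

theorem mj1_int {u : ℂ → ℝ} {S : Set ℂ} (h : Dir u S < ⊤) (x : ℂ) : IntegrableOn (mj1_f u x) S := by
  refine Integrable.mono' (mj1_sq h) (Measurable.aestronglyMeasurable ?_) (Eventually.of_forall fun z => ?_)
  · have := measurable_gradient u
    have hc : Measurable (conj : ℂ → ℂ) := Complex.continuous_conj.measurable
    unfold mj1_f mj1_e
    fun_prop
  · rw [mj1_f, norm_mul, norm_pow, Complex.norm_conj]
    exact mul_le_of_le_one_right (sq_nonneg _) (mj1_e_le x z)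

theorem mj1_Dr (u : ℂ → ℝ) (x : ℂ) (r : ℝ) : Dr u x r = ∫ z in ball x r, ‖gradient u z‖ ^ 2 := by
  rw [integral_eq_lintegral_of_nonneg_ae (Eventually.of_forall fun z => sq_nonneg _)
    ((measurable_gradient u).norm.pow_const 2).aestronglyMeasurable, Dr, Dir]
  simp only [ENNReal.ofReal_pow (norm_nonneg _), ofReal_norm]

theorem mj1_der {ζ : ℝ → ℝ} {s s' : ℝ} (hζ : Bump ζ s s') (x z : ℂ) :
    HasFDerivAt (fun y : ℂ => ζ ‖y - x‖) (innerSL ℝ (deriv ζ ‖z - x‖ • mj1_e x z)) z := by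
  by_cases hz : z = x
  · have : (fun y : ℂ => ζ ‖y - x‖) =ᶠ[𝓝 z] fun _ => 1 := by
      filter_upwards [ball_mem_nhds z hζ.pos] with y hy
      exact hζ.one _ (by rw [← hz, ← dist_eq_norm]; exact le_of_lt hy)
    refine ((hasFDerivAt_const (1 : ℝ) z).congr_of_eventuallyEq this).congr_fderiv ?_
    simp [mj1_e, hz]
  · have h0 : ‖z - x‖ ≠ 0 := norm_ne_zero_iff.2 (sub_ne_zero.2 hz)
    have h1 := ((hasFDerivAt_id z).sub_const x).norm_sq.sqrt (pow_ne_zero 2 h0)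
    simp only [id, Real.sqrt_sq (norm_nonneg _)] at h1
    refine ((hζ.smooth.differentiable (by simp) _).hasDerivAt.comp_hasFDerivAt z h1).congr_fderiv ?_
    ext h
    simp only [mj1_e, smul_apply, ContinuousLinearMap.comp_apply, ContinuousLinearMap.id_apply,
      innerSL_apply_apply, smul_eq_mul, nsmul_eq_mul, Nat.cast_ofNat, real_inner_smul_left]
    field_simp

/-- `id + t v ⊗ n` -/
noncomputable def mj1_D (t : ℝ) (n v : ℂ) : ℂ →L[ℝ] ℂ :=
  ContinuousLinearMap.id ℝ ℂ + (t • innerSL ℝ n).smulRight v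

theorem mj1_inner (a b : ℂ) : inner ℝ a b = a.re * b.re + a.im * b.im := by
  simp [Complex.inner, mul_comm]

theorem mj1_D_apply (t : ℝ) (n v h : ℂ) : mj1_D t n v h = h + (t * inner ℝ n h) • v := by
  simp only [mj1_D, add_apply, ContinuousLinearMap.id_apply, ContinuousLinearMap.smulRight_apply, smul_apply,
    innerSL_apply_apply, smul_eq_mul]

theorem mj1_det (t : ℝ) (n v : ℂ) : (mj1_D t n v).det = 1 + t * inner ℝ n v := by
  rw [ContinuousLinearMap.det, ← LinearMap.det_toMatrix Complex.basisOneI, Matrix.det_fin_two]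
  simp only [LinearMap.toMatrix_apply, ContinuousLinearMap.coe_coe, mj1_D_apply, mj1_inner,
    Complex.coe_basisOneI_repr, Complex.coe_basisOneI]
  simp
  ring

theorem mj1_alg {t M : ℝ} {n e v G H : ℂ} {d : ℝ} (hv : ‖v‖ = 1) (he : ‖e‖ ≤ 1) (hn : n = d • e) (hd : |d| ≤ M)
    (ht : 0 < t) (htd : t * |d| ≤ 1 / 2) (h : ∀ y, inner ℝ G y = inner ℝ H (mj1_D t n v y)) :
    |(mj1_D t n v).det| * ‖H‖ ^ 2 ≤
      ‖G‖ ^ 2 - t * inner ℝ v (d • (G ^ 2 * conj e)) + 2 * M ^ 2 * t ^ 2 * ‖G‖ ^ 2 := by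
  have n1 : ‖n‖ ≤ |d| := by
    rw [hn, norm_smul, Real.norm_eq_abs]; exact mul_le_of_le_one_right (abs_nonneg _) he
  have n2 : |inner ℝ n v| ≤ |d| := (abs_real_inner_le_norm n v).trans (by rw [hv, mul_one]; exact n1)
  have n3 : 1 / 2 ≤ 1 + t * inner ℝ n v := by
    have := mul_le_mul_of_nonneg_left ((neg_le_abs _).trans n2) ht.le
    linarith
  have n4 : ‖n‖ ^ 2 ≤ M ^ 2 := pow_le_pow_left₀ (norm_nonneg _) (n1.trans hd) 2
  have n5 : inner ℝ G v ^ 2 ≤ ‖G‖ ^ 2 := by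
    have := abs_real_inner_le_norm G v
    rw [hv, mul_one] at this
    rw [← sq_abs]; exact pow_le_pow_left₀ (abs_nonneg _) this 2
  rw [mj1_det, abs_of_pos (by linarith)]
  have e0 : d • (G ^ 2 * conj e) = G ^ 2 * conj n := by
    rw [hn]; simp only [Complex.real_smul, map_mul, Complex.conj_ofReal]; ring
  set p := inner ℝ H v with hp
  set D := 1 + t * inner ℝ n v with hD
  have h1 := h 1
  have h2 := h Complex.I
  rw [mj1_D_apply, inner_add_right, real_inner_smul_right, ← hp] at h1 h2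
  simp only [mj1_inner, Complex.one_re, Complex.one_im, Complex.I_re, Complex.I_im, mul_one, mul_zero, add_zero,
    zero_add] at h1 h2
  have e1 : inner ℝ G v = p * D := by
    rw [hD, mj1_inner, mj1_inner, h1, h2]
    rw [mj1_inner] at hp
    linear_combination -hp
  have e2 : D * ‖H‖ ^ 2 = ‖G‖ ^ 2 - t * inner ℝ v (G ^ 2 * conj n) + t ^ 2 * ‖n‖ ^ 2 * (p ^ 2 * D) := by
    have a1 : H.re = G.re - t * n.re * p := by linarith
    have a2 : H.im = G.im - t * n.im * p := by linarith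
    rw [mj1_inner] at e1
    simp only [Complex.sq_norm, Complex.normSq_apply, mj1_inner, sq G, Complex.mul_re, Complex.mul_im,
      Complex.conj_re, Complex.conj_im, a1, a2] at hD ⊢
    linear_combination (G.re * G.re + G.im * G.im) * hD + 2 * t * (G.re * n.re + G.im * n.im) * e1
  have e3 : p ^ 2 * D ≤ 2 * ‖G‖ ^ 2 := by
    rw [e1] at n5
    nlinarith [mul_nonneg (mul_nonneg (sq_nonneg p) (show 0 ≤ D by linarith)) (show 0 ≤ 2 * D - 1 by linarith)]
  have e4 : ‖n‖ ^ 2 * (p ^ 2 * D) ≤ M ^ 2 * (2 * ‖G‖ ^ 2) :=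
    mul_le_mul n4 e3 (mul_nonneg (sq_nonneg _) (by linarith)) (sq_nonneg _)
  rw [e0, e2]
  nlinarith [mul_le_mul_of_nonneg_left e4 (sq_nonneg t)]

theorem mj1_zero {ζ : ℝ → ℝ} {s s' : ℝ} (hζ : Bump ζ s s') {r : ℝ} (hr : r < s) : deriv ζ r = 0 := by
  have : ζ =ᶠ[𝓝 r] fun _ => 1 := by
    filter_upwards [gt_mem_nhds hr] with y hy using hζ.one y hy.le
  rw [this.deriv_eq, deriv_const]

/-- First variation of the Dirichlet energy. With `n z = ζ'(r) (z-x)/r`, `DΨ = id + t v ⊗ n`, `det = 1 + t⟪n,v⟫`;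
`∇(u∘Ψ⁻¹)(Ψ z) = G - t ⟪v,G⟫ n/(1 + t⟪n,v⟫)` (Sherman–Morrison; verify from the chain rule `∇u = DΨᵀ ∇w∘Ψ`), so
`‖∇w∘Ψ‖² det = ‖G‖²(1 + t⟪n,v⟫) - 2t⟪n,G⟫⟪v,G⟫ + t²‖n‖²⟪v,G⟫²/(1+t⟪n,v⟫)`; change of variables
`lintegral_image_eq_lintegral_abs_det_fderiv_mul`; polar coordinates: `‖G‖²⟪ν,v⟫ - 2⟪ν,G⟫⟪v,G⟫ = -⟪G² conj ν, v⟫`. -/
theorem j_dir {U K : Set ℂ} {a b : ℝ} {u : ℂ → ℝ} (h : MS U a b K u) (x v : ℂ) (hv : ‖v‖ = 1) {ζ : ℝ → ℝ} {s s' : ℝ}
    (hζ : Bump ζ s s') (hB : closedBall x s' ⊆ U) :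
    ∃ C : ℝ, ∀ t : ℝ, 0 < t → (∀ r, t * |deriv ζ r| ≤ 1 / 2) → ∀ Ψ : ℂ ≃ₜ ℂ, (∀ z, Ψ z = jΦ x v ζ t z) →
      ContDiff ℝ 1 Ψ.symm → Ψ '' closedBall x s' = closedBall x s' →
      Dir (u ∘ Ψ.symm) (closedBall x s') ≤ ENNReal.ofReal
        (Dr u x s' - t * (∫ r in s..s', deriv ζ r * inner ℝ (cJ u x r) v) + C * t ^ 2) := by
  have cζ : Continuous (deriv ζ) := hζ.smooth.continuous_deriv (by simp)
  obtain ⟨M, hM⟩ := (isCompact_Icc (a := (0 : ℝ)) (b := s')).exists_bound_of_continuousOn cζ.continuousOn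
  have hD : Dir u (ball x s') < ⊤ := Dir_closedBall u x s' ▸ h.Dir_lt_top hB
  have hb : ∀ z ∈ ball x s', |deriv ζ ‖z - x‖| ≤ M := fun z hz =>
    hM _ ⟨norm_nonneg _, by rw [← dist_eq_norm]; exact le_of_lt hz⟩
  set f : ℂ → ℂ := fun z => deriv ζ ‖z - x‖ • mj1_f u x z with hf
  have i0 := mj1_sq hD
  have i1 : IntegrableOn f (ball x s') :=
    (mj1_int hD x).bdd_smul M (by fun_prop : Continuous fun z : ℂ => deriv ζ ‖z - x‖).aestronglyMeasurable
      ((ae_restrict_iff' measurableSet_ball).2 (Eventually.of_forall hb))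
  have i2 : IntegrableOn (fun z => inner ℝ v (f z)) (ball x s') := i1.const_inner v
  have e1 : ∫ z in ball x s', inner ℝ v (f z) = ∫ r in s..s', deriv ζ r * inner ℝ (cJ u x r) v := by
    obtain ⟨-, p1, p2⟩ := integral_polar x hζ.pos.le hζ.lt.le f (i1.mono_set sdiff_subset)
    have e2 : ∫ z in ball x s', f z = ∫ z in ball x s' \ ball x s, f z := by
      refine setIntegral_eq_of_subset_of_forall_sdiff_eq_zero measurableSet_ball sdiff_subset fun z hz => ?_
      have : z ∈ ball x s := by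
        by_contra h'
        exact hz.2 ⟨hz.1, h'⟩
      simp only [hf]
      rw [mj1_zero hζ (by rwa [← dist_eq_norm]), zero_smul]
    rw [integral_inner i1, e2, p2, ← innerSL_apply_apply ℝ,
      ← (innerSL ℝ v).intervalIntegral_comp_comm p1]
    refine intervalIntegral.integral_congr fun r hr => ?_
    rw [uIcc_of_le hζ.lt.le] at hr
    have r0 : 0 < r := hζ.pos.trans_le hr.1
    simp only [hf, mj1_norm x r0]
    rw [intervalIntegral.integral_smul, smul_comm, mj1_polar u x r0, innerSL_apply_apply, real_inner_smul_right,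
      real_inner_comm]
  refine ⟨2 * M ^ 2 * Dr u x s', fun t ht htζ Ψ hΨ hs him => ?_⟩
  have dΨ : ∀ z, HasFDerivAt Ψ (mj1_D t (deriv ζ ‖z - x‖ • mj1_e x z) v) z := by
    intro z
    have e : (Ψ : ℂ → ℂ) = fun z => z + (t * ζ ‖z - x‖) • v := by
      funext y; rw [hΨ, jΦ, Complex.real_smul]
    rw [e]
    exact (hasFDerivAt_id z).add (((mj1_der hζ x z).const_mul t).smul_const v)
  have key : ∀ᵐ z ∂volume.restrict (ball x s'),
      |(mj1_D t (deriv ζ ‖z - x‖ • mj1_e x z) v).det| * ‖gradient (u ∘ Ψ.symm) (Ψ z)‖ ^ 2 ≤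
        ‖gradient u z‖ ^ 2 - t * inner ℝ v (f z) + 2 * M ^ 2 * t ^ 2 * ‖gradient u z‖ ^ 2 := by
    rw [ae_restrict_iff' measurableSet_ball]
    filter_upwards [h.ae_not_mem] with z hz hzb
    have hzU : z ∈ U := hB (ball_subset_closedBall hzb)
    have du : DifferentiableAt ℝ u z := (h.c1.differentiableOn one_ne_zero).differentiableAt
      ((h.isOpen.sdiff h.closed).mem_nhds ⟨hzU, hz hzU⟩)
    have dw : DifferentiableAt ℝ (u ∘ Ψ.symm) (Ψ z) :=
      DifferentiableAt.comp _ (by rwa [Ψ.symm_apply_apply]) (hs.differentiable one_ne_zero _)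
    refine mj1_alg hv (mj1_e_le x z) rfl (hb z hzb) ht (htζ _) fun y => ?_
    have h1 := dw.hasFDerivAt.comp z (dΨ z)
    have e : (u ∘ Ψ.symm) ∘ Ψ = u := by funext y; simp
    rw [e] at h1
    rw [inner_gradient, inner_gradient, h1.fderiv, ContinuousLinearMap.comp_apply]
  have i3 : IntegrableOn (fun z => ‖gradient u z‖ ^ 2 - t * inner ℝ v (f z) +
      2 * M ^ 2 * t ^ 2 * ‖gradient u z‖ ^ 2) (ball x s') := (i0.sub (i2.const_mul _)).add (i0.const_mul _)
  have e3 : Dr u x s' - t * (∫ r in s..s', deriv ζ r * inner ℝ (cJ u x r) v) + 2 * M ^ 2 * Dr u x s' * t ^ 2 =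
      ∫ z in ball x s', (‖gradient u z‖ ^ 2 - t * inner ℝ v (f z) + 2 * M ^ 2 * t ^ 2 * ‖gradient u z‖ ^ 2) := by
    have i4 : IntegrableOn (fun z => ‖gradient u z‖ ^ 2 - t * inner ℝ v (f z)) (ball x s') :=
      i0.sub (i2.const_mul _)
    rw [integral_add i4 (i0.const_mul _), integral_sub i0 (i2.const_mul _),
      integral_const_mul, integral_const_mul, e1, ← mj1_Dr]
    ring
  have hae : closedBall x s' =ᵐ[volume] ball x s' := by
    rw [← ball_union_sphere]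
    exact union_ae_eq_left_of_ae_eq_empty (ae_eq_empty.2 (volume_sphere x s'))
  rw [e3, ofReal_integral_eq_lintegral_ofReal i3 (key.mono fun z hz => le_trans (by positivity) hz), Dir]
  conv_lhs => rw [← him]
  rw [lintegral_image_eq_lintegral_abs_det_fderiv_mul volume measurableSet_closedBall
    (fun z _ => (dΨ z).hasFDerivWithinAt) Ψ.injective.injOn, setLIntegral_congr hae]
  refine lintegral_mono_ae (key.mono fun z hz => ?_)
  rw [← ofReal_norm, ← ENNReal.ofReal_pow (norm_nonneg _), ← ENNReal.ofReal_mul (abs_nonneg _)]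
  exact ENNReal.ofReal_le_ofReal hz

/-- `cJ` is integrable in the radius (`integral_polar` for `z ↦ G z ^ 2 * conj (z - x) / ‖z - x‖`) -/
theorem MS.cJ_int {U K : Set ℂ} {a b : ℝ} {u : ℂ → ℝ} (h : MS U a b K u) {x : ℂ} {R : ℝ} (hR : 0 ≤ R)
    (hB : closedBall x R ⊆ U) : IntervalIntegrable (cJ u x) volume 0 R := by
  obtain ⟨-, p1, -⟩ := integral_polar x le_rfl hR (mj1_f u x)
    ((mj1_int (h.Dir_lt_top hB) x).mono_set (sdiff_subset.trans ball_subset_closedBall))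
  refine p1.congr fun r hr => ?_
  rw [uIoc_of_le hR] at hr
  exact mj1_polar u x hr.1

end Crest.Agent.R135
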