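import Crest.Agent.R135.Defs
set_option autoImplicit false
open MeasureTheory Metric Set Filter Topology
open scoped ENNReal NNReal Real ComplexConjugate

namespace Crest.Agent.R135

theorem tarc_ii {γ' : ℝ → ℂ} {s t a b : ℝ} (hc : ContinuousOn γ' (Icc s t)) (ha : a ∈ Icc s t)
    (hb : b ∈ Icc s t) : IntervalIntegrable γ' volume a b :=
  (hc.mono (uIcc_subset_Icc ha hb)).intervalIntegrable

theorem tarc_chord {γ γ' : ℝ → ℂ} {s t a b : ℝ}
    (hd : ∀ r ∈ Icc s t, HasDerivWithinAt γ (γ' r) (Icc s t) r) (hc : ContinuousOn γ' (Icc s t))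
    (ha : a ∈ Icc s t) (hb : b ∈ Icc s t) (hab : a ≤ b) : ‖γ b - γ a‖ ≤ ∫ r in a..b, ‖γ' r‖ := by
  have hsub : Icc a b ⊆ Icc s t := Icc_subset_Icc ha.1 hb.2
  rw [← intervalIntegral.integral_eq_sub_of_hasDerivAt_of_le hab
    (fun r hr => (hd r (hsub hr)).continuousWithinAt.mono hsub)
    (fun x hx => (hd x (hsub (Ioo_subset_Icc_self hx))).hasDerivAt
      (Icc_mem_nhds (ha.1.trans_lt hx.1) (hx.2.trans_le hb.2))) (tarc_ii hc ha hb)]
  exact intervalIntegral.norm_integral_le_integral_norm hab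

/-- Length of a `C¹` curve, upper bound. Recipe: subdivide `[s,t]` finely (uniform continuity of `γ'`); on each piece `γ` is
Lipschitz with constant `≤ min ‖γ'‖ + η`; `LipschitzOnWith.hausdorffMeasure_image_le`. -/
theorem H1_arc_le {γ γ' : ℝ → ℂ} {s t : ℝ} (hst : s ≤ t)
    (hd : ∀ r ∈ Icc s t, HasDerivWithinAt γ (γ' r) (Icc s t) r) (hc : ContinuousOn γ' (Icc s t)) :
    H1 (γ '' Icc s t) ≤ ENNReal.ofReal (∫ r in s..t, ‖γ' r‖) := by
  obtain ⟨l, hl⟩ : ∃ l : ℝ → ℝ, ∀ r, l r = ∫ x in s..r, ‖γ' x‖ := ⟨_, fun _ => rfl⟩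
  have hs : s ∈ Icc s t := left_mem_Icc.2 hst
  have ht : t ∈ Icc s t := right_mem_Icc.2 hst
  have h1 : ∀ a ∈ Icc s t, ∀ b ∈ Icc s t, a ≤ b → ‖γ b - γ a‖ ≤ l b - l a := fun a ha b hb hab => by
    rw [hl, hl, intervalIntegral.integral_interval_sub_left (tarc_ii hc hs hb).norm (tarc_ii hc hs ha).norm]
    exact tarc_chord hd hc ha hb hab
  have h2 : ∀ a ∈ Icc s t, ∀ b ∈ Icc s t, dist (γ a) (γ b) ≤ dist (l a) (l b) := fun a ha b hb => by
    rcases le_total a b with hab | hab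
    · rw [dist_comm, dist_comm (l a), dist_eq_norm, Real.dist_eq]
      exact (h1 a ha b hb hab).trans (le_abs_self _)
    · rw [dist_eq_norm, Real.dist_eq]
      exact (h1 b hb a ha hab).trans (le_abs_self _)
  have hin : ∀ y ∈ l '' Icc s t, Function.invFunOn l (Icc s t) y ∈ Icc s t ∧
      l (Function.invFunOn l (Icc s t) y) = y := fun y hy => Function.invFunOn_pos hy
  have hL : LipschitzOnWith 1 (fun y => γ (Function.invFunOn l (Icc s t) y)) (l '' Icc s t) :=
    LipschitzOnWith.of_dist_le_mul fun x hx y hy => by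
      have := h2 _ (hin x hx).1 _ (hin y hy).1
      rwa [(hin x hx).2, (hin y hy).2, ← one_mul (dist x y), ← NNReal.coe_one] at this
  have h3 := hL.hausdorffMeasure_image_le zero_le_one
  rw [hausdorffMeasure_real, ENNReal.coe_one, ENNReal.one_rpow, one_mul] at h3
  have h4 : γ '' Icc s t ⊆ (fun y => γ (Function.invFunOn l (Icc s t) y)) '' (l '' Icc s t) := by
    rintro _ ⟨a, ha, rfl⟩
    have hy := hin (l a) ⟨a, ha, rfl⟩
    refine ⟨l a, ⟨a, ha, rfl⟩, ?_⟩
    have := h2 _ hy.1 a ha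
    rwa [hy.2, dist_self, dist_le_zero] at this
  have h5 : l '' Icc s t ⊆ Icc (l s) (l t) := by
    rintro _ ⟨a, ha, rfl⟩
    exact ⟨by linarith [h1 s hs a ha ha.1, norm_nonneg (γ a - γ s)],
      by linarith [h1 a ha t ht ha.2, norm_nonneg (γ t - γ a)]⟩
  refine (measure_mono h4).trans (h3.trans ((measure_mono h5).trans_eq ?_))
  rw [Real.volume_Icc, hl, hl, intervalIntegral.integral_same, sub_zero]

theorem tarc_ge_chord {γ : ℝ → ℂ} {a b : ℝ} (hab : a ≤ b) (hγ : ContinuousOn γ (Icc a b)) :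
    ENNReal.ofReal ‖γ b - γ a‖ ≤ H1 (γ '' Icc a b) := by
  have h := (LipschitzWith.dist_left (γ a)).hausdorffMeasure_image_le zero_le_one (γ '' Icc a b)
  rw [hausdorffMeasure_real, ENNReal.coe_one, ENNReal.one_rpow, one_mul, image_image] at h
  refine le_trans ?_ h
  have h2 := measure_mono (μ := volume) (intermediate_value_Icc hab
    (f := fun r => dist (γ r) (γ a)) (continuous_dist.comp_continuousOn (hγ.prodMk continuousOn_const)))
  rwa [Real.volume_Icc, dist_self, sub_zero, dist_eq_norm] at h2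

theorem tarc_add {γ : ℝ → ℂ} {s t a b : ℝ} (hi : InjOn γ (Icc s t)) (hγ : ContinuousOn γ (Icc s t))
    (ha : a ∈ Icc s t) (hb : b ∈ Icc s t) (hab : a ≤ b) :
    H1 (γ '' Icc s b) = H1 (γ '' Icc s a) + H1 (γ '' Icc a b) := by
  have := Measure.nullSingletonClass_hausdorff ℂ one_pos
  rw [← Icc_union_Icc_eq_Icc ha.1 hab, image_union]
  refine measure_union₀ (isCompact_Icc.image_of_continuousOn
    (hγ.mono (Icc_subset_Icc ha.1 hb.2))).measurableSet.nullMeasurableSet ?_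
  refine measure_mono_null (t := {γ a}) ?_ (measure_singleton _)
  rintro _ ⟨⟨x, hx, rfl⟩, y, hy, e⟩
  have := hi (Icc_subset_Icc ha.1 hb.2 hy) (Icc_subset_Icc le_rfl ha.2 hx) e
  rw [le_antisymm hx.2 (this ▸ hy.1)]
  rfl

/-- Lower bound for injective curves: the images of the half-open pieces are disjoint and measurable (or use
`H1` of the finitely many common end points `= 0`), each has length `≥` chord (`H1_ge_of_conn` style projection), and
chord `≥ ∫ ‖γ'‖ - η · length` on a fine piece. -/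
theorem H1_arc_ge {γ γ' : ℝ → ℂ} {s t : ℝ} (hst : s ≤ t) (hi : InjOn γ (Icc s t))
    (hd : ∀ r ∈ Icc s t, HasDerivWithinAt γ (γ' r) (Icc s t) r) (hc : ContinuousOn γ' (Icc s t)) :
    ENNReal.ofReal (∫ r in s..t, ‖γ' r‖) ≤ H1 (γ '' Icc s t) := by
  obtain ⟨l, hl⟩ : ∃ l : ℝ → ℝ, l = fun r => ∫ x in s..r, ‖γ' x‖ := ⟨_, rfl⟩
  obtain ⟨Φ, hΦ⟩ : ∃ Φ : ℝ → ℝ, ∀ r, Φ r = (H1 (γ '' Icc s r)).toReal := ⟨_, fun _ => rfl⟩
  have hs : s ∈ Icc s t := left_mem_Icc.2 hst
  have hγ : ContinuousOn γ (Icc s t) := fun r hr => (hd r hr).continuousWithinAt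
  have hle : ∀ a ∈ Icc s t, ∀ b ∈ Icc s t, a ≤ b →
      H1 (γ '' Icc a b) ≤ ENNReal.ofReal (∫ r in a..b, ‖γ' r‖) := fun a ha b hb hab =>
    H1_arc_le hab (fun r hr => (hd r (Icc_subset_Icc ha.1 hb.2 hr)).mono (Icc_subset_Icc ha.1 hb.2))
      (hc.mono (Icc_subset_Icc ha.1 hb.2))
  have hfin : ∀ a ∈ Icc s t, ∀ b ∈ Icc s t, a ≤ b → H1 (γ '' Icc a b) ≠ ⊤ := fun a ha b hb hab =>
    ne_top_of_le_ne_top ENNReal.ofReal_ne_top (hle a ha b hb hab)
  have hdiff : ∀ a ∈ Icc s t, ∀ b ∈ Icc s t, a ≤ b → Φ b - Φ a = (H1 (γ '' Icc a b)).toReal := by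
    intro a ha b hb hab
    rw [hΦ, hΦ, tarc_add hi hγ ha hb hab,
      ENNReal.toReal_add (hfin s hs a ha ha.1) (hfin a ha b hb hab), add_sub_cancel_left]
  have h1 : ∀ a ∈ Icc s t, ∀ b ∈ Icc s t, a ≤ b → ‖γ b - γ a‖ ≤ Φ b - Φ a ∧ Φ b - Φ a ≤ l b - l a := by
    intro a ha b hb hab
    rw [hdiff a ha b hb hab]
    constructor
    · exact (ENNReal.ofReal_le_iff_le_toReal (hfin a ha b hb hab)).1
        (tarc_ge_chord hab (hγ.mono (Icc_subset_Icc ha.1 hb.2)))
    · simp only [hl]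
      rw [intervalIntegral.integral_interval_sub_left (tarc_ii hc hs hb).norm (tarc_ii hc hs ha).norm]
      exact ENNReal.toReal_le_of_le_ofReal
        (intervalIntegral.integral_nonneg hab fun _ _ => norm_nonneg _) (hle a ha b hb hab)
  have hld : ∀ x ∈ Icc s t, HasDerivWithinAt l ‖γ' x‖ (Icc s t) x := fun x hx => by
    have : Fact (x ∈ Icc s t) := ⟨hx⟩
    rw [hl]
    exact intervalIntegral.integral_hasDerivWithinAt_right (f := fun x => ‖γ' x‖) (tarc_ii hc hs hx).norm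
      (hc.norm.stronglyMeasurableAtFilter_nhdsWithin measurableSet_Icc x) (hc.norm x hx)
  have hlc : ContinuousOn l (Icc s t) := fun x hx => (hld x hx).continuousWithinAt
  have hΦc : ContinuousOn Φ (Icc s t) := by
    intro x hx
    rw [ContinuousWithinAt, tendsto_iff_dist_tendsto_zero]
    refine squeeze_zero' (Eventually.of_forall fun _ => dist_nonneg) ?_
      (tendsto_iff_dist_tendsto_zero.1 (hlc x hx))
    filter_upwards [self_mem_nhdsWithin] with y hy
    rw [Real.dist_eq, Real.dist_eq]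
    rcases le_total x y with h | h
    · obtain ⟨h2, h3⟩ := h1 x hx y hy h
      rw [abs_of_nonneg ((norm_nonneg _).trans h2)]
      exact h3.trans (le_abs_self _)
    · obtain ⟨h2, h3⟩ := h1 y hy x hx h
      rw [abs_sub_comm, abs_sub_comm (l y), abs_of_nonneg ((norm_nonneg _).trans h2)]
      exact h3.trans (le_abs_self _)
  have key := image_le_of_liminf_slope_right_le_deriv_boundary (f := fun x => -Φ x) (B := fun x => -l x)
    (B' := fun x => -‖γ' x‖) hΦc.neg
    (by simp only [hl, hΦ, intervalIntegral.integral_same, neg_le_neg_iff, ENNReal.toReal_nonneg])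
    hlc.neg
    (fun x hx => ((hld x (Ico_subset_Icc_self hx)).mono_of_mem_nhdsWithin (Icc_mem_nhdsGE_of_mem hx)).neg)
    (fun x hx r hr => by
      have hx' := Ico_subset_Icc_self hx
      have h2 : HasDerivWithinAt γ (γ' x) (Ioi x) x :=
        (hd x hx').mono_of_mem_nhdsWithin (Icc_mem_nhdsGT_of_mem hx)
      have h3 := ((hasDerivWithinAt_iff_tendsto_slope' self_notMem_Ioi).1 h2).norm
      refine Eventually.frequently ?_
      filter_upwards [h3.eventually (lt_mem_nhds (show -r < ‖γ' x‖ by linarith)),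
        Icc_mem_nhdsGT_of_mem hx, self_mem_nhdsWithin] with z hz hz' hxz
      have hp : 0 < z - x := sub_pos.2 hxz
      rw [slope_def_module, norm_smul, norm_inv, Real.norm_of_nonneg hp.le, inv_mul_eq_div,
        lt_div_iff₀ hp] at hz
      rw [slope_def_field, div_lt_iff₀ hp]
      linarith [(h1 x hx' z hz' (le_of_lt hxz)).1]) (right_mem_Icc.2 hst)
  simp only [hl, hΦ, neg_le_neg_iff] at key
  exact ENNReal.ofReal_le_of_le_toReal key

end Crest.Agent.R135
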