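import Crest.Agent.R135.Defs
import Crest.Agent.R135.MJ0
import Crest.Agent.R135.TArc
import Crest.Agent.R135.TLen
set_option autoImplicit false
open MeasureTheory Metric Set Filter Topology
open scoped ENNReal NNReal Real ComplexConjugate

namespace Crest.Agent.R135

/-- `Re (p' conj (p - x)) = ρ`, hence `‖p'‖ ≥ 1` (differentiate `‖p ρ - x‖² = ρ²` within `Ioc 0 ρ₀`, `uniqueDiffOn_Ioc`) -/
theorem Arc1.re_eq {K : Set ℂ} {x : ℂ} {ρ₀ : ℝ} {p p' : ℝ → ℂ} (h : Arc1 K x ρ₀ p p') {ρ : ℝ} (hρ : ρ ∈ Ioc 0 ρ₀) :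
    (p' ρ * conj (p ρ - x)).re = ρ ∧ 1 ≤ ‖p' ρ‖ := by
  have h1 := ((h.der ρ hρ).sub_const x).norm_sq
  have h2 : HasDerivWithinAt (fun r => ‖p r - x‖ ^ 2) (2 * ρ) (Ioc 0 ρ₀) ρ := by
    have h3 : HasDerivWithinAt (fun r : ℝ => r ^ 2) (2 * ρ) (Ioc 0 ρ₀) ρ := by
      simpa using (hasDerivAt_pow 2 ρ).hasDerivWithinAt
    exact h3.congr (fun r hr => by rw [h.nrm r hr]) (by rw [h.nrm ρ hρ])
  have h4 := (uniqueDiffOn_Ioc 0 ρ₀ ρ hρ).eq_deriv _ h1 h2
  rw [Complex.inner] at h4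
  have h5 : (p' ρ * conj (p ρ - x)).re = ρ := by linarith
  refine ⟨h5, ?_⟩
  have h6 := Complex.re_le_norm (p' ρ * conj (p ρ - x))
  rw [h5, norm_mul, Complex.norm_conj, h.nrm ρ hρ] at h6
  exact le_of_mul_le_mul_right (by linarith) hρ.1

theorem Arc1.lip {K : Set ℂ} {x : ℂ} {ρ₀ : ℝ} {p p' : ℝ → ℂ} (h : Arc1 K x ρ₀ p p') :
    LipschitzOnWith 2 p (Ioc 0 ρ₀) := by
  exact (convex_Ioc 0 ρ₀).lipschitzOnWith_of_nnnorm_hasDerivWithin_le h.der
    fun r hr => by exact_mod_cast h.bdd r hr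

theorem mj2_speed {a v : ℂ} (ha : 1 ≤ ‖a‖) (hv : ‖v‖ = 1) (c : ℝ) :
    ‖a + (c : ℂ) * v‖ ≤ ‖a‖ + c * inner ℝ (a / (‖a‖ : ℂ)) v + c ^ 2 / 2 := by
  have h0 : 0 < ‖a‖ := one_pos.trans_le ha
  have e1 : inner ℝ (a / (‖a‖ : ℂ)) v = inner ℝ a v / ‖a‖ := by
    rw [div_eq_inv_mul, ← Complex.ofReal_inv, ← Complex.real_smul, real_inner_smul_left, inv_mul_eq_div]
  have e2 : ‖a + (c : ℂ) * v‖ ^ 2 = ‖a‖ ^ 2 + 2 * (c * inner ℝ a v) + c ^ 2 := by
    rw [norm_add_sq_real, ← Complex.real_smul, real_inner_smul_right, norm_smul, hv, mul_one,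
      Real.norm_eq_abs, sq_abs]
  have e3 : ‖a + (c : ℂ) * v‖ * ‖a‖ ≤ (‖a‖ + c * (inner ℝ a v / ‖a‖) + c ^ 2 / 2) * ‖a‖ := by
    have e4 : (‖a‖ + c * (inner ℝ a v / ‖a‖) + c ^ 2 / 2) * ‖a‖ =
        ‖a‖ ^ 2 + c * inner ℝ a v + c ^ 2 / 2 * ‖a‖ := by field_simp
    rw [e4]
    nlinarith [sq_nonneg (‖a + (c : ℂ) * v‖ - ‖a‖), mul_nonneg (sq_nonneg c) (sub_nonneg.2 ha)]
  rw [e1]
  exact le_of_mul_le_mul_right e3 h0

/-- First variation of length: `Ψ` translates `K ∩ closedBall x s`; the arc `p '' Icc s s'` becomes `p + tζ v` with speed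
`‖p' + tζ' v‖ ≤ ‖p'‖ + tζ'⟪T,v⟫ + C t²`; `H1_arc_le`, `H1_arc_ge`. -/
theorem j_len {K : Set ℂ} (hK : IsClosed K) {x : ℂ} {ρ₀ : ℝ} {p p' : ℝ → ℂ} (h : Arc1 K x ρ₀ p p') (v : ℂ) (hv : ‖v‖ = 1)
    {ζ : ℝ → ℝ} {s s' : ℝ} (hζ : Bump ζ s s') (hs : s' ≤ ρ₀) (hfin : H1 (K ∩ closedBall x s') < ⊤) :
    ∃ C : ℝ, ∀ t : ℝ, 0 < t → t ≤ 1 →
      H1 (jΦ x v ζ t '' (K ∩ closedBall x s')) ≤ ENNReal.ofReal
        ((H1 (K ∩ closedBall x s')).toReal + t * (∫ r in s..s', deriv ζ r * inner ℝ (p' r / (‖p' r‖ : ℂ)) v) + C * t ^ 2) := by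
  have hss : s ≤ s' := hζ.lt.le
  have hsub : Icc s s' ⊆ Ioc 0 ρ₀ := fun r hr => ⟨hζ.pos.trans_le hr.1, hr.2.trans hs⟩
  have hζ1 : ContDiff ℝ 1 ζ := hζ.smooth.of_le (by exact_mod_cast le_top)
  have hd : ∀ r, HasDerivAt ζ (deriv ζ r) r := fun r => (hζ1.differentiable one_ne_zero r).hasDerivAt
  have hdc : Continuous (deriv ζ) := hζ1.continuous_deriv le_rfl
  have hpd : ∀ r ∈ Icc s s', HasDerivWithinAt p (p' r) (Icc s s') r := fun r hr =>
    (h.der r (hsub hr)).mono hsub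
  have hpc : ContinuousOn p' (Icc s s') := h.cont.mono hsub
  have hp0 : ContinuousOn p (Icc s s') := fun r hr => (hpd r hr).continuousWithinAt
  have h1 : ∀ r ∈ Icc s s', 1 ≤ ‖p' r‖ := fun r hr => (h.re_eq (hsub hr)).2
  have hinj : InjOn p (Icc s s') := fun a ha b hb e => by
    rw [← h.nrm a (hsub ha), ← h.nrm b (hsub hb), e]
  have hsplit : K ∩ closedBall x s' = (K ∩ ball x s) ∪ p '' Icc s s' := by
    ext z
    constructor
    · rintro ⟨hz, hz'⟩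
      rcases lt_or_ge (dist z x) s with hl | hl
      · exact Or.inl ⟨hz, hl⟩
      · right
        rcases h.all z ⟨hz, closedBall_subset_closedBall hs hz'⟩ with e | e
        · rw [e, dist_self] at hl
          exact absurd hζ.pos (not_lt.2 hl)
        · exact ⟨‖z - x‖, ⟨by rwa [← dist_eq_norm], by rwa [← dist_eq_norm]⟩, e.symm⟩
    · rintro (⟨hz, hz'⟩ | ⟨r, hr, rfl⟩)
      · exact ⟨hz, closedBall_subset_closedBall hss (ball_subset_closedBall hz')⟩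
      · exact ⟨h.mem r (hsub hr), by rw [mem_closedBall, dist_eq_norm, h.nrm r (hsub hr)]; exact hr.2⟩
  have hadd : H1 (K ∩ closedBall x s') = H1 (K ∩ ball x s) + H1 (p '' Icc s s') := by
    rw [hsplit]
    refine measure_union ?_ (isCompact_Icc.image_of_continuousOn hp0).measurableSet
    rw [Set.disjoint_left]
    rintro _ ⟨_, hz⟩ ⟨r, hr, rfl⟩
    rw [mem_ball, dist_eq_norm, h.nrm r (hsub hr)] at hz
    exact absurd hr.1 (not_le.2 hz)
  have hfA : H1 (K ∩ ball x s) ≠ ⊤ := ne_top_of_le_ne_top hfin.ne (hadd ▸ le_self_add)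
  have hfB : H1 (p '' Icc s s') ≠ ⊤ := ne_top_of_le_ne_top hfin.ne (hadd ▸ le_add_self)
  have hge : ∫ r in s..s', ‖p' r‖ ≤ (H1 (p '' Icc s s')).toReal :=
    (ENNReal.ofReal_le_iff_le_toReal hfB).1 (H1_arc_ge hss hinj hpd hpc)
  refine ⟨∫ r in s..s', deriv ζ r ^ 2 / 2, fun t ht _ => ?_⟩
  -- the moved arc
  have hγd : ∀ r ∈ Icc s s', HasDerivWithinAt (fun r => p r + ((t * ζ r : ℝ) : ℂ) * v)
      (p' r + ((t * deriv ζ r : ℝ) : ℂ) * v) (Icc s s') r := fun r hr =>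
    (hpd r hr).add ((((hd r).const_mul t).ofReal_comp.mul_const v).hasDerivWithinAt)
  have hγc : ContinuousOn (fun r => p' r + ((t * deriv ζ r : ℝ) : ℂ) * v) (Icc s s') :=
    hpc.add (Continuous.continuousOn (by fun_prop))
  have hB := H1_arc_le hss hγd hγc
  have hBi : jΦ x v ζ t '' (p '' Icc s s') = (fun r => p r + ((t * ζ r : ℝ) : ℂ) * v) '' Icc s s' := by
    rw [image_image]
    exact image_congr fun r hr => by rw [jΦ, h.nrm r (hsub hr)]
  have hA : H1 (jΦ x v ζ t '' (K ∩ ball x s)) = H1 (K ∩ ball x s) := by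
    have e : jΦ x v ζ t '' (K ∩ ball x s) = (fun z => z + (t : ℂ) * v) '' (K ∩ ball x s) :=
      image_congr fun z hz => by
        rw [jΦ, hζ.one _ (by rw [← dist_eq_norm]; exact le_of_lt hz.2), mul_one]
    rw [e]
    exact (isometry_add_right _).hausdorffMeasure_image (Or.inl zero_le_one) _
  have hTc : ContinuousOn (fun r => deriv ζ r * inner ℝ (p' r / (‖p' r‖ : ℂ)) v) (Icc s s') := by
    refine hdc.continuousOn.mul (ContinuousOn.inner (𝕜 := ℝ) (hpc.div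
      (Complex.continuous_ofReal.comp_continuousOn hpc.norm) fun r hr => ?_) continuousOn_const)
    exact_mod_cast (one_pos.trans_le (h1 r hr)).ne'
  have i1 : IntervalIntegrable (fun r => ‖p' r‖) volume s s' := hpc.norm.intervalIntegrable_of_Icc hss
  have i2 := hTc.intervalIntegrable_of_Icc (μ := volume) hss
  have i3 : IntervalIntegrable (fun r => deriv ζ r ^ 2 / 2) volume s s' :=
    Continuous.intervalIntegrable (by fun_prop) _ _
  have hint : ∫ r in s..s', ‖p' r + ((t * deriv ζ r : ℝ) : ℂ) * v‖ ≤ (∫ r in s..s', ‖p' r‖) +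
      t * (∫ r in s..s', deriv ζ r * inner ℝ (p' r / (‖p' r‖ : ℂ)) v) +
        (∫ r in s..s', deriv ζ r ^ 2 / 2) * t ^ 2 := by
    rw [← intervalIntegral.integral_const_mul, ← intervalIntegral.integral_mul_const,
      ← intervalIntegral.integral_add i1 (i2.const_mul t),
      ← intervalIntegral.integral_add (i1.add (i2.const_mul t)) (i3.mul_const _)]
    refine intervalIntegral.integral_mono_on hss (hγc.norm.intervalIntegrable_of_Icc hss)
      ((i1.add (i2.const_mul t)).add (i3.mul_const _)) fun r hr => ?_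
    refine (mj2_speed (h1 r hr) hv (t * deriv ζ r)).trans_eq ?_
    ring
  calc H1 (jΦ x v ζ t '' (K ∩ closedBall x s'))
      ≤ H1 (jΦ x v ζ t '' (K ∩ ball x s)) + H1 (jΦ x v ζ t '' (p '' Icc s s')) := by
        rw [hsplit, image_union]
        exact measure_union_le _ _
    _ ≤ ENNReal.ofReal (H1 (K ∩ ball x s)).toReal +
        ENNReal.ofReal (∫ r in s..s', ‖p' r + ((t * deriv ζ r : ℝ) : ℂ) * v‖) := by
        rw [hA, hBi, ENNReal.ofReal_toReal hfA]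
        exact add_le_add le_rfl hB
    _ ≤ _ := by
        rw [← ENNReal.ofReal_add ENNReal.toReal_nonneg
          (intervalIntegral.integral_nonneg hss fun _ _ => norm_nonneg _), hadd, ENNReal.toReal_add hfA hfB]
        exact ENNReal.ofReal_le_ofReal (by linarith)

end Crest.Agent.R135
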