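import Crest.Agent.R135.Defs
import Crest.Agent.R135.MJ2
import Crest.Agent.R135.MEL
import Crest.Agent.R135.TPolar
set_option autoImplicit false
open MeasureTheory Metric Set Filter Topology
open scoped ENNReal NNReal Real ComplexConjugate

namespace Crest.Agent.R135

theorem jer_D {K : Set ℂ} {x : ℂ} {ρ₀ : ℝ} {p p' : ℝ → ℂ} (hA : Arc1 K x ρ₀ p p') {z : ℂ}
    (h0 : 0 < ‖z - x‖) (h1 : ‖z - x‖ ≤ ρ₀ / 2) : ‖z - p ‖z - x‖‖ ≤ 2 * ‖z - x‖ := by
  have h2 := hA.nrm ‖z - x‖ ⟨h0, by linarith [hA.pos]⟩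
  have h3 := norm_sub_le_norm_sub_add_norm_sub z x (p ‖z - x‖)
  rw [norm_sub_rev x, h2] at h3
  linarith

theorem jer_miss {K : Set ℂ} {x : ℂ} {ρ₀ : ℝ} {p p' : ℝ → ℂ} (hA : Arc1 K x ρ₀ p p') {z : ℂ}
    (h0 : 0 < ‖z - x‖) (h1 : ‖z - x‖ ≤ ρ₀ / 2) : Disjoint (ball z (‖z - p ‖z - x‖‖ / 3)) K := by
  refine Set.disjoint_left.2 fun y hy hK => ?_
  have hD := jer_D hA h0 h1
  rw [mem_ball_iff_norm] at hy
  have h2 := norm_sub_le_norm_sub_add_norm_sub y z x
  have h3 := norm_sub_le_norm_sub_add_norm_sub z y x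
  rw [norm_sub_rev z y] at h3
  have h4 : ‖y - x‖ ≤ ρ₀ := by linarith
  have h5 : 0 < ‖y - x‖ := by linarith
  rcases hA.all y ⟨hK, mem_closedBall_iff_norm.2 h4⟩ with h6 | h6
  · rw [h6, sub_self, norm_zero] at h5
    exact lt_irrefl _ h5
  · have h7 := hA.lip.dist_le_mul _ ⟨h5, h4⟩ _ ⟨h0, by linarith⟩
    rw [← h6, dist_eq_norm, Real.dist_eq] at h7
    have h8 : |‖y - x‖ - ‖z - x‖| ≤ ‖y - z‖ := abs_le.2 ⟨by linarith, by linarith⟩
    have h9 := norm_sub_le_norm_sub_add_norm_sub z y (p ‖z - x‖)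
    rw [norm_sub_rev z y] at h9
    push_cast at h7
    linarith

theorem jer_pt {U K : Set ℂ} {a b : ℝ} {u : ℂ → ℝ} (h : MS U a b K u) {x : ℂ} {ρ₀ : ℝ} {p p' : ℝ → ℂ}
    (hA : Arc1 K x ρ₀ p p') (hB : closedBall x ρ₀ ⊆ U) :
    ∃ A : ℝ, 0 ≤ A ∧ ∀ z : ℂ, 0 < ‖z - x‖ → ‖z - x‖ ≤ ρ₀ / 2 → ∀ t : ℝ, 0 < t → ∀ w : ℂ, ‖w - z‖ ≤ t →
      6 * t ≤ ‖z - p ‖z - x‖‖ → |u w - u z| ≤ A * t / √‖z - p ‖z - x‖‖ := by
  obtain ⟨C, hC, hg⟩ := MS.grad_le
  have ha := h.a0
  have hb := h.b0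
  have hρ := hA.pos
  refine ⟨C * (6 * √(1 + a * b * ρ₀) + a * ρ₀ * √ρ₀), by positivity, fun z h0 h1 t ht w hw h6 => ?_⟩
  have hD := jer_D hA h0 h1
  have hm := jer_miss hA h0 h1
  set D := ‖z - p ‖z - x‖‖
  have hD0 : 0 < D := by linarith
  have hsub : closedBall z (D / 3) ⊆ U := (closedBall_subset_closedBall' (by
    rw [dist_eq_norm]; linarith)).trans hB
  have hsq : 0 < √D := Real.sqrt_pos.2 hD0
  have key : ∀ y ∈ closedBall z t, DifferentiableAt ℝ u y ∧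
      ‖fderiv ℝ u y‖ ≤ C * (6 * √(1 + a * b * ρ₀) + a * ρ₀ * √ρ₀) / √D := by
    intro y hy
    rw [mem_closedBall] at hy
    have hy' : y ∈ ball z (D / 3) := mem_ball.2 (by linarith)
    have hyU : y ∈ U \ K := ⟨hsub (ball_subset_closedBall hy'), Set.disjoint_left.1 hm hy'⟩
    refine ⟨(h.c1.contDiffAt ((h.isOpen.sdiff h.closed).mem_nhds hyU)).differentiableAt one_ne_zero, ?_⟩
    rw [← norm_gradient]
    refine (hg U K a b u h y (D / 6) (by linarith)
      ((closedBall_subset_closedBall' (by linarith)).trans hsub)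
      (hm.mono_left (ball_subset_ball' (by linarith)))).trans ?_
    rw [mul_div_assoc]
    refine mul_le_mul_of_nonneg_left ?_ hC
    rw [add_div]
    have e : √D * √D = D := Real.mul_self_sqrt hD0.le
    refine add_le_add ?_ ?_
    · have h2 : √(D / 6 + a * b * (D / 6) ^ 2) ≤ √D * √(1 + a * b * ρ₀) := by
        rw [← Real.sqrt_mul hD0.le]
        refine Real.sqrt_le_sqrt ?_
        have h3 : (D / 6) ^ 2 ≤ D * ρ₀ := by nlinarith
        have h4 := mul_le_mul_of_nonneg_left h3 (mul_nonneg ha hb)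
        nlinarith
      rw [div_le_div_iff₀ (by linarith) hsq]
      calc √(D / 6 + a * b * (D / 6) ^ 2) * √D ≤ √D * √(1 + a * b * ρ₀) * √D := by gcongr
        _ = √(1 + a * b * ρ₀) * (√D * √D) := by ring
        _ = 6 * √(1 + a * b * ρ₀) * (D / 6) := by rw [e]; ring
    · rw [le_div_iff₀ hsq]
      have h2 : √D ≤ √ρ₀ := Real.sqrt_le_sqrt (by linarith)
      have h3 : D / 6 ≤ ρ₀ := by linarith
      gcongr
  have hmv := (convex_closedBall z t).norm_image_sub_le_of_norm_fderiv_le (fun y hy => (key y hy).1)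
    (fun y hy => (key y hy).2) (mem_closedBall_self ht.le) (mem_closedBall_iff_norm.2 hw)
  rw [Real.norm_eq_abs] at hmv
  refine hmv.trans ?_
  rw [mul_div_right_comm _ t]
  gcongr

theorem jer_chord (x : ℂ) {ρ : ℝ} (hρ : 0 < ρ) {φ c : ℝ} (h : |φ - c| ≤ π) :
    2 / π * (ρ * |φ - c|) ≤ ‖circleMap x ρ φ - circleMap x ρ c‖ := by
  have e : circleMap x ρ φ - circleMap x ρ c =
      ρ * Complex.exp (c * Complex.I) * (Complex.exp (Complex.I * (φ - c : ℝ)) - 1) := by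
    simp only [circleMap]
    rw [mul_sub, mul_assoc, ← Complex.exp_add]
    push_cast
    ring_nf
  rw [e, norm_mul, norm_mul, Complex.norm_exp_ofReal_mul_I, Complex.norm_exp_I_mul_ofReal_sub_one,
    Complex.norm_real, Real.norm_eq_abs, Real.norm_eq_abs, abs_of_pos hρ, abs_mul, abs_two]
  have h1 := Real.mul_abs_le_abs_sin (x := (φ - c) / 2) (by rw [abs_div, abs_two]; linarith)
  rw [abs_div, abs_two] at h1
  have h2 := mul_le_mul_of_nonneg_left h1 hρ.le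
  linarith

theorem jer_ang (x q : ℂ) {ρ : ℝ} (hρ : 0 < ρ) (hq : ‖q - x‖ = ρ) : ∃ c₁ c₂ c₃ : ℝ, ∀ φ ∈ Ioo (-π) π,
    ∃ c, (c = c₁ ∨ c = c₂ ∨ c = c₃) ∧ |φ - c| ≤ π ∧ 2 / π * (ρ * |φ - c|) ≤ ‖circleMap x ρ φ - q‖ := by
  have e : circleMap x ρ (q - x).arg = q := by
    rw [circleMap, ← hq, Complex.norm_mul_exp_arg_mul_I]; ring
  have h1 := Complex.neg_pi_lt_arg (q - x)
  have h2 := Complex.arg_le_pi (q - x)
  set φ₀ := (q - x).arg
  refine ⟨φ₀ - 2 * π, φ₀, φ₀ + 2 * π, fun φ hφ => ?_⟩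
  obtain ⟨h3, h4⟩ := hφ
  rcases le_total (φ - φ₀) (-π) with h5 | h5
  · have h6 : |φ - (φ₀ - 2 * π)| ≤ π := abs_le.2 ⟨by linarith, by linarith⟩
    refine ⟨_, Or.inl rfl, h6, ?_⟩
    have := jer_chord x hρ h6
    rwa [(periodic_circleMap x ρ).sub_eq, e] at this
  rcases le_total (φ - φ₀) π with h7 | h7
  · have h6 : |φ - φ₀| ≤ π := abs_le.2 ⟨h5, h7⟩
    refine ⟨_, Or.inr (Or.inl rfl), h6, ?_⟩
    have := jer_chord x hρ h6
    rwa [e] at this
  · have h6 : |φ - (φ₀ + 2 * π)| ≤ π := abs_le.2 ⟨by linarith, by linarith⟩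
    refine ⟨_, Or.inr (Or.inr rfl), h6, ?_⟩
    have := jer_chord x hρ h6
    rwa [periodic_circleMap x ρ, e] at this

theorem jer_three {F H : ℝ → ℝ≥0∞} (hH : Measurable H) {S : Set ℝ} (hS : MeasurableSet S) {c₁ c₂ c₃ : ℝ}
    (h : ∀ φ ∈ S, ∃ c, (c = c₁ ∨ c = c₂ ∨ c = c₃) ∧ F φ ≤ H (φ - c)) :
    ∫⁻ φ in S, F φ ≤ 3 * ∫⁻ θ, H θ := by
  calc ∫⁻ φ in S, F φ ≤ ∫⁻ φ in S, (H (φ - c₁) + H (φ - c₂) + H (φ - c₃)) := by
        refine setLIntegral_mono' hS fun φ hφ => ?_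
        obtain ⟨c, rfl | rfl | rfl, hc⟩ := h φ hφ
        · exact hc.trans (le_self_add.trans le_self_add)
        · exact hc.trans (le_add_self.trans le_self_add)
        · exact hc.trans le_add_self
    _ ≤ ∫⁻ φ, (H (φ - c₁) + H (φ - c₂) + H (φ - c₃)) := setLIntegral_le_lintegral _ _
    _ = 3 * ∫⁻ θ, H θ := by
        rw [lintegral_add_right (g := fun φ => H (φ - c₃)) _ (hH.comp (measurable_sub_const c₃)),
          lintegral_add_right (g := fun φ => H (φ - c₂)) _ (hH.comp (measurable_sub_const c₂)),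
          lintegral_sub_right_eq_self H, lintegral_sub_right_eq_self H, lintegral_sub_right_eq_self H]
        ring

theorem jer_J : ∃ J : ℝ, 0 ≤ J ∧ ∫⁻ θ in ball (0 : ℝ) 4, ENNReal.ofReal (√|θ|)⁻¹ = ENNReal.ofReal J := by
  have h : IntegrableOn (fun θ : ℝ => (√|θ|)⁻¹) (ball 0 4) :=
    integrableOn_ball_of_norm_le_rpow (C := 1) (α := 1 / 2) (by simp) (by simp; norm_num)
      (Eventually.of_forall fun θ => by
        rw [one_mul, Real.norm_eq_abs, Real.norm_eq_abs, abs_of_nonneg (by positivity),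
          Real.rpow_neg (abs_nonneg _), Real.sqrt_eq_rpow])
      (Measurable.aestronglyMeasurable (by fun_prop))
  exact ⟨_, integral_nonneg fun θ => by positivity,
    (ofReal_integral_eq_lintegral_ofReal h (Eventually.of_forall fun θ => by positivity)).symm⟩

/-- the estimate on one circle -/
theorem jer_circle {U K : Set ℂ} {a b : ℝ} {u : ℂ → ℝ} (h : MS U a b K u) {x : ℂ} {ρ₀ : ℝ} {p p' : ℝ → ℂ}
    (hA : Arc1 K x ρ₀ p p') (hB : closedBall x ρ₀ ⊆ U) :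
    ∃ C : ℝ, 0 ≤ C ∧ ∀ ρ ∈ Ioc 0 (ρ₀ / 2), ∀ t : ℝ, 0 < t → ∀ S : ℂ → ℂ, (∀ z, ‖S z - z‖ ≤ t) →
      ∫⁻ φ in Ioo (-π) π, ENNReal.ofReal ρ *
        ENNReal.ofReal (min |u (S (circleMap x ρ φ)) - u (circleMap x ρ φ)| b) ≤ ENNReal.ofReal (C * t) := by
  obtain ⟨A, hA0, hpt⟩ := jer_pt h hA hB
  obtain ⟨J, hJ0, hJ⟩ := jer_J
  have hb := h.b0
  have hρ₀ := hA.pos
  refine ⟨3 * (A * √ρ₀ * J + 20 * b), by positivity, fun ρ hρ t ht S hS => ?_⟩
  obtain ⟨h0, h1⟩ := hρ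
  obtain ⟨c₁, c₂, c₃, hc⟩ := jer_ang x (p ρ) h0 (hA.nrm ρ ⟨h0, by linarith⟩)
  have m1 : Measurable ((ball (0 : ℝ) 4).indicator
      fun θ : ℝ => ENNReal.ofReal (A * √ρ₀ * t) * ENNReal.ofReal (√|θ|)⁻¹) :=
    Measurable.indicator (by fun_prop) measurableSet_ball
  have m2 : Measurable ((closedBall (0 : ℝ) (10 * t / ρ)).indicator fun _ : ℝ => ENNReal.ofReal (ρ * b)) :=
    Measurable.indicator measurable_const measurableSet_closedBall
  refine (jer_three (m1.add m2) measurableSet_Ioo (c₁ := c₁) (c₂ := c₂) (c₃ := c₃)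
    fun φ hφ => ?_).trans ?_
  · obtain ⟨c, hcc, h2, h3⟩ := hc φ hφ
    refine ⟨c, hcc, ?_⟩
    have hn : ‖circleMap x ρ φ - x‖ = ρ := by rw [← dist_eq_norm, tpolar_dist x h0]
    have h4 := hpt (circleMap x ρ φ) (by rw [hn]; exact h0) (by rw [hn]; exact h1) t ht _ (hS _)
    rw [hn] at h4
    have h5 := jer_D hA (z := circleMap x ρ φ) (by rw [hn]; exact h0) (by rw [hn]; exact h1)
    rw [hn] at h5
    set D := ‖circleMap x ρ φ - p ρ‖
    set θ := φ - c
    have h6 : ρ * |θ| ≤ π / 2 * D := by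
      have := mul_le_mul_of_nonneg_left h3 (by positivity : 0 ≤ π / 2)
      rwa [← mul_assoc, show π / 2 * (2 / π) = 1 by field_simp, one_mul] at this
    have hπ := Real.pi_lt_d2
    have hD0 : 0 ≤ D := norm_nonneg _
    rw [← ENNReal.ofReal_mul h0.le]
    by_cases h7 : |θ| ≤ 10 * t / ρ
    · refine le_trans ?_ le_add_self
      rw [indicator_of_mem (mem_closedBall_zero_iff.2 h7)]
      exact ENNReal.ofReal_le_ofReal (mul_le_mul_of_nonneg_left (min_le_right _ _) h0.le)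
    · refine le_trans ?_ le_self_add
      rw [not_le, div_lt_iff₀ h0] at h7
      have h8 : 6 * t ≤ D := by nlinarith
      have hθ : 0 < |θ| := by
        by_contra hh
        have : |θ| = 0 := le_antisymm (not_lt.1 hh) (abs_nonneg _)
        rw [this] at h7
        linarith
      have hD : 0 < D := by linarith
      rw [indicator_of_mem (mem_ball_zero_iff.2 (by rw [Real.norm_eq_abs]; linarith)),
        ← ENNReal.ofReal_mul (by positivity)]
      refine ENNReal.ofReal_le_ofReal ?_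
      have h9 : ρ * √|θ| ≤ √ρ₀ * √D := by
        rw [← Real.sqrt_mul hρ₀.le]
        refine Real.le_sqrt_of_sq_le ?_
        rw [mul_pow, Real.sq_sqrt hθ.le]
        have : ρ * (ρ * |θ|) ≤ ρ₀ / 2 * (π / 2 * D) := by gcongr
        have : ρ₀ * D * π ≤ ρ₀ * D * 4 := by gcongr; linarith
        nlinarith
      calc ρ * min |u (S (circleMap x ρ φ)) - u (circleMap x ρ φ)| b ≤ ρ * (A * t / √D) :=
            mul_le_mul_of_nonneg_left ((min_le_left _ _).trans (h4 h8)) h0.le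
        _ = A * t * (ρ / √D) := by ring
        _ ≤ A * t * (√ρ₀ / √|θ|) := by
            refine mul_le_mul_of_nonneg_left ?_ (by positivity)
            rwa [div_le_div_iff₀ (Real.sqrt_pos.2 hD) (Real.sqrt_pos.2 hθ)]
        _ = A * √ρ₀ * t * (√|θ|)⁻¹ := by ring
  · simp only [Pi.add_apply]
    rw [lintegral_add_right _ m2, lintegral_indicator measurableSet_ball,
      lintegral_indicator measurableSet_closedBall, lintegral_const_mul' _ _ ENNReal.ofReal_ne_top, hJ,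
      setLIntegral_const, Real.volume_closedBall, ← ENNReal.ofReal_mul (by positivity),
      ← ENNReal.ofReal_mul (by positivity), ← ENNReal.ofReal_add (by positivity) (by positivity),
      ← ENNReal.ofReal_ofNat, ← ENNReal.ofReal_mul (by positivity)]
    refine ENNReal.ofReal_le_ofReal (le_of_eq ?_)
    field_simp
    ring

/-- Fidelity error of the variation. For `‖z - x‖ = r ≤ ρ₀/2` put `d = ‖z - p r‖/3`; `ball z d` misses `K` (`Arc1.lip`). If `2t ≤ d` the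
mean value inequality and `MS.grad_le` (radius `d/2`) give `|u (S z) - u z| ≤ C t d^{-1/2}`; otherwise use `b`. In polar coordinates
around `x`: `∫ ‖z - p r‖^{-1/2} r dφ ≤ C √r` and the arc `{‖z - p r‖ < 6t}` has `r · angle ≤ C t` (Jordan's inequality). -/
theorem j_err {U K : Set ℂ} {a b : ℝ} {u : ℂ → ℝ} (h : MS U a b K u) {x : ℂ} {ρ₀ : ℝ} {p p' : ℝ → ℂ}
    (hA : Arc1 K x ρ₀ p p') (hB : closedBall x ρ₀ ⊆ U) :
    ∃ C : ℝ, 0 ≤ C ∧ ∀ s' ∈ Ioc 0 (ρ₀ / 2), ∀ t : ℝ, 0 < t → ∀ S : ℂ → ℂ, (∀ z, ‖S z - z‖ ≤ t) →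
      ∫⁻ z in closedBall x s', ENNReal.ofReal (min |u (S z) - u z| b) ≤ ENNReal.ofReal (C * t * s') := by
  obtain ⟨C, hC, hc⟩ := jer_circle h hA hB
  refine ⟨C, hC, fun s' hs' t ht S hS => ?_⟩
  rw [← lintegral_indicator measurableSet_closedBall, tpolar_lint x]
  refine (lintegral_prod_le _).trans ?_
  calc _ ≤ ∫⁻ ρ in Ioi (0 : ℝ), (Ioc 0 s').indicator (fun _ => ENNReal.ofReal (C * t)) ρ := by
        refine setLIntegral_mono' measurableSet_Ioi fun ρ hρ => ?_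
        have hρ' : 0 < ρ := hρ
        by_cases h1 : ρ ≤ s'
        · rw [indicator_of_mem (show ρ ∈ Ioc 0 s' from ⟨hρ', h1⟩)]
          refine le_trans (lintegral_mono fun φ => ?_) (hc ρ ⟨hρ', h1.trans hs'.2⟩ t ht S hS)
          exact mul_le_mul_right (indicator_le_self _ _ _) _
        · refine le_trans (le_of_eq ?_) bot_le
          refine (lintegral_congr fun φ => ?_).trans lintegral_zero
          rw [indicator_of_notMem (by rw [mem_closedBall, tpolar_dist x hρ']; exact h1), mul_zero]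
    _ ≤ ∫⁻ ρ, (Ioc 0 s').indicator (fun _ => ENNReal.ofReal (C * t)) ρ := setLIntegral_le_lintegral _ _
    _ = ENNReal.ofReal (C * t * s') := by
        rw [lintegral_indicator measurableSet_Ioc, setLIntegral_const, Real.volume_Ioc, sub_zero,
          ← ENNReal.ofReal_mul (by positivity)]

end Crest.Agent.R135
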