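import Crest.Agent.R135.Defs
import Crest.Agent.R135.MJ1
import Crest.Agent.R135.MJ2
import Crest.Agent.R135.MJ3
import Crest.Agent.R135.TOne
set_option autoImplicit false
open MeasureTheory Metric Set Filter Topology
open scoped ENNReal NNReal Real ComplexConjugate

namespace Crest.Agent.R135

theorem jid_cJ_le (u : ℂ → ℝ) (x : ℂ) {r : ℝ} (hr : 0 ≤ r) : ‖cJ u x r‖ ≤ ce u x r := by
  unfold cJ ce
  rw [norm_mul, Complex.norm_real, Real.norm_of_nonneg hr]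
  refine mul_le_mul_of_nonneg_left ?_ hr
  refine (intervalIntegral.norm_integral_le_integral_norm (by linarith [Real.pi_pos])).trans (le_of_eq ?_)
  refine intervalIntegral.integral_congr fun φ _ => ?_
  have : ‖Complex.exp (-(φ * Complex.I))‖ = 1 := by
    rw [show -((φ : ℂ) * Complex.I) = ((-φ : ℝ) : ℂ) * Complex.I by push_cast; ring, Complex.norm_exp_ofReal_mul_I]
  simp only [norm_mul, norm_pow, this, mul_one]

theorem jid_bound {g : ℝ → ℂ} {k E : ℝ → ℝ} {s s' t : ℝ} (hs : s ≤ s') (ht : 0 < t) {v : ℂ} (hv : ‖v‖ = 1)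
    (hk : ∀ r, t * |k r| ≤ 1 / 2) (hE : IntervalIntegrable E volume s s') (hg : ∀ r ∈ Icc s s', ‖g r‖ ≤ E r) :
    |t * ∫ r in s..s', k r * inner ℝ (g r) v| ≤ 1 / 2 * ∫ r in s..s', E r := by
  rw [← intervalIntegral.integral_const_mul, ← intervalIntegral.integral_const_mul, ← Real.norm_eq_abs]
  refine intervalIntegral.norm_integral_le_of_norm_le hs (Eventually.of_forall fun r hr => ?_) (hE.const_mul _)
  have h1 : |inner ℝ (g r) v| ≤ E r := by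
    have := abs_real_inner_le_norm (g r) v
    rw [hv, mul_one] at this
    exact this.trans (hg r (Ioc_subset_Icc_self hr))
  rw [Real.norm_eq_abs, ← mul_assoc, abs_mul, abs_mul, abs_of_pos ht]
  exact mul_le_mul (hk r) h1 (abs_nonneg _) (by norm_num)

theorem jid_comp {U K : Set ℂ} {a b : ℝ} {u : ℂ → ℝ} (h : MS U a b K u) {x : ℂ} {ρ : ℝ} (hB : closedBall x ρ ⊆ U)
    (Ψ : ℂ ≃ₜ ℂ) (hs : ContDiff ℝ 1 Ψ.symm) (h0 : ∀ z, ρ ≤ ‖z - x‖ → Ψ z = z)
    (hi : Ψ '' closedBall x ρ = closedBall x ρ) :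
    Comp U K u (Ψ '' K) (u ∘ Ψ.symm) x ρ ∧ Adm U K (Ψ '' K) x ρ := by
  have hout : ∀ z, z ∉ closedBall x ρ → Ψ z = z := fun z hz => h0 z (by
    rw [mem_closedBall, dist_eq_norm, not_le] at hz; exact hz.le)
  have hout' : ∀ z, z ∉ closedBall x ρ → Ψ.symm z = z := fun z hz => by
    rw [Homeomorph.symm_apply_eq]; exact (hout z hz).symm
  have hmap : MapsTo Ψ.symm (U \ Ψ '' K) (U \ K) := fun z hz => by
    refine ⟨?_, fun hk => hz.2 ⟨_, hk, Ψ.apply_symm_apply z⟩⟩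
    by_cases hzB : z ∈ closedBall x ρ
    · rw [← hi] at hzB
      obtain ⟨y, hy, rfl⟩ := hzB
      rw [Ψ.symm_apply_apply]; exact hB hy
    · rw [hout' z hzB]; exact hz.1
  have hcl : IsClosed (Ψ '' K) := Ψ.isClosed_image.2 h.closed
  refine ⟨⟨hcl, ?_, fun z hz => ?_, ?_⟩, fun Λ hΛ => ⟨Λ ∘ Ψ.symm, fun z hz => ?_, fun z hz => ?_⟩⟩
  · ext z
    constructor
    · rintro ⟨⟨y, hy, rfl⟩, hz⟩
      have := Ψ.injective (hout _ hz)
      exact ⟨by rw [this]; exact hy, hz⟩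
    · rintro ⟨hz, hz'⟩
      exact ⟨⟨z, hz, hout z hz'⟩, hz'⟩
  · simp only [Function.comp, hout' z hz.2]
  · exact locLip_of_contDiffOn (h.isOpen.sdiff hcl) (h.c1.comp hs.contDiffOn hmap)
  · exact Ψ.symm.continuous.continuousAt.eventually (hΛ _ (hmap hz))
  · simp only [Function.comp, hout' z hz.2]

theorem jid_len {K : Set ℂ} {x : ℂ} {ρ₀ : ℝ} {p p' : ℝ → ℂ} (hA : Arc1 K x ρ₀ p p') {s s' : ℝ} (h0 : 0 < s)
    (hs : s ≤ s') (hs' : s' ≤ ρ₀) : ENNReal.ofReal (s' - s) ≤ H1 (K ∩ closedBall x s') := by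
  have hsub : Icc s s' ⊆ Ioc 0 ρ₀ := fun r hr => ⟨h0.trans_le hr.1, hr.2.trans hs'⟩
  have hC : IsPreconnected (p '' Icc s s') := isPreconnected_Icc.image _ (hA.lip.continuousOn.mono hsub)
  have h1 : s' - s ≤ dist (p s') (p s) := by
    have e1 := hA.nrm s (hsub ⟨le_rfl, hs⟩)
    have e2 := hA.nrm s' (hsub ⟨hs, le_rfl⟩)
    have := norm_sub_norm_le (p s' - x) (p s - x)
    rw [e1, e2, sub_sub_sub_cancel_right] at this
    rwa [dist_eq_norm]
  refine (H1_ge_of_conn hC ⟨s, ⟨le_rfl, hs⟩, rfl⟩ ⟨s', ⟨hs, le_rfl⟩, rfl⟩ h1).trans (measure_mono ?_)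
  rintro z ⟨⟨r, hr, rfl⟩, -⟩
  refine ⟨hA.mem r (hsub hr), ?_⟩
  rw [mem_closedBall, dist_eq_norm, hA.nrm r (hsub hr)]
  exact hr.2

theorem jid_T {K : Set ℂ} {x : ℂ} {ρ₀ : ℝ} {p p' : ℝ → ℂ} (hA : Arc1 K x ρ₀ p p') :
    ContinuousOn (fun r => p' r / (‖p' r‖ : ℂ)) (Ioc 0 ρ₀) := by
  refine hA.cont.div (Complex.continuous_ofReal.comp_continuousOn hA.cont.norm) fun r hr => ?_
  have := (hA.re_eq hr).2
  exact_mod_cast (by linarith : ‖p' r‖ ≠ 0)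

theorem jid_var {U K : Set ℂ} {a b : ℝ} {u : ℂ → ℝ} (h : MS U a b K u) {x : ℂ} {ρ₀ : ℝ} {p p' : ℝ → ℂ}
    (hA : Arc1 K x ρ₀ p p') (hB : closedBall x ρ₀ ⊆ U) {C : ℝ} (hC0 : 0 ≤ C) {ζ : ℝ → ℝ} {s s' : ℝ}
    (hζ : Bump ζ s s') (hs : s' ≤ ρ₀)
    (hC : ∀ t : ℝ, 0 < t → ∀ S : ℂ → ℂ, (∀ z, ‖S z - z‖ ≤ t) →
      ∫⁻ z in closedBall x s', ENNReal.ofReal (min |u (S z) - u z| b) ≤ ENNReal.ofReal (C * t * s'))
    {v : ℂ} (hv : ‖v‖ = 1) :
    (∫ r in s..s', deriv ζ r * inner ℝ (cJ u x r) v) - (∫ r in s..s', deriv ζ r * inner ℝ (p' r / (‖p' r‖ : ℂ)) v)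
      ≤ a * C * s' := by
  have hs0 := hζ.pos
  have hss := hζ.lt
  have hB' : closedBall x s' ⊆ U := (closedBall_subset_closedBall hs).trans hB
  have hfin := h.H1_lt_top hB'
  obtain ⟨t₀, ht₀, hΨ⟩ := exists_jΨ x v hv hζ
  obtain ⟨C₁, hC₁⟩ := j_dir h x v hv hζ hB'
  obtain ⟨C₂, hC₂⟩ := j_len h.closed hA v hv hζ hs hfin
  set I₁ := ∫ r in s..s', deriv ζ r * inner ℝ (cJ u x r) v with hI₁
  set I₂ := ∫ r in s..s', deriv ζ r * inner ℝ (p' r / (‖p' r‖ : ℂ)) v with hI₂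
  set L := (H1 (K ∩ closedBall x s')).toReal with hL
  have hLs : s' - s ≤ L := by
    have := ENNReal.toReal_mono hfin.ne (jid_len hA hs0 hss.le hs)
    rwa [ENNReal.toReal_ofReal (by linarith)] at this
  obtain ⟨hce, hDr⟩ := h.ce_int (by linarith : 0 ≤ s') hB'
  have hce' : IntervalIntegrable (ce u x) volume s s' :=
    hce.mono_set (by rw [uIcc_of_le hss.le, uIcc_of_le (by linarith)]; exact Icc_subset_Icc hs0.le le_rfl)
  have hD := hDr s s' hs0.le hss.le le_rfl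
  have hD0 := Dr_nonneg u x s
  have hD1 := Dr_nonneg u x s'
  have key : ∀ t ∈ Ioo 0 (min t₀ 1), I₁ - I₂ ≤ a * C * s' + (|C₁| + |C₂|) * t := by
    intro t ht
    have ht0 := ht.1
    obtain ⟨hk, Ψ, e, -, hsm, h0, hi, hd⟩ := hΨ t ⟨ht.1, ht.2.trans_le (min_le_left _ _)⟩
    obtain ⟨hcomp, hadm⟩ := jid_comp h hB' Ψ hsm h0 hi
    have hm := h.min _ _ x s' hB' hcomp hadm
    have b1 : |t * I₁| ≤ 1 / 2 * ∫ r in s..s', ce u x r :=
      jid_bound hss.le ht0 hv hk hce' fun r hr => jid_cJ_le u x (hs0.le.trans hr.1)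
    have b2 : |t * I₂| ≤ 1 / 2 * ∫ r in s..s', (1 : ℝ) :=
      jid_bound hss.le ht0 hv hk intervalIntegrable_const fun r hr => by
        rw [norm_div, Complex.norm_real, norm_norm]
        exact div_self_le_one _
    rw [intervalIntegral.integral_const, smul_eq_mul, mul_one] at b2
    have b1' := (abs_le.1 b1).2
    have b2' := (abs_le.1 b2).1
    have q1 : C₁ * t ^ 2 ≤ |C₁| * t ^ 2 := mul_le_mul_of_nonneg_right (le_abs_self _) (sq_nonneg _)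
    have q2 : C₂ * t ^ 2 ≤ |C₂| * t ^ 2 := mul_le_mul_of_nonneg_right (le_abs_self _) (sq_nonneg _)
    have q1' : 0 ≤ |C₁| * t ^ 2 := mul_nonneg (abs_nonneg _) (sq_nonneg _)
    have q2' : 0 ≤ |C₂| * t ^ 2 := mul_nonneg (abs_nonneg _) (sq_nonneg _)
    have e1 : Dir (u ∘ Ψ.symm) (closedBall x s') ≤ ENNReal.ofReal (Dr u x s' - t * I₁ + |C₁| * t ^ 2) :=
      (hC₁ t ht0 hk Ψ e hsm hi).trans (ENNReal.ofReal_le_ofReal (by linarith))
    have e2 : H1 (Ψ '' K ∩ closedBall x s') ≤ ENNReal.ofReal (L + t * I₂ + |C₂| * t ^ 2) := by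
      have : Ψ '' K ∩ closedBall x s' = jΦ x v ζ t '' (K ∩ closedBall x s') := by
        rw [← funext e, image_inter Ψ.injective, hi]
      rw [this]
      exact (hC₂ t ht0 (ht.2.le.trans (min_le_right _ _))).trans (ENNReal.ofReal_le_ofReal (by linarith))
    have e3 : Err a b u (u ∘ Ψ.symm) (closedBall x s') ≤ ENNReal.ofReal (a * (C * t * s')) := by
      rw [ENNReal.ofReal_mul h.a0]
      exact mul_le_mul_right (hC t ht0 Ψ.symm hd) _
    have e4 : En K u (closedBall x s') = ENNReal.ofReal (Dr u x s' + L) := by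
      rw [En, Dir_closedBall, ← h.ofReal_Dr hB', ENNReal.ofReal_add hD1 ENNReal.toReal_nonneg,
        ENNReal.ofReal_toReal hfin.ne]
    have p3 : 0 ≤ a * (C * t * s') := mul_nonneg h.a0 (mul_nonneg (mul_nonneg hC0 ht0.le) (by linarith))
    have p1 : 0 ≤ Dr u x s' - t * I₁ + |C₁| * t ^ 2 := by linarith
    have p2 : 0 ≤ L + t * I₂ + |C₂| * t ^ 2 := by linarith
    have e5 := hm.trans (add_le_add (add_le_add e1 e2) e3)
    rw [e4, ← ENNReal.ofReal_add p1 p2, ← ENNReal.ofReal_add (add_nonneg p1 p2) p3,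
      ENNReal.ofReal_le_ofReal_iff (add_nonneg (add_nonneg p1 p2) p3)] at e5
    refine le_of_mul_le_mul_left ?_ ht0
    nlinarith
  have hlim : Tendsto (fun t : ℝ => a * C * s' + (|C₁| + |C₂|) * t) (𝓝[>] 0) (𝓝 (a * C * s' + (|C₁| + |C₂|) * 0)) :=
    Tendsto.mono_left (Continuous.tendsto (by fun_prop) 0) nhdsWithin_le_nhds
  rw [mul_zero, add_zero] at hlim
  exact ge_of_tendsto hlim (mem_of_superset (Ioo_mem_nhdsGT (lt_min ht₀ one_pos)) key)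

/-- The `J`-identity: competitor `(Ψ '' K, u ∘ Ψ⁻¹)` (`Adm` by `Λ ∘ Ψ⁻¹`), `t → 0⁺`, all unit `v`, then `ae_le_of_bumps`. -/
theorem MS.jid {U K : Set ℂ} {a b : ℝ} {u : ℂ → ℝ} (h : MS U a b K u) {x : ℂ} {ρ₀ : ℝ} {p p' : ℝ → ℂ}
    (hA : Arc1 K x ρ₀ p p') (hB : closedBall x ρ₀ ⊆ U) :
    ∃ C : ℝ, 0 ≤ C ∧ ∀ᵐ ρ : ℝ, ρ ∈ Ioo 0 (ρ₀ / 2) → ‖p' ρ / (‖p' ρ‖ : ℂ) - cJ u x ρ‖ ≤ a * C * ρ := by
  obtain ⟨C, hC0, hC⟩ := j_err h hA hB
  have hρ := hA.pos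
  refine ⟨C, hC0, ?_⟩
  have hT : ∀ s s', 0 < s → s ≤ s' → s' ≤ ρ₀ → IntervalIntegrable (fun r => p' r / (‖p' r‖ : ℂ)) volume s s' :=
    fun s s' h1 h2 h3 => ContinuousOn.intervalIntegrable ((jid_T hA).mono (by
      rw [uIcc_of_le h2]; exact fun r hr => ⟨h1.trans_le hr.1, hr.2.trans h3⟩))
  have hJ : ∀ s s', 0 < s → s ≤ s' → s' ≤ ρ₀ → IntervalIntegrable (cJ u x) volume s s' :=
    fun s s' h1 h2 h3 => (h.cJ_int hρ.le hB).mono_set (by
      rw [uIcc_of_le h2, uIcc_of_le hρ.le]; exact Icc_subset_Icc h1.le h3)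
  refine ae_le_of_bumps (f := fun r => p' r / (‖p' r‖ : ℂ) - cJ u x r) (fun s hs => ?_)
    fun s s' ζ h0 h1 h2 hsm han h3 h4 => ?_
  · exact (hT s _ hs.1 hs.2.le (by linarith)).sub (hJ s _ hs.1 hs.2.le (by linarith))
  have hζ : Bump ζ s s' := ⟨h0, h1, hsm, han, h3, h4⟩
  have hs' : s' ≤ ρ₀ := by linarith
  have hdc : Continuous (deriv ζ) := hsm.continuous_deriv (by exact_mod_cast le_top)
  have hdc' : Continuous fun r => ((deriv ζ r : ℝ) : ℂ) := Complex.continuous_ofReal.comp hdc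
  have i1 := (hT s s' h0 h1.le hs').continuousOn_mul hdc'.continuousOn
  have i2 := (hJ s s' h0 h1.le hs').continuousOn_mul hdc'.continuousOn
  set I := ∫ r in s..s', ((deriv ζ r : ℝ) : ℂ) * (p' r / (‖p' r‖ : ℂ) - cJ u x r) with hI
  have hin : ∀ {g : ℝ → ℂ} (v : ℂ), IntervalIntegrable (fun r => ((deriv ζ r : ℝ) : ℂ) * g r) volume s s' →
      inner ℝ v (∫ r in s..s', ((deriv ζ r : ℝ) : ℂ) * g r) = ∫ r in s..s', deriv ζ r * inner ℝ (g r) v := by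
    intro g v hg
    have := (innerSL ℝ v).intervalIntegral_comp_comm hg
    simp only [innerSL_apply_apply] at this
    rw [← this]
    refine intervalIntegral.integral_congr fun r _ => ?_
    rw [← Complex.real_smul, real_inner_smul_right, real_inner_comm]
  have key : ∀ v : ℂ, ‖v‖ = 1 → -inner ℝ v I ≤ a * C * s' := by
    intro v hv
    have := jid_var h hA hB hC0 hζ hs' (hC s' ⟨h0.trans h1, h2.le⟩) hv
    rw [← hin v i1, ← hin v i2] at this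
    rw [hI]
    simp only [mul_sub]
    rw [intervalIntegral.integral_sub i1 i2, inner_sub_right]
    linarith
  by_cases hI0 : I = 0
  · rw [hI0, norm_zero]
    exact mul_nonneg (mul_nonneg h.a0 hC0) (by linarith)
  have hn : 0 < ‖I‖ := norm_pos_iff.2 hI0
  have := key (-(‖I‖⁻¹ • I)) (by rw [norm_neg, norm_smul, norm_inv, norm_norm, inv_mul_cancel₀ hn.ne'])
  rw [inner_neg_left, neg_neg, real_inner_smul_left, real_inner_self_eq_norm_mul_norm, ← mul_assoc,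
    inv_mul_cancel₀ hn.ne', one_mul] at this
  exact this

end Crest.Agent.R135
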