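import Crest.Agent.R135.Defs
import Crest.Agent.R135.MJ
import Crest.Agent.R135.MCI2
import Crest.Agent.R135.TWir
set_option autoImplicit false
open MeasureTheory Metric Set Filter Topology
open scoped ENNReal NNReal Real ComplexConjugate

namespace Crest.Agent.R135

theorem tipc_1d : ∃ C : ℝ, 1 ≤ C ∧ ∀ (g P Q : ℝ → ℝ) (D ε μ : ℝ), Measurable P → Measurable Q →
    IntervalIntegrable (fun φ => P φ ^ 2) volume (-π) π → IntervalIntegrable (fun φ => Q φ ^ 2) volume (-π) π →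
    IntervalIntegrable (fun φ => g φ * Q φ) volume (-π) π →
    (∀ φ ∈ Ioo (-π) π, HasDerivAt g (P φ) φ) → (∀ φ ∈ Ioo (-π) π, ContinuousAt Q φ) →
    |∫ φ in (-π)..π, Q φ| ≤ μ → (∀ φ ∈ Ioo (-π) π, μ * |g φ| ≤ ε) → |D - ∫ φ in (-π)..π, g φ * Q φ| ≤ 2 * ε →
    (∫ φ in (-π)..π, (P φ ^ 2 + Q φ ^ 2)) - 4 * C * ((∫ φ in (-π)..π, (P φ ^ 2 + Q φ ^ 2)) - D + 3 * ε) - 2 * μ ^ 2 ≤
      ∫ φ in (-π)..π, (P φ ^ 2 + Q φ ^ 2 - 2 * (Q φ * Real.cos (φ / 2) - P φ * Real.sin (φ / 2)) ^ 2) := by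
  obtain ⟨C, hC, hW⟩ := wirtinger_stab
  refine ⟨C, hC, fun g P Q D ε μ mP mQ hP2 hQ2 hgQ hd hQc hm hg hD => ?_⟩
  have hπ := Real.pi_pos
  have hle : -π ≤ π := by linarith
  have hP1 := mgood_sq mP hP2
  have hQ1 := mgood_sq mQ hQ2
  obtain ⟨k, hk⟩ : ∃ k : ℝ, ∫ φ in (-π)..π, Q φ = 2 * π * k :=
    ⟨(∫ φ in (-π)..π, Q φ) / (2 * π), by field_simp⟩
  rw [hk, abs_mul, abs_of_pos (by positivity : 0 < 2 * π)] at hm
  have mq : Measurable fun φ => Q φ - k := mQ.sub_const k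
  have hq1 : IntervalIntegrable (fun φ => Q φ - k) volume (-π) π := hQ1.sub intervalIntegrable_const
  have eq2 : (fun φ => (Q φ - k) ^ 2) = fun φ => Q φ ^ 2 - 2 * k * Q φ + k ^ 2 := by
    funext φ; ring
  have hq2 : IntervalIntegrable (fun φ => (Q φ - k) ^ 2) volume (-π) π := by
    rw [eq2]
    exact (hQ2.sub (hQ1.const_mul _)).add intervalIntegrable_const
  have iq2 : ∫ φ in (-π)..π, (Q φ - k) ^ 2 = (∫ φ in (-π)..π, Q φ ^ 2) - 2 * π * k ^ 2 := by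
    rw [eq2, intervalIntegral.integral_add (hQ2.sub (hQ1.const_mul _)) intervalIntegrable_const,
      intervalIntegral.integral_sub hQ2 (hQ1.const_mul _), intervalIntegral.integral_const_mul, hk,
      intervalIntegral.integral_const, smul_eq_mul]
    ring
  obtain ⟨V, hVdef⟩ : ∃ V : ℝ → ℝ, V = fun φ => ∫ t in (-π)..φ, (Q t - k) := ⟨_, rfl⟩
  have hVu : ContinuousOn V (uIcc (-π) π) :=
    hVdef ▸ intervalIntegral.continuousOn_primitive_interval' hq1 left_mem_uIcc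
  have hV : ContinuousOn V (Icc (-π) π) := by rwa [uIcc_of_le hle] at hVu
  have V0 : V (-π) = 0 := by simp [hVdef]
  have V1 : V π = 0 := by
    simp only [hVdef]
    rw [intervalIntegral.integral_sub hQ1 intervalIntegrable_const, hk, intervalIntegral.integral_const,
      smul_eq_mul]
    ring
  have hVd : ∀ φ ∈ Ioo (-π) π \ ∅, HasDerivAt V (Q φ - k) φ := fun φ hφ =>
    hVdef ▸ intervalIntegral.integral_hasDerivAt_right
      (hq1.mono_set (uIcc_subset_uIcc_left (mem_uIcc_of_le hφ.1.1.le hφ.1.2.le)))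
      mq.stronglyMeasurable.stronglyMeasurableAtFilter ((hQc φ hφ.1).sub continuousAt_const)
  obtain ⟨hgq, hibp⟩ := ibp_finite hle finite_empty (fun φ hφ => hd φ hφ.1) hP1 hV (fun φ hφ => hφ.1.elim)
    V0 V1 hVd hq1
  obtain ⟨A, hA⟩ := hW V (fun φ => Q φ - k) ∅ finite_empty hV V0 V1 hVd mq hq2
  have h1 : |(∫ φ in (-π)..π, g φ * Q φ) - ∫ φ in (-π)..π, g φ * (Q φ - k)| ≤ ε := by
    rw [← intervalIntegral.integral_sub hgQ hgq]
    have h2 := intervalIntegral.norm_integral_le_of_norm_le_const_ae (a := -π) (b := π) (C := ε / (2 * π))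
      (f := fun φ => g φ * Q φ - g φ * (Q φ - k)) ?_
    · rw [abs_of_nonneg (by linarith), Real.norm_eq_abs] at h2
      refine h2.trans_eq ?_
      field_simp
      ring
    filter_upwards [compl_mem_ae_iff.2 (measure_singleton π)] with φ hne hφ
    rw [uIoc_of_le hle] at hφ
    have h3 := hg φ ⟨hφ.1, lt_of_le_of_ne hφ.2 hne⟩
    rw [show g φ * Q φ - g φ * (Q φ - k) = k * g φ by ring, Real.norm_eq_abs, abs_mul,
      le_div_iff₀ (by positivity)]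
    nlinarith [mul_le_mul_of_nonneg_right hm (abs_nonneg (g φ))]
  have hPV : IntervalIntegrable (fun φ => P φ * V φ) volume (-π) π := hP1.mul_continuousOn hVu
  have hV2 : IntervalIntegrable (fun φ => V φ ^ 2) volume (-π) π := (hVu.pow 2).intervalIntegrable
  have hp2 : IntervalIntegrable (fun φ => (Q φ - k + A / 2 * Real.sin (φ / 2)) ^ 2) volume (-π) π := by
    simp only [add_sq]
    exact (hq2.add ((hq1.const_mul 2).mul_continuousOn (by fun_prop))).add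
      (Continuous.intervalIntegrable (by fun_prop) _ _)
  have hW2 : IntervalIntegrable (fun φ => (V φ - A * Real.cos (φ / 2)) ^ 2) volume (-π) π :=
    ((hVu.sub (by fun_prop)).pow 2).intervalIntegrable
  have eS : (fun φ => (P φ + V φ / 2) ^ 2) = fun φ => P φ ^ 2 + P φ * V φ + 1 / 4 * V φ ^ 2 := by
    funext φ; ring
  have hS : IntervalIntegrable (fun φ => (P φ + V φ / 2) ^ 2) volume (-π) π := by
    rw [eS]
    exact (hP2.add hPV).add (hV2.const_mul _)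
  have iS : ∫ φ in (-π)..π, (P φ + V φ / 2) ^ 2 = (∫ φ in (-π)..π, P φ ^ 2) + (∫ φ in (-π)..π, P φ * V φ) +
      1 / 4 * ∫ φ in (-π)..π, V φ ^ 2 := by
    rw [eS, intervalIntegral.integral_add (hP2.add hPV) (hV2.const_mul _), intervalIntegral.integral_add hP2 hPV,
      intervalIntegral.integral_const_mul]
  have cs : ∀ (y z φ : ℝ), (y * Real.cos (φ / 2) - z * Real.sin (φ / 2)) ^ 2 ≤ y ^ 2 + z ^ 2 := by
    intro y z φ
    have := Real.cos_sq_add_sin_sq (φ / 2)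
    calc _ = (y ^ 2 + z ^ 2) * (Real.cos (φ / 2) ^ 2 + Real.sin (φ / 2) ^ 2) -
          (y * Real.sin (φ / 2) + z * Real.cos (φ / 2)) ^ 2 := by ring
      _ ≤ _ := by rw [this, mul_one]; exact sub_le_self _ (sq_nonneg _)
  have hH : IntervalIntegrable (fun φ => (Q φ * Real.cos (φ / 2) - P φ * Real.sin (φ / 2)) ^ 2) volume (-π) π :=
    (hQ2.add hP2).mono_fun' (Measurable.aestronglyMeasurable (by fun_prop))
      (Eventually.of_forall fun φ => by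
        simp only [Real.norm_eq_abs, abs_sq]
        exact cs _ _ _)
  have h4 := intervalIntegral.integral_mono_on hle hH
    ((((hp2.add hW2).add hS).add (intervalIntegrable_const (c := k ^ 2))).const_mul 2) fun φ _ => by
      have h5 := cs (Q φ + A / 2 * Real.sin (φ / 2)) (P φ + A / 2 * Real.cos (φ / 2)) φ
      rw [show (Q φ + A / 2 * Real.sin (φ / 2)) * Real.cos (φ / 2) -
        (P φ + A / 2 * Real.cos (φ / 2)) * Real.sin (φ / 2) =
          Q φ * Real.cos (φ / 2) - P φ * Real.sin (φ / 2) by ring] at h5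
      nlinarith [sq_nonneg (Q φ - k + A / 2 * Real.sin (φ / 2) - k),
        sq_nonneg (P φ + V φ / 2 + (V φ - A * Real.cos (φ / 2)) / 2), sq_nonneg (V φ - A * Real.cos (φ / 2))]
  rw [intervalIntegral.integral_const_mul,
    intervalIntegral.integral_add ((hp2.add hW2).add hS) intervalIntegrable_const,
    intervalIntegral.integral_add (hp2.add hW2) hS, intervalIntegral.integral_add hp2 hW2,
    intervalIntegral.integral_const, smul_eq_mul] at h4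
  rw [intervalIntegral.integral_sub (hP2.add hQ2) (hH.const_mul 2), intervalIntegral.integral_const_mul,
    intervalIntegral.integral_add hP2 hQ2]
  have hS0 : 0 ≤ ∫ φ in (-π)..π, (P φ + V φ / 2) ^ 2 :=
    intervalIntegral.integral_nonneg hle fun _ _ => sq_nonneg _
  have hk2 : 4 * π * k ^ 2 ≤ μ ^ 2 := by
    have h5 : (2 * π * |k|) ^ 2 ≤ μ ^ 2 := pow_le_pow_left₀ (by positivity) hm 2
    rw [mul_pow, sq_abs] at h5
    nlinarith [mul_nonneg (mul_nonneg hπ.le (sq_nonneg k)) (by linarith [Real.pi_gt_three] : 0 ≤ π - 1)]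
  have hk0 : 0 ≤ π * k ^ 2 := by positivity
  rw [hibp] at h1
  obtain ⟨h6, h7⟩ := abs_le.1 h1
  obtain ⟨h8, h9⟩ := abs_le.1 hD
  have h10 : (∫ φ in (-π)..π, (P φ + V φ / 2) ^ 2) +
      ((∫ φ in (-π)..π, (Q φ - k) ^ 2) - 1 / 4 * ∫ φ in (-π)..π, V φ ^ 2) ≤
      (∫ φ in (-π)..π, P φ ^ 2) + (∫ φ in (-π)..π, Q φ ^ 2) - D + 3 * ε := by
    rw [iS, iq2]
    linarith
  nlinarith [mul_le_mul_of_nonneg_left h10 (by linarith : 0 ≤ C), mul_le_mul_of_nonneg_right hC hS0]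

theorem tipc_pt (u : ℂ → ℝ) (x : ℂ) {ρ : ℝ} (hρ : ρ ≠ 0) (φ₀ φ : ℝ) :
    (gradient u (circleMap x ρ (φ₀ + φ)) ^ 2 * conj (circleMap x ρ (φ₀ + φ) - x) *
        conj (circleMap x ρ (φ₀ + π) - x)).re =
      cp u x ρ (φ₀ + φ) ^ 2 + cq u x ρ (φ₀ + φ) ^ 2 -
        2 * (cq u x ρ (φ₀ + φ) * Real.cos (φ / 2) - cp u x ρ (φ₀ + φ) * Real.sin (φ / 2)) ^ 2 := by
  have h := grad_eq_cq_cp u x hρ (φ₀ + φ)
  generalize gradient u (circleMap x ρ (φ₀ + φ)) = G at h ⊢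
  generalize cp u x ρ (φ₀ + φ) = p at h ⊢
  generalize cq u x ρ (φ₀ + φ) = q at h ⊢
  have e1 : ∀ θ : ℝ, conj (circleMap x ρ θ - x) = ρ * Complex.exp (-(θ * Complex.I)) := fun θ => by
    rw [circleMap_sub_center, circleMap_zero, map_mul, Complex.conj_ofReal, ← Complex.exp_conj, map_mul,
      Complex.conj_ofReal, Complex.conj_I, mul_neg]
  have e2 : Complex.exp (((φ₀ + φ : ℝ) : ℂ) * Complex.I) ^ 2 * Complex.exp (-(((φ₀ + φ : ℝ) : ℂ) * Complex.I)) *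
      Complex.exp (-(((φ₀ + π : ℝ) : ℂ) * Complex.I)) = -Complex.exp (((φ / 2 : ℝ) : ℂ) * Complex.I) ^ 2 := by
    rw [← Complex.exp_nat_mul, ← Complex.exp_nat_mul, ← Complex.exp_add, ← Complex.exp_add,
      ← Complex.exp_sub_pi_mul_I]
    congr 1
    push_cast
    ring
  have e3 : G ^ 2 * conj (circleMap x ρ (φ₀ + φ) - x) * conj (circleMap x ρ (φ₀ + π) - x) =
      -(((q : ℂ) + Complex.I * p) * (Real.cos (φ / 2) + Real.sin (φ / 2) * Complex.I)) ^ 2 := by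
    rw [e1, e1, Complex.ofReal_cos, Complex.ofReal_sin, ← Complex.exp_mul_I]
    linear_combination (Complex.exp (-(((φ₀ + φ : ℝ) : ℂ) * Complex.I)) *
      Complex.exp (-(((φ₀ + π : ℝ) : ℂ) * Complex.I)) * ((ρ : ℂ) * G + ((q : ℂ) + Complex.I * p) *
        Complex.exp (((φ₀ + φ : ℝ) : ℂ) * Complex.I))) * h + ((q : ℂ) + Complex.I * p) ^ 2 * e2
  have e4 := Real.cos_sq_add_sin_sq (φ / 2)
  rw [e3]
  generalize Real.cos (φ / 2) = c at e4 ⊢
  generalize Real.sin (φ / 2) = s at e4 ⊢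
  simp only [sq, Complex.neg_re, Complex.mul_re, Complex.mul_im, Complex.add_re, Complex.add_im,
    Complex.ofReal_re, Complex.ofReal_im, Complex.I_re, Complex.I_im]
  linear_combination (p ^ 2 + q ^ 2) * e4

/-- One-circle computation. Let `p₀ = circleMap x ρ (φ₀ + π)` be the only point of `K` on the good circle, `x̂ = (p₀ - x)/ρ = -e^{iφ₀}`,
`g, P, Q` the functions `u∘circleMap, cp, cq` at `φ₀ + φ`, `m = ∫ Q` (`MS.flux`), `Q̃ = Q - m/2π`, `V φ = ∫_{-π}^φ Q̃`. `ci2` with `Λ = 0` and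
`ibp_finite` give `Dr = -∫ P V + O(abρ²)` (`|m| |g| ≤ (π/4) a b ρ²` by `osc`), so
`ρ ce - Dr ≥ ∫(P + V/2)² + (∫Q̃² - ¼∫V²) - O(abρ²)`. With `A` from `wirtinger_stab`, `F = Q + iP` is `L²`-close to
`-(A/2) i e^{-iφ/2}`; `H = i F e^{iφ/2}` has `∫ (im H)² ≤ C (ρ ce - Dr) + O(abρ² + a²ρ⁴)`, and
`re (cJ conj x̂) = ρ⁻¹ ∫ re H² = ce - 2ρ⁻¹∫ (im H)²` (`grad_eq_cq_cp`), `‖cJ‖ ≤ ce`. (The `C ^ 2` absorbs the fact that `ce - Dr/ρ` is only `≥ -3abρ`.) -/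
theorem MS.tip_circle : ∃ C : ℝ, 2 ≤ C ∧ ∀ (U K : Set ℂ) (a b : ℝ) (u : ℂ → ℝ), MS U a b K u →
    ∀ (x p₀ : ℂ) (ρ R : ℝ), Good K u x ρ → ρ < R → ball x R ⊆ U → K ∩ sphere x ρ = {p₀} →
    ‖cJ u x ρ‖ ≤ ce u x ρ ∧
      ce u x ρ - C * (ce u x ρ - Dr u x ρ / ρ) - C ^ 2 * (a * b * ρ + a ^ 2 * ρ ^ 3) ≤ (cJ u x ρ * conj (p₀ - x)).re / ρ := by
  obtain ⟨C, hC, H⟩ := tipc_1d
  refine ⟨4 * C, by linarith, fun U K a b u h x p₀ ρ R hg hR hB hK => ?_⟩
  have hρ := hg.pos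
  have hπ := Real.pi_pos
  have hle : -π ≤ π := by linarith
  have ha := h.a0
  have hb := h.b0
  have hn : ∀ φ : ℝ, ‖gradient u (circleMap x ρ φ) ^ 2 * Complex.exp (-(φ * Complex.I))‖ =
      ‖gradient u (circleMap x ρ φ)‖ ^ 2 := fun φ => by
    rw [norm_mul, norm_pow, Complex.exp_neg, norm_inv, Complex.norm_exp_ofReal_mul_I, inv_one, mul_one]
  constructor
  · rw [cJ, ce, norm_mul, Complex.norm_real, Real.norm_of_nonneg hρ.le]
    refine mul_le_mul_of_nonneg_left ((intervalIntegral.norm_integral_le_integral_norm hle).trans_eq ?_) hρ.le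
    simp only [hn]
  have hp₀ : p₀ ∈ K ∩ sphere x ρ := hK ▸ mem_singleton p₀
  obtain ⟨φ₀, rfl⟩ : ∃ φ₀ : ℝ, circleMap x ρ (φ₀ + π) = p₀ := by
    have h1 : p₀ ∈ range (circleMap x ρ) := by
      rw [range_circleMap, abs_of_pos hρ]
      exact hp₀.2
    obtain ⟨θ, hθ⟩ := h1
    exact ⟨θ - π, by rwa [sub_add_cancel]⟩
  have hmem : ∀ φ ∈ Ioo (-π) π, circleMap x ρ (φ₀ + φ) ∈ U \ K := fun φ hφ => by
    refine ⟨hB (sphere_subset_ball hR (circleMap_mem_sphere x hρ.le _)), fun hz => ?_⟩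
    have h1 : circleMap x ρ (φ₀ + φ) ∈ K ∩ sphere x ρ := ⟨hz, circleMap_mem_sphere x hρ.le _⟩
    rw [hK] at h1
    have h2 := eq_of_circleMap_eq hρ.ne' (by rw [abs_lt]; constructor <;> linarith [hφ.1, hφ.2]) h1
    linarith [hφ.2]
  have hO : IsOpen (U \ K) := h.isOpen.sdiff h.closed
  have sh : ∀ {f : ℝ → ℝ}, (∀ s t, IntervalIntegrable f volume s t) →
      IntervalIntegrable (fun φ => f (φ₀ + φ)) volume (-π) π := fun hf => by
    simpa using (hf (φ₀ + -π) (φ₀ + π)).comp_add_left φ₀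
  obtain ⟨c1, c2⟩ := h.ci2 hg hR hB (Λ := fun _ => 0) (fun z _ => Eventually.of_forall fun _ => rfl)
    (fun z _ => by rw [abs_zero, mul_zero]; positivity)
  simp only [sub_zero] at c1 c2
  have hm := h.flux hg hR hB
  have key := H (fun φ => u (circleMap x ρ (φ₀ + φ))) (fun φ => cp u x ρ (φ₀ + φ)) (fun φ => cq u x ρ (φ₀ + φ))
    (Dr u x ρ) (π / 4 * (a * b) * ρ ^ 2) (π / 2 * a * ρ ^ 2)
    ((measurable_cp u x ρ).comp (measurable_const_add φ₀)) ((measurable_cq u x ρ).comp (measurable_const_add φ₀))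
    (sh fun s t => (hg.int_pq s t).1) (sh fun s t => (hg.int_pq s t).2.1)
    (sh (circle_integrable x ρ (fun z => u z * inner ℝ (gradient u z) (z - x)) c1))
    (fun φ hφ => (hasDerivAt_circle ((h.c1.contDiffAt (hO.mem_nhds (hmem φ hφ))).differentiableAt
      one_ne_zero)).comp_const_add φ₀ φ)
    (fun φ hφ => by
      have h1 : ContinuousAt (fun θ => gradient u (circleMap x ρ (φ₀ + θ))) φ :=
        ContinuousAt.comp (f := fun θ => circleMap x ρ (φ₀ + θ))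
          ((continuousOn_gradient hO h.c1).continuousAt (hO.mem_nhds (hmem φ hφ)))
          (Continuous.continuousAt (by fun_prop))
      exact h1.inner (𝕜 := ℝ) (g := fun θ => circleMap x ρ (φ₀ + θ) - x)
        (Continuous.continuousAt (by fun_prop)))
    ((congrArg abs (circle_shift x ρ φ₀ fun z => inner ℝ (gradient u z) (z - x))).trans_le hm)
    (fun φ hφ => by
      have h1 := h.osc _ (hmem φ hφ)
      nlinarith [mul_le_mul_of_nonneg_left h1 (by positivity : 0 ≤ π / 2 * ρ ^ 2)])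
    (by
      rw [show ∫ φ in (-π)..π, u (circleMap x ρ (φ₀ + φ)) * cq u x ρ (φ₀ + φ) = _ from
        circle_shift x ρ φ₀ fun z => u z * inner ℝ (gradient u z) (z - x)]
      exact c2.trans_eq (by ring))
  have eE : ∫ φ in (-π)..π, (cp u x ρ (φ₀ + φ) ^ 2 + cq u x ρ (φ₀ + φ) ^ 2) = ρ * ce u x ρ := by
    rw [intervalIntegral.integral_comp_add_left (fun φ => cp u x ρ φ ^ 2 + cq u x ρ φ ^ 2) φ₀,
      ← hg.integral_pq (φ₀ + -π)]
    congr 1
    ring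
  have hf : IntervalIntegrable (fun φ : ℝ => gradient u (circleMap x ρ φ) ^ 2 * Complex.exp (-(φ * Complex.I)))
      volume (-π) π :=
    hg.int.mono_fun' (Measurable.aestronglyMeasurable (((mgood_mc u x ρ).pow_const 2).mul (by fun_prop)))
      (Eventually.of_forall fun φ => (hn φ).le)
  have eJ : (cJ u x ρ * conj (circleMap x ρ (φ₀ + π) - x)).re =
      ∫ φ in (-π)..π, (cp u x ρ (φ₀ + φ) ^ 2 + cq u x ρ (φ₀ + φ) ^ 2 -
        2 * (cq u x ρ (φ₀ + φ) * Real.cos (φ / 2) - cp u x ρ (φ₀ + φ) * Real.sin (φ / 2)) ^ 2) := by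
    simp only [← tipc_pt u x hρ.ne' φ₀]
    rw [circle_shift x ρ φ₀ fun z => (gradient u z ^ 2 * conj (z - x) * conj (circleMap x ρ (φ₀ + π) - x)).re,
      cJ, ← intervalIntegral.integral_const_mul, ← intervalIntegral.integral_mul_const]
    refine (intervalIntegral.intervalIntegral_re ((hf.const_mul _).mul_const _)).symm.trans ?_
    refine intervalIntegral.integral_congr fun φ _ => ?_
    simp only [RCLike.re_to_complex]
    congr 2
    rw [circleMap_sub_center, circleMap_zero, map_mul, Complex.conj_ofReal, ← Complex.exp_conj, map_mul,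
      Complex.conj_ofReal, Complex.conj_I, mul_neg]
    ring
  rw [eE, ← eJ] at key
  rw [le_div_iff₀ hρ]
  refine le_trans ?_ key
  have e : (ce u x ρ - 4 * C * (ce u x ρ - Dr u x ρ / ρ) - (4 * C) ^ 2 * (a * b * ρ + a ^ 2 * ρ ^ 3)) * ρ =
      ρ * ce u x ρ - 4 * C * (ρ * ce u x ρ - Dr u x ρ) - 16 * C ^ 2 * (a * b * ρ ^ 2) -
        16 * C ^ 2 * (a ^ 2 * ρ ^ 4) := by
    field_simp
    ring
  have h4 := Real.pi_le_four
  have t1 : 3 * π * C ≤ 16 * C ^ 2 := by nlinarith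
  have t2 : π ^ 2 / 2 ≤ 16 * C ^ 2 := by nlinarith
  rw [e]
  nlinarith [mul_le_mul_of_nonneg_right t1 (by positivity : 0 ≤ a * b * ρ ^ 2),
    mul_le_mul_of_nonneg_right t2 (by positivity : 0 ≤ a ^ 2 * ρ ^ 4)]

theorem mtipi_alg {T X J : ℂ} {δ : ℝ} (hT : ‖T‖ = 1) (hX : ‖X‖ = 1) (h : ‖T - J‖ ≤ δ) :
    1 - δ ≤ ‖J‖ ∧ (J * conj X).re ≤ ‖J‖ ∧ (J * conj X).re ≤ 1 + δ ∧
      ‖T - X‖ ^ 2 ≤ 2 - 2 * (J * conj X).re + 2 * δ := by
  have h1 : ∀ z : ℂ, (z * conj X).re ≤ ‖z‖ := fun z =>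
    (Complex.re_le_norm _).trans_eq (by rw [norm_mul, Complex.norm_conj, hX, mul_one])
  have h2 := h1 (J - T)
  rw [sub_mul, Complex.sub_re, norm_sub_rev] at h2
  have h3 : ‖T - X‖ ^ 2 = 2 - 2 * (T * conj X).re := by
    rw [← Complex.normSq_eq_norm_sq, Complex.normSq_sub, Complex.normSq_eq_norm_sq,
      Complex.normSq_eq_norm_sq, hT, hX]
    norm_num
  exact ⟨by linarith [norm_sub_norm_le T J], h1 J, by linarith [h1 T], by linarith⟩

/-- combine with `MS.jid` (`‖T‖ = 1`, `‖T - x̂‖² = 2 - 2 re (T conj x̂)`) -/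
theorem MS.tip_ineq {U K : Set ℂ} {a b : ℝ} {u : ℂ → ℝ} (h : MS U a b K u) {x : ℂ} {ρ₀ : ℝ} {p p' : ℝ → ℂ}
    (hA : Arc1 K x ρ₀ p p') (hB : closedBall x ρ₀ ⊆ U) :
    ∃ C₀ C : ℝ, 2 ≤ C₀ ∧ 0 ≤ C ∧ ∀ᵐ ρ : ℝ, ρ ∈ Ioo 0 (ρ₀ / 2) →
      1 - a * C * ρ ≤ ce u x ρ ∧ ce u x ρ - 1 ≤ C₀ * (ce u x ρ - Dr u x ρ / ρ) + a * C * ρ ∧
      ‖p' ρ / (‖p' ρ‖ : ℂ) - (p ρ - x) / ρ‖ ^ 2 ≤ C₀ * (ce u x ρ - Dr u x ρ / ρ) + a * C * ρ := by
  obtain ⟨C₁, hC₁, hc⟩ := MS.tip_circle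
  obtain ⟨C₂, hC₂, hj⟩ := h.jid hA hB
  have ha := h.a0
  have hb := h.b0
  refine ⟨2 * C₁, 4 * C₂ + 2 * C₁ ^ 2 * (b + a * ρ₀ ^ 2), by linarith, by positivity, ?_⟩
  filter_upwards [hj, h.ae_good hB] with ρ hj hg hρ
  have h0 : 0 < ρ := hρ.1
  have hρ' : ρ < ρ₀ := by linarith [hρ.2]
  have hI : ρ ∈ Ioc 0 ρ₀ := ⟨h0, hρ'.le⟩
  have hK : K ∩ sphere x ρ = {p ρ} := by
    refine eq_singleton_iff_unique_mem.2 ⟨⟨hA.mem ρ hI, mem_sphere_iff_norm.2 (hA.nrm ρ hI)⟩, fun z hz => ?_⟩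
    have hz' := mem_sphere_iff_norm.1 hz.2
    rcases hA.all z ⟨hz.1, mem_closedBall_iff_norm.2 (hz'.trans_le hρ'.le)⟩ with e | e
    · simp [e, h0.ne] at hz'
    · rwa [hz'] at e
  obtain ⟨h1, h2⟩ := hc U K a b u h x (p ρ) ρ ρ₀ (hg ⟨h0, hρ'⟩) hρ' (ball_subset_closedBall.trans hB) hK
  have hne : p' ρ ≠ 0 := fun e => by simpa [e, h0.ne] using hA.re_eq hI
  have hT : ‖p' ρ / (‖p' ρ‖ : ℂ)‖ = 1 := by simp [hne]
  have hX : ‖(p ρ - x) / ρ‖ = 1 := by simp [hA.nrm ρ hI, abs_of_pos h0, h0.ne']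
  have e : (cJ u x ρ * conj (p ρ - x)).re / ρ = (cJ u x ρ * conj ((p ρ - x) / ρ)).re := by
    rw [map_div₀, Complex.conj_ofReal, ← mul_div_assoc, Complex.div_ofReal_re]
  rw [e] at h2
  obtain ⟨h3, h4, h5, h6⟩ := mtipi_alg hT hX (hj hρ)
  have h7 : C₁ ^ 2 * (a ^ 2 * ρ ^ 3) ≤ C₁ ^ 2 * (a ^ 2 * (ρ₀ ^ 2 * ρ)) := by
    rw [pow_succ ρ 2]; gcongr
  have h8 : 0 ≤ a * C₂ * ρ := by positivity
  have h9 : 0 ≤ C₁ ^ 2 * (a * b * ρ + a ^ 2 * (ρ₀ ^ 2 * ρ)) := by positivity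
  exact ⟨by linarith, by linarith, by linarith⟩

end Crest.Agent.R135
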