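import Crest.Agent.R135.Defs
import Crest.Agent.R135.GBon
import Crest.Agent.R135.MTip
import Crest.Agent.R135.TCone
set_option autoImplicit false
open MeasureTheory Metric Set Filter Topology
open scoped ENNReal NNReal Real ComplexConjugate

namespace Crest.Agent.R135

theorem gray_zero {f : ℝ → ℝ} (hf : IntervalIntegrable (fun φ => f φ ^ 2) volume (-π) π)
    (h : ∫ φ in (-π)..π, f φ ^ 2 ≤ 0) : ∀ᵐ φ ∂(volume.restrict (Ioo (-π) π)), f φ = 0 := by
  have hπ : -π ≤ π := by linarith [Real.pi_pos]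
  have h1 : ∫ φ in (-π)..π, f φ ^ 2 = 0 :=
    le_antisymm h (intervalIntegral.integral_nonneg hπ fun _ _ => sq_nonneg _)
  rw [intervalIntegral.integral_eq_zero_iff_of_le_of_nonneg_ae hπ
    (Eventually.of_forall fun _ => sq_nonneg _) hf] at h1
  have h2 := ae_restrict_of_ae_restrict_of_subset (Ioo_subset_Ioc_self : Ioo (-π) π ⊆ Ioc (-π) π) h1
  filter_upwards [h2] with φ hφ
  exact pow_eq_zero_iff two_ne_zero |>.1 hφ

theorem gray_gradc {K : Set ℂ} {u : ℂ → ℝ} (h : Glob K u) {z : ℂ} (hz : z ∉ K) : ContinuousAt (gradient u) z := by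
  have h1 : ContDiffAt ℝ 1 u z :=
    h.ms.c1.contDiffAt ((isOpen_univ.sdiff h.ms.closed).mem_nhds ⟨mem_univ _, hz⟩)
  have h2 : ContinuousAt (fderiv ℝ u) z := h1.continuousAt_fderiv one_ne_zero
  exact ((InnerProductSpace.toDual ℝ ℂ).symm.continuous.continuousAt).comp h2

/-- the one-dimensional equality case -/
theorem gray_one {P Q V : ℝ → ℝ} {A C D : ℝ} (hC : 1 ≤ C) (hV : Continuous V)
    (hP : IntervalIntegrable (fun φ => P φ ^ 2) volume (-π) π) (hQ : IntervalIntegrable (fun φ => Q φ ^ 2) volume (-π) π)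
    (hP1 : IntervalIntegrable P volume (-π) π) (hQ1 : IntervalIntegrable Q volume (-π) π)
    (hA : (∫ φ in (-π)..π, (Q φ + A / 2 * Real.sin (φ / 2)) ^ 2) + (∫ φ in (-π)..π, (V φ - A * Real.cos (φ / 2)) ^ 2) ≤
      C * ((∫ φ in (-π)..π, Q φ ^ 2) - 1 / 4 * ∫ φ in (-π)..π, V φ ^ 2))
    (h1 : D = - ∫ φ in (-π)..π, P φ * V φ) (h2 : ∫ φ in (-π)..π, (P φ ^ 2 + Q φ ^ 2) = D) :
    (∀ φ ∈ Ioo (-π) π, V φ = A * Real.cos (φ / 2)) ∧ (∀ᵐ φ ∂(volume.restrict (Ioo (-π) π)), P φ = - V φ / 2) ∧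
      D = π * A ^ 2 / 2 := by
  have hπ : -π ≤ π := by linarith [Real.pi_pos]
  have hV2 := ((hV.fun_pow 2).intervalIntegrable (μ := volume) (-π) π).const_mul (1 / 4)
  have hPV := hP1.mul_continuousOn hV.continuousOn
  have e1 : (fun φ => (P φ + V φ / 2) ^ 2) = fun φ => P φ ^ 2 + 1 / 4 * V φ ^ 2 + P φ * V φ := by
    funext φ; ring
  have i1 : IntervalIntegrable (fun φ => (P φ + V φ / 2) ^ 2) volume (-π) π := by
    rw [e1]; exact (hP.add hV2).add hPV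
  have hs : Continuous fun φ : ℝ => A / 2 * Real.sin (φ / 2) := by fun_prop
  have e2 : (fun φ => (Q φ + A / 2 * Real.sin (φ / 2)) ^ 2) =
      fun φ => Q φ ^ 2 + (A / 2 * Real.sin (φ / 2)) ^ 2 + 2 * (Q φ * (A / 2 * Real.sin (φ / 2))) := by
    funext φ; ring
  have i2 : IntervalIntegrable (fun φ => (Q φ + A / 2 * Real.sin (φ / 2)) ^ 2) volume (-π) π := by
    rw [e2]
    exact (hQ.add ((hs.fun_pow 2).intervalIntegrable _ _)).add ((hQ1.mul_continuousOn hs.continuousOn).const_mul 2)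
  have hc3 : Continuous fun φ => V φ - A * Real.cos (φ / 2) := by fun_prop
  have i3 : IntervalIntegrable (fun φ => (V φ - A * Real.cos (φ / 2)) ^ 2) volume (-π) π :=
    (hc3.fun_pow 2).intervalIntegrable _ _
  have n1 : 0 ≤ ∫ φ in (-π)..π, (P φ + V φ / 2) ^ 2 := intervalIntegral.integral_nonneg hπ fun _ _ => sq_nonneg _
  have n2 : 0 ≤ ∫ φ in (-π)..π, (Q φ + A / 2 * Real.sin (φ / 2)) ^ 2 :=
    intervalIntegral.integral_nonneg hπ fun _ _ => sq_nonneg _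
  have n3 : 0 ≤ ∫ φ in (-π)..π, (V φ - A * Real.cos (φ / 2)) ^ 2 :=
    intervalIntegral.integral_nonneg hπ fun _ _ => sq_nonneg _
  have h3 := nonneg_of_mul_nonneg_right ((add_nonneg n2 n3).trans hA) (one_pos.trans_le hC)
  have h4 : ∫ φ in (-π)..π, (P φ + V φ / 2) ^ 2 =
      (∫ φ in (-π)..π, P φ ^ 2) + 1 / 4 * (∫ φ in (-π)..π, V φ ^ 2) + ∫ φ in (-π)..π, P φ * V φ := by
    rw [e1, intervalIntegral.integral_add (hP.add hV2) hPV, intervalIntegral.integral_add hP hV2,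
      intervalIntegral.integral_const_mul]
  have h2' := h2
  rw [intervalIntegral.integral_add hP hQ] at h2'
  have h5 : (∫ φ in (-π)..π, Q φ ^ 2) - 1 / 4 * ∫ φ in (-π)..π, V φ ^ 2 = 0 := by linarith
  rw [h5, mul_zero] at hA
  have z1 := gray_zero i1 (by linarith)
  have z2 := gray_zero i2 (by linarith)
  have z3 := gray_zero i3 (by linarith)
  have z4 : EqOn (fun φ => V φ - A * Real.cos (φ / 2)) 0 (Ioo (-π) π) :=
    Measure.eqOn_open_of_ae_eq (μ := volume) z3 isOpen_Ioo hc3.continuousOn continuousOn_const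
  refine ⟨fun φ hφ => sub_eq_zero.1 (z4 hφ), z1.mono fun φ hφ => by linarith, ?_⟩
  have h6 : ∫ φ in (-π)..π, (P φ ^ 2 + Q φ ^ 2) = ∫ φ in (-π)..π, A ^ 2 / 4 := by
    rw [intervalIntegral.integral_of_le hπ, intervalIntegral.integral_of_le hπ, integral_Ioc_eq_integral_Ioo,
      integral_Ioc_eq_integral_Ioo]
    refine integral_congr_ae ?_
    filter_upwards [z1, z2, z3] with φ a1 a2 a3
    have b1 : P φ = -(A * Real.cos (φ / 2)) / 2 := by linarith
    have b2 : Q φ = -(A / 2 * Real.sin (φ / 2)) := by linarith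
    rw [b1, b2]
    linear_combination A ^ 2 / 4 * Real.sin_sq_add_cos_sq (φ / 2)
  rw [← h2, h6, intervalIntegral.integral_const, smul_eq_mul]
  ring

theorem gray_circle {K : Set ℂ} {u v : ℂ → ℝ} (h : Glob K u) (hv : Continuous v) (h0 : ∀ z ∈ K, v z = 0)
    (hg : ∀ z ∉ K, HasGradientAt v (Complex.I * gradient u z) z) {x : ℂ} {ρ φ₀ θ : ℝ} (hG : Good K u x ρ)
    (hθ : 0 < θ) (hD : Dr u x ρ = θ * ρ) (hc : ce u x ρ = θ) (hp : circleMap x ρ (φ₀ + π) ∈ K) :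
    ∀ φ ∈ Ioo (-π) π, v (circleMap x ρ (φ₀ + φ)) ≠ 0 ∧
      cp u x ρ (φ₀ + φ) = - v (circleMap x ρ (φ₀ + φ)) / 2 ∧
      ‖gradient u (circleMap x ρ (φ₀ + φ))‖ ^ 2 = θ / (2 * π * ρ) := by
  obtain ⟨C, hC, hw⟩ := wirtinger_stab
  have hρ := hG.pos
  obtain ⟨h1, h2⟩ := h.bon_circle hv h0 hg hG hp
  have hP := gbon_int (fun s t => (hG.int_pq s t).1) φ₀
  have hQ := gbon_int (fun s t => (hG.int_pq s t).2.1) φ₀
  have hP1 := gbon_int (fun s t => (hG.int_pq s t).2.2.1) φ₀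
  have hQ1 := gbon_int (fun s t => (hG.int_pq s t).2.2.2) φ₀
  have hV : Continuous fun φ => v (circleMap x ρ (φ₀ + φ)) := by fun_prop
  obtain ⟨A, hA⟩ := hw (fun φ => v (circleMap x ρ (φ₀ + φ))) (fun φ => cq u x ρ (φ₀ + φ)) _
    (gbon_fin hG φ₀) hV.continuousOn (h0 _ (gbon_neg hp)) (h0 _ hp)
    (fun φ hφ => h1 φ fun hK => hφ.2 ⟨Ioo_subset_Icc_self hφ.1, hK⟩)
    ((measurable_cq u x ρ).comp (measurable_const_add _)) hQ
  have h5 := intervalIntegral.integral_comp_add_left (a := -π) (b := π)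
    (fun φ => cp u x ρ φ ^ 2 + cq u x ρ φ ^ 2) φ₀
  rw [show φ₀ + π = φ₀ + -π + 2 * π by ring, hG.integral_pq, hc, mul_comm ρ θ, ← hD] at h5
  obtain ⟨a1, a2, a3⟩ := gray_one hC hV hP hQ hP1 hQ1 hA h2 h5
  have hA0 : A ≠ 0 := by
    rintro rfl
    rw [hD] at a3
    have := mul_pos hθ hρ
    simp only [ne_eq, OfNat.ofNat_ne_zero, not_false_eq_true, zero_pow, mul_zero, zero_div] at a3
    linarith
  have hne : ∀ φ ∈ Ioo (-π) π, v (circleMap x ρ (φ₀ + φ)) ≠ 0 := fun φ hφ => by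
    rw [a1 φ hφ]
    exact mul_ne_zero hA0 (Real.cos_pos_of_mem_Ioo ⟨by linarith [hφ.1], by linarith [hφ.2]⟩).ne'
  have hK : ∀ φ ∈ Ioo (-π) π, circleMap x ρ (φ₀ + φ) ∉ K := fun φ hφ hK => hne φ hφ (h0 _ hK)
  have hcp : ContinuousOn (fun φ => cp u x ρ (φ₀ + φ)) (Ioo (-π) π) := fun φ hφ => by
    have h3 : ContinuousAt (fun φ => gradient u (circleMap x ρ (φ₀ + φ))) φ :=
      ContinuousAt.comp (f := fun φ => circleMap x ρ (φ₀ + φ)) (gray_gradc h (hK φ hφ)) (by fun_prop)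
    refine ContinuousAt.continuousWithinAt ?_
    unfold cp
    exact h3.inner (by fun_prop)
  have a4 : EqOn (fun φ => cp u x ρ (φ₀ + φ)) (fun φ => - v (circleMap x ρ (φ₀ + φ)) / 2) (Ioo (-π) π) :=
    Measure.eqOn_open_of_ae_eq (μ := volume) a2 isOpen_Ioo hcp (by fun_prop)
  intro φ hφ
  refine ⟨hne φ hφ, a4 hφ, ?_⟩
  have b1 : cp u x ρ (φ₀ + φ) = - (A * Real.cos (φ / 2)) / 2 := by rw [← a1 φ hφ]; exact a4 hφ
  have b2 : cq u x ρ (φ₀ + φ) = A * (-Real.sin (φ / 2) * (1 / 2)) := by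
    refine (h1 φ (hK φ hφ)).unique ?_
    have h6 : HasDerivAt (fun φ : ℝ => A * Real.cos (φ / 2)) (A * (-Real.sin (φ / 2) * (1 / 2))) φ :=
      (((hasDerivAt_id φ).div_const 2).cos).const_mul A
    refine h6.congr_of_eventuallyEq ?_
    filter_upwards [isOpen_Ioo.mem_nhds hφ] with ψ hψ
    exact a1 ψ hψ
  have b3 := cp_sq_add_cq_sq u x ρ (φ₀ + φ)
  rw [b1, b2] at b3
  have b4 : ρ ^ 2 * ‖gradient u (circleMap x ρ (φ₀ + φ))‖ ^ 2 = A ^ 2 / 4 := by
    rw [← b3]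
    linear_combination A ^ 2 / 4 * Real.sin_sq_add_cos_sq (φ / 2)
  rw [hD] at a3
  have hπ := Real.pi_pos
  rw [eq_div_iff (by positivity)]
  refine mul_left_cancel₀ hρ.ne' ?_
  linear_combination 2 * π * b4 - a3

/-- points of the circle other than `p` -/
theorem gray_angle {x z : ℂ} {ρ : ℝ} (hρ : 0 < ρ) (φ₀ : ℝ) (hz : ‖z - x‖ = ρ) (hne : z ≠ circleMap x ρ (φ₀ + π)) :
    ∃ φ ∈ Ioo (-π) π, z = circleMap x ρ (φ₀ + φ) := by
  obtain ⟨ψ, rfl⟩ : z ∈ range (circleMap x ρ) := by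
    rwa [range_circleMap, abs_of_pos hρ, mem_sphere_iff_norm]
  have h2π : 0 < 2 * π := by positivity
  have h1 := toIocMod_mem_Ioc h2π (-π) (ψ - φ₀)
  have h2 : circleMap x ρ ψ = circleMap x ρ (φ₀ + toIocMod h2π (-π) (ψ - φ₀)) := by
    rw [← self_sub_toIocDiv_zsmul, ← add_sub_assoc, add_sub_cancel,
      (periodic_circleMap x ρ).sub_zsmul_eq]
  refine ⟨_, ⟨h1.1, lt_of_le_of_ne (by linarith [h1.2]) fun h3 => hne ?_⟩, h2⟩
  rw [h2, h3]

/-- a continuous function, locally constant where it does not vanish -/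
theorem gray_const {g : ℝ → ℝ} (hg : ContinuousOn g (Ioi 0)) (hd : ∀ s, 0 < s → g s ≠ 0 → HasDerivAt g 0 s)
    {s t : ℝ} (hs : 0 < s) (ht : 0 < t) (h : g s ≠ 0) : g t ≠ 0 := by
  have hc : ∀ r, 0 < r → ContinuousAt g r := fun r hr => hg.continuousAt (Ioi_mem_nhds hr)
  have hU : IsOpen {r | ∀ᶠ y in 𝓝 r, g y = g s} := isOpen_setOfPred_eventually_nhds
  have hV : IsOpen {r | ∀ᶠ y in 𝓝 r, g y ≠ g s} := isOpen_setOfPred_eventually_nhds
  have key : ∀ r, 0 < r → g r = g s → ∀ᶠ y in 𝓝 r, g y = g s := fun r hr hrs => by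
    have h1 : ∀ᶠ y in 𝓝 r, 0 < y ∧ g y ≠ 0 :=
      (eventually_gt_nhds hr).and ((hc r hr).eventually_ne (hrs ▸ h))
    obtain ⟨ε, hε, hb⟩ := Metric.eventually_nhds_iff_ball.1 h1
    filter_upwards [ball_mem_nhds r hε] with y hy
    rw [← hrs]
    exact isOpen_ball.is_const_of_deriv_eq_zero (convex_ball r ε).isPreconnected
      (fun w hw => (hd w (hb w hw).1 (hb w hw).2).differentiableAt.differentiableWithinAt)
      (fun w hw => (hd w (hb w hw).1 (hb w hw).2).deriv) hy (mem_ball_self hε)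
  have hsub : Ioi (0 : ℝ) ⊆ {r | ∀ᶠ y in 𝓝 r, g y = g s} :=
    isPreconnected_Ioi.subset_left_of_subset_union hU hV
      (Set.disjoint_left.2 fun r h1 h2 => h2.self_of_nhds h1.self_of_nhds)
      (fun r hr => (em (g r = g s)).imp (key r hr) fun hrs => (hc r hr).eventually_ne hrs)
      ⟨s, hs, key s hs rfl⟩
  rw [(hsub ht).self_of_nhds]
  exact h

/-- the pointwise identities on a good circle -/
theorem gray_good {K : Set ℂ} {u v : ℂ → ℝ} (h : Glob K u) (hv : Continuous v) (h0 : ∀ z ∈ K, v z = 0)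
    (hg : ∀ z ∉ K, HasGradientAt v (Complex.I * gradient u z) z) {x : ℂ} (hx : x ∈ K) {θ : ℝ} (hθ : 0 < θ)
    (hD : ∀ r : ℝ, 0 < r → Dr u x r = θ * r) {ρ : ℝ} (hG : Good K u x ρ) :
    ∃ p ∈ K, ‖p - x‖ = ρ ∧ ∀ z, ‖z - x‖ = ρ → z ≠ p → v z ≠ 0 ∧
      inner ℝ (gradient u z) (Complex.I * (z - x)) = - v z / 2 ∧ ‖gradient u z‖ ^ 2 = θ / (2 * π * ‖z - x‖) := by
  have hρ := hG.pos
  obtain ⟨D, -, -, hDK, -, z, hz, hz'⟩ := h.cont hx hρ
  obtain ⟨ψ, rfl⟩ : z ∈ range (circleMap x ρ) := by rwa [range_circleMap, abs_of_pos hρ]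
  have hp : circleMap x ρ (ψ - π + π) ∈ K := by simpa using (hDK hz).1
  have hc : ce u x ρ = θ := by
    refine hG.der.unique ?_
    have h6 : HasDerivAt (fun r : ℝ => θ * r) θ ρ := by simpa using (hasDerivAt_id ρ).const_mul θ
    refine h6.congr_of_eventuallyEq ?_
    filter_upwards [Ioi_mem_nhds hρ] with r hr
    exact hD r hr
  refine ⟨_, hp, by rw [← dist_eq_norm, tpolar_dist x hρ], fun z hz hne => ?_⟩
  obtain ⟨φ, hφ, rfl⟩ := gray_angle hρ (ψ - π) hz hne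
  rw [hz]
  exact gray_circle h hv h0 hg hG hθ (hD ρ hρ) hc hp φ hφ

/-- the pointwise identities off `K` -/
theorem gray_all {K : Set ℂ} {u v : ℂ → ℝ} (h : Glob K u) (hv : Continuous v) (h0 : ∀ z ∈ K, v z = 0)
    (hg : ∀ z ∉ K, HasGradientAt v (Complex.I * gradient u z) z) {x : ℂ} (hx : x ∈ K) {θ : ℝ} (hθ : 0 < θ)
    (hD : ∀ r : ℝ, 0 < r → Dr u x r = θ * r) {z : ℂ} (hz : z ∉ K) :
    inner ℝ (gradient u z) (Complex.I * (z - x)) = - v z / 2 ∧ ‖gradient u z‖ ^ 2 = θ / (2 * π * ‖z - x‖) := by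
  have hzx : z - x ≠ 0 := sub_ne_zero.2 fun e => hz (e ▸ hx)
  have hr : 0 < ‖z - x‖ := norm_pos_iff.2 hzx
  set γ : ℝ → ℂ := fun ρ => x + ((ρ / ‖z - x‖ : ℝ) : ℂ) * (z - x) with hγ
  have hγc : Continuous γ := by rw [hγ]; fun_prop
  have hγz : γ ‖z - x‖ = z := by simp only [hγ, div_self hr.ne']; simp
  have hγt : Tendsto γ (𝓝 ‖z - x‖) (𝓝 z) := by
    have := hγc.tendsto ‖z - x‖
    rwa [hγz] at this
  have hγn : ∀ ρ, 0 < ρ → ‖γ ρ - x‖ = ρ := fun ρ hρ => by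
    simp only [hγ, add_sub_cancel_left, norm_mul, Complex.norm_real]
    rw [Real.norm_of_nonneg (by positivity), div_mul_cancel₀ _ hr.ne']
  have hfr : ∃ᶠ ρ in 𝓝 ‖z - x‖, Good K u x ρ := by
    have h1 := Measure.dense_of_ae (μ := volume) (h.ms.ae_good (x := x) (R := ‖z - x‖ + 1) (subset_univ _))
    have h2 := mem_closure_iff_frequently.1 (h1 ‖z - x‖)
    refine (h2.and_eventually (Ioo_mem_nhds hr (lt_add_one _))).mono fun ρ hρ => hρ.1 hρ.2
  have hK : ∀ᶠ ρ in 𝓝 ‖z - x‖, γ ρ ∉ K := hγt.eventually (h.ms.closed.isOpen_compl.mem_nhds hz)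
  have hid : ∃ᶠ ρ in 𝓝 ‖z - x‖, inner ℝ (gradient u (γ ρ)) (Complex.I * (γ ρ - x)) = - v (γ ρ) / 2 ∧
      ‖gradient u (γ ρ)‖ ^ 2 = θ / (2 * π * ‖γ ρ - x‖) := by
    refine (hfr.and_eventually hK).mono fun ρ hρ => ?_
    obtain ⟨p, hp, -, hall⟩ := gray_good h hv h0 hg hx hθ hD hρ.1
    exact (hall _ (hγn ρ hρ.1.pos) fun e => hρ.2 (e ▸ hp)).2
  have hgc := gray_gradc h hz
  have c1 : ContinuousAt (fun w => inner ℝ (gradient u w) (Complex.I * (w - x))) z := hgc.inner (by fun_prop)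
  have c2 : ContinuousAt (fun w => - v w / 2) z := by fun_prop
  have c3 : ContinuousAt (fun w => ‖gradient u w‖ ^ 2) z := hgc.norm.pow 2
  have c4 : ContinuousAt (fun w : ℂ => θ / (2 * π * ‖w - x‖)) z :=
    continuousAt_const.div (by fun_prop) (by have := Real.pi_pos; positivity)
  exact ⟨tendsto_nhds_unique_of_frequently_eq (c1.tendsto.comp hγt) (c2.tendsto.comp hγt) (hid.mono fun _ h => h.1),
    tendsto_nhds_unique_of_frequently_eq (c3.tendsto.comp hγt) (c4.tendsto.comp hγt) (hid.mono fun _ h => h.2)⟩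

/-- `{v ≠ 0}` is a cone -/
theorem gray_cone {K : Set ℂ} {u v : ℂ → ℝ} (hv : Continuous v) (h0 : ∀ z ∈ K, v z = 0)
    (hg : ∀ z ∉ K, HasGradientAt v (Complex.I * gradient u z) z) {x : ℂ}
    (hid : ∀ z ∉ K, inner ℝ (gradient u z) (Complex.I * (z - x)) = - v z / 2) (e : ℂ) {s t : ℝ} (hs : 0 < s)
    (ht : 0 < t) (h : v (x + s * e) ≠ 0) : v (x + t * e) ≠ 0 := by
  have key := gray_const (g := fun r : ℝ => v (x + r * e) ^ 2 / r)
    (ContinuousOn.div (by fun_prop) continuousOn_id fun r hr => ne_of_gt hr) (fun r hr hne => ?_) hs ht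
    (div_ne_zero (pow_ne_zero 2 h) hs.ne')
  · intro h1
    exact key (by simp only [h1]; simp)
  have hK : x + r * e ∉ K := fun hK => hne (by simp only [h0 _ hK]; simp)
  have h1 : HasDerivAt (fun r : ℝ => x + r * e) e r := by
    simpa using ((Complex.ofRealCLM.hasDerivAt (x := r)).mul_const e).const_add x
  have h2 : HasDerivAt (fun r : ℝ => v (x + r * e)) (inner ℝ (Complex.I * gradient u (x + r * e)) e) r := by
    have h5 := (hg _ hK).hasFDerivAt.comp_hasDerivAt r h1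
    rw [InnerProductSpace.toDual_apply_apply] at h5
    exact h5
  have h3 : r * inner ℝ (Complex.I * gradient u (x + r * e)) e = v (x + r * e) / 2 := by
    have h4 := hid _ hK
    rw [add_sub_cancel_left] at h4
    simp only [Complex.inner, map_mul, Complex.conj_I, Complex.mul_re, Complex.mul_im, Complex.I_re, Complex.I_im,
      Complex.ofReal_re, Complex.ofReal_im, Complex.neg_re, Complex.neg_im, Complex.conj_re, Complex.conj_im] at h4 ⊢
    linarith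
  refine ((h2.pow 2).div (hasDerivAt_id r) hr.ne').congr_deriv ?_
  rw [div_eq_zero_iff]
  left
  simp only [id, Pi.pow_apply]
  push_cast
  linear_combination 2 * v (x + r * e) * h3

/-- Equality case. On good circles `ce = θ`, the deficit vanishes: `P = -V/2` a.e., `V = A cos(φ/2)`, `Q = -(A/2) sin(φ/2)` a.e., so `ρ²‖∇u‖² = A²/4` a.e. and
`A² = 2θρ/π ≠ 0`. Hence for a.e. `ρ`, a.e. `φ`; by continuity off `K` (polar coordinates: an open set where a continuous identity fails has positive measure)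
`‖∇u z‖² = θ/(2π‖z-x‖)` and `⟪∇v z, z - x⟫ = v z/2` for all `z ∉ K`, `z ≠ x`. Along a ray `s ↦ v(x + s e)/√s` is locally constant off `K`, so `{v ≠ 0}` is a cone
(clopen argument). On one good circle `v` vanishes at one point only, so `K ⊆` ray; `K` meets every circle (`Glob.cont`). -/
theorem Glob.ray {K : Set ℂ} {u : ℂ → ℝ} (h : Glob K u) {x : ℂ} (hx : x ∈ K) {θ : ℝ} (hθ : 0 < θ)
    (hD : ∀ r : ℝ, 0 < r → Dr u x r = θ * r) :
    (∃ e : ℂ, ‖e‖ = 1 ∧ K = Cone 1 x e) ∧ ∀ z ∉ K, ‖gradient u z‖ ^ 2 = θ / (2 * π * ‖z - x‖) := by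
  obtain ⟨v, hv, h0, hg⟩ := h.conj hx
  have hall := fun z hz => gray_all h hv h0 hg hx hθ hD (z := z) hz
  refine ⟨?_, fun z hz => (hall z hz).2⟩
  obtain ⟨ρ, -, hG⟩ := Measure.exists_mem_of_measure_ne_zero_of_ae (μ := volume)
    (s := Ioo (0 : ℝ) 1) (by simp) ((ae_restrict_iff' measurableSet_Ioo).2 (h.ms.ae_good (x := x) (subset_univ _)))
  have hρ := hG.pos
  obtain ⟨p, -, hp, hne⟩ := gray_good h hv h0 hg hx hθ hD hG
  have hρ' : (ρ : ℂ) ≠ 0 := Complex.ofReal_ne_zero.2 hρ.ne'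
  have he : ‖(p - x) / ρ‖ = 1 := by
    rw [norm_div, hp, Complex.norm_real, Real.norm_of_nonneg hρ.le, div_self hρ.ne']
  have hsub : ∀ z ∈ K, z = x + (‖z - x‖ : ℝ) * ((p - x) / ρ) := fun z hz => by
    by_cases hzx : z = x
    · simp [hzx]
    have hr : 0 < ‖z - x‖ := norm_pos_iff.2 (sub_ne_zero.2 hzx)
    have hr' : ((‖z - x‖ : ℝ) : ℂ) ≠ 0 := Complex.ofReal_ne_zero.2 hr.ne'
    have hz' : x + (‖z - x‖ : ℝ) * ((z - x) / (‖z - x‖ : ℝ)) = z := by
      rw [mul_div_cancel₀ _ hr', add_sub_cancel]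
    have hq : x + ρ * ((z - x) / (‖z - x‖ : ℝ)) = p := by
      by_contra hq
      refine gray_cone hv h0 hg (fun z hz => (hall z hz).1) _ hρ hr (hne _ ?_ hq).1 (by rw [hz']; exact h0 z hz)
      rw [add_sub_cancel_left, norm_mul, norm_div, Complex.norm_real, Complex.norm_real, Real.norm_of_nonneg hρ.le,
        norm_norm, div_self hr.ne', mul_one]
    rw [← hq, add_sub_cancel_left, mul_div_cancel_left₀ _ hρ', hz']
  refine ⟨_, he, Set.ext fun z => ?_⟩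
  rw [mem_cone_one]
  refine ⟨fun hz => ⟨_, norm_nonneg _, hsub z hz⟩, ?_⟩
  rintro ⟨s, hs, rfl⟩
  rcases hs.eq_or_lt with rfl | hs
  · simpa using hx
  obtain ⟨D, -, -, hDK, -, z, hz, hz'⟩ := h.cont hx hs
  have h1 := hsub z (hDK hz).1
  rw [mem_sphere_iff_norm.1 hz'] at h1
  rw [← h1]
  exact (hDK hz).1

/-- `θ = 1` from `MS.tip_ineq` (`a = 0`, `p ρ = x + ρ e`); the energy bound off centre by integrating the pointwise formula -/
theorem Glob.tip {K : Set ℂ} {u : ℂ → ℝ} (h : Glob K u) {x : ℂ} (hx : x ∈ K) {θ : ℝ} (hθ : 0 < θ)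
    (hD : ∀ r : ℝ, 0 < r → Dr u x r = θ * r) :
    θ = 1 ∧ (∃ e : ℂ, ‖e‖ = 1 ∧ K = Cone 1 x e) ∧
      ∀ (y : ℂ) (t : ℝ), 0 < t → t < ‖y - x‖ → Dr u y t ≤ t ^ 2 / (2 * (‖y - x‖ - t)) := by
  obtain ⟨⟨e, he, hK⟩, hg⟩ := h.ray hx hθ hD
  have hn : ∀ ρ : ℝ, 0 ≤ ρ → ‖x + ρ * e - x‖ = ρ := fun ρ hρ => by
    rw [add_sub_cancel_left, norm_mul, he, mul_one, Complex.norm_real, Real.norm_of_nonneg hρ]
  have hA : Arc1 K x 1 (fun ρ => x + ρ * e) (fun _ => e) := by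
    refine ⟨one_pos, fun ρ hρ => ?_, fun ρ hρ => hn ρ hρ.1.le, fun z hz => Or.inr ?_, fun ρ _ => ?_,
      continuousOn_const, fun _ _ => by rw [he]; norm_num⟩
    · rw [hK, mem_cone_one]
      exact ⟨ρ, hρ.1.le, rfl⟩
    · have h1 := hz.1
      rw [hK, mem_cone_one] at h1
      obtain ⟨s, hs, rfl⟩ := h1
      rw [hn s hs]
    · have := ((Complex.ofRealCLM.hasDerivAt (x := ρ)).mul_const e).const_add x
      simpa using this.hasDerivWithinAt
  have hθ1 : θ = 1 := by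
    obtain ⟨C₀, C, -, -, hae⟩ := h.ms.tip_ineq hA (subset_univ _)
    have hgood := h.ms.ae_good (x := x) (R := 1 / 2) (subset_univ _)
    obtain ⟨ρ, hρ, h1, h2⟩ := Measure.exists_mem_of_measure_ne_zero_of_ae (μ := volume)
      (s := Ioo (0 : ℝ) (1 / 2)) (by simp) (ae_restrict_of_ae (hae.and hgood))
    obtain ⟨h3, h4, -⟩ := h1 hρ
    have h5 : HasDerivAt (Dr u x) θ ρ := by
      have h6 : HasDerivAt (fun r : ℝ => θ * r) θ ρ := by simpa using (hasDerivAt_id ρ).const_mul θ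
      refine h6.congr_of_eventuallyEq ?_
      filter_upwards [Ioi_mem_nhds hρ.1] with r hr
      exact hD r hr
    rw [(h2 hρ).der.unique h5] at h3 h4
    rw [hD ρ hρ.1, mul_div_cancel_right₀ _ hρ.1.ne', sub_self] at h4
    simp only [zero_mul, mul_zero, sub_zero, add_zero] at h3 h4
    linarith
  refine ⟨hθ1, ⟨e, he, hK⟩, fun y t ht hy => ?_⟩
  have hpos : 0 < ‖y - x‖ - t := sub_pos.2 hy
  have hb := norm_setIntegral_le_of_norm_le_const_ae' (μ := volume) (s := ball y t)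
    (f := fun z => ‖gradient u z‖ ^ 2) (C := 1 / (2 * π * (‖y - x‖ - t))) measure_ball_lt_top (by
      filter_upwards [measure_eq_zero_iff_ae_notMem.1 h.vol_zero] with z hz hzb
      rw [Real.norm_of_nonneg (sq_nonneg _), hg z hz, hθ1]
      have h1 : ‖y - x‖ - t ≤ ‖z - x‖ := by
        have h2 := norm_sub_le_norm_sub_add_norm_sub y z x
        rw [mem_ball, dist_comm, dist_eq_norm] at hzb
        linarith
      exact one_div_le_one_div_of_le (by positivity) (mul_le_mul_of_nonneg_left h1 (by positivity)))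
  rw [mgood_Dr]
  refine (le_abs_self _).trans (hb.trans (le_of_eq ?_))
  rw [measureReal_def, Complex.volume_ball, ENNReal.toReal_mul, ENNReal.toReal_pow, ENNReal.toReal_ofReal ht.le,
    ENNReal.coe_toReal, NNReal.coe_real_pi]
  field_simp


end Crest.Agent.R135
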