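import Crest.Agent.R135.Defs
import Crest.Agent.R135.CBlow
import Crest.Agent.R135.GTip
import Crest.Agent.R135.GAng
set_option autoImplicit false
open MeasureTheory Metric Set Filter Topology
open scoped ENNReal NNReal Real ComplexConjugate

namespace Crest.Agent.R135

/-! Classification facts for blow-up limits. A monotone bounded density `d` on `Ioi 0` has limits `θ∞ = sup d` along `r j = j+1` and `θ₀ = inf d` along
`r j = 1/(j+1)` (`d (r j t) → θ` for every `t > 0`); `diag` turns them into constant densities: `θ ∈ {0,1}` for `Dr` (`Glob.tip`), and when `Dr ≡ 0`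
(take `θ = 0` in the first part of `diag`, `Glob.grad_zero`) `θ ∈ {2,3}` for `Lr` (`Glob.line_or_prop`). -/
variable {K : Set ℂ} {u : ℂ → ℝ}

theorem ccls_lim {f : ℝ → ℝ} {θ t : ℝ} {r : ℕ → ℝ} (ht : 0 < t)
    (h : Tendsto (fun j => f (r j * t) / (r j * t)) atTop (𝓝 θ)) :
    Tendsto (fun j => f (r j * t) / r j) atTop (𝓝 (θ * t)) :=
  (h.mul_const t).congr fun j => by rw [← div_div, div_mul_cancel₀ _ ht.ne']

theorem ccls_up {f : ℝ → ℝ} {M : ℝ} (hm : MonotoneOn (fun r => f r / r) (Ioi 0)) (hM : ∀ r, 0 < r → f r ≤ M * r) :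
    ∃ θ ≤ M, (∀ r, 0 < r → f r ≤ θ * r) ∧ ∃ r : ℕ → ℝ, (∀ j, 0 < r j) ∧
      ∀ t, 0 < t → Tendsto (fun j => f (r j * t) / r j) atTop (𝓝 (θ * t)) := by
  have hb : M ∈ upperBounds ((fun r => f r / r) '' Ioi 0) := by
    rintro _ ⟨r, hr, rfl⟩
    exact (div_le_iff₀ hr).2 (hM r hr)
  have hl := isLUB_csSup (nonempty_Ioi.image _) ⟨M, hb⟩
  have h1 := fun r (hr : 0 < r) => hl.1 (mem_image_of_mem _ (mem_Ioi.2 hr))
  refine ⟨_, hl.2 hb, fun r hr => (div_le_iff₀ hr).1 (h1 r hr), fun j => j + 1, fun j => by positivity,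
    fun t ht => ccls_lim ht (tendsto_order.2 ⟨fun c hc => ?_, fun c hc => Eventually.of_forall fun j =>
      (h1 _ (by positivity)).trans_lt hc⟩)⟩
  obtain ⟨_, ⟨s, hs, rfl⟩, h2, -⟩ := hl.exists_between hc
  filter_upwards [((tendsto_atTop_add_const_right _ (1 : ℝ) tendsto_natCast_atTop_atTop).atTop_mul_const
    ht).eventually_ge_atTop s] with j hj
  exact h2.trans_le (hm hs (hs.trans_le hj) hj)

theorem ccls_down {f : ℝ → ℝ} {M : ℝ} (hm : MonotoneOn (fun r => f r / r) (Ioi 0)) (hM : ∀ r, 0 < r → M * r ≤ f r) :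
    ∃ θ, M ≤ θ ∧ (∀ r, 0 < r → θ * r ≤ f r) ∧ ∃ r : ℕ → ℝ, (∀ j, 0 < r j) ∧
      ∀ t, 0 < t → Tendsto (fun j => f (r j * t) / r j) atTop (𝓝 (θ * t)) := by
  have hb : M ∈ lowerBounds ((fun r => f r / r) '' Ioi 0) := by
    rintro _ ⟨r, hr, rfl⟩
    exact (le_div_iff₀ hr).2 (hM r hr)
  have hl := isGLB_csInf (nonempty_Ioi.image _) ⟨M, hb⟩
  have h1 := fun r (hr : 0 < r) => hl.1 (mem_image_of_mem _ (mem_Ioi.2 hr))
  refine ⟨_, hl.2 hb, fun r hr => (le_div_iff₀ hr).1 (h1 r hr), fun j => 1 / (j + 1), fun j => by positivity,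
    fun t ht => ccls_lim ht (tendsto_order.2 ⟨fun c hc => Eventually.of_forall fun j =>
      hc.trans_le (h1 _ (by positivity)), fun c hc => ?_⟩)⟩
  obtain ⟨_, ⟨s, hs, rfl⟩, -, h2⟩ := hl.exists_between hc
  filter_upwards [(tendsto_one_div_add_atTop_nhds_zero_nat.mul_const t).eventually_le_const
    ((zero_mul t).trans_lt hs)] with j hj
  exact (hm (mem_Ioi.2 (by positivity)) hs hj).trans_lt h2

theorem ccls_D (h : BL K u) {x : ℂ} (hx : x ∈ K) {θ : ℝ} (hθ : 0 < θ) (H : ∃ r : ℕ → ℝ, (∀ j, 0 < r j) ∧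
    ∀ t, 0 < t → Tendsto (fun j => Dr u x (r j * t) / r j) atTop (𝓝 (θ * t))) : θ = 1 := by
  obtain ⟨r, hr, H⟩ := H
  obtain ⟨K', u', h1, h2, h3, -⟩ := diag h hx hr
  exact (h1.1.tip h2 hθ (h3 θ H)).1

theorem ccls_L (h : BL K u) (hD : ∀ z ∉ K, gradient u z = 0) {x : ℂ} (hx : x ∈ K) {θ : ℝ}
    (H : ∃ r : ℕ → ℝ, (∀ j, 0 < r j) ∧
      ∀ t, 0 < t → Tendsto (fun j => Lr K x (r j * t) / r j) atTop (𝓝 (θ * t))) : θ = 2 ∨ θ = 3 := by
  obtain ⟨r, hr, H⟩ := H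
  obtain ⟨K', u', h1, h2, h3, h4⟩ := diag h hx hr
  exact (h1.1.line_or_prop (h1.1.grad_zero fun t ht => (h3 0 (fun t _ => by
    simp only [h.1.Dr_zero hD, zero_div, zero_mul, tendsto_const_nhds]) t ht).trans (zero_mul t)) h2
      (h4 θ H)).imp And.left And.left

theorem ccls_ub (h : BL K u) (x : ℂ) (r : ℝ) (hr : 0 < r) : Dr u x r ≤ 2 * π * r ∧ Lr K x r ≤ 2 * π * r := by
  have := h.1.ms.upper_real hr.le (subset_univ (closedBall x r))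
  constructor <;> linarith [Dr_nonneg u x r, Lr_nonneg K x r]

theorem BL.D_zero (h : BL K u) {x : ℂ} (hx : x ∈ K) {θ : ℝ} (hθ : θ < 1) (hD : ∀ r : ℝ, 0 < r → Dr u x r ≤ θ * r) :
    ∀ z ∉ K, gradient u z = 0 := by
  obtain ⟨s, h1, h2, h3⟩ := ccls_up (h.1.bonnet hx) hD
  refine h.1.grad_zero (x := x) fun r hr => le_antisymm ((h2 r hr).trans (mul_nonpos_of_nonpos_of_nonneg
    (not_lt.1 fun h0 => ?_) hr.le)) (Dr_nonneg ..)
  linarith [ccls_D h hx h0 h3]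

theorem BL.tip (h : BL K u) {x : ℂ} (hx : x ∈ K) {θ : ℝ} (hθ : 0 < θ) (hD : ∀ r : ℝ, 0 < r → θ * r ≤ Dr u x r) :
    (∃ e : ℂ, ‖e‖ = 1 ∧ K = Cone 1 x e) ∧
      ∀ (y : ℂ) (t : ℝ), 0 < t → t < ‖y - x‖ → Dr u y t ≤ t ^ 2 / (2 * (‖y - x‖ - t)) := by
  obtain ⟨s, h1, h2, h3⟩ := ccls_down (h.1.bonnet hx) hD
  obtain ⟨s', -, h4, h5⟩ := ccls_up (h.1.bonnet hx) fun r hr => (ccls_ub h x r hr).1
  obtain rfl := ccls_D h hx (hθ.trans_le h1) h3
  obtain rfl := ccls_D h hx (by linarith [h2 1 one_pos, h4 1 one_pos]) h5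
  exact (h.1.tip hx one_pos fun r hr => le_antisymm (h4 r hr) (h2 r hr)).2

theorem BL.line (h : BL K u) (hD : ∀ z ∉ K, gradient u z = 0) {x : ℂ} (hx : x ∈ K) {θ : ℝ} (hθ : θ < 3)
    (hL : ∀ t : ℝ, 0 < t → Lr K x t ≤ θ * t) : ∃ e : ℂ, ‖e‖ = 1 ∧ K = Cone 2 x e := by
  obtain ⟨s, h1, h2, h3⟩ := ccls_up (h.1.Lr_mono_div hD x) hL
  obtain rfl := (ccls_L h hD hx h3).resolve_right (h1.trans_lt hθ).ne
  exact ((h.1.line_or_prop hD hx fun r hr => le_antisymm (h2 r hr) (h.1.Lr_two hD hx hr)).resolve_right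
    fun e => by linarith [e.1]).2

theorem BL.prop (h : BL K u) (hD : ∀ z ∉ K, gradient u z = 0) {x : ℂ} (hx : x ∈ K) {θ : ℝ} (hθ : 2 < θ)
    (hL : ∀ t : ℝ, 0 < t → θ * t ≤ Lr K x t) : ∃ e : ℂ, ‖e‖ = 1 ∧ K = Cone 3 x e := by
  obtain ⟨s, h1, h2, h3⟩ := ccls_down (h.1.Lr_mono_div hD x) hL
  obtain ⟨s', -, h4, h5⟩ := ccls_up (h.1.Lr_mono_div hD x) fun r hr => (ccls_ub h x r hr).2
  obtain rfl := (ccls_L h hD hx h3).resolve_left (hθ.trans_le h1).ne'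
  obtain rfl := (ccls_L h hD hx h5).resolve_left fun e => by linarith [h2 1 one_pos, h4 1 one_pos]
  exact ((h.1.line_or_prop hD hx fun r hr => le_antisymm (h4 r hr) (h2 r hr)).resolve_left
    fun e => by linarith [e.1]).2

end Crest.Agent.R135
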