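import Crest.Agent.R135.Defs
import Crest.Agent.R135.CCls
set_option autoImplicit false
open MeasureTheory Metric Set Filter Topology
open scoped ENNReal NNReal Real ComplexConjugate

namespace Crest.Agent.R135

/-! Dichotomies by contradiction and blow-up (`blow`, sequences with `δ k = σ k = 1/(k+2)`; the ultrafilter lets ratios `r k / s k` either
tend to `∞` or converge: `Ultrafilter` limits in `ℝ≥0∞`/`EReal`, or split on `∀ L, ∀ᶠ k, L ≤ r k / s k`). -/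

theorem adich_lim : Tendsto (fun k : ℕ => 1 / ((k : ℝ) + 2)) atTop (𝓝 0) :=
  tendsto_const_nhds.div_atTop (tendsto_atTop_add_const_right _ _ tendsto_natCast_atTop_atTop)

theorem adich_sub {U : Set ℂ} {a b r : ℝ} {y : ℂ} {k : ℕ} (h : Sm (1 / ((k : ℝ) + 2)) U a b y r) (hr : 0 < r) :
    closedBall y r ⊆ U := by
  refine (closedBall_subset_ball ?_).trans h.sub
  rw [div_div_eq_mul_div, div_one]
  nlinarith [(Nat.cast_nonneg k : (0 : ℝ) ≤ k)]

/-- the last bad scale -/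
theorem adich_sup {D : ℝ → ℝ} {r c s : ℝ} (hm : MonotoneOn D (Iic r)) (hc : 0 < c) (hs : s ∈ Ioc 0 r)
    (h : c * s < D s) : ∃ s' ∈ Ioc 0 r, c * s' ≤ D s' ∧ ∀ t ∈ Ioc s' r, D t ≤ c * t := by
  have hb : BddAbove {t | t ≤ r ∧ c * t < D t} := ⟨r, fun t ht => ht.1⟩
  have h1 : sSup {t | t ≤ r ∧ c * t < D t} ≤ r := csSup_le ⟨s, hs.2, h⟩ fun t ht => ht.1
  refine ⟨_, ⟨hs.1.trans_le (le_csSup hb ⟨hs.2, h⟩), h1⟩, ?_, fun t ht => not_lt.1 fun h2 =>
    ht.1.not_ge (le_csSup hb ⟨ht.2, h2⟩)⟩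
  rw [← le_div_iff₀' hc]
  exact csSup_le ⟨s, hs.2, h⟩ fun t ht => (le_div_iff₀' hc).2 (ht.2.le.trans (hm ht.1 h1 (le_csSup hb ht)))

theorem adich_lo {d : ℝ → ℝ} {c : ℝ} (hb : MonotoneOn (fun t => d t / t) (Ioi 0))
    (h : ∀ t, 1 < t → c ≤ d t) (t : ℝ) (ht : 1 < t) : c * t ≤ d t := by
  have h0 : 0 < t := by linarith
  rw [← le_div_iff₀ h0]
  have h1 : Tendsto (fun p : ℝ => c / p) (𝓝[>] 1) (𝓝 (c / 1)) :=
    (tendsto_const_nhds.div tendsto_id one_ne_zero).mono_left nhdsWithin_le_nhds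
  rw [div_one] at h1
  refine le_of_tendsto h1 ?_
  filter_upwards [Ioo_mem_nhdsGT ht] with p hp
  have h2 : 0 < p := by linarith [hp.1]
  exact (div_le_div_of_nonneg_right (h p hp.1) h2.le).trans (hb h2 h0 hp.2.le)

theorem adich_hi {d : ℝ → ℝ} {c : ℝ} (hb : MonotoneOn (fun t => d t / t) (Ioi 0))
    (h : ∀ t, 1 < t → d t ≤ c * t) (t : ℝ) (ht : 0 < t) : d t ≤ c * t := by
  have h1 : 0 < t + 1 := by linarith
  rw [← div_le_iff₀ ht]
  exact (hb ht h1 (by linarith)).trans ((div_le_iff₀ h1).2 (h _ (by linarith)))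

/-- ratios tend to infinity or are eventually trapped in `[t, q t]` -/
theorem adich_split (F : Ultrafilter ℕ) {ρ : ℕ → ℝ} {m q : ℝ} (hm : 0 < m) (h : ∀ k, m ≤ ρ k) (hq : 1 < q) :
    (∀ t, ∀ᶠ k in (F : Filter ℕ), t ≤ ρ k) ∨
      ∃ t, m ≤ t ∧ (∀ᶠ k in (F : Filter ℕ), t ≤ ρ k) ∧ ∀ᶠ k in (F : Filter ℕ), ρ k ≤ q * t := by
  refine or_iff_not_imp_right.2 fun hc t => ?_
  have h1 : ∀ n : ℕ, ∀ᶠ k in (F : Filter ℕ), q ^ n * m ≤ ρ k := fun n => by
    induction n with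
    | zero => exact Eventually.of_forall fun k => by simpa using h k
    | succ n ih =>
      by_contra h2
      refine hc ⟨_, le_mul_of_one_le_left hm.le (one_le_pow₀ hq.le), ih,
        (Ultrafilter.eventually_not.2 h2).mono fun k hk => ?_⟩
      rw [← mul_assoc, ← pow_succ']
      exact (not_le.1 hk).le
  obtain ⟨n, hn⟩ := pow_unbounded_of_one_lt (t / m) hq
  exact (h1 n).mono fun k hk => ((div_lt_iff₀ hm).1 hn).le.trans hk


/-- Blow up at `s* = sSup {s ≤ r | Dr y s > s/2}` (`s* ≤ r/2`, `Dr y s* ≥ s*/2` by monotonicity, `Dr y s ≤ s/2` on `(s*, r]`; `Sm.mono`). In the limit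
`Dr u' 0 t' ≥ 1/2` for `t' > 1`. If the ratio tends to `∞`: `Dr u' 0 t ≤ t/2` for `t > 1`, for all `t` by `Glob.bonnet`, `BL.D_zero`: contradiction.
If it tends to `L ≥ 2`: `Dr u' 0 t ≤ L/4` for `t < L`, against `Glob.bonnet`. -/
theorem dich_D : ∃ δ : ℝ, 0 < δ ∧ ∀ (U K : Set ℂ) (a b : ℝ) (u : ℂ → ℝ), Abs U a b K u → ∀ y ∈ K, ∀ r : ℝ, 0 < r →
    Sm δ U a b y r → Dr u y r ≤ r / 4 → ∀ s ∈ Ioc 0 r, Dr u y s ≤ s / 2 := by
  by_contra hc
  have hk : ∀ k : ℕ, ∃ (U K : Set ℂ) (a b : ℝ) (u : ℂ → ℝ) (y : ℂ) (r s : ℝ), Abs U a b K u ∧ y ∈ K ∧ 0 < s ∧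
      Sm (1 / ((k : ℝ) + 2)) U a b y s ∧ 2 * s ≤ r ∧ 1 / 2 * s ≤ Dr u y s ∧
      ∀ t ∈ Ioc s r, Dr u y t ≤ 1 / 2 * t ∧ Dr u y t ≤ r / 4 := fun k => by
    by_contra h1
    refine hc ⟨1 / ((k : ℝ) + 2), by positivity, fun U K a b u hA y hy r hr hS hD s hs => not_lt.1 fun h2 => h1 ?_⟩
    have hB := adich_sub hS hr
    have hm : MonotoneOn (Dr u y) (Iic r) := fun p _ q hq hpq =>
      hA.ms.Dr_mono ((closedBall_subset_closedBall hq).trans hB) (ball_subset_ball hpq)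
    obtain ⟨s', h3, h4, h5⟩ := adich_sup hm (c := 1 / 2) one_half_pos hs (by linarith)
    have h6 := hm h3.2 (mem_Iic.2 le_rfl) h3.2
    exact ⟨U, K, a, b, u, y, r, s', hA, hy, h3.1, hS.mono (by positivity) hA.ms.a0 hA.ms.b0 h3.1 h3.2,
      by linarith, h4, fun t ht => ⟨h5 t ht, (hm ht.2 (mem_Iic.2 le_rfl) ht.2).trans hD⟩⟩
  choose U K a b u y r s hA hy hs hS h2 hlo hhi using hk
  obtain ⟨F, K', u', -, hB, h0, hL⟩ := blow hA hy hs (fun k => by positivity) hS adich_lim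
  have hb := hB.1.bonnet h0
  have lo : ∀ t, 1 < t → 1 / 2 * t ≤ Dr u' 0 t := adich_lo hb fun t ht =>
    le_of_forall_pos_le_add fun η hη => by
      obtain ⟨k, hk⟩ := (hL.Dhi 0 1 t η ht hη).exists
      rw [mul_zero, add_zero, mul_one] at hk
      refine le_of_mul_le_mul_left ?_ (hs k)
      linarith [hlo k]
  have hi : ∀ t η, 1 < t → 0 < η → (∀ᶠ k in (F : Filter ℕ), t ≤ r k / s k) → ∀ᶠ k in (F : Filter ℕ),
      Dr u' 0 t ≤ 1 / 2 * t + η ∧ Dr u' 0 t ≤ r k / s k / 4 + η := fun t η ht hη h1 => by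
    filter_upwards [h1, hL.Dlo 0 t η hη] with k e1 e2
    rw [mul_zero, add_zero] at e2
    rw [le_div_iff₀' (hs k)] at e1
    obtain ⟨e3, e4⟩ := hhi k (s k * t) ⟨lt_mul_of_one_lt_right (hs k) ht, e1⟩
    have e5 : s k * (r k / s k) = r k := mul_div_cancel₀ _ (hs k).ne'
    exact ⟨le_of_mul_le_mul_left (by linarith) (hs k), le_of_mul_le_mul_left (by linarith) (hs k)⟩
  rcases adich_split F (ρ := fun k => r k / s k) (m := 2) two_pos
    (fun k => (le_div_iff₀ (hs k)).2 (h2 k)) (q := 3 / 2) (by norm_num) with h1 | ⟨t, ht, h1, h3⟩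
  · have up : ∀ t, 1 < t → Dr u' 0 t ≤ 1 / 2 * t := fun t ht =>
      le_of_forall_pos_le_add fun η hη => (hi t η ht hη (h1 t)).exists.elim fun k hk => hk.1
    have := hB.1.Dr_zero (hB.D_zero h0 one_half_lt_one (adich_hi hb up)) 0 2
    linarith [lo 2 one_lt_two]
  · obtain ⟨k, e1, e2⟩ := ((hi t (t / 16) (by linarith) (by linarith) h1).and h3).exists
    linarith [lo t (by linarith), e1.2]

/-- Same scheme with `s* = sSup {s ≤ t | Lr y s > 5s/2}`; the limit has `∇u' = 0` (`BL.D_zero`), `Glob.Lr_mono_div`, `BL.line`, `Lr_cone`. -/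
theorem dich_L : ∃ σ δ : ℝ, 0 < σ ∧ 0 < δ ∧ ∀ (U K : Set ℂ) (a b : ℝ) (u : ℂ → ℝ), Abs U a b K u → ∀ y ∈ K, ∀ r : ℝ,
    0 < r → Sm δ U a b y r → (∀ s ∈ Ioc 0 r, Dr u y s ≤ s / 2) → ∀ t ∈ Ioc 0 (σ * r), Lr K y t ≤ 9 / 4 * t →
    ∀ s ∈ Ioc 0 t, Lr K y s ≤ 5 / 2 * s := by
  by_contra hc
  have hk : ∀ k : ℕ, ∃ (U K : Set ℂ) (a b : ℝ) (u : ℂ → ℝ) (y : ℂ) (t s : ℝ), Abs U a b K u ∧ y ∈ K ∧ 0 < s ∧
      Sm (1 / ((k : ℝ) + 2)) U a b y s ∧ 10 / 9 * s ≤ t ∧ 5 / 2 * s ≤ Lr K y s ∧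
      (∀ p ∈ Ioc s t, Lr K y p ≤ 5 / 2 * p ∧ Lr K y p ≤ 9 / 4 * t) ∧
      ∀ p : ℝ, 0 < p → p ≤ k → Dr u y (s * p) ≤ s * p / 2 := fun k => by
    by_contra h1
    refine hc ⟨1 / ((k : ℝ) + 2), 1 / ((k : ℝ) + 2), by positivity, by positivity,
      fun U K a b u hA y hy r hr hS hD t ht hL s hs => not_lt.1 fun h2 => h1 ?_⟩
    have hB := adich_sub hS hr
    have hk0 : (0 : ℝ) ≤ k := Nat.cast_nonneg k
    have ht2 : t * (k + 2) ≤ r := by
      have := ht.2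
      rwa [one_div_mul_eq_div, le_div_iff₀ (by positivity)] at this
    have htr : t ≤ r := by nlinarith [ht.1]
    have hm : MonotoneOn (Lr K y) (Iic t) := fun p _ q hq hpq =>
      hA.ms.Lr_mono ((closedBall_subset_closedBall (le_trans hq htr)).trans hB) (ball_subset_ball hpq)
    obtain ⟨s', h3, h4, h5⟩ := adich_sup hm (c := 5 / 2) (by norm_num) hs h2
    have h6 := hm h3.2 (mem_Iic.2 le_rfl) h3.2
    exact ⟨U, K, a, b, u, y, t, s', hA, hy, h3.1,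
      hS.mono (by positivity) hA.ms.a0 hA.ms.b0 h3.1 (h3.2.trans htr), by linarith, h4,
      fun p hp => ⟨h5 p hp, (hm hp.2 (mem_Iic.2 le_rfl) hp.2).trans hL⟩, fun p hp hpk => hD _ ⟨mul_pos h3.1 hp,
        (mul_le_mul h3.2 (by linarith) hp.le ht.1.le).trans ht2⟩⟩
  choose U K a b u y r s hA hy hs hS h2 hlo hhi hD using hk
  obtain ⟨F, K', u', hF, hB, h0, hL⟩ := blow hA hy hs (fun k => by positivity) hS adich_lim
  have hz := hB.D_zero h0 one_half_lt_one fun p hp => le_of_forall_pos_le_add fun η hη => by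
    obtain ⟨k, e1, e2⟩ := ((hL.Dlo 0 p η hη).and
      (hF (tendsto_natCast_atTop_atTop.eventually_ge_atTop p))).exists
    rw [mul_zero, add_zero] at e1
    refine le_of_mul_le_mul_left ?_ (hs k)
    linarith [hD k p hp e2]
  have hb := hB.1.Lr_mono_div hz 0
  have lo : ∀ t, 1 < t → 5 / 2 * t ≤ Lr K' 0 t := adich_lo hb fun t ht =>
    le_of_forall_pos_le_add fun η hη => by
      obtain ⟨k, hk⟩ := (hL.Lhi 0 1 t η ht hη).exists
      rw [mul_zero, add_zero, mul_one] at hk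
      refine le_of_mul_le_mul_left ?_ (hs k)
      linarith [hlo k]
  have hi : ∀ t η, 1 < t → 0 < η → (∀ᶠ k in (F : Filter ℕ), t ≤ r k / s k) → ∀ᶠ k in (F : Filter ℕ),
      Lr K' 0 t ≤ 5 / 2 * t + η ∧ Lr K' 0 t ≤ 9 / 4 * (r k / s k) + η := fun t η ht hη h1 => by
    filter_upwards [h1, hL.Llo 0 t η hη] with k e1 e2
    rw [mul_zero, add_zero] at e2
    rw [le_div_iff₀' (hs k)] at e1
    obtain ⟨e3, e4⟩ := hhi k (s k * t) ⟨lt_mul_of_one_lt_right (hs k) ht, e1⟩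
    have e5 : s k * (r k / s k) = r k := mul_div_cancel₀ _ (hs k).ne'
    exact ⟨le_of_mul_le_mul_left (by linarith) (hs k), le_of_mul_le_mul_left (by linarith) (hs k)⟩
  rcases adich_split F (ρ := fun k => r k / s k) (m := 10 / 9) (by norm_num)
    (fun k => (le_div_iff₀ (hs k)).2 (h2 k)) (q := 21 / 20) (by norm_num) with h1 | ⟨t, ht, h1, h3⟩
  · have up : ∀ t, 1 < t → Lr K' 0 t ≤ 5 / 2 * t := fun t ht =>
      le_of_forall_pos_le_add fun η hη => (hi t η ht hη (h1 t)).exists.elim fun k hk => hk.1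
    obtain ⟨e, he, rfl⟩ := hB.line hz h0 (by norm_num) (adich_hi hb up)
    have := lo 2 one_lt_two
    rw [Lr_cone two_ne_zero 0 e he zero_le_two] at this
    norm_num at this
  · obtain ⟨k, e1, e2⟩ := ((hi t (t / 10) (by linarith) (by linarith) h1).and h3).exists
    linarith [lo t (by linarith), e1.2]

end Crest.Agent.R135
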