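import Crest.Agent.R135.Defs
import Crest.Agent.R135.ADich
set_option autoImplicit false
open MeasureTheory Metric Set Filter Topology
open scoped ENNReal NNReal Real ComplexConjugate

namespace Crest.Agent.R135

/-- Blow up at a bad scale `t ≤ σ r`: the limit is a line (`BL.D_zero`, `BL.line`), `Lim.near`, `Near.of_rK`, `Lhi` with `Lr_cone`. -/
theorem close_line (ε : ℝ) (hε : 0 < ε) : ∃ σ δ : ℝ, 0 < σ ∧ 0 < δ ∧ ∀ (U K : Set ℂ) (a b : ℝ) (u : ℂ → ℝ), Abs U a b K u →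
    ∀ y ∈ K, ∀ r : ℝ, 0 < r → Sm δ U a b y r → (∀ s ∈ Ioc 0 r, Dr u y s ≤ s / 2 ∧ Lr K y s ≤ 5 / 2 * s) →
    FG ε K y (σ * r) := by
  by_contra hc
  have hk : ∀ k : ℕ, ∃ (U K : Set ℂ) (a b : ℝ) (u : ℂ → ℝ) (y : ℂ) (s : ℝ), Abs U a b K u ∧ y ∈ K ∧ 0 < s ∧
      Sm (1 / ((k : ℝ) + 2)) U a b y s ∧ ¬ (Lr K y s ≤ (2 + ε) * s ∧ Near ε 2 K y s) ∧
      ∀ p : ℝ, 0 < p → p ≤ k → Dr u y (s * p) ≤ s * p / 2 ∧ Lr K y (s * p) ≤ 5 / 2 * (s * p) := fun k => by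
    by_contra h1
    refine hc ⟨1 / ((k : ℝ) + 2), 1 / ((k : ℝ) + 2), by positivity, by positivity,
      fun U K a b u hA y hy r hr hS hD t ht => not_not.1 fun h2 => h1 ?_⟩
    have hk0 : (0 : ℝ) ≤ k := Nat.cast_nonneg k
    have ht2 : t * (k + 2) ≤ r := by
      have := ht.2
      rwa [one_div_mul_eq_div, le_div_iff₀ (by positivity)] at this
    exact ⟨U, K, a, b, u, y, t, hA, hy, ht.1,
      hS.mono (by positivity) hA.ms.a0 hA.ms.b0 ht.1 (by nlinarith [ht.1]), h2, fun p hp hpk =>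
        hD _ ⟨mul_pos ht.1 hp, (mul_le_mul_of_nonneg_left (by linarith) ht.1.le).trans ht2⟩⟩
  choose U K a b u y s hA hy hs hS hbad hD using hk
  obtain ⟨F, K', u', hF, hB, h0, hL⟩ := blow hA hy hs (fun k => by positivity) hS adich_lim
  have hz := hB.D_zero h0 one_half_lt_one fun p hp => le_of_forall_pos_le_add fun η hη => by
    obtain ⟨k, e1, e2⟩ := ((hL.Dlo 0 p η hη).and
      (hF (tendsto_natCast_atTop_atTop.eventually_ge_atTop p))).exists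
    rw [mul_zero, add_zero] at e1
    refine le_of_mul_le_mul_left ?_ (hs k)
    linarith [(hD k p hp e2).1]
  obtain ⟨e, he, rfl⟩ := hB.line hz h0 (θ := 5 / 2) (by norm_num) fun p hp =>
    le_of_forall_pos_le_add fun η hη => by
      obtain ⟨k, e1, e2⟩ := ((hL.Llo 0 p η hη).and
        (hF (tendsto_natCast_atTop_atTop.eventually_ge_atTop p))).exists
      rw [mul_zero, add_zero] at e1
      refine le_of_mul_le_mul_left ?_ (hs k)
      linarith [(hD k p hp e2).2]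
  obtain ⟨k, e1, e2⟩ := ((hL.Lhi 0 1 (1 + ε / 4) (ε / 2) (by linarith) (half_pos hε)).and
    (hL.lim.near two_ne_zero he hε one_pos)).exists
  rw [mul_zero, add_zero, mul_one, Lr_cone two_ne_zero 0 e he (by positivity)] at e1
  refine hbad k ⟨?_, by simpa using Near.of_rK (y k) (hs k) e2⟩
  push_cast at e1
  linarith

/-- `dich_D`, `dich_L`, `close_line` combined (shrink `σ ≤ 1`, `Sm.mono`, `Sm.weaken`) -/
theorem close_flat (ε : ℝ) (hε : 0 < ε) : ∃ σ δ : ℝ, 0 < σ ∧ σ ≤ 1 / 4 ∧ 0 < δ ∧ ∀ (U K : Set ℂ) (a b : ℝ) (u : ℂ → ℝ),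
    Abs U a b K u → ∀ y ∈ K, ∀ r : ℝ, 0 < r → Sm δ U a b y r → Dr u y r ≤ r / 4 → ∀ t ∈ Ioc 0 (σ * r),
    Lr K y t ≤ 9 / 4 * t → FG ε K y (σ * t) := by
  obtain ⟨δ1, h1, H1⟩ := dich_D
  obtain ⟨σ2, δ2, hσ2, h2, H2⟩ := dich_L
  obtain ⟨σ3, δ3, hσ3, h3, H3⟩ := close_line ε hε
  refine ⟨min (1 / 4) (min σ2 σ3), min δ1 (min δ2 δ3), by positivity, min_le_left _ _, by positivity,
    fun U K a b u hA y hy r hr hS hD t ht hL s hs => ?_⟩
  have hδ : 0 < min δ1 (min δ2 δ3) := by positivity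
  have htr : t ≤ r := ht.2.trans (mul_le_of_le_one_left hr.le ((min_le_left _ _).trans (by norm_num)))
  have d1 := H1 U K a b u hA y hy r hr (hS.weaken hδ (min_le_left _ _) hr) hD
  have d2 := H2 U K a b u hA y hy r hr (hS.weaken hδ ((min_le_right _ _).trans (min_le_left _ _)) hr) d1 t
    ⟨ht.1, ht.2.trans (mul_le_mul_of_nonneg_right ((min_le_right _ _).trans (min_le_left _ _)) hr.le)⟩ hL
  exact H3 U K a b u hA y hy t ht.1 ((hS.mono hδ hA.ms.a0 hA.ms.b0 ht.1 htr).weaken hδ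
    ((min_le_right _ _).trans (min_le_right _ _)) ht.1) (fun p hp => ⟨d1 p ⟨hp.1, hp.2.trans htr⟩, d2 p hp⟩) s
    ⟨hs.1, hs.2.trans (mul_le_mul_of_nonneg_right ((min_le_right _ _).trans (min_le_right _ _)) ht.1.le)⟩

end Crest.Agent.R135
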