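import Crest.Agent.R135.Defs
import Crest.Agent.R135.ADich
set_option autoImplicit false
open MeasureTheory Metric Set Filter Topology
open scoped ENNReal NNReal Real ComplexConjugate

namespace Crest.Agent.R135

/-- blow-up at a fixed point along radii with a property that occurs at arbitrarily small scales -/
theorem atri_blow {U K : Set ℂ} {a b : ℝ} {u : ℂ → ℝ} (h : Abs U a b K u) {x : ℂ} (hx : x ∈ K ∩ U) {P : ℝ → Prop}
    (hP : ∀ ρ₁ : ℝ, 0 < ρ₁ → ∃ ρ ∈ Ioc 0 ρ₁, P ρ) :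
    ∃ (r : ℕ → ℝ) (F : Ultrafilter ℕ) (K' : Set ℂ) (u' : ℂ → ℝ), (∀ k, 0 < r k) ∧ (∀ k, P (r k)) ∧
      (∀ k, closedBall x (2 * r k) ⊆ U) ∧ Tendsto r atTop (𝓝 0) ∧ (F : Filter ℕ) ≤ atTop ∧ BL K' u' ∧
      (0 : ℂ) ∈ K' ∧ BLim F (fun _ => K) (fun _ => u) (fun _ => x) r K' u' := by
  have hδ : ∀ k : ℕ, (0 : ℝ) < 1 / ((k : ℝ) + 3) := fun k => by positivity
  have h0 : Tendsto (fun k : ℕ => 1 / ((k : ℝ) + 3)) atTop (𝓝 0) :=
    tendsto_const_nhds.div_atTop (tendsto_atTop_add_const_right _ _ tendsto_natCast_atTop_atTop)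
  choose r₀ hr₀ hS using fun k => exists_Sm h.ms.isOpen hx.2 a b (hδ k)
  choose r hr hPr using fun k => hP (min (r₀ k) (1 / ((k : ℝ) + 3))) (lt_min (hr₀ k) (hδ k))
  have hs : ∀ k : ℕ, Sm (1 / ((k : ℝ) + 3)) U a b x (r k) := fun k =>
    hS k x (mem_ball_self (hr₀ k)) _ ⟨(hr k).1, (hr k).2.trans (min_le_left _ _)⟩
  obtain ⟨F, K', u', hF, hB, h0', hL⟩ := blow (U := fun _ => U) (a := fun _ => a) (b := fun _ => b)
    (fun _ => h) (fun _ => hx.1) (fun k => (hr k).1) hδ hs h0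
  refine ⟨r, F, K', u', fun k => (hr k).1, hPr, fun k => (closedBall_subset_ball ?_).trans (hs k).sub,
    squeeze_zero (fun k => (hr k).1.le) (fun k => (hr k).2.trans (min_le_right _ _)) h0, hF, hB, h0', hL⟩
  have := (hr k).1
  rw [div_div_eq_mul_div, div_one]
  nlinarith [(Nat.cast_nonneg k : (0 : ℝ) ≤ k)]

/-- If every blow-up at `x` is a centred cone with small energy off centre then `StarHyp` holds. By contradiction: bad radii `ρ k ≤ 1/(k+1)` (also small enough for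
`exists_Sm`), `blow` at `x`; `Lim.near`; for a bad point `y k` the rescaled points lie on the unit circle, converge along the ultrafilter to `z ∈ K'` (`Khi`), and
`ball (y k) (ρ k/4) ⊆ ball (x + ρ k z) (ρ k · 0.26)`, so `Dhi` (`t' = 0.27`: `t'²/(2(1-t')) < 1/16`) and `Lhi` with `Lr_cone_off` finish. -/
theorem starHyp_of {U K : Set ℂ} {a b : ℝ} {u : ℂ → ℝ} (h : Abs U a b K u) {x : ℂ} (hx : x ∈ K ∩ U) {n : ℕ}
    (hn : n = 1 ∨ n = 3)
    (hb : ∀ (r : ℕ → ℝ) (F : Ultrafilter ℕ) (K' : Set ℂ) (u' : ℂ → ℝ), (∀ k, 0 < r k) → Tendsto r atTop (𝓝 0) →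
      (F : Filter ℕ) ≤ atTop → BL K' u' → (0 : ℂ) ∈ K' → BLim F (fun _ => K) (fun _ => u) (fun _ => x) r K' u' →
      (∃ e : ℂ, ‖e‖ = 1 ∧ K' = Cone n 0 e) ∧
        ∀ (y : ℂ) (t : ℝ), 0 < t → t < ‖y‖ → Dr u' y t ≤ t ^ 2 / (2 * (‖y‖ - t))) :
    StarHyp n K u x := by
  classical
  intro ε hε σ hσ
  by_contra hc
  obtain ⟨r, F, K', u', hr, hP, hU, h0, hF, hB, h0', hL⟩ := atri_blow h hx
    (P := fun ρ => ¬ (Near ε n K x ρ ∧ ∀ y ∈ K, ‖y - x‖ = ρ →
      Dr u y (ρ / 4) ≤ ρ / 16 ∧ Lr K y (σ * ρ) ≤ 9 / 4 * (σ * ρ))) fun ρ₁ h1 => by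
    by_contra h2
    exact hc ⟨ρ₁, h1, fun ρ hρ => by_contra fun h3 => h2 ⟨ρ, hρ, h3⟩⟩
  obtain ⟨⟨e, he, rfl⟩, hD⟩ := hb r F K' u' hr h0 hF hB h0' hL
  have n0 : n ≠ 0 := by omega
  have hc' : ∀ k, (r k : ℂ) ≠ 0 := fun k => Complex.ofReal_ne_zero.2 (hr k).ne'
  have hn' : ∀ k, ‖(r k : ℂ)‖ = r k := fun k => by rw [Complex.norm_real, Real.norm_of_nonneg (hr k).le]
  have h1 : ∀ k, ∃ w : ℂ, ‖w‖ = 1 ∧ (Near ε n K x (r k) → x + r k * w ∈ K ∧
      ¬ (Dr u (x + r k * w) (r k / 4) ≤ r k / 16 ∧ Lr K (x + r k * w) (σ * r k) ≤ 9 / 4 * (σ * r k))) := fun k => by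
    by_cases hN : Near ε n K x (r k)
    · have h2 := hP k
      simp only [hN, true_and, not_forall] at h2
      obtain ⟨y, hy, h3, h4⟩ := h2
      have e1 : x + r k * ((y - x) / r k) = y := by rw [mul_div_cancel₀ _ (hc' k)]; ring
      refine ⟨(y - x) / r k, by rw [norm_div, h3, hn', div_self (hr k).ne'], fun _ => ?_⟩
      rw [e1]; exact ⟨hy, h4⟩
    · exact ⟨1, norm_one, fun h => absurd h hN⟩
  choose w hw hbad using h1
  have hN : ∀ᶠ k in (F : Filter ℕ), Near ε n K x (r k) :=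
    (hL.lim.near n0 he hε one_pos).mono fun k hk => by simpa using hk.of_rK x (hr k)
  obtain ⟨z, hz, hlim⟩ := (isCompact_sphere (0 : ℂ) 1).ultrafilter_le_nhds (F.map w) (by
    rw [Ultrafilter.coe_map, le_principal_iff, mem_map]
    exact Eventually.of_forall fun k => mem_sphere_zero_iff_norm.2 (hw k))
  rw [mem_sphere_zero_iff_norm] at hz
  have hlim' : ∀ η : ℝ, 0 < η → ∀ᶠ k in (F : Filter ℕ), dist (w k) z < η := Metric.tendsto_nhds.1 hlim
  have hzK : z ∈ Cone n 0 e := by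
    rw [← (isClosed_cone n0 0 e).closure_eq, Metric.mem_closure_iff]
    intro η hη
    obtain ⟨k, k1, k2, k3⟩ := (hN.and ((hlim' (η / 2) (by positivity)).and
      (hL.lim.Khi 2 (η / 2) (by positivity)))).exists
    obtain ⟨z', z1, z2⟩ := k3 (w k) ⟨(hbad k k1).1, by rw [mem_ball_zero_iff, hw]; norm_num⟩
    refine ⟨z', z1, ?_⟩
    have := dist_triangle_left z z' (w k)
    linarith
  have σ0 := hσ.1
  have σ1 := hσ.2
  obtain ⟨k, k1, k2, k3, k4⟩ := (hN.and ((hlim' (σ / 100) (by positivity)).and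
    ((hL.Dhi z (26 / 100) (27 / 100) (1 / 100) (by norm_num) (by norm_num)).and
    (hL.Lhi z (101 / 100 * σ) (102 / 100 * σ) (σ / 10) (by linarith) (by positivity))))).exists
  have rk := hr k
  have d1 : dist (x + r k * w k) (x + r k * z) ≤ r k * (σ / 100) := by
    rw [maff_dist, hn']; exact mul_le_mul_of_nonneg_left k2.le rk.le
  have d2 : dist (x + r k * z) x = r k := by
    rw [dist_eq_norm, add_sub_cancel_left, norm_mul, hn', hz, mul_one]
  have sub : ∀ t, t ≤ 1 → closedBall (x + r k * z) (r k * t) ⊆ U := fun t ht =>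
    (closedBall_subset_closedBall' (by rw [d2]; nlinarith)).trans (hU k)
  refine (hbad k k1).2 ⟨?_, ?_⟩
  · have a1 := h.ms.Dr_mono (y := x + r k * w k) (t := r k / 4) (sub (26 / 100) (by norm_num))
      (ball_subset_ball' (by nlinarith))
    have a2 := hD z (27 / 100) (by norm_num) (by rw [hz]; norm_num)
    rw [hz] at a2
    norm_num at a2
    nlinarith
  · have a1 := h.ms.Lr_mono (y := x + r k * w k) (t := σ * r k) (sub (101 / 100 * σ) (by linarith))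
      (ball_subset_ball' (by nlinarith))
    have a2 := Lr_cone_off hn 0 e z he hzK (t := 102 / 100 * σ) (by positivity) (by rw [sub_zero, hz]; linarith)
    nlinarith [mul_le_mul_of_nonneg_left a2 rk.le, mul_pos rk σ0]

/-- Either `Dr x r > r/8` for all small `r` (`Dhi`, `BL.tip`, `starHyp_of`), or `Dr x r ≤ r/8` for arbitrarily small `r`; then `dich_D` gives `Dr x s ≤ s/2` for all
small `s`, and either `Lr x t ≤ 2.1 t` for arbitrarily small `t` (`FlatHyp`) or `Lr x t > 2.1 t` for all small `t` (`BL.D_zero`, `BL.prop`, `Glob.Dr_zero`). -/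
theorem trichotomy {U K : Set ℂ} {a b : ℝ} {u : ℂ → ℝ} (h : Abs U a b K u) {x : ℂ} (hx : x ∈ K ∩ U) :
    FlatHyp K u x ∨ StarHyp 1 K u x ∨ StarHyp 3 K u x := by
  have ev : ∀ {r : ℕ → ℝ}, Tendsto r atTop (𝓝 0) → ∀ t c : ℝ, 0 < c → ∀ᶠ k in atTop, r k * t ≤ c :=
    fun hr t c hc => by
      have := hr.mul_const t
      rw [zero_mul] at this
      exact this.eventually (ge_mem_nhds hc)
  by_cases h1 : ∃ r₁ : ℝ, 0 < r₁ ∧ ∀ r ∈ Ioc 0 r₁, r / 8 < Dr u x r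
  · obtain ⟨r₁, hr₁, h1⟩ := h1
    refine Or.inr (Or.inl (starHyp_of h hx (Or.inl rfl) fun r F K' u' hr h0 hF hB hK hL => ?_))
    simpa only [sub_zero] using hB.tip hK (θ := 1 / 16) (by norm_num) fun t ht =>
      le_of_forall_pos_le_add fun η hη => by
        obtain ⟨k, e1, e2⟩ := ((hL.Dhi 0 (t / 2) t η (half_lt_self ht) hη).and (hF (ev h0 (t / 2) r₁ hr₁))).exists
        rw [mul_zero, add_zero] at e1
        refine le_of_mul_le_mul_left ?_ (hr k)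
        linarith [h1 _ ⟨mul_pos (hr k) (half_pos ht), e2⟩]
  have h2 : ∀ r₁ : ℝ, 0 < r₁ → ∃ r ∈ Ioc 0 r₁, Dr u x r ≤ r / 8 := fun r₁ hr₁ => by
    by_contra h3
    exact h1 ⟨r₁, hr₁, fun r hr => not_le.1 fun h4 => h3 ⟨r, hr, h4⟩⟩
  by_cases h3 : ∃ t₁ : ℝ, 0 < t₁ ∧ ∀ t ∈ Ioc 0 t₁, 21 / 10 * t < Lr K x t
  · obtain ⟨t₁, ht₁, h3⟩ := h3
    obtain ⟨δ, hδ, H⟩ := dich_D
    obtain ⟨r₀, hr₀, hS⟩ := exists_Sm h.ms.isOpen hx.2 a b hδ
    obtain ⟨ρ, hρ, hD⟩ := h2 r₀ hr₀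
    have h4 := H U K a b u h x hx.1 ρ hρ.1 (hS x (mem_ball_self hr₀) ρ hρ) (by linarith [hρ.1])
    refine Or.inr (Or.inr (starHyp_of h hx (Or.inr rfl) fun r F K' u' hr h0 hF hB hK hL => ?_))
    have hz := hB.D_zero hK one_half_lt_one fun t ht => le_of_forall_pos_le_add fun η hη => by
      obtain ⟨k, e1, e2⟩ := ((hL.Dlo 0 t η hη).and (hF (ev h0 t ρ hρ.1))).exists
      rw [mul_zero, add_zero] at e1
      refine le_of_mul_le_mul_left ?_ (hr k)
      linarith [h4 _ ⟨mul_pos (hr k) ht, e2⟩]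
    refine ⟨hB.prop hz hK (θ := 41 / 20) (by norm_num) fun t ht => le_of_forall_pos_le_add fun η hη => ?_,
      fun y t ht hy => ?_⟩
    · obtain ⟨k, e1, e2⟩ := ((hL.Lhi 0 (41 / 42 * t) t η (by linarith) hη).and
        (hF (ev h0 (41 / 42 * t) t₁ ht₁))).exists
      rw [mul_zero, add_zero] at e1
      refine le_of_mul_le_mul_left ?_ (hr k)
      linarith [h3 _ ⟨mul_pos (hr k) (by positivity), e2⟩]
    · rw [hB.1.Dr_zero hz]
      exact div_nonneg (sq_nonneg _) (by linarith)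
  · refine Or.inl fun r₀ σ hr₀ hσ => ?_
    obtain ⟨r, hr, hD⟩ := h2 r₀ hr₀
    by_contra h4
    exact h3 ⟨σ * r, mul_pos hσ hr.1, fun t ht => not_le.1 fun h5 => h4 ⟨r, hr, t, ht, hD, h5⟩⟩

end Crest.Agent.R135
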