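import Mathlib
/-!
# Row 135 (Mumford–Shah regularity, S0185): definitions

Everything is done in `ℂ` (real inner product `inner ℝ a b = (b * conj a).re`, `Complex.inner`);
`gradient u z : ℂ`. Owner: helper28. See `ideas` (rid 135) for the blueprint.
-/
set_option autoImplicit false
open MeasureTheory Metric Set Filter Topology
open scoped ENNReal NNReal Real ComplexConjugate

namespace Crest.Agent.R135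

/-- length measure -/
noncomputable abbrev H1 : Measure ℂ := Measure.hausdorffMeasure 1

/-- Dirichlet energy of the pointwise gradient on `S` (the singular set is Lebesgue-null whenever it matters). -/
noncomputable def Dir (w : ℂ → ℝ) (S : Set ℂ) : ℝ≥0∞ := ∫⁻ z in S, ‖gradient w z‖ₑ ^ 2

/-- Mumford–Shah energy without fidelity term -/
noncomputable def En (K : Set ℂ) (w : ℂ → ℝ) (S : Set ℂ) : ℝ≥0∞ := Dir w S + H1 (K ∩ S)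

/-- locally constant at every point of (the open set) `W` -/
def LC (W : Set ℂ) (Λ : ℂ → ℝ) : Prop := ∀ z ∈ W, ∀ᶠ y in 𝓝 z, Λ y = Λ z

/-- `(K', w)` is a competitor of `(K, u)` in `closedBall x ρ` (inside the domain `U`). -/
structure Comp (U K : Set ℂ) (u : ℂ → ℝ) (K' : Set ℂ) (w : ℂ → ℝ) (x : ℂ) (ρ : ℝ) : Prop where
  closed : IsClosed K'
  eqK : K' \ closedBall x ρ = K \ closedBall x ρ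
  eqw : EqOn w u ((U \ K') \ closedBall x ρ)
  lip : LocallyLipschitzOn (U \ K') w

/-- Bonnet's topological condition: `K'` keeps the separations of `K` outside the ball. -/
def Adm (U K K' : Set ℂ) (x : ℂ) (ρ : ℝ) : Prop :=
  ∀ Λ : ℂ → ℝ, LC (U \ K) Λ → ∃ Λ' : ℂ → ℝ, LC (U \ K') Λ' ∧ EqOn Λ' Λ ((U \ K') \ closedBall x ρ)

/-- the error coming from the fidelity term -/
noncomputable def Err (a b : ℝ) (u w : ℂ → ℝ) (S : Set ℂ) : ℝ≥0∞ :=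
  ENNReal.ofReal a * ∫⁻ z in S, ENNReal.ofReal (min |w z - u z| b)

/-- (almost) minimizer among topologically admissible competitors -/
structure MS (U : Set ℂ) (a b : ℝ) (K : Set ℂ) (u : ℂ → ℝ) : Prop where
  isOpen : IsOpen U
  closed : IsClosed K
  a0 : 0 ≤ a
  b0 : 0 ≤ b
  c1 : ContDiffOn ℝ 1 u (U \ K)
  osc : ∀ z ∈ U \ K, a * |u z| ≤ a * b / 2
  min : ∀ (K' : Set ℂ) (w : ℂ → ℝ) (x : ℂ) (ρ : ℝ), closedBall x ρ ⊆ U → Comp U K u K' w x ρ →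
    Adm U K K' x ρ →
    En K u (closedBall x ρ) ≤ En K' w (closedBall x ρ) + Err a b u w (closedBall x ρ)

/-- reduced absolute (almost) minimizer: all competitors are allowed -/
structure Abs (U : Set ℂ) (a b : ℝ) (K : Set ℂ) (u : ℂ → ℝ) : Prop where
  ms : MS U a b K u
  amin : ∀ (K' : Set ℂ) (w : ℂ → ℝ) (x : ℂ) (ρ : ℝ), closedBall x ρ ⊆ U → Comp U K u K' w x ρ →
    En K u (closedBall x ρ) ≤ En K' w (closedBall x ρ) + Err a b u w (closedBall x ρ)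
  red : ∀ y ∈ K ∩ U, ∀ t : ℝ, 0 < t → 0 < H1 (K ∩ ball y t)

/-- real Dirichlet energy on the open ball -/
noncomputable def Dr (u : ℂ → ℝ) (x : ℂ) (r : ℝ) : ℝ := (Dir u (ball x r)).toReal

/-- real length in the open ball -/
noncomputable def Lr (K : Set ℂ) (x : ℂ) (r : ℝ) : ℝ := (H1 (K ∩ ball x r)).toReal

/-- global minimizer (Bonnet) with a density lower bound -/
structure Glob (K : Set ℂ) (u : ℂ → ℝ) : Prop where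
  ms : MS univ 0 0 K u
  dlb : ∃ c : ℝ, 0 < c ∧ ∀ y ∈ K, ∀ t : ℝ, 0 < t → c * t ≤ Lr K y t

/-- angular derivative `d/dφ u (circleMap x ρ φ)` -/
noncomputable def cp (u : ℂ → ℝ) (x : ℂ) (ρ φ : ℝ) : ℝ :=
  inner ℝ (gradient u (circleMap x ρ φ)) (Complex.I * (circleMap x ρ φ - x))

/-- `ρ ∂_ρ u` on the circle -/
noncomputable def cq (u : ℂ → ℝ) (x : ℂ) (ρ φ : ℝ) : ℝ :=
  inner ℝ (gradient u (circleMap x ρ φ)) (circleMap x ρ φ - x)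

/-- `∫_{∂B_ρ} |∇u|²` -/
noncomputable def ce (u : ℂ → ℝ) (x : ℂ) (ρ : ℝ) : ℝ :=
  ρ * ∫ φ in (-π)..π, ‖gradient u (circleMap x ρ φ)‖ ^ 2

/-- `∫_{∂B_ρ} |∇u|` -/
noncomputable def ce1 (u : ℂ → ℝ) (x : ℂ) (ρ : ℝ) : ℝ :=
  ρ * ∫ φ in (-π)..π, ‖gradient u (circleMap x ρ φ)‖

/-- the vector `J = ∫_{∂B_ρ} (2 ∂_ν u ∇u - |∇u|² ν)` -/
noncomputable def cJ (u : ℂ → ℝ) (x : ℂ) (ρ : ℝ) : ℂ :=
  ρ * ∫ φ in (-π)..π, gradient u (circleMap x ρ φ) ^ 2 * Complex.exp (-(φ * Complex.I))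

/-- good radius -/
structure Good (K : Set ℂ) (u : ℂ → ℝ) (x : ℂ) (ρ : ℝ) : Prop where
  pos : 0 < ρ
  fin : (K ∩ sphere x ρ).Finite
  int : IntervalIntegrable (fun φ => ‖gradient u (circleMap x ρ φ)‖ ^ 2) volume (-π) π
  der : HasDerivAt (Dr u x) (ce u x ρ) ρ

/-- test functions cracked along `K` (whole plane) -/
structure Tst (K : Set ℂ) (ψ : ℂ → ℝ) : Prop where
  lip : LocallyLipschitzOn Kᶜ ψ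
  supp : ∃ R : ℝ, ∀ z ∉ K, R ≤ ‖z‖ → ψ z = 0
  fin : Dir ψ univ < ⊤

/-- `F` is orthogonal to the gradients of test functions cracked along `K` -/
def Orth (K : Set ℂ) (F : ℂ → ℂ) : Prop :=
  ∀ ψ : ℂ → ℝ, Tst K ψ → ∫ z, inner ℝ (F z) (gradient ψ z) = 0

/-- Laplacian -/
noncomputable def lap (η : ℂ → ℝ) (z : ℂ) : ℝ :=
  fderiv ℝ (fun y => fderiv ℝ η y 1) z 1 + fderiv ℝ (fun y => fderiv ℝ η y Complex.I) z Complex.I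

/-- Newtonian potential -/
noncomputable def NP (f : ℂ → ℝ) (z : ℂ) : ℝ := ∫ w, f (z - w) * (Real.log ‖w‖ / (2 * π))

/-- flux between `p` and `q` -/
noncomputable def kI (F : ℂ → ℂ) (p q : ℂ) : ℝ := ∫ z, (F z * ((z - p)⁻¹ - (z - q)⁻¹)).im

/-- rescaled set -/
def rK (x c : ℂ) (K : Set ℂ) : Set ℂ := (fun z => x + c * z) ⁻¹' K

/-- rescaled function -/
noncomputable def ru (x c : ℂ) (u : ℂ → ℝ) : ℂ → ℝ := fun z => u (x + c * z) / √‖c‖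

/-- smallness of the scale `r` at `y` -/
structure Sm (δ : ℝ) (U : Set ℂ) (a b : ℝ) (y : ℂ) (r : ℝ) : Prop where
  sub : ball y (r / δ) ⊆ U
  a1 : a * (r * √r) ≤ δ
  ab : a * b * r ≤ δ

/-- sequence of absolute almost minimizers exhausting the plane with vanishing errors -/
structure Sq (U : ℕ → Set ℂ) (a b : ℕ → ℝ) (K : ℕ → Set ℂ) (u : ℕ → ℂ → ℝ) : Prop where
  abs : ∀ k, Abs (U k) (a k) (b k) (K k) (u k)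
  big : ∀ R : ℝ, ∀ᶠ k in atTop, ball (0 : ℂ) R ⊆ U k
  a0 : Tendsto a atTop (𝓝 0)
  ab0 : Tendsto (fun k => a k * b k) atTop (𝓝 0)

/-- soft convergence (Kuratowski for the sets, `C¹_loc` up to constants for the functions) -/
structure Cv (F : Filter ℕ) (K : ℕ → Set ℂ) (u : ℕ → ℂ → ℝ) (K' : Set ℂ) (u' : ℂ → ℝ) : Prop where
  closed : IsClosed K'
  c1 : ContDiffOn ℝ 1 u' K'ᶜ
  Klo : ∀ z ∈ K', ∀ η : ℝ, 0 < η → ∀ᶠ k in F, ∃ y ∈ K k, dist y z < η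
  Khi : ∀ R η : ℝ, 0 < η → ∀ᶠ k in F, ∀ y ∈ K k ∩ ball (0 : ℂ) R, ∃ z ∈ K', dist y z < η
  grad : TendstoLocallyUniformlyOn (fun k => gradient (u k)) (gradient u') F K'ᶜ
  val : ∃ Λ : ℕ → ℂ → ℝ, (∀ k, LC K'ᶜ (Λ k)) ∧
    TendstoLocallyUniformlyOn (fun k z => u k z - Λ k z) u' F K'ᶜ

/-- convergence of energies and sets -/
structure Lim (F : Filter ℕ) (K : ℕ → Set ℂ) (u : ℕ → ℂ → ℝ) (K' : Set ℂ) (u' : ℂ → ℝ) : Prop where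
  Klo : ∀ z ∈ K', ∀ η : ℝ, 0 < η → ∀ᶠ k in F, ∃ y ∈ K k, dist y z < η
  Khi : ∀ R η : ℝ, 0 < η → ∀ᶠ k in F, ∀ y ∈ K k ∩ ball (0 : ℂ) R, ∃ z ∈ K', dist y z < η
  Dlo : ∀ (z : ℂ) (t η : ℝ), 0 < η → ∀ᶠ k in F, Dr u' z t ≤ Dr (u k) z t + η
  Dhi : ∀ (z : ℂ) (t t' η : ℝ), t < t' → 0 < η → ∀ᶠ k in F, Dr (u k) z t ≤ Dr u' z t' + η
  Llo : ∀ (z : ℂ) (t η : ℝ), 0 < η → ∀ᶠ k in F, Lr K' z t ≤ Lr (K k) z t + η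
  Lhi : ∀ (z : ℂ) (t t' η : ℝ), t < t' → 0 < η → ∀ᶠ k in F, Lr (K k) z t ≤ Lr K' z t' + η

/-- blow-up limits -/
def BL (K' : Set ℂ) (u' : ℂ → ℝ) : Prop :=
  Glob K' u' ∧ ∃ (U : ℕ → Set ℂ) (a b : ℕ → ℝ) (K : ℕ → Set ℂ) (u : ℕ → ℂ → ℝ) (F : Ultrafilter ℕ),
    Sq U a b K u ∧ (F : Filter ℕ) ≤ atTop ∧ Lim F K u K' u'

/-- ray (`n = 1`), line (`n = 2`), propeller (`n = 3`) centred at `x` -/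
def Cone (n : ℕ) (x e : ℂ) : Set ℂ :=
  {z | ∃ s : ℝ, 0 ≤ s ∧ ∃ ζ : ℂ, ζ ^ n = 1 ∧ z = x + s * e * ζ}

/-- `K` is bilaterally `ε t`-close to a cone in `ball x t` -/
def Near (ε : ℝ) (n : ℕ) (K : Set ℂ) (x : ℂ) (t : ℝ) : Prop :=
  ∃ e : ℂ, ‖e‖ = 1 ∧ (∀ z ∈ K ∩ ball x t, ∃ w ∈ Cone n x e, dist z w ≤ ε * t) ∧
    ∀ w ∈ Cone n x e ∩ ball x t, ∃ z ∈ K, dist z w ≤ ε * t

/-- flat at all scales below `r` -/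
def FG (ε : ℝ) (K : Set ℂ) (y : ℂ) (r : ℝ) : Prop :=
  ∀ t ∈ Ioc 0 r, Lr K y t ≤ (2 + ε) * t ∧ Near ε 2 K y t

/-- tangent line with a Hölder rate -/
def Tan (C α : ℝ) (K : Set ℂ) (y : ℂ) (r : ℝ) (τ : ℂ) : Prop :=
  ‖τ‖ = 1 ∧ ∀ z ∈ K, |((z - y) * conj τ).im| ≤ C * (‖z - y‖ / r) ^ α * ‖z - y‖

/-- hypothesis at tips (`n = 1`) and triple points (`n = 3`) -/
def StarHyp (n : ℕ) (K : Set ℂ) (u : ℂ → ℝ) (x : ℂ) : Prop :=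
  ∀ ε : ℝ, 0 < ε → ∀ σ ∈ Ioc (0 : ℝ) (1 / 4), ∃ ρ₁ : ℝ, 0 < ρ₁ ∧ ∀ ρ ∈ Ioc 0 ρ₁,
    Near ε n K x ρ ∧ ∀ y ∈ K, ‖y - x‖ = ρ → Dr u y (ρ / 4) ≤ ρ / 16 ∧ Lr K y (σ * ρ) ≤ 9 / 4 * (σ * ρ)

/-- hypothesis at flat points -/
def FlatHyp (K : Set ℂ) (u : ℂ → ℝ) (x : ℂ) : Prop :=
  ∀ r₀ σ : ℝ, 0 < r₀ → 0 < σ → ∃ r ∈ Ioc 0 r₀, ∃ t ∈ Ioc 0 (σ * r), Dr u x r ≤ r / 8 ∧ Lr K x t ≤ 21 / 10 * t

/-- `K` near `x` is `n` radially parametrised Lipschitz arcs with tangent lines -/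
structure Arcs (n : ℕ) (K : Set ℂ) (x : ℂ) (ρ₀ C α σ : ℝ) (p τ : Fin n → ℝ → ℂ) : Prop where
  pos : 0 < ρ₀
  C0 : 0 ≤ C
  α0 : 0 < α
  σ0 : 0 < σ
  ctr : x ∈ K
  mem : ∀ j, ∀ ρ ∈ Ioc 0 ρ₀, p j ρ ∈ K
  nrm : ∀ j, ∀ ρ ∈ Ioc 0 ρ₀, ‖p j ρ - x‖ = ρ
  all : ∀ z ∈ K ∩ closedBall x ρ₀, z = x ∨ ∃ j, z = p j ‖z - x‖
  inj : ∀ j k, j ≠ k → ∀ ρ ∈ Ioc 0 ρ₀, p j ρ ≠ p k ρ
  lip : ∀ j, LipschitzOnWith 2 (p j) (Ioc 0 ρ₀)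
  tan : ∀ j, ∀ ρ ∈ Ioc 0 ρ₀, Tan C α K (p j ρ) (σ * ρ) (τ j ρ)
  rad : ∀ j, ∀ ρ ∈ Ioc 0 ρ₀, ρ / 2 ≤ (τ j ρ * conj (p j ρ - x)).re
  ang : ∀ ε : ℝ, 0 < ε → ∃ ρ₁ : ℝ, 0 < ρ₁ ∧ ∀ ρ ∈ Ioc 0 ρ₀, ρ ≤ ρ₁ → ∀ j k, j ≠ k →
    |((p j ρ - x) * conj (p k ρ - x)).re + ρ ^ 2 / 2| ≤ ε * ρ ^ 2

/-- `K` near `x` is one radially parametrised `C¹` arc -/
structure Arc1 (K : Set ℂ) (x : ℂ) (ρ₀ : ℝ) (p p' : ℝ → ℂ) : Prop where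
  pos : 0 < ρ₀
  mem : ∀ ρ ∈ Ioc 0 ρ₀, p ρ ∈ K
  nrm : ∀ ρ ∈ Ioc 0 ρ₀, ‖p ρ - x‖ = ρ
  all : ∀ z ∈ K ∩ closedBall x ρ₀, z = x ∨ z = p ‖z - x‖
  der : ∀ ρ ∈ Ioc 0 ρ₀, HasDerivWithinAt p (p' ρ) (Ioc 0 ρ₀) ρ
  cont : ContinuousOn p' (Ioc 0 ρ₀)
  bdd : ∀ ρ ∈ Ioc 0 ρ₀, ‖p' ρ‖ ≤ 2

/-- convergence rate of the directions of the arcs -/
def Rate {n : ℕ} (x : ℂ) (ρ₀ : ℝ) (p : Fin n → ℝ → ℂ) : Prop :=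
  ∃ β : ℝ, 0 < β ∧ ∃ (C : ℝ) (e : Fin n → ℂ), ∀ j, ∀ ρ ∈ Ioc 0 ρ₀, ‖(p j ρ - x) / ρ - e j‖ ≤ C * ρ ^ β

/-- island: a filled compact piece of `K` -/
structure Isl (K Q : Set ℂ) : Prop where
  cpt : IsCompact Q
  conn : IsPreconnected Qᶜ
  front : frontier Q ⊆ K
  ne : (K ∩ Q).Nonempty
  closed : IsClosed (K \ Q)

/-- Earnshaw's splitting `u = a + b`, `a` harmonic off `K ∩ Q` and decaying, `b` harmonic off `K \ Q` -/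
structure Split (K Q : Set ℂ) (u a b : ℂ → ℝ) : Prop where
  sum : ∀ z ∉ K, u z = a z + b z
  ca : ContDiffOn ℝ 2 a (K ∩ Q)ᶜ
  ha : DifferentiableOn ℂ (fun z => conj (gradient a z)) (K ∩ Q)ᶜ
  cb : ContDiffOn ℝ 2 b (K \ Q)ᶜ
  hb : DifferentiableOn ℂ (fun z => conj (gradient b z)) (K \ Q)ᶜ
  dec : ∃ A R : ℝ, 0 < R ∧ ∀ z : ℂ, R ≤ ‖z‖ → |a z| ≤ A / ‖z‖ ∧ ‖gradient a z‖ ≤ A / ‖z‖ ^ 2
  fin : Dir a univ < ⊤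
  grow : ∃ A : ℝ, ∀ R : ℝ, 1 ≤ R → Dir b (ball 0 R) ≤ ENNReal.ofReal (A * R)

/-! ### complex mirror of the statement -/

/-- weak gradient -/
def WG (Ω : Set ℂ) (v : ℂ → ℝ) (G : ℂ → ℂ) : Prop :=
  LocallyIntegrableOn v Ω ∧ LocallyIntegrableOn G Ω ∧
    ∀ φ : ℂ → ℝ, ContDiff ℝ (⊤ : ℕ∞) φ → HasCompactSupport φ → tsupport φ ⊆ Ω → ∀ d : ℂ,
      ∫ z in Ω, v z * fderiv ℝ φ z d = - ∫ z in Ω, inner ℝ (G z) d * φ z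

def AdmP (Ω : Set ℂ) (u : ℂ → ℝ) (K : Set ℂ) (G : ℂ → ℂ) : Prop :=
  K ⊆ Ω ∧ closure K ∩ Ω ⊆ K ∧ H1 K < ⊤ ∧ MemLp u 2 (volume.restrict Ω) ∧ WG (Ω \ K) u G ∧
    (∫⁻ x in Ω \ K, ‖G x‖ₑ ^ 2) < ⊤

noncomputable def msE (g u : ℂ → ℝ) (K : Set ℂ) (G : ℂ → ℂ) (V : Set ℂ) : ℝ≥0∞ :=
  (∫⁻ x in V \ K, ‖G x‖ₑ ^ 2) + H1 (K ∩ V) + ∫⁻ x in V, ‖u x - g x‖ₑ ^ 2

structure Raw (Ω : Set ℂ) (g : ℂ → ℝ) (M : ℝ) (u : ℂ → ℝ) (K : Set ℂ) (G : ℂ → ℂ) : Prop where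
  isOpen : IsOpen Ω
  bdd : Bornology.IsBounded Ω
  meas : Measurable g
  gle : ∀ x ∈ Ω, |g x| ≤ M
  adm : AdmP Ω u K G
  min : ∀ V : Set ℂ, IsOpen V → IsCompact (closure V) → closure V ⊆ Ω →
    ∀ (w : ℂ → ℝ) (L : Set ℂ) (H : ℂ → ℂ), AdmP Ω w L H →
      (∃ C : Set ℂ, IsCompact C ∧ C ⊆ V ∧ symmDiff L K ⊆ C ∧ ∀ᵐ x ∂volume, x ∉ C → w x = u x) →
        msE g u K G V ≤ msE g w L H V
  red : ∀ x ∈ K, ∀ r : ℝ, 0 < r → closedBall x r ⊆ Ω → 0 < H1 (K ∩ ball x r)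

def HArc (α : ℝ≥0) (γ γ' : ℝ → ℂ) : Prop :=
  InjOn γ (Icc 0 1) ∧ (∀ t ∈ Icc (0 : ℝ) 1, HasDerivWithinAt γ (γ' t) (Icc 0 1) t) ∧
    (∀ t ∈ Icc (0 : ℝ) 1, γ' t ≠ 0) ∧ ∃ C : ℝ≥0, HolderOnWith C α γ' (Icc 0 1)

def IntPt (Ω K : Set ℂ) (x : ℂ) : Prop :=
  ∃ N : Set ℂ, IsOpen N ∧ N ⊆ Ω ∧ x ∈ N ∧ ∃ α : ℝ≥0, 0 < α ∧ ∃ γ γ' : ℝ → ℂ, HArc α γ γ' ∧
    K ∩ N = γ '' Ioo 0 1 ∧ x ∈ γ '' Ioo 0 1

def EndPt (Ω K : Set ℂ) (x : ℂ) : Prop :=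
  ∃ N : Set ℂ, IsOpen N ∧ N ⊆ Ω ∧ x ∈ N ∧ ∃ α : ℝ≥0, 0 < α ∧ ∃ γ γ' : ℝ → ℂ, HArc α γ γ' ∧
    K ∩ N = γ '' Ico 0 1 ∧ γ 0 = x

def TriPt (Ω K : Set ℂ) (x : ℂ) : Prop :=
  ∃ N : Set ℂ, IsOpen N ∧ N ⊆ Ω ∧ x ∈ N ∧ ∃ α : ℝ≥0, 0 < α ∧ ∃ γ γ' : Fin 3 → ℝ → ℂ,
    (∀ k, HArc α (γ k) (γ' k)) ∧ (∀ k, γ k 0 = x) ∧ K ∩ N = ⋃ k, γ k '' Ico 0 1 ∧
    (∀ j k, j ≠ k → γ j '' Ico 0 1 ∩ γ k '' Ico 0 1 = {x}) ∧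
    ∀ j k, j ≠ k → inner ℝ (γ' j 0) (γ' k 0) = -(1 / 2 : ℝ) * (‖γ' j 0‖ * ‖γ' k 0‖)

def LocStr (Ω K : Set ℂ) (x : ℂ) : Prop := IntPt Ω K x ∨ EndPt Ω K x ∨ TriPt Ω K x

end Crest.Agent.R135
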