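import Crest.Agent.R135.Defs
import Crest.Agent.R135.TLen
import Crest.Agent.R135.TCone
set_option autoImplicit false
open MeasureTheory Metric Set Filter Topology
open scoped ENNReal NNReal Real ComplexConjugate

namespace Crest.Agent.R135

/-- flatness at all points and scales near `y` -/
structure FH (ε : ℝ) (K : Set ℂ) (y : ℂ) (r : ℝ) : Prop where
  closed : IsClosed K
  mem : y ∈ K
  pos : 0 < r
  fg : ∀ y' ∈ K ∩ ball y r, FG ε K y' r

theorem FH.mono {ε : ℝ} {K : Set ℂ} {y : ℂ} {r s : ℝ} (h : FH ε K y r) (hs : 0 < s) (hsr : s ≤ r) : FH ε K y s := by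
  exact ⟨h.closed, h.mem, hs, fun y' hy t ht =>
    h.fg y' ⟨hy.1, ball_subset_ball hsr hy.2⟩ t ⟨ht.1, ht.2.trans hsr⟩⟩

theorem FH.move {ε : ℝ} {K : Set ℂ} {y y' : ℂ} {r : ℝ} (h : FH ε K y r) (hy : y' ∈ K ∩ ball y (r / 2)) :
    FH ε K y' (r / 2) := by
  refine ⟨h.closed, hy.1, half_pos h.pos, fun z hz t ht => h.fg z ⟨hz.1, ?_⟩ t
    ⟨ht.1, ht.2.trans (half_le_self h.pos.le)⟩⟩
  exact ball_subset_ball' (by linarith [mem_ball.1 hy.2]) hz.2

theorem fconn_mid {ε : ℝ} (hε : ε ≤ 1 / 100) {K : Set ℂ} {y : ℂ} {r : ℝ} (h : FH ε K y r) {p q : ℂ} (hp : p ∈ K)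
    (hq : q ∈ K) (hr : dist p y + 2 * ‖p - q‖ < r) : ∃ m ∈ K, ‖m - (p + q) / 2‖ ≤ 3 * ε * ‖p - q‖ := by
  rcases eq_or_ne p q with rfl | hne
  · exact ⟨p, hp, by simp⟩
  have hd : 0 < ‖p - q‖ := norm_pos_iff.2 (sub_ne_zero.2 hne)
  obtain ⟨e, he, h1, h2⟩ := (h.fg p ⟨hp, mem_ball.2 (by linarith)⟩ (2 * ‖p - q‖)
    ⟨by positivity, by linarith [dist_nonneg (x := p) (y := y)]⟩).2
  obtain ⟨w, hw, h3⟩ := h1 q ⟨hq, by rw [mem_ball, dist_comm, dist_eq_norm]; linarith⟩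
  obtain ⟨s, rfl⟩ := (mem_cone_two _ _ _).1 hw
  rw [dist_eq_norm] at h3
  have e1 : ‖(q - (p + s * e)) / 2‖ = ‖q - (p + s * e)‖ / 2 := by simp
  have e0 : ‖(p - q) / 2‖ = ‖p - q‖ / 2 := by simp
  have e3 := mul_le_mul_of_nonneg_right hε hd.le
  obtain ⟨m, hm, h4⟩ := h2 (p + ((s / 2 : ℝ) : ℂ) * e) ⟨(mem_cone_two _ _ _).2 ⟨_, rfl⟩, by
    rw [mem_ball, dist_eq_norm, show p + ((s / 2 : ℝ) : ℂ) * e - p = -((p - q) / 2 + (q - (p + s * e)) / 2) by
      push_cast; ring, norm_neg]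
    linarith [norm_add_le ((p - q) / 2) ((q - (p + s * e)) / 2)]⟩
  refine ⟨m, hm, ?_⟩
  rw [dist_eq_norm] at h4
  rw [show m - (p + q) / 2 = (m - (p + ((s / 2 : ℝ) : ℂ) * e)) - (q - (p + s * e)) / 2 by push_cast; ring]
  linarith [norm_sub_le (m - (p + ((s / 2 : ℝ) : ℂ) * e)) ((q - (p + s * e)) / 2)]

/-- piecewise linear interpolation of the midpoint chains -/
noncomputable def fconnG (M : ℂ → ℂ → ℂ) : ℕ → ℂ → ℂ → ℝ → ℂ
  | 0, p, q, s => p + s * (q - p)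
  | k + 1, p, q, s => if s ≤ 1 / 2 then fconnG M k p (M p q) (2 * s) else fconnG M k (M p q) q (2 * s - 1)

theorem fconn_end (M : ℂ → ℂ → ℂ) (k : ℕ) : ∀ p q, fconnG M k p q 0 = p ∧ fconnG M k p q 1 = q := by
  induction k with
  | zero => exact fun p q => by simp [fconnG]
  | succ k ih =>
    intro p q
    simp only [fconnG]
    rw [if_pos (by norm_num), if_neg (by norm_num), mul_zero, show (2 : ℝ) * 1 - 1 = 1 by norm_num]
    exact ⟨(ih _ _).1, (ih _ _).2⟩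

theorem fconn_cont (M : ℂ → ℂ → ℂ) (k : ℕ) : ∀ p q, Continuous (fconnG M k p q) := by
  induction k with
  | zero => exact fun p q => show Continuous fun s : ℝ => p + s * (q - p) by fun_prop
  | succ k ih =>
    intro p q
    show Continuous fun s : ℝ =>
      if s ≤ 1 / 2 then fconnG M k p (M p q) (2 * s) else fconnG M k (M p q) q (2 * s - 1)
    refine Continuous.if_le ((ih _ _).comp (by fun_prop)) ((ih _ _).comp (by fun_prop)) continuous_id
      continuous_const fun s hs => ?_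
    rw [hs, show (2 : ℝ) * (1 / 2) = 1 by norm_num, sub_self, (fconn_end M k _ _).1, (fconn_end M k _ _).2]

theorem fconn_step {M : ℂ → ℂ → ℂ} {R : ℂ → ℂ → Prop} {c l : ℝ} (hc0 : 0 ≤ c)
    (hM : ∀ p q, R p q → ‖M p q - (p + q) / 2‖ ≤ c * ‖p - q‖)
    (hc : ∀ p q, R p q → (R p (M p q) ∧ ‖p - M p q‖ ≤ l * ‖p - q‖) ∧ R (M p q) q ∧ ‖M p q - q‖ ≤ l * ‖p - q‖)
    (k : ℕ) : ∀ p q, R p q → ∀ s ∈ Icc (0 : ℝ) 1,
      ‖fconnG M (k + 1) p q s - fconnG M k p q s‖ ≤ c * ‖p - q‖ * |l| ^ k := by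
  induction k with
  | zero =>
    intro p q h s hs
    simp only [fconnG, pow_zero, mul_one]
    have key : ∀ t : ℝ, 0 ≤ t → t ≤ 1 → ‖(t : ℂ) * (M p q - (p + q) / 2)‖ ≤ c * ‖p - q‖ := fun t h0 h1 => by
      rw [norm_mul, Complex.norm_real, Real.norm_of_nonneg h0]
      exact (mul_le_of_le_one_left (norm_nonneg _) h1).trans (hM p q h)
    split_ifs with h1
    · refine le_of_eq_of_le (congrArg _ ?_) (key (2 * s) (by linarith [hs.1]) (by linarith))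
      push_cast
      ring
    · refine le_of_eq_of_le (congrArg _ ?_) (key (2 - 2 * s) (by linarith [hs.2]) (by linarith))
      push_cast
      ring
  | succ k ih =>
    intro p q h s hs
    obtain ⟨⟨h1, h2⟩, h3, h4⟩ := hc p q h
    have key : ∀ d : ℝ, d ≤ l * ‖p - q‖ → c * d * |l| ^ k ≤ c * ‖p - q‖ * |l| ^ (k + 1) := fun d hd => by
      have := hd.trans (mul_le_mul_of_nonneg_right (le_abs_self l) (norm_nonneg _))
      calc _ ≤ c * (|l| * ‖p - q‖) * |l| ^ k := by gcongr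
        _ = _ := by ring
    rw [fconnG, fconnG.eq_2 M p q]
    split_ifs with h5
    · exact (ih _ _ h1 _ ⟨by linarith [hs.1], by linarith⟩).trans (key _ h2)
    · exact (ih _ _ h3 _ ⟨by linarith, by linarith [hs.2]⟩).trans (key _ h4)

theorem fconn_near {M : ℂ → ℂ → ℂ} {R : ℂ → ℂ → Prop} {K : Set ℂ} {l : ℝ} (hl : 0 ≤ l) (hK : ∀ p q, R p q → p ∈ K)
    (hc : ∀ p q, R p q → (R p (M p q) ∧ ‖p - M p q‖ ≤ l * ‖p - q‖) ∧ R (M p q) q ∧ ‖M p q - q‖ ≤ l * ‖p - q‖)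
    (k : ℕ) : ∀ p q, R p q → ∀ s ∈ Icc (0 : ℝ) 1, ∃ z ∈ K, ‖fconnG M k p q s - z‖ ≤ l ^ k * ‖p - q‖ := by
  induction k with
  | zero =>
    refine fun p q h s hs => ⟨p, hK p q h, ?_⟩
    rw [fconnG, add_sub_cancel_left, norm_mul, Complex.norm_real, Real.norm_of_nonneg hs.1, pow_zero, norm_sub_rev]
    exact mul_le_mul_of_nonneg_right hs.2 (norm_nonneg _)
  | succ k ih =>
    intro p q h s hs
    obtain ⟨⟨h1, h2⟩, h3, h4⟩ := hc p q h
    rw [fconnG, pow_succ, mul_assoc]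
    split_ifs with h5
    · exact (ih _ _ h1 _ ⟨by linarith [hs.1], by linarith⟩).imp fun z hz =>
        ⟨hz.1, hz.2.trans (mul_le_mul_of_nonneg_left h2 (pow_nonneg hl k))⟩
    · exact (ih _ _ h3 _ ⟨by linarith, by linarith [hs.2]⟩).imp fun z hz =>
        ⟨hz.1, hz.2.trans (mul_le_mul_of_nonneg_left h4 (pow_nonneg hl k))⟩


/-- Midpoint chains. For `p ≠ q` in `K ∩ ball y r` with `2‖p-q‖ ≤ r`, `Near ε 2 K p (2‖p-q‖)` yields `m ∈ K` with `‖m - (p+q)/2‖ ≤ 3ε‖p-q‖`.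
Iterate on dyadic rationals: gaps `≤ (1/2+3ε)^k ‖p-q‖`, the piecewise linear interpolants converge uniformly (steps `≤ 3ε(1/2+3ε)^k‖p-q‖`), the limit lies in the
closed set `K`. (A slick way: define `M p q` by choice, `γ_{k+1} p q s = if s ≤ 1/2 then γ_k p (M p q) (2s) else γ_k (M p q) q (2s-1)`, prove the bounds by induction on `k`
for all pairs in an invariant region, e.g. pairs with `dist p y + 2‖p - q‖ < r`.) -/
theorem conn_chain {ε : ℝ} (hε0 : 0 ≤ ε) (hε : ε ≤ 1 / 100) {K : Set ℂ} {y : ℂ} {r : ℝ} (h : FH ε K y r) {p q : ℂ}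
    (hp : p ∈ K ∩ ball y (r / 4)) (hq : q ∈ K ∩ ball y (r / 8)) :
    ∃ γ : ℝ → ℂ, ContinuousOn γ (Icc 0 1) ∧ γ 0 = p ∧ γ 1 = q ∧
      ∀ s ∈ Icc (0 : ℝ) 1, γ s ∈ K ∧ ‖γ s - (p + s * (q - p))‖ ≤ 12 * ε * ‖p - q‖ := by
  set R : ℂ → ℂ → Prop := fun p q => p ∈ K ∧ q ∈ K ∧ dist p y + 2 * ‖p - q‖ < r with hR
  have hm : ∀ p q, ∃ m, R p q → m ∈ K ∧ ‖m - (p + q) / 2‖ ≤ 3 * ε * ‖p - q‖ := fun p q => by
    by_cases h1 : R p q
    · obtain ⟨m, h2⟩ := fconn_mid hε h h1.1 h1.2.1 h1.2.2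
      exact ⟨m, fun _ => h2⟩
    · exact ⟨p, fun h2 => (h1 h2).elim⟩
  choose M hM using hm
  have hc : ∀ p q, R p q → (R p (M p q) ∧ ‖p - M p q‖ ≤ (1 / 2 + 3 * ε) * ‖p - q‖) ∧
      R (M p q) q ∧ ‖M p q - q‖ ≤ (1 / 2 + 3 * ε) * ‖p - q‖ := fun p q h1 => by
    obtain ⟨h2, h3⟩ := hM p q h1
    have e0 : ‖(p - q) / 2‖ = ‖p - q‖ / 2 := by simp
    have e1 : ‖p - M p q‖ ≤ (1 / 2 + 3 * ε) * ‖p - q‖ := by
      rw [show p - M p q = (p - q) / 2 - (M p q - (p + q) / 2) by ring]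
      linarith [norm_sub_le ((p - q) / 2) (M p q - (p + q) / 2)]
    have e2 : ‖M p q - q‖ ≤ (1 / 2 + 3 * ε) * ‖p - q‖ := by
      rw [show M p q - q = (p - q) / 2 + (M p q - (p + q) / 2) by ring]
      linarith [norm_add_le ((p - q) / 2) (M p q - (p + q) / 2)]
    have e3 := mul_le_mul_of_nonneg_right hε (norm_nonneg (p - q))
    have e4 := dist_triangle_left (M p q) y p
    rw [dist_eq_norm p (M p q)] at e4
    exact ⟨⟨⟨h1.1, h2, by linarith [h1.2.2, norm_nonneg (p - q)]⟩, e1⟩,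
      ⟨h2, h1.2.1, by linarith [h1.2.2, norm_nonneg (p - q)]⟩, e2⟩
  have h0 : R p q := ⟨hp.1, hq.1, by
    have := dist_triangle_right p q y
    rw [dist_eq_norm p q] at this
    linarith [mem_ball.1 hp.2, mem_ball.1 hq.2]⟩
  have hl0 : 0 ≤ 1 / 2 + 3 * ε := by positivity
  have hl1 : 1 / 2 + 3 * ε < 1 := by linarith
  have hst := fun k => fconn_step (c := 3 * ε) (by positivity) (fun p q h1 => (hM p q h1).2) hc k p q h0
  rw [abs_of_nonneg hl0] at hst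
  have hs := (hasSum_geometric_of_lt_one hl0 hl1).mul_left (3 * ε * ‖p - q‖)
  refine ⟨fun s => fconnG M 0 p q s + ∑' k, (fconnG M (k + 1) p q s - fconnG M k p q s),
    (fconn_cont M 0 p q).continuousOn.add (continuousOn_tsum
      (fun k => ((fconn_cont M _ p q).sub (fconn_cont M _ p q)).continuousOn) hs.summable fun k s hs => hst k s hs),
    by simp [(fconn_end M _ p q).1], by simp [(fconn_end M _ p q).2], fun s hs' => ⟨?_, ?_⟩⟩
  · have t1 := (Summable.of_norm_bounded hs.summable fun k => hst k s hs').hasSum.tendsto_sum_nat.const_add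
      (fconnG M 0 p q s)
    simp only [Finset.sum_range_sub fun k => fconnG M k p q s, add_sub_cancel] at t1
    choose z hz hz' using fun k => fconn_near hl0 (fun p q (h1 : R p q) => h1.1) hc k p q h0 s hs'
    refine h.closed.mem_of_tendsto (t1.congr_dist (squeeze_zero (fun _ => dist_nonneg)
      (fun k => (dist_eq_norm _ _).trans_le (hz' k)) ?_)) (Eventually.of_forall hz)
    simpa only [zero_mul] using (tendsto_pow_atTop_nhds_zero_of_lt_one hl0 hl1).mul_const ‖p - q‖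
  · simp only [fconnG, add_sub_cancel_left]
    refine (tsum_of_norm_bounded hs fun k => hst k s hs').trans ?_
    rw [← div_eq_mul_inv, div_le_iff₀ (by linarith)]
    nlinarith [mul_nonneg hε0 (norm_nonneg (p - q))]

end Crest.Agent.R135
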