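import Crest.Agent.R135.Defs
import Crest.Agent.R135.FConn
set_option autoImplicit false
open MeasureTheory Metric Set Filter Topology
open scoped ENNReal NNReal Real ComplexConjugate

namespace Crest.Agent.R135

theorem farms_coord {y z e : ℂ} (he : ‖e‖ = 1) {s d : ℝ} (h : ‖z - (y + s * e)‖ ≤ d) :
    s - d ≤ ((z - y) * conj e).re ∧ |((z - y) * conj e).im| ≤ d := by
  have e1 : (z - y) * conj e = (z - (y + s * e)) * conj e + s := by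
    have : e * conj e = 1 := by rw [Complex.mul_conj, Complex.normSq_eq_norm_sq, he]; simp
    linear_combination (s : ℂ) * this
  have e2 : ‖(z - (y + s * e)) * conj e‖ ≤ d := by rwa [norm_mul, Complex.norm_conj, he, mul_one]
  rw [e1, Complex.add_re, Complex.add_im, Complex.ofReal_re, Complex.ofReal_im, add_zero]
  exact ⟨by linarith [(abs_le.1 ((Complex.abs_re_le_norm _).trans e2)).1], (Complex.abs_im_le_norm _).trans e2⟩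

theorem farms_one {K : Set ℂ} {y : ℂ} {r : ℝ} (h : FH (1 / 2000) K y r) {ρ : ℝ} (hρ : ρ ∈ Ioc 0 (r / 32))
    {e z : ℂ} (he : ‖e‖ = 1) (hz : z ∈ K) (hd : dist z (y + ((3 * ρ : ℝ) : ℂ) * e) ≤ 1 / 2000 * (4 * ρ)) :
    (∃ C : Set ℂ, IsCompact C ∧ IsPreconnected C ∧ C ⊆ K ∧ y ∈ C ∧ (∀ z ∈ C, |((z - y) * conj e).im| ≤ ρ / 20) ∧
      ∃ q ∈ C, 2 * ρ ≤ ((q - y) * conj e).re) ∧
    ∃ C : Set ℂ, IsCompact C ∧ IsPreconnected C ∧ C ⊆ K ∩ closedBall y ρ ∧ y ∈ C ∧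
      ∃ q ∈ C ∩ sphere y ρ, 99 / 100 * ρ ≤ ((q - y) * conj e).re := by
  have h0 := hρ.1
  have n3 : ‖((3 * ρ : ℝ) : ℂ) * e‖ = 3 * ρ := by
    rw [norm_mul, he, mul_one, Complex.norm_real, Real.norm_of_nonneg (by positivity)]
  rw [dist_eq_norm] at hd
  have n1 := norm_add_le (z - (y + ((3 * ρ : ℝ) : ℂ) * e)) (((3 * ρ : ℝ) : ℂ) * e)
  have n2 := norm_sub_le (z - y) (z - (y + ((3 * ρ : ℝ) : ℂ) * e))
  rw [show z - (y + ((3 * ρ : ℝ) : ℂ) * e) + ((3 * ρ : ℝ) : ℂ) * e = z - y by ring, n3] at n1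
  rw [show z - y - (z - (y + ((3 * ρ : ℝ) : ℂ) * e)) = ((3 * ρ : ℝ) : ℂ) * e by ring, n3] at n2
  obtain ⟨γ, hc, g0, g1, hγ⟩ := conn_chain (by norm_num) (by norm_num) h
    (p := y) (q := z) ⟨h.mem, mem_ball_self (by linarith [h.pos])⟩
    ⟨hz, mem_ball_iff_norm.2 (by linarith [hρ.2])⟩
  have key : ∀ s ∈ Icc (0 : ℝ) 1, s * (3 * ρ) - ρ / 40 ≤ ((γ s - y) * conj e).re ∧
      |((γ s - y) * conj e).im| ≤ ρ / 40 := fun s hs => by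
    refine farms_coord he ?_
    have n4 : ‖(s : ℂ) * (z - (y + ((3 * ρ : ℝ) : ℂ) * e))‖ ≤ 1 / 2000 * (4 * ρ) := by
      rw [norm_mul, Complex.norm_real, Real.norm_of_nonneg hs.1]
      exact (mul_le_of_le_one_left (norm_nonneg _) hs.2).trans hd
    have n5 := (hγ s hs).2
    rw [norm_sub_rev y z] at n5
    rw [show γ s - (y + ((s * (3 * ρ) : ℝ) : ℂ) * e) =
      (γ s - (y + s * (z - y))) + s * (z - (y + ((3 * ρ : ℝ) : ℂ) * e)) by push_cast; ring]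
    linarith [norm_add_le (γ s - (y + s * (z - y))) (s * (z - (y + ((3 * ρ : ℝ) : ℂ) * e)))]
  have hn : ContinuousOn (fun s => ‖γ s - y‖) (Icc 0 1) := (hc.sub continuousOn_const).norm
  have ivt : ∀ t ∈ Icc (0 : ℝ) 1, ρ ≤ ‖γ t - y‖ → ∃ s ∈ Icc 0 t, ‖γ s - y‖ = ρ := fun t ht h1 =>
    intermediate_value_Icc ht.1 (hn.mono (Icc_subset_Icc_right ht.2)) ⟨by simp [g0, h0.le], h1⟩
  obtain ⟨s₀, hs₀, hl⟩ := (isCompact_Icc.of_isClosed_subset (hn.preimage_isClosed_of_isClosed isClosed_Icc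
    (isClosed_singleton (x := ρ))) inter_subset_left).exists_isLeast
    (ivt 1 ⟨zero_le_one, le_rfl⟩ (by rw [g1]; linarith))
  have hsub : Icc 0 s₀ ⊆ Icc (0 : ℝ) 1 := Icc_subset_Icc_right hs₀.1.2
  refine ⟨⟨γ '' Icc 0 1, isCompact_Icc.image_of_continuousOn hc, isPreconnected_Icc.image γ hc, ?_,
    ⟨0, ⟨le_rfl, zero_le_one⟩, g0⟩, ?_, γ 1, ⟨1, ⟨zero_le_one, le_rfl⟩, rfl⟩, ?_⟩,
    γ '' Icc 0 s₀, isCompact_Icc.image_of_continuousOn (hc.mono hsub), isPreconnected_Icc.image γ (hc.mono hsub),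
    ?_, ⟨0, ⟨le_rfl, hs₀.1.1⟩, g0⟩, γ s₀, ⟨⟨s₀, ⟨hs₀.1.1, le_rfl⟩, rfl⟩, mem_sphere_iff_norm.2 hs₀.2⟩, ?_⟩
  · rintro _ ⟨s, hs, rfl⟩
    exact (hγ s hs).1
  · rintro _ ⟨s, hs, rfl⟩
    linarith [(key s hs).2]
  · linarith [(key 1 ⟨zero_le_one, le_rfl⟩).1]
  · rintro _ ⟨s, hs, rfl⟩
    refine ⟨(hγ s (hsub hs)).1, mem_closedBall_iff_norm.2 (not_lt.1 fun h1 => ?_)⟩
    obtain ⟨s', h2, h3⟩ := ivt s (hsub hs) h1.le
    rw [le_antisymm h2.2 (hs.2.trans (hl ⟨⟨h2.1, h2.2.trans (hsub hs).2⟩, h3⟩))] at h3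
    exact h1.ne' h3
  · obtain ⟨k1, k2⟩ := key s₀ hs₀.1
    have k3 : ‖(γ s₀ - y) * conj e‖ = ρ := by
      rw [norm_mul, Complex.norm_conj, he, mul_one]
      exact hs₀.2
    have k4 := Complex.sq_norm ((γ s₀ - y) * conj e)
    rw [k3, Complex.normSq_apply] at k4
    have k5 := mul_nonneg hs₀.1.1 h0.le
    obtain ⟨k6, k7⟩ := abs_le.1 k2
    by_contra k8
    nlinarith [mul_nonneg (sub_nonneg.2 k6) (sub_nonneg.2 k7), mul_pos (sub_pos.2 (not_le.1 k8))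
      (show 0 < ((γ s₀ - y) * conj e).re + 99 / 100 * ρ by linarith), mul_pos h0 h0]


/-- Arms. `Near` at scale `4ρ` gives `τ` and points of `K` near `y ± 3ρτ`; `conn_chain` joins them to `y` inside the strip of half-width `52ερ`; the first exit points
from `closedBall y ρ` are `p` (left) and `q` (right). -/
theorem flat_arms {K : Set ℂ} {y : ℂ} {r : ℝ} (h : FH (1 / 2000) K y r) {ρ : ℝ} (hρ : ρ ∈ Ioc 0 (r / 32)) :
    ∃ τ : ℂ, ‖τ‖ = 1 ∧ (∀ z ∈ K ∩ ball y (4 * ρ), |((z - y) * conj τ).im| ≤ ρ / 20) ∧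
      (∃ C : Set ℂ, IsCompact C ∧ IsPreconnected C ∧ C ⊆ K ∧ (∀ z ∈ C, |((z - y) * conj τ).im| ≤ ρ / 20) ∧
        ∃ p ∈ C, ∃ q ∈ C, ((p - y) * conj τ).re ≤ -(2 * ρ) ∧ 2 * ρ ≤ ((q - y) * conj τ).re) ∧
      ∃ C : Set ℂ, IsCompact C ∧ IsPreconnected C ∧ C ⊆ K ∩ closedBall y ρ ∧ y ∈ C ∧
        ∃ p ∈ C ∩ sphere y ρ, ∃ q ∈ C ∩ sphere y ρ, ((p - y) * conj τ).re ≤ -(99 / 100 * ρ) ∧
          99 / 100 * ρ ≤ ((q - y) * conj τ).re := by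
  have h0 := hρ.1
  obtain ⟨τ, hτ, h1, h2⟩ := (h.fg y ⟨h.mem, mem_ball_self h.pos⟩ (4 * ρ) ⟨by linarith, by linarith [hρ.2]⟩).2
  have hb : ∀ e : ℂ, ‖e‖ = 1 → y + ((3 * ρ : ℝ) : ℂ) * e ∈ ball y (4 * ρ) := fun e he => by
    rw [mem_ball, dist_eq_norm, add_sub_cancel_left, norm_mul, he, mul_one, Complex.norm_real,
      Real.norm_of_nonneg (by positivity)]
    linarith
  have hτ' : ‖-τ‖ = 1 := by rw [norm_neg, hτ]
  obtain ⟨z1, hz1, d1⟩ := h2 _ ⟨(mem_cone_two _ _ _).2 ⟨_, rfl⟩, hb τ hτ⟩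
  obtain ⟨z2, hz2, d2⟩ := h2 _ ⟨(mem_cone_two _ _ _).2 ⟨-(3 * ρ), by push_cast; ring⟩, hb (-τ) hτ'⟩
  obtain ⟨⟨A, a1, a2, a3, a4, a5, q, hq, a6⟩, A', b1, b2, b3, b4, q', hq', b5⟩ := farms_one h hρ hτ hz1 d1
  obtain ⟨⟨B, c1, c2, c3, c4, c5, p, hp, c6⟩, B', e1, e2, e3, e4, p', hp', e5⟩ := farms_one h hρ hτ' hz2 d2
  simp only [map_neg, mul_neg, Complex.neg_re, Complex.neg_im, abs_neg] at c5 c6 e5
  refine ⟨τ, hτ, fun z hz => ?_,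
    ⟨A ∪ B, a1.union c1, a2.union y a4 c4 c2, union_subset a3 c3, fun z hz => hz.elim (a5 z) (c5 z),
      p, Or.inr hp, q, Or.inl hq, by linarith, a6⟩,
    A' ∪ B', b1.union e1, b2.union y b4 e4 e2, union_subset b3 e3, Or.inl b4,
      p', ⟨Or.inr hp'.1, hp'.2⟩, q', ⟨Or.inl hq'.1, hq'.2⟩, by linarith, b5⟩
  obtain ⟨w, hw, d⟩ := h1 z hz
  obtain ⟨s, rfl⟩ := (mem_cone_two _ _ _).1 hw
  rw [dist_eq_norm] at d
  linarith [(farms_coord hτ d).2]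

theorem flat_two_le {K : Set ℂ} {y : ℂ} {r : ℝ} (h : FH (1 / 2000) K y r) {ρ : ℝ} (hρ : ρ ∈ Ioc 0 (r / 32)) :
    2 ≤ (K ∩ sphere y ρ).encard := by
  obtain ⟨τ, -, -, -, C, -, -, h1, -, p, hp, q, hq, h2, h3⟩ := flat_arms h hρ
  have hne : p ≠ q := fun e => by
    rw [e] at h2
    linarith [hρ.1]
  rw [← encard_pair hne]
  exact encard_le_encard (pair_subset ⟨(h1 hp.1).1, hp.2⟩ ⟨(h1 hq.1).1, hq.2⟩)

end Crest.Agent.R135
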