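import Crest.Agent.R135.Defs
import Crest.Agent.R135.FArms
import Crest.Agent.R135.TSep
import Crest.Agent.R135.MCI2
import Crest.Agent.R135.TGron
import Crest.Agent.R135.TEil
set_option autoImplicit false
open MeasureTheory Metric Set Filter Topology
open scoped ENNReal NNReal Real ComplexConjugate

namespace Crest.Agent.R135

theorem fdi_conj (θ : ℝ) : Complex.exp (θ * Complex.I) * conj (Complex.exp (θ * Complex.I)) = 1 := by
  rw [Complex.mul_conj, Complex.normSq_eq_norm_sq, Complex.norm_exp_ofReal_mul_I]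
  simp

theorem fdi_im (y : ℂ) (ρ θ φ : ℝ) :
    ((circleMap y ρ (θ + φ) - y) * conj (Complex.exp (θ * Complex.I))).im = ρ * Real.sin φ := by
  rw [circleMap_sub_center, circleMap_zero, Complex.ofReal_add, add_mul, Complex.exp_add, mul_assoc, mul_right_comm,
    fdi_conj, one_mul, Complex.im_ofReal_mul, Complex.exp_ofReal_mul_I_im]

theorem fdi_angle {y z : ℂ} {ρ : ℝ} (h0 : 0 < ρ) (θ : ℝ) (hz : z ∈ sphere y ρ)
    (h : 99 / 100 * ρ ≤ ((z - y) * conj (Complex.exp (θ * Complex.I))).re) :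
    ∃ β : ℝ, |β| ≤ 3 / 10 ∧ z = circleMap y ρ (θ + β) := by
  set w := (z - y) * conj (Complex.exp (θ * Complex.I)) with hw
  have hn : ‖w‖ = ρ := by
    rw [hw, norm_mul, Complex.norm_conj, Complex.norm_exp_ofReal_mul_I, mul_one]
    exact mem_sphere_iff_norm.1 hz
  refine ⟨w.arg, abs_le_of_sq_le_sq' ?_ (by norm_num) |> abs_le.2, ?_⟩
  · have h1 := Real.cos_le_one_sub_mul_cos_sq (Complex.abs_arg_le_pi w)
    rw [Complex.cos_arg (norm_pos_iff.1 (hn ▸ h0)), hn] at h1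
    have h2 : 99 / 100 ≤ w.re / ρ := (le_div_iff₀ h0).2 h
    have h3 : 2 / π ^ 2 * w.arg ^ 2 ≤ 1 / 100 := by linarith
    have p1 := Real.pi_pos
    have p2 := Real.pi_le_four
    rw [div_mul_eq_mul_div, div_le_iff₀ (by positivity)] at h3
    nlinarith
  · have h1 := Complex.norm_mul_exp_arg_mul_I w
    rw [hn] at h1
    rw [circleMap, Complex.ofReal_add, add_mul, Complex.exp_add, mul_left_comm, h1, hw, mul_left_comm, fdi_conj]
    ring


/-- On a good circle with two points `p, q` (`flat_arms`): `sep` with `t = 2ρ`, `δ = ρ/20` gives `Λ₀` locally constant on `ball y (2ρ) \ K`; angles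
`α 0 = arg`-angle of `q`, `α 1` of `p`, `α 2 = α 0 + 2π`, both gaps in `(π - 1/5, π + 1/5)`; the open arcs are preconnected, miss `K`, and contain the top (bottom) point
`y ± iρτ`, so `Λ₀ = 1` (`0`) there; `Λ = c₁ Λ₀ + c₂ (1 - Λ₀)` with the midpoint values (`MS.osc`), `MS.decay_ineq`. -/
theorem flat_decay_ineq {U K : Set ℂ} {a b : ℝ} {u : ℂ → ℝ} (hm : MS U a b K u) {y : ℂ} {r : ℝ} (h : FH (1 / 2000) K y r)
    (hB : closedBall y r ⊆ U) {ρ : ℝ} (hρ : ρ ≤ r / 32) (hg : Good K u y ρ) (h2 : (K ∩ sphere y ρ).encard ≤ 2) :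
    Dr u y ρ ≤ 2 / 3 * ρ * ce u y ρ + 2 * (a * b) * ρ ^ 2 := by
  have h0 := hg.pos
  obtain ⟨τ, hτ, -, ⟨C, c1, c2, c3, c4, p', hp', q', hq', c5, c6⟩, C', -, -, d1, -, p, hp, q, hq, d2, d3⟩ :=
    flat_arms h ⟨h0, hρ⟩
  obtain ⟨Λ₀, l1, -, l2, l3⟩ := sep c1 c2 y τ hτ (by positivity) (by positivity) c4 hp' hq' c5 c6
  have hne : q ≠ p := fun e => by
    rw [e] at d3
    linarith
  have hK : {q, p} = K ∩ sphere y ρ := (toFinite _).eq_of_subset_of_encard_le
    (pair_subset ⟨(d1 hq.1).1, hq.2⟩ ⟨(d1 hp.1).1, hp.2⟩) (by rwa [encard_pair hne])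
  obtain ⟨θ, rfl⟩ : ∃ θ : ℝ, τ = Complex.exp (θ * Complex.I) :=
    ⟨τ.arg, by simpa [hτ] using (Complex.norm_mul_exp_arg_mul_I τ).symm⟩
  obtain ⟨β, hβ, rfl⟩ := fdi_angle h0 θ hq.2 d3
  obtain ⟨γ, hγ, rfl⟩ := fdi_angle h0 (θ + π) hp.2 (by
    rw [Complex.ofReal_add, add_mul, Complex.exp_add, Complex.exp_pi_mul_I, mul_neg, mul_one, map_neg, mul_neg,
      Complex.neg_re]
    linarith)
  obtain ⟨b1, b2⟩ := abs_le.1 hβ
  obtain ⟨g1, g2⟩ := abs_le.1 hγ
  have p1 := Real.pi_gt_three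
  have p2 := Real.pi_lt_d2
  have hin : ∀ φ, circleMap y ρ φ ∈ ball y (2 * ρ) := fun φ => by
    rw [mem_ball, tpolar_dist y h0]
    linarith
  have hBU : ball y (2 * ρ) ⊆ U := (ball_subset_closedBall.trans (closedBall_subset_closedBall (by linarith))).trans hB
  have hnot : ∀ φ ∈ Ioo (θ + β) (θ + β + 2 * π), φ ≠ θ + π + γ → circleMap y ρ φ ∉ K := fun φ hφ h1 h3 => by
    have h4 := injOn_circleMap_of_abs_sub_le' (c := y) (a := θ + β) (b := θ + β + 2 * π) h0.ne' (by linarith)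
    rcases hK.ge ⟨h3, circleMap_mem_sphere y h0.le φ⟩ with h5 | h5
    · exact hφ.1.ne' (h4 ⟨hφ.1.le, hφ.2⟩ ⟨le_rfl, by linarith⟩ h5)
    · exact h1 (h4 ⟨hφ.1.le, hφ.2⟩ ⟨by linarith, by linarith⟩ h5)
  have hre : ∀ z ∈ ball y (2 * ρ), |((z - y) * conj (Complex.exp (θ * Complex.I))).re| < 2 * ρ := fun z hz => by
    refine (Complex.abs_re_le_norm _).trans_lt ?_
    rw [norm_mul, Complex.norm_conj, hτ, mul_one]
    exact mem_ball_iff_norm.1 hz
  have l4 : LC (ball y (2 * ρ) \ K) Λ₀ := fun z hz => l1 z ⟨hre z hz.1, fun h' => hz.2 (c3 h')⟩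
  have arc : ∀ s t φ φ' : ℝ, (∀ ψ ∈ Ioo s t, circleMap y ρ ψ ∉ K) → φ ∈ Ioo s t → φ' ∈ Ioo s t →
      Λ₀ (circleMap y ρ φ) = Λ₀ (circleMap y ρ φ') := fun s t φ φ' h1 h3 h4 =>
    l4.eq_of_preconnected (isPreconnected_Ioo.image _ (continuous_circleMap y ρ).continuousOn)
      (by rintro _ ⟨ψ, hψ, rfl⟩; exact ⟨hin ψ, h1 ψ hψ⟩) ⟨φ, h3, rfl⟩ ⟨φ', h4, rfl⟩
  have n1 : ∀ ψ ∈ Ioo (θ + β) (θ + π + γ), circleMap y ρ ψ ∉ K := fun ψ hψ =>
    hnot ψ ⟨hψ.1, by linarith [hψ.2]⟩ hψ.2.ne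
  have n2 : ∀ ψ ∈ Ioo (θ + π + γ) (θ + β + 2 * π), circleMap y ρ ψ ∉ K := fun ψ hψ =>
    hnot ψ ⟨by linarith [hψ.1], hψ.2⟩ hψ.1.ne'
  refine hm.decay_ineq hg (R := 2 * ρ) (by linarith) hBU
    (Λ := fun z => if Λ₀ z = 1 then u (circleMap y ρ ((θ + β + (θ + π + γ)) / 2))
      else u (circleMap y ρ ((θ + π + γ + (θ + β + 2 * π)) / 2)))
    (fun z hz => (l4 z hz).mono fun w hw => by simp only [hw]) (fun z _ => ?_) 2
    (fun j => if j = 0 then θ + β else if j = 1 then θ + π + γ else θ + β + 2 * π) (by simp) (fun j hj => ?_)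
    fun j hj φ hφ => ?_
  · split_ifs
    · exact hm.osc _ ⟨hBU (hin _), n1 _ ⟨by linarith, by linarith⟩⟩
    · exact hm.osc _ ⟨hBU (hin _), n2 _ ⟨by linarith, by linarith⟩⟩
  · interval_cases j
    · exact ⟨show θ + β < θ + π + γ by linarith, show θ + π + γ ≤ θ + β + 15 / 4 by linarith⟩
    · exact ⟨show θ + π + γ < θ + β + 2 * π by linarith, show θ + β + 2 * π ≤ θ + π + γ + 15 / 4 by linarith⟩
  · interval_cases j
    · refine ⟨n1 φ hφ, if_pos ((arc _ _ φ (θ + π / 2) n1 hφ ⟨by linarith, by linarith⟩).trans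
        (l2 _ (hre _ (hin _)) ?_))⟩
      rw [fdi_im, Real.sin_pi_div_two]
      linarith
    · refine ⟨n2 φ hφ, if_neg ?_⟩
      rw [(arc _ _ φ (θ + (π / 2 + π)) n2 hφ ⟨by linarith, by linarith⟩).trans (l3 _ (hre _ (hin _)) ?_)]
      · exact zero_ne_one
      · rw [fdi_im, Real.sin_add_pi, Real.sin_pi_div_two]
        linarith

/-- measure of the radii with three or more points (`eil_excess`, `flat_two_le`, `FG`) -/
theorem flat_bad {K : Set ℂ} {y : ℂ} {r : ℝ} (h : FH (1 / 2000) K y r) {s : ℝ} (hs : s ∈ Ioc 0 (r / 32))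
    (hfin : H1 (K ∩ ball y s) < ⊤) :
    volume {ρ : ℝ | ρ ∈ Ioo 0 s ∧ 3 ≤ (K ∩ sphere y ρ).encard} ≤ ENNReal.ofReal (s / 2000) := by

  have h1 := eil_excess y K h.closed.measurableSet 2 s fun ρ hρ => flat_two_le h ⟨hρ.1, hρ.2.le.trans hs.2⟩
  have h2 := (h.fg y ⟨h.mem, mem_ball_self h.pos⟩ s ⟨hs.1, hs.2.trans (by linarith [h.pos])⟩).1
  have h3 : H1 (K ∩ ball y s) ≤ ENNReal.ofReal (2 * s) + ENNReal.ofReal (s / 2000) := by
    rw [← ENNReal.ofReal_toReal hfin.ne, ← ENNReal.ofReal_add (by linarith [hs.1]) (by linarith [hs.1])]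
    exact ENNReal.ofReal_le_ofReal (h2.trans_eq (by ring))
  have h4 : ((2 : ℕ) : ℝ≥0∞) * ENNReal.ofReal s = ENNReal.ofReal (2 * s) := by
    rw [ENNReal.ofReal_mul zero_le_two]; simp
  rw [h4] at h1
  exact ENNReal.le_of_add_le_add_left ENNReal.ofReal_ne_top (h1.trans h3)

/-- `gron_bad` on `[s/2, s]`, `decay_iter`, `upper_real` -/
theorem flat_decay : ∃ C : ℝ, 0 ≤ C ∧ ∀ (U K : Set ℂ) (a b : ℝ) (u : ℂ → ℝ), MS U a b K u → ∀ (y : ℂ) (r : ℝ),
    FH (1 / 2000) K y r → closedBall y r ⊆ U → a * b * r ≤ 1 → ∀ t ∈ Ioc 0 (r / 32),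
    Dr u y t ≤ C * t * (t / r) ^ (1 / 4 : ℝ) := by

  have hπ := Real.pi_pos
  refine ⟨100 * (3 * π + 6) * (32 : ℝ) ^ (1 / 4 : ℝ), by positivity, fun U K a b u hm y r h hB hab t ht => ?_⟩
  have hr := h.pos
  have hab0 : 0 ≤ a * b := mul_nonneg hm.a0 hm.b0
  have sub : ∀ s, s ≤ r / 32 → closedBall y s ⊆ U := fun s hs =>
    (closedBall_subset_closedBall (by linarith)).trans hB
  have key := decay_iter (f := Dr u y) (r := r / 32) (c := 3 * (2 * (a * b))) (by positivity) (by positivity)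
    (fun s _ s' hs' hss => hm.Dr_mono (sub s' hs'.2) (ball_subset_ball hss)) (fun s _ => Dr_nonneg u y s)
    (fun s hs => by
      have hs0 := hs.1
      obtain ⟨i1, i2⟩ := hm.ce_int hs0.le (sub s hs.2)
      have g := gron_bad (Y := Dr u y) (y := ce u y) (t := s / 2) (r := s) (c := 2 * (a * b)) (m := s / 2000)
        (half_pos hs0) (half_le_self hs0.le) (by positivity) (by positivity)
        {ρ : ℝ | ρ ∈ Ioo 0 s ∧ 3 ≤ (K ∩ sphere y ρ).encard}
        ((measure_mono inter_subset_left).trans (flat_bad h hs ((measure_mono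
          (inter_subset_inter_right _ ball_subset_closedBall)).trans_lt (hm.H1_lt_top (sub s hs.2)))))
        (i1.mono_set (by
          rw [uIcc_of_le (half_le_self hs0.le), uIcc_of_le hs0.le]
          exact Icc_subset_Icc_left (half_pos hs0).le))
        (fun s' hs' => i2 _ _ (half_pos hs0).le hs'.1 hs'.2) (Dr_nonneg u y _)
        (Eventually.of_forall fun ρ hρ => ce_nonneg u y ((half_pos hs0).trans hρ.1).le)
        (by
          filter_upwards [hm.ae_good (sub s hs.2)] with ρ hg hρ hn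
          have hρ' : ρ ∈ Ioo 0 s := ⟨(half_pos hs0).trans hρ.1, hρ.2⟩
          refine flat_decay_ineq hm h hB (hρ.2.le.trans hs.2) (hg hρ') ?_
          by_contra hc
          exact hn ⟨hρ', Order.add_one_le_of_lt (not_le.1 hc)⟩)
      refine g.trans (mul_le_mul_of_nonneg_right ?_ (by have := Dr_nonneg u y s; positivity))
      rw [show s / 2 / s = (2 : ℝ)⁻¹ by field_simp, show 3 / 2 * (s / 2000) / (s / 2) = 3 / 2000 by field_simp,
        Real.inv_rpow zero_le_two, ← Real.rpow_neg zero_le_two, Real.rpow_def_of_pos two_pos,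
        Real.rpow_def_of_pos two_pos, ← Real.exp_add]
      exact Real.exp_le_exp.2 (by linarith [Real.log_two_gt_d9])) t ht
  refine key.trans ?_
  have u1 := hm.upper_real (x := y) (ρ := r / 32) (by positivity) (sub _ le_rfl)
  have u2 : a * b * (r / 32) ^ 2 ≤ r / 32 := by nlinarith
  have u3 : Dr u y (r / 32) + 3 * (2 * (a * b)) * (r / 32) ^ 2 ≤ (3 * π + 6) * (r / 32) := by
    have := mul_le_mul_of_nonneg_left u2 hπ.le
    linarith [Lr_nonneg K y (r / 32)]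
  have ht0 := ht.1
  have u4 : (t / (r / 32)) ^ (5 / 4 : ℝ) = t / (r / 32) * ((32 : ℝ) ^ (1 / 4 : ℝ) * (t / r) ^ (1 / 4 : ℝ)) := by
    rw [← Real.mul_rpow (by norm_num) (by positivity), show 32 * (t / r) = t / (r / 32) by field_simp,
      show (5 / 4 : ℝ) = 1 + 1 / 4 by norm_num, Real.rpow_add (by positivity), Real.rpow_one]
  calc _ ≤ 100 * (t / (r / 32)) ^ (5 / 4 : ℝ) * ((3 * π + 6) * (r / 32)) := by gcongr
    _ = _ := by rw [u4]; field_simp

end Crest.Agent.R135
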