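import Crest.Agent.R135.Defs
set_option autoImplicit false
open MeasureTheory Metric Set Filter Topology
open scoped ENNReal NNReal Real ComplexConjugate

namespace Crest.Agent.R135

/-- tangent directions at two points of `K` are close modulo sign -/
theorem tan_close {C α r r' : ℝ} {K : Set ℂ} {y y' τ τ' : ℂ} (h : Tan C α K y r τ) (h' : Tan C α K y' r' τ') (hy : y ∈ K)
    (hy' : y' ∈ K) (hne : y ≠ y') : |(τ * conj τ').im| ≤ C * (‖y - y'‖ / r) ^ α + C * (‖y - y'‖ / r') ^ α := by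
  have hd : 0 < ‖y - y'‖ := norm_pos_iff.2 (sub_ne_zero.2 hne)
  have h1 := h.2 y' hy'
  have h2 := h'.2 y hy
  rw [← neg_sub y y', neg_mul, Complex.neg_im, abs_neg, norm_neg] at h1
  have n1 : |((y - y') * conj τ).re| ≤ ‖y - y'‖ := (Complex.abs_re_le_norm _).trans_eq (by simp [h.1])
  have n2 : |((y - y') * conj τ').re| ≤ ‖y - y'‖ := (Complex.abs_re_le_norm _).trans_eq (by simp [h'.1])
  have e : ‖y - y'‖ ^ 2 * (τ * conj τ').im = ((y - y') * conj τ).re * ((y - y') * conj τ').im -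
      ((y - y') * conj τ).im * ((y - y') * conj τ').re := by
    rw [Complex.sq_norm, Complex.normSq_apply]
    simp only [Complex.mul_re, Complex.mul_im, Complex.conj_re, Complex.conj_im]
    ring
  refine le_of_mul_le_mul_left ?_ (pow_pos hd 2)
  rw [← abs_of_pos (pow_pos hd 2), ← abs_mul, e, abs_of_pos (pow_pos hd 2)]
  refine (abs_sub _ _).trans ?_
  rw [abs_mul, abs_mul]
  linarith [mul_le_mul n1 h2 (abs_nonneg _) hd.le, mul_le_mul n2 h1 (abs_nonneg _) hd.le]

/-- unit vectors in the same open half plane: if `re (τ conj e), re (τ' conj e) ≥ 1/2` for a unit `e` then `‖τ - τ'‖ ≤ 2 |im (τ conj τ')|` -/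
theorem norm_sub_le_im {τ τ' e : ℂ} (h : ‖τ‖ = 1) (h' : ‖τ'‖ = 1) (he : ‖e‖ = 1) (h1 : 1 / 2 ≤ (τ * conj e).re)
    (h2 : 1 / 2 ≤ (τ' * conj e).re) : ‖τ - τ'‖ ≤ 2 * |(τ * conj τ').im| := by
  have e0 : ∀ {z : ℂ}, ‖z‖ = 1 → z * conj z = 1 := fun hz => by
    rw [Complex.mul_conj, Complex.normSq_eq_norm_sq, hz]
    simp
  have e1 : (τ - τ') * conj (τ + τ') = τ * conj τ' - conj (τ * conj τ') := by
    rw [map_add, map_mul, Complex.conj_conj]
    linear_combination e0 h - e0 h'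
  have e2 := congrArg norm e1
  rw [Complex.sub_conj, norm_mul, norm_mul, Complex.norm_I, mul_one, Complex.norm_conj, Complex.norm_real,
    Real.norm_eq_abs, abs_mul, abs_two] at e2
  have e3 := Complex.re_le_norm ((τ + τ') * conj e)
  rw [norm_mul, Complex.norm_conj, he, mul_one, add_mul, Complex.add_re] at e3
  rw [← e2]
  exact le_mul_of_one_le_right (norm_nonneg _) (by linarith)

/-- Graph lemma: a continuous selection in `K` with `f (p s) = s` is differentiable. `Δ = p s - p t = λτ + μ iτ`, `μ = o(‖Δ‖)`,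
`s - t = f' Δ + o(‖Δ‖) = λ f'τ + o(‖Δ‖)`. -/
theorem graph_deriv {C α r : ℝ} (hα : 0 < α) (hr : 0 < r) {K : Set ℂ} {p : ℝ → ℂ} {T : Set ℝ} {t : ℝ} (ht : t ∈ T) {τ : ℂ}
    (h : Tan C α K (p t) r τ) (hK : ∀ s ∈ T, p s ∈ K) (hc : ContinuousWithinAt p T t) {f : ℂ → ℝ} {f' : ℂ →L[ℝ] ℝ}
    (hf : HasFDerivAt f f' (p t)) (hp : ∀ s ∈ T, f (p s) = s) (hτ : f' τ ≠ 0) :
    HasDerivWithinAt p (τ / (f' τ : ℂ)) T t := by
  have hc' : (f' τ : ℂ) ≠ 0 := Complex.ofReal_ne_zero.2 hτ
  have h0 : Tendsto (fun s => C * (‖p s - p t‖ / r) ^ α) (𝓝[T] t) (𝓝 (C * (‖p t - p t‖ / r) ^ α)) :=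
    ((((hc.sub continuousWithinAt_const).norm.div_const r).rpow_const (Or.inr hα.le)).const_mul C).tendsto
  rw [sub_self, norm_zero, zero_div, Real.zero_rpow hα.ne', mul_zero] at h0
  have r1 : (fun s => (((p s - p t) * conj τ).im : ℝ) • (Complex.I * τ)) =o[𝓝[T] t] fun s => p s - p t := by
    refine Asymptotics.isLittleO_iff.2 fun ε hε => ?_
    filter_upwards [h0.eventually (ge_mem_nhds hε), self_mem_nhdsWithin] with s h1 hs
    rw [norm_smul, norm_mul, Complex.norm_I, h.1, mul_one, mul_one, Real.norm_eq_abs]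
    exact (h.2 _ (hK s hs)).trans (mul_le_mul_of_nonneg_right h1 (norm_nonneg _))
  have r2 : (fun s => f (p s) - f (p t) - f' (p s - p t)) =o[𝓝[T] t] fun s => p s - p t :=
    hf.isLittleO.comp_tendsto hc.tendsto
  have r3 := ((f'.isBigO_comp _ _).trans_isLittleO r1).add r2
  have r4 : (fun s => p s - p t - (s - t) • (τ / (f' τ : ℂ))) =o[𝓝[T] t] fun s => p s - p t := by
    refine (r1.sub (((ContinuousLinearMap.toSpanSingleton ℝ (τ / (f' τ : ℂ))).isBigO_comp _ _).trans_isLittleO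
      r3)).congr' ?_ EventuallyEq.rfl
    filter_upwards [self_mem_nhdsWithin] with s hs
    have e1 : τ * conj τ = 1 := by
      rw [Complex.mul_conj, Complex.normSq_eq_norm_sq, h.1]
      simp
    have e2 : p s - p t = ((p s - p t) * conj τ).re • τ + ((p s - p t) * conj τ).im • (Complex.I * τ) := by
      rw [Complex.real_smul, Complex.real_smul, ← mul_assoc, ← add_mul, Complex.re_add_im, mul_assoc,
        mul_comm (conj τ), e1, mul_one]
    rw [hp s hs, hp t ht, ContinuousLinearMap.toSpanSingleton_apply]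
    generalize ((p s - p t) * conj τ).re = l at e2
    generalize ((p s - p t) * conj τ).im = m at e2 ⊢
    rw [e2, map_add, map_smul f' l]
    simp only [Complex.real_smul, smul_eq_mul]
    push_cast
    field_simp
    ring
  refine hasDerivWithinAt_iff_isLittleO.2 (r4.trans_isBigO (r4.right_isBigO_sub.trans ?_))
  refine Asymptotics.IsBigO.of_bound ‖τ / (f' τ : ℂ)‖ (Eventually.of_forall fun s => ?_)
  rw [sub_sub_cancel, norm_smul, mul_comm]

/-- real-exponent Hölder bound to `HolderOnWith` -/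
theorem holderOnWith_of {g : ℝ → ℂ} {C α : ℝ} (hα : 0 < α) {T : Set ℝ}
    (h : ∀ s ∈ T, ∀ t ∈ T, ‖g s - g t‖ ≤ C * |s - t| ^ α) : ∃ C' : ℝ≥0, HolderOnWith C' α.toNNReal g T := by
  refine ⟨C.toNNReal, fun s hs t ht => ?_⟩
  rw [edist_dist, edist_dist, dist_eq_norm, Real.dist_eq, Real.coe_toNNReal α hα.le,
    ENNReal.ofReal_rpow_of_nonneg (abs_nonneg _) hα.le]
  refine (ENNReal.ofReal_le_ofReal (h s hs t ht)).trans ?_
  rw [ENNReal.ofReal_mul' (by positivity)]
  rfl

end Crest.Agent.R135
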