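import Crest.Agent.R135.Defs
import Crest.Agent.R135.FDecay
import Crest.Agent.R135.ADlb
set_option autoImplicit false
open MeasureTheory Metric Set Filter Topology
open scoped ENNReal NNReal Real ComplexConjugate

namespace Crest.Agent.R135

/-- Excess controls height. `d = (q-p)/‖q-p‖`, `s₁ = re ((z-p) conj d) ∈ (0, ‖q-p‖)`, `h = |im ((z-p) conj d)|`. The balls `ball p s₁`, `ball q (‖q-p‖ - s₁)`,
`ball z (h²/(8ρ))` are pairwise disjoint; `H1_ge_of_conn` twice. -/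
theorem excess_height {K C : Set ℂ} (hK : MeasurableSet K) {y p q z τ : ℂ} {ρ c : ℝ} (hρ : 0 < ρ) (hc : 0 < c) (hτ : ‖τ‖ = 1)
    (hC : IsPreconnected C) (hCK : C ⊆ K ∩ closedBall y ρ) (hp : p ∈ C ∩ sphere y ρ) (hq : q ∈ C ∩ sphere y ρ)
    (h1 : ((p - y) * conj τ).re ≤ -(99 / 100 * ρ)) (h2 : 99 / 100 * ρ ≤ ((q - y) * conj τ).re) (hz : z ∈ ball y (ρ / 2))
    (hd : ∀ s ∈ Ioc 0 (ρ / 2), ENNReal.ofReal (c * s) ≤ H1 (K ∩ ball z s)) :
    ENNReal.ofReal (‖q - p‖ + c * (((z - p) * conj ((q - p) / (‖q - p‖ : ℂ))).im ^ 2 / (8 * ρ))) ≤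
      H1 (K ∩ closedBall y ρ) := by
  set L := ‖q - p‖ with hL
  have hL1 : 198 / 100 * ρ ≤ L := by
    have e := Complex.re_le_norm ((q - p) * conj τ)
    rw [norm_mul, Complex.norm_conj, hτ, mul_one, show (q - p) * conj τ = (q - y) * conj τ - (p - y) * conj τ by ring,
      Complex.sub_re] at e
    linarith
  have hL0 : (L : ℂ) ≠ 0 := Complex.ofReal_ne_zero.2 (by linarith)
  set d := (q - p) / (L : ℂ) with hd'
  have hdn : ‖d‖ = 1 := by
    rw [hd', norm_div, Complex.norm_real, Real.norm_of_nonneg (norm_nonneg _), div_self (by linarith)]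
  have hqd : (q - p) * conj d = L := by
    rw [hd', map_div₀, Complex.conj_ofReal, ← mul_div_assoc, Complex.mul_conj, Complex.normSq_eq_norm_sq,
      div_eq_iff hL0, ← hL]
    push_cast
    ring
  set w := (z - p) * conj d with hw
  have eA : ‖z - p‖ ^ 2 = w.re * w.re + w.im * w.im := by
    rw [← Complex.normSq_apply, ← Complex.sq_norm, hw, norm_mul, Complex.norm_conj, hdn, mul_one]
  have eB : ‖z - q‖ ^ 2 = (L - w.re) * (L - w.re) + w.im * w.im := by
    have : ‖z - q‖ = ‖(L : ℂ) - w‖ := by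
      rw [← hqd, hw, ← sub_mul, norm_mul, Complex.norm_conj, hdn, mul_one, sub_sub_sub_cancel_right, norm_sub_rev]
    rw [this, Complex.sq_norm, Complex.normSq_apply]
    simp
  have hA : ‖z - p‖ ≤ 3 / 2 * ρ := by
    have := dist_triangle_right z p y
    rw [dist_eq_norm z p] at this
    linarith [mem_ball.1 hz, mem_sphere.1 hp.2]
  have hB : ‖z - q‖ ≤ 3 / 2 * ρ := by
    have := dist_triangle_right z q y
    rw [dist_eq_norm z q] at this
    linarith [mem_ball.1 hz, mem_sphere.1 hq.2]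
  set σ := w.im ^ 2 / (8 * ρ) with hσ
  have hσ0 : 0 ≤ σ := by positivity
  have hσe : w.im * w.im = σ * (8 * ρ) := by rw [hσ, div_mul_cancel₀ _ (by positivity), sq]
  have key : ∀ s A : ℝ, 0 ≤ A → A ≤ 3 / 2 * ρ → A ^ 2 = s * s + w.im * w.im →
      s ≤ 3 / 2 * ρ ∧ σ ≤ ρ / 2 ∧ s + σ ≤ A := fun s A a1 a2 a3 => by
    have b0 : A ^ 2 ≤ (3 / 2 * ρ) ^ 2 := pow_le_pow_left₀ a1 a2 2
    have b1 : s ≤ 3 / 2 * ρ := (abs_le_of_sq_le_sq' (by nlinarith [mul_self_nonneg w.im]) (by positivity)).2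
    have b2 : σ ≤ ρ / 2 := le_of_mul_le_mul_right (by nlinarith [mul_self_nonneg s]) (show 0 < 8 * ρ by positivity)
    exact ⟨b1, b2, (abs_le_of_sq_le_sq' (by nlinarith) a1).2⟩
  obtain ⟨a1, a2, a3⟩ := key _ _ (norm_nonneg _) hA eA
  obtain ⟨b1, -, b3⟩ := key _ _ (norm_nonneg _) hB eB
  have m : ∀ (x : ℂ) (s : ℝ), MeasurableSet (K ∩ closedBall y ρ ∩ ball x s) := fun x s =>
    (hK.inter measurableSet_closedBall).inter measurableSet_ball
  have dj : ∀ (x x' : ℂ) (s s' : ℝ), s + s' ≤ dist x x' →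
      Disjoint (K ∩ closedBall y ρ ∩ ball x s) (K ∩ closedBall y ρ ∩ ball x' s') := fun x x' s s' h =>
    (ball_disjoint_ball h).mono inter_subset_right inter_subset_right
  have c1 : ENNReal.ofReal w.re ≤ H1 (K ∩ closedBall y ρ ∩ ball p w.re) :=
    (H1_ge_of_conn hC hp.1 hq.1 (by rw [dist_eq_norm]; linarith)).trans
      (measure_mono (inter_subset_inter_left _ hCK))
  have c2 : ENNReal.ofReal (L - w.re) ≤ H1 (K ∩ closedBall y ρ ∩ ball q (L - w.re)) :=
    (H1_ge_of_conn hC hq.1 hp.1 (by rw [dist_comm, dist_eq_norm]; linarith)).trans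
      (measure_mono (inter_subset_inter_left _ hCK))
  have c3 : ENNReal.ofReal (c * σ) ≤ H1 (K ∩ closedBall y ρ ∩ ball z σ) := by
    rcases hσ0.eq_or_lt with e | e
    · rw [← e, mul_zero, ENNReal.ofReal_zero]
      exact zero_le
    · exact (hd σ ⟨e, a2⟩).trans (measure_mono fun x hx => ⟨⟨hx.1, ball_subset_closedBall
        (ball_subset_ball' (by linarith [mem_ball.1 hz]) hx.2)⟩, hx.2⟩)
  rw [show L + c * σ = w.re + (L - w.re) + c * σ by ring, ENNReal.ofReal_add (by linarith) (by positivity),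
    ENNReal.ofReal_add (by linarith) (by linarith)]
  refine (add_le_add (add_le_add c1 c2) c3).trans ?_
  rw [← measure_union (dj _ _ _ _ (by rw [dist_comm, dist_eq_norm]; linarith)) (m _ _),
    ← measure_union (disjoint_union_left.2 ⟨dj _ _ _ _ (by rw [dist_comm, dist_eq_norm]; exact a3),
      dj _ _ _ _ (by rw [dist_comm, dist_eq_norm]; exact b3)⟩) (m _ _)]
  exact measure_mono (union_subset (union_subset inter_subset_left inter_subset_left) inter_subset_left)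

/-- `exists_radius` in `(t/2, t)` off the bad set with `ce ≤ C (t/r)^{1/4}`; `MS.xl` with apex `p`, `κ = (ρ/2)(t/r)^{1/8}`: `Lr ρ ≤ ‖q-p‖ + C t (t/r)^{1/8}`;
`excess_height` with `dlb` for `z` and for `y`. -/
theorem flat_height : ∃ C δ : ℝ, 0 ≤ C ∧ 0 < δ ∧ ∀ (U K : Set ℂ) (a b : ℝ) (u : ℂ → ℝ), Abs U a b K u → ∀ (y : ℂ) (r : ℝ),
    FH (1 / 2000) K y r → closedBall y r ⊆ U → a * b * r ≤ δ → ∀ t ∈ Ioc 0 (r / 32), ∃ τ : ℂ, ‖τ‖ = 1 ∧
      ∀ z ∈ K ∩ ball y (t / 4), |((z - y) * conj τ).im| ≤ C * t * (t / r) ^ (1 / 16 : ℝ) := by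
  obtain ⟨c, δ, hc, hδ, H1'⟩ := dlb
  obtain ⟨C, hC, H2⟩ := flat_decay
  refine ⟨2 * √(8 * (8 + 516 * C) / c), min δ 1, by positivity, by positivity,
    fun U K a b u hA y r h hB hab t ht => ?_⟩
  have hm := hA.ms
  have ht0 := ht.1
  have hr := h.pos
  have htr : t ≤ r := by linarith [ht.2]
  have hab0 := mul_nonneg hm.a0 hm.b0
  have hBt : closedBall y t ⊆ U := (closedBall_subset_closedBall htr).trans hB
  have hD := H2 U K a b u hm y r h hB (hab.trans (min_le_right _ _)) t ht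
  have hp : ∀ n : ℕ, ((t / r) ^ (1 / 16 : ℝ)) ^ n = (t / r) ^ (n / 16 : ℝ) := fun n => by
    rw [← Real.rpow_natCast, ← Real.rpow_mul (by positivity)]
    congr 1
    ring
  have e4 := hp 4
  have e16 := hp 16
  rw [show ((4 : ℕ) : ℝ) / 16 = 1 / 4 by norm_num] at e4
  rw [show ((16 : ℕ) : ℝ) / 16 = 1 by norm_num, Real.rpow_one] at e16
  have hθ0 : 0 < (t / r) ^ (1 / 16 : ℝ) := by positivity
  have hθ1 : (t / r) ^ (1 / 16 : ℝ) ≤ 1 := Real.rpow_le_one (by positivity) ((div_le_one hr).2 htr) (by norm_num)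
  rw [← e4] at hD
  generalize (t / r) ^ (1 / 16 : ℝ) = θ at hθ0 hθ1 hD e16 ⊢
  obtain ⟨i1, i2⟩ := hm.ce_int ht0.le hBt
  obtain ⟨ρ, hρ, h1, hg, h2⟩ := exists_radius (f := ce u y) (I := Dr u y t) (half_lt_self ht0) _
    ((measure_mono inter_subset_left).trans (flat_bad h ht ((measure_mono (inter_subset_inter_right _
      ball_subset_closedBall)).trans_lt (hm.H1_lt_top hBt)))) (by positivity) (by linarith)
    (i1.mono_set (by
      rw [uIcc_of_le (half_le_self ht0.le), uIcc_of_le ht0.le]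
      exact Icc_subset_Icc_left (by positivity)))
    (fun ρ hρ => ce_nonneg _ _ (by linarith [hρ.1]))
    (by linarith [i2 (t / 2) t (by positivity) (half_le_self ht0.le) le_rfl, Dr_nonneg u y (t / 2)])
    ((hm.ae_good hBt).mono fun ρ h1 hρ => h1 ⟨by linarith [hρ.1], hρ.2⟩)
  have h0 := hg.pos
  have hBρ : closedBall y ρ ⊆ U := (closedBall_subset_closedBall hρ.2.le).trans hBt
  obtain ⟨τ, hτ, -, -, Q, -, c2, c3, -, p, hp', q, hq, d2, d3⟩ := flat_arms h ⟨h0, hρ.2.le.trans ht.2⟩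
  have hne : q ≠ p := fun e => by
    rw [e] at d3
    linarith
  have hK : {q, p} = K ∩ sphere y ρ := (toFinite _).eq_of_subset_of_encard_le
    (pair_subset ⟨(c3 hq.1).1, hq.2⟩ ⟨(c3 hp'.1).1, hp'.2⟩) (by
      rw [encard_pair hne]
      exact Order.le_of_lt_add_one (not_le.1 fun h3 => h1 ⟨⟨h0, hρ.2⟩, le_of_eq_of_le (by norm_num) h3⟩))
  have hF : hg.fin.toFinset = {q, p} := Finset.coe_injective (by rw [Finite.coe_toFinset, ← hK, Finset.coe_pair])
  have x1 := hm.xl hg hBρ (κ := ρ / 2 * θ ^ 2) (by positivity)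
    (mul_le_of_le_one_right (by positivity) (pow_le_one₀ hθ0.le hθ1)) (sphere_subset_closedBall hp'.2)
  rw [hF, Finset.sum_pair hne, Finset.card_pair hne, sub_self, norm_zero, add_zero,
    show ρ / (ρ / 2 * θ ^ 2) = 2 / θ ^ 2 by field_simp] at x1
  have x2 : ce u y ρ ≤ 4 * C * θ ^ 4 := by
    refine h2.trans ((div_le_iff₀ (by linarith)).2 (hD.trans ?_))
    nlinarith [mul_nonneg (mul_nonneg hC ht0.le) (pow_pos hθ0 4).le]
  have x3 : 2 * (ρ / 2 * θ ^ 2) * ce u y ρ ≤ 4 * C * (ρ * θ ^ 2) := by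
    have := x2.trans (mul_le_of_le_one_right (by positivity) (pow_le_one₀ hθ0.le hθ1))
    calc _ ≤ 2 * (ρ / 2 * θ ^ 2) * (4 * C) := by gcongr
      _ = _ := by ring
  have x4 : 2 * π * (2 / θ ^ 2) * ce1 u y ρ ^ 2 ≤ 512 * C * (ρ * θ ^ 2) := by
    have := Real.pi_le_four
    have := hg.ce1_sq
    have := ce_nonneg u y h0.le
    calc _ ≤ 2 * 4 * (2 / θ ^ 2) * (2 * π * ρ * ce u y ρ) := by gcongr
      _ ≤ 2 * 4 * (2 / θ ^ 2) * (2 * 4 * ρ * (4 * C * θ ^ 4)) := by gcongr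
      _ = _ := by field_simp; ring
  have x5 : π * (a * b) * ρ ^ 2 ≤ 4 * (ρ * θ ^ 2) := by
    have := Real.pi_le_four
    have e1 : a * b * ρ ≤ θ ^ 2 := by
      calc _ ≤ a * b * t := by gcongr; exact hρ.2.le
        _ = a * b * r * θ ^ 16 := by rw [e16]; field_simp
        _ ≤ θ ^ 16 := mul_le_of_le_one_left (by positivity) (hab.trans (min_le_right _ _))
        _ ≤ θ ^ 2 := pow_le_pow_of_le_one hθ0.le hθ1 (by norm_num)
    calc _ = π * (ρ * (a * b * ρ)) := by ring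
      _ ≤ _ := by gcongr
  have x6 : H1 (K ∩ closedBall y ρ) ≤ ENNReal.ofReal (‖q - p‖ + (8 + 516 * C) * (ρ * θ ^ 2)) := by
    rw [← ball_union_sphere, inter_union_distrib_left]
    refine (measure_union_le _ _).trans ?_
    rw [H1_finite hg.fin, add_zero, ← hm.ofReal_Lr hBρ]
    refine ENNReal.ofReal_le_ofReal ?_
    push_cast at x1
    linarith [Dr_nonneg u y ρ]
  have key : ∀ z ∈ K ∩ ball y (ρ / 2), |((z - p) * conj ((q - p) / (‖q - p‖ : ℂ))).im| ≤
      √(8 * (8 + 516 * C) / c) * t * θ := fun z hz => by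
    have k1 := (excess_height h.closed.measurableSet h0 hc hτ c2 c3 hp' hq d2 d3 hz.2 fun s hs => by
      have k2 : closedBall z s ⊆ U :=
        (closedBall_subset_closedBall' (by linarith [hs.2, mem_ball.1 hz.2])).trans hBρ
      rw [← hm.ofReal_Lr k2]
      exact ENNReal.ofReal_le_ofReal (H1' U K a b u hA z hz.1 s hs.1 k2 ((mul_le_mul_of_nonneg_left
        (by linarith [hs.2, hρ.2]) hab0).trans (hab.trans (min_le_left _ _))))).trans x6
    rw [ENNReal.ofReal_le_ofReal_iff (by positivity), add_le_add_iff_left, ← le_div_iff₀' hc,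
      div_le_iff₀ (by positivity)] at k1
    refine (abs_le_of_sq_le_sq (b := √(8 * (8 + 516 * C) / c) * ρ * θ) (k1.trans_eq ?_) (by positivity)).trans ?_
    · rw [mul_pow, mul_pow, Real.sq_sqrt (by positivity)]
      ring
    · gcongr
      exact hρ.2.le
  refine ⟨(q - p) / (‖q - p‖ : ℂ), ?_, fun z hz => ?_⟩
  · rw [norm_div, Complex.norm_real, norm_norm, div_self (norm_ne_zero_iff.2 (sub_ne_zero.2 hne))]
  · rw [show z - y = (z - p) - (y - p) by ring, sub_mul, Complex.sub_im]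
    linarith [abs_sub _ _ |>.trans (add_le_add (key z ⟨hz.1, ball_subset_ball (by linarith [hρ.1]) hz.2⟩)
      (key y ⟨h.mem, mem_ball_self (half_pos h0)⟩))]

end Crest.Agent.R135
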