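import Crest.Agent.R135.Defs
import Crest.Agent.R135.FHeight
set_option autoImplicit false
open MeasureTheory Metric Set Filter Topology
open scoped ENNReal NNReal Real ComplexConjugate

namespace Crest.Agent.R135

theorem ftan_im (a b : ℂ) : |(a * b).im| ≤ |a.im| * ‖b‖ + ‖a‖ * |b.im| := by
  rw [Complex.mul_im, add_comm]
  refine (abs_add_le _ _).trans ?_
  rw [abs_mul, abs_mul]
  gcongr
  exacts [Complex.abs_re_le_norm _, Complex.abs_re_le_norm _]

theorem ftan_tri (z : ℂ) {τ τ' : ℂ} (hτ : ‖τ‖ = 1) (hτ' : ‖τ'‖ = 1) :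
    |(z * conj τ').im| ≤ |(z * conj τ).im| + ‖z‖ * |(τ * conj τ').im| := by
  have h1 : conj τ * τ = 1 := by rw [Complex.conj_mul', hτ]; simp
  have := ftan_im (z * conj τ) (τ * conj τ')
  rw [show z * conj τ * (τ * conj τ') = z * conj τ' * (conj τ * τ) by ring, h1] at this
  simpa [hτ, hτ'] using this

theorem ftan_two (w : ℂ) {τ τ' : ℂ} (hτ : ‖τ‖ = 1) (hτ' : ‖τ'‖ = 1) :
    ‖w‖ * |(τ * conj τ').im| ≤ |(w * conj τ).im| + |(w * conj τ').im| := by
  rcases (norm_nonneg w).eq_or_lt with h | h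
  · rw [← h, zero_mul]; positivity
  have := ftan_im (conj (w * conj τ)) (w * conj τ')
  rw [show conj (w * conj τ) * (w * conj τ') = (conj w * w) * (τ * conj τ') by simp; ring, Complex.conj_mul',
    ← Complex.ofReal_pow, Complex.im_ofReal_mul, abs_mul, Complex.conj_im, abs_neg,
    abs_of_nonneg (sq_nonneg _)] at this
  simp only [norm_mul, Complex.norm_conj, hτ, hτ', mul_one] at this
  refine le_of_mul_le_mul_left ?_ h
  linarith

/-- Directions at dyadic scales converge. With `t_k = (r/32) 2^{-k}` and a point of `K` on `sphere y (t_k/16)`, `|im (τ_k conj τ_{k+1})| ≤ 32 C (t_k/r)^α`;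
`‖τ_k² - τ_{k+1}²‖ = 2 |im (τ_k conj τ_{k+1})|`, so `τ_k²` is Cauchy with a geometric rate; `τ` is a square root of the limit. For `‖z-y‖ ≥ r/256` the bound is trivial. -/
theorem tan_of_heights {C α : ℝ} (hC : 0 ≤ C) (hα : 0 < α) : ∃ C' : ℝ, 0 ≤ C' ∧ ∀ (K : Set ℂ) (y : ℂ) (r : ℝ), 0 < r →
    (∀ ρ ∈ Ioc 0 (r / 32), (K ∩ sphere y ρ).Nonempty) →
    (∀ t ∈ Ioc 0 (r / 32), ∃ τ : ℂ, ‖τ‖ = 1 ∧ ∀ z ∈ K ∩ ball y (t / 4), |((z - y) * conj τ).im| ≤ C * t * (t / r) ^ α) →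
    ∃ τ : ℂ, Tan C' α K y r τ := by

  obtain ⟨θ, hθ⟩ : ∃ θ : ℝ, θ = (2⁻¹ : ℝ) ^ α := ⟨_, rfl⟩
  have θ0 : 0 < θ := by rw [hθ]; positivity
  have θ1 : θ < 1 := by rw [hθ]; exact Real.rpow_lt_one (by norm_num) (by norm_num) hα
  have θ2 : 0 < 1 - θ := by linarith
  refine ⟨(16 * C + 32 * C / (1 - θ)) * 16 ^ α + 256 ^ α, by positivity, fun K y r hr hne hh => ?_⟩
  obtain ⟨t, ht⟩ : ∃ t : ℕ → ℝ, t = fun k => r / 32 * (2⁻¹ : ℝ) ^ k := ⟨_, rfl⟩
  have t0 : ∀ k, 0 < t k := fun k => by rw [ht]; positivity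
  have t1 : ∀ k, t k ≤ r / 32 := fun k => by
    rw [ht]; exact mul_le_of_le_one_right (by positivity) (pow_le_one₀ (by norm_num) (by norm_num))
  have t2 : ∀ k, t (k + 1) = t k / 2 := fun k => by rw [ht]; simp only [pow_succ]; ring
  choose τ hτ1 hτ2 using fun k => hh (t k) ⟨t0 k, t1 k⟩
  obtain ⟨q, hq⟩ : ∃ q : ℕ → ℝ, q = fun k => (t k / r) ^ α := ⟨_, rfl⟩
  have q0 : ∀ k, 0 < q k := fun k => by rw [hq]; have := t0 k; positivity
  have q1 : ∀ k, q (k + 1) = θ * q k := fun k => by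
    have := t0 k
    rw [hq, hθ]
    simp only [t2]
    rw [← Real.mul_rpow (by norm_num) (by positivity)]
    congr 1; ring
  have hτ3 : ∀ k, ∀ z ∈ K ∩ ball y (t k / 4), |((z - y) * conj (τ k)).im| ≤ C * t k * q k := by
    rw [hq]; exact hτ2
  have step : ∀ k, |(τ k * conj (τ (k + 1))).im| ≤ 32 * C * q k := fun k => by
    have := t0 k
    obtain ⟨z, hzK, hz⟩ := hne (t k / 16) ⟨by positivity, by linarith [t1 k]⟩
    rw [mem_sphere_iff_norm] at hz
    have a1 := hτ3 k z ⟨hzK, by rw [mem_ball_iff_norm, hz]; linarith⟩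
    have a2 := hτ3 (k + 1) z ⟨hzK, by rw [mem_ball_iff_norm, hz, t2]; linarith⟩
    have a3 := ftan_two (z - y) (hτ1 k) (hτ1 (k + 1))
    have a4 : C * t (k + 1) * q (k + 1) ≤ C * t k * q k := by
      have := q0 k
      rw [t2, q1]
      gcongr
      · linarith
      · exact mul_le_of_le_one_left this.le θ1.le
    rw [hz] at a3
    refine le_of_mul_le_mul_left (a := t k / 16) ?_ (by positivity)
    linarith
  have chain : ∀ k n, |(τ k * conj (τ (k + n))).im| ≤ 32 * C * (q k - q (k + n)) / (1 - θ) := fun k n => by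
    induction n with
    | zero => simp [Complex.mul_conj]
    | succ n ih =>
      have a1 := ftan_tri (τ k) (hτ1 (k + n)) (hτ1 (k + n + 1))
      rw [hτ1, one_mul] at a1
      refine a1.trans ((add_le_add ih (step (k + n))).trans_eq ?_)
      rw [← add_assoc, q1]
      field_simp
      ring
  obtain ⟨τ', hτ', φ, hφ, hl⟩ := (isCompact_sphere (0 : ℂ) 1).tendsto_subseq (x := τ) fun k => by simpa using hτ1 k
  have lim : ∀ k, |(τ k * conj τ').im| ≤ 32 * C * q k / (1 - θ) := fun k => by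
    have hc : Continuous fun w : ℂ => |(τ k * conj w).im| := by fun_prop
    refine le_of_tendsto ((hc.tendsto τ').comp hl) ?_
    filter_upwards [eventually_ge_atTop k] with n hn
    obtain ⟨m, hm⟩ := Nat.exists_eq_add_of_le (hn.trans (hφ.id_le n))
    have := chain k m
    simp only [Function.comp, id] at hm ⊢
    rw [hm]
    refine this.trans ?_
    have := q0 (k + m)
    gcongr
    linarith
  have hτ'1 : ‖τ'‖ = 1 := by simpa using hτ'
  refine ⟨τ', hτ'1, fun z hz => ?_⟩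
  obtain ⟨s, hs⟩ : ∃ s, s = ‖z - y‖ := ⟨_, rfl⟩
  have hs0 : 0 ≤ s := hs ▸ norm_nonneg _
  have triv : |((z - y) * conj τ').im| ≤ s := by
    refine (Complex.abs_im_le_norm _).trans_eq ?_
    rw [norm_mul, Complex.norm_conj, hτ'1, mul_one, hs]
  rw [← hs, add_mul, add_mul]
  rcases hs0.eq_or_lt with h0 | h0
  · rw [← h0] at triv ⊢; simpa using triv
  by_cases hbig : r / 256 ≤ s
  · refine triv.trans (le_add_of_nonneg_of_le (by positivity) (le_mul_of_one_le_left hs0 ?_))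
    rw [← Real.mul_rpow (by norm_num) (by positivity)]
    refine Real.one_le_rpow ?_ hα.le
    rw [← mul_div_assoc, le_div_iff₀ hr]; linarith
  obtain ⟨k, k1, k2⟩ := exists_nat_pow_near_of_lt_one (x := s / (r / 256)) (y := (2⁻¹ : ℝ)) (by positivity)
    ((div_le_one (by positivity)).2 (not_le.1 hbig).le) (by norm_num) (by norm_num)
  rw [lt_div_iff₀ (by positivity), pow_succ] at k1
  rw [div_le_iff₀ (by positivity)] at k2
  have k3 : t k ≤ 16 * s := by rw [ht]; simp only; linarith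
  have k4 : s ≤ t k / 8 := by rw [ht]; simp only; linarith
  have a1 := hτ3 k z ⟨hz, by rw [mem_ball_iff_norm, ← hs]; linarith [t0 k]⟩
  have a2 := ftan_tri (z - y) (hτ1 k) hτ'1
  have a3 : q k ≤ 16 ^ α * (s / r) ^ α := by
    have := t0 k
    rw [← Real.mul_rpow (by norm_num) (by positivity), hq, ← mul_div_assoc]
    simp only
    gcongr
  rw [← hs] at a2
  refine le_add_of_le_of_nonneg (a2.trans ?_) (by positivity)
  have := q0 k
  calc _ ≤ C * (16 * s) * q k + s * (32 * C * q k / (1 - θ)) :=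
        add_le_add (a1.trans (by gcongr)) (mul_le_mul_of_nonneg_left (lim k) hs0)
    _ = (16 * C + 32 * C / (1 - θ)) * q k * s := by ring
    _ ≤ (16 * C + 32 * C / (1 - θ)) * (16 ^ α * (s / r) ^ α) * s := by gcongr
    _ = _ := by ring

theorem flat_tan : ∃ C δ : ℝ, 0 ≤ C ∧ 0 < δ ∧ ∀ (U K : Set ℂ) (a b : ℝ) (u : ℂ → ℝ), Abs U a b K u → ∀ (y : ℂ) (r : ℝ),
    FH (1 / 2000) K y r → closedBall y r ⊆ U → a * b * r ≤ δ → ∃ τ : ℂ, Tan C (1 / 16) K y r τ := by
  obtain ⟨C, δ, hC, hδ, h⟩ := flat_height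
  obtain ⟨C', hC', h'⟩ := tan_of_heights hC (show (0 : ℝ) < 1 / 16 by norm_num)
  refine ⟨C', δ, hC', hδ, fun U K a b u ha y r hf hB hab => h' K y r hf.pos (fun ρ hρ => ?_) (h U K a b u ha y r hf hB hab)⟩
  have := flat_two_le hf hρ
  rw [← Set.encard_pos]
  exact lt_of_lt_of_le (by norm_num) this

/-- `close_flat` at the neighbours (`Sm.move`, ball inclusions: `Dr y' (r/2) ≤ r/8`, `Lr y' (29t/30) ≤ 2.1 t ≤ (9/4)(29t/30)` for `dist y' x ≤ t/30`) -/
theorem flatHyp_FH {U K : Set ℂ} {a b : ℝ} {u : ℂ → ℝ} (h : Abs U a b K u) {x : ℂ} (hx : x ∈ K ∩ U)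
    (hcf : ∃ σ δ : ℝ, 0 < σ ∧ σ ≤ 1 / 4 ∧ 0 < δ ∧ ∀ y ∈ K, ∀ r : ℝ, 0 < r → Sm δ U a b y r → Dr u y r ≤ r / 4 →
      ∀ t ∈ Ioc 0 (σ * r), Lr K y t ≤ 9 / 4 * t → FG (1 / 2000) K y (σ * t))
    (hf : FlatHyp K u x) : ∃ r : ℝ, FH (1 / 2000) K x r := by

  obtain ⟨σ, δ, σ0, σ1, δ0, hcf⟩ := hcf
  obtain ⟨r₀, r0, hS⟩ := exists_Sm h.ms.isOpen hx.2 a b δ0
  obtain ⟨ε, ε0, hε⟩ := nhds_basis_closedBall.mem_iff.1 (h.ms.isOpen.mem_nhds hx.2)
  obtain ⟨r, ⟨r1, r2⟩, t, ⟨t0, t1⟩, hD, hL⟩ := hf (min r₀ ε) (σ / 2) (lt_min r0 ε0) (half_pos σ0)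
  have r3 := r2.trans (min_le_left _ _)
  have r4 := r2.trans (min_le_right _ _)
  have t2 : t ≤ r / 8 := t1.trans (by nlinarith)
  have t3 : σ * t ≤ t := mul_le_of_le_one_left t0.le (by linarith)
  have t4 := mul_pos σ0 t0
  refine ⟨σ * t / 30, h.ms.closed, hx.1, by positivity, fun y hy s hs => ?_⟩
  have hy2 : dist y x < σ * t / 30 := hy.2
  refine hcf y hy.1 (r / 2) (half_pos r1) (hS y (by rw [mem_ball]; linarith) _ ⟨half_pos r1, by linarith⟩) ?_
    (29 / 30 * t) ⟨by positivity, by linarith⟩ ?_ s ⟨hs.1, hs.2.trans (by linarith)⟩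
  · refine (h.ms.Dr_mono ((closedBall_subset_closedBall r4).trans hε)
      (ball_subset_ball' (by linarith))).trans (by linarith)
  · refine (h.ms.Lr_mono (ρ := t) ((closedBall_subset_closedBall (by linarith)).trans hε)
      (ball_subset_ball' (by linarith))).trans (by linarith)

end Crest.Agent.R135
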