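import Crest.Agent.R135.Defs
import Crest.Agent.R135.FGraph
import Crest.Agent.R135.FArms
import Crest.Agent.R135.FTan
set_option autoImplicit false
open MeasureTheory Metric Set Filter Topology
open scoped ENNReal NNReal Real ComplexConjugate

namespace Crest.Agent.R135

theorem fpt_re {w : ℂ} (h : |w.im| ≤ ‖w‖ / 2) : ‖w‖ ≤ 2 * |w.re| := by
  linarith [Complex.norm_le_abs_re_add_abs_im w]

theorem fpt_div {a b e : ℂ} {ρ : ℝ} (hρ : 0 < ρ) (ha : ‖a‖ = 1) (hb : ‖b‖ = 1) (he : ‖e‖ = 1)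
    (h1 : 1 / 2 ≤ (a * conj e).re) (h2 : 1 / 2 ≤ (b * conj e).re) :
    ‖a / (((a * conj e).re / ρ : ℝ) : ℂ) - b / (((b * conj e).re / ρ : ℝ) : ℂ)‖ ≤ 8 * ρ * ‖a - b‖ := by
  have h3 : |(b * conj e).re - (a * conj e).re| ≤ ‖a - b‖ := by
    rw [← Complex.sub_re, ← sub_mul, norm_sub_rev]
    simpa [he] using Complex.abs_re_le_norm ((b - a) * conj e)
  have h4 : (b * conj e).re ≤ 1 := by simpa [he, hb] using Complex.re_le_norm (b * conj e)
  generalize (a * conj e).re = A at *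
  generalize (b * conj e).re = B at *
  have hA : (A : ℂ) ≠ 0 := Complex.ofReal_ne_zero.2 (by linarith)
  have hB : (B : ℂ) ≠ 0 := Complex.ofReal_ne_zero.2 (by linarith)
  have hρ' : (ρ : ℂ) ≠ 0 := Complex.ofReal_ne_zero.2 hρ.ne'
  have e1 : a / ((A / ρ : ℝ) : ℂ) - b / ((B / ρ : ℝ) : ℂ) =
      ((ρ / (A * B) : ℝ) : ℂ) * ((B : ℂ) * (a - b) + ((B - A : ℝ) : ℂ) * b) := by
    push_cast; field_simp; ring
  have hAB : 1 / 4 ≤ A * B := by nlinarith
  rw [e1, norm_mul, Complex.norm_real, Real.norm_of_nonneg (by positivity)]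
  have e2 : ‖(B : ℂ) * (a - b) + ((B - A : ℝ) : ℂ) * b‖ ≤ 2 * ‖a - b‖ := by
    refine (norm_add_le _ _).trans ?_
    rw [norm_mul, norm_mul, Complex.norm_real, Complex.norm_real, hb, Real.norm_of_nonneg (by linarith),
      Real.norm_eq_abs]
    nlinarith [norm_nonneg (a - b)]
  have e3 : ρ / (A * B) ≤ 4 * ρ := by
    rw [div_le_iff₀ (by positivity)]; nlinarith
  calc _ ≤ 4 * ρ * (2 * ‖a - b‖) := by gcongr
    _ = _ := by ring

/-- Flat points. Choose `τ y` with `Tan`, `τ₀ = τ x`, `s` so small that `C (2s/r)^α ≤ 1/100`; flip signs so that `re (τ y conj τ₀) ≥ 1/2` on `K ∩ ball x s` (`tan_close`).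
`f z = re ((z-x) conj τ₀)` satisfies `‖z - y‖ ≤ 2|f z - f y|` on `K ∩ ball x s`; `flat_arms` at radius `ρ ≤ min (s/2) (r/32)` shows `f (K ∩ closedBall x ρ) ⊇ [-ρ/2·, ρ/2]`
(the end points `p, q` have `f` of opposite signs and size `≥ ρ/2`). With `h = ρ/4`: `p t` the unique point over `t ∈ [-h,h]`, `N = ball x s ∩ {|f| < h} `, `γ λ = p (-h + 2hλ)`,
`graph_deriv`, `tan_close`, `norm_sub_le_im`, `holderOnWith_of`. -/
theorem intPt_of {U K : Set ℂ} (hU : IsOpen U) {x : ℂ} (hx : x ∈ U) {r C α : ℝ} (hC : 0 ≤ C) (hα : 0 < α)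
    (h : FH (1 / 2000) K x r) (ht : ∀ y ∈ K ∩ ball x r, ∃ τ : ℂ, Tan C α K y r τ) : IntPt U K x := by

  have hr := h.pos
  obtain ⟨s, s0, sU, sr, sC⟩ : ∃ s : ℝ, 0 < s ∧ ball x s ⊆ U ∧ s ≤ r / 32 ∧ C * (2 * s / r) ^ α ≤ 1 / 100 := by
    have h1 : ContinuousAt (fun s : ℝ => C * (2 * s / r) ^ α) 0 :=
      continuousAt_const.mul (ContinuousAt.rpow_const (by fun_prop) (Or.inr hα.le))
    have h2 : ∀ᶠ s : ℝ in 𝓝 0, C * (2 * s / r) ^ α ≤ 1 / 100 :=
      h1.eventually (ge_mem_nhds (by simp [Real.zero_rpow hα.ne']))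
    obtain ⟨ε, ε0, hε⟩ := Metric.isOpen_iff.1 hU x hx
    obtain ⟨s, ⟨a1, a2, a3⟩, a4⟩ := ((((h2.and ((ge_mem_nhds ε0 : ∀ᶠ s : ℝ in 𝓝 0, s ≤ ε).and
      (ge_mem_nhds (by positivity : (0 : ℝ) < r / 32)))).filter_mono nhdsWithin_le_nhds).and
        (self_mem_nhdsWithin (s := Ioi (0 : ℝ)))).exists)
    exact ⟨s, a4, (ball_subset_ball a2).trans hε, a3, a1⟩
  have small : ∀ y ∈ ball x s, ∀ z ∈ ball x s, C * (‖z - y‖ / r) ^ α ≤ 1 / 100 := fun y hy z hz => by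
    refine le_trans ?_ sC
    have := dist_triangle_right z y x
    rw [mem_ball] at hy hz
    rw [← dist_eq_norm]
    gcongr
    linarith
  obtain ⟨e, he⟩ := ht x ⟨h.mem, mem_ball_self hr⟩
  have hτ : ∀ y, ∃ τ : ℂ, y ∈ K ∩ ball x s →
      Tan C α K y r τ ∧ 1 / 2 ≤ (τ * conj e).re ∧ |(τ * conj e).im| ≤ 1 / 50 := fun y => by
    by_cases hy : y ∈ K ∩ ball x s
    swap
    · exact ⟨0, fun h => absurd h hy⟩
    by_cases hyx : y = x
    · subst hyx
      exact ⟨e, fun _ => ⟨he, by norm_num [Complex.mul_conj', he.1], by norm_num [Complex.mul_conj', he.1]⟩⟩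
    obtain ⟨τ, hτ⟩ := ht y ⟨hy.1, ball_subset_ball (by linarith) hy.2⟩
    have a1 := tan_close hτ he hy.1 h.mem hyx
    have a2 := small x (mem_ball_self s0) y hy.2
    have a3 : |(τ * conj e).im| ≤ 1 / 50 := by linarith
    have a4 := fpt_re (w := τ * conj e) (by rw [norm_mul, Complex.norm_conj, hτ.1, he.1]; linarith)
    simp only [norm_mul, Complex.norm_conj, hτ.1, he.1] at a4
    rcases le_total 0 (τ * conj e).re with h0 | h0
    · rw [abs_of_nonneg h0] at a4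
      exact ⟨τ, fun _ => ⟨hτ, by linarith, a3⟩⟩
    · rw [abs_of_nonpos h0] at a4
      refine ⟨-τ, fun _ => ⟨⟨by simpa using hτ.1, fun z hz => ?_⟩, ?_, ?_⟩⟩
      · rw [map_neg, mul_neg, Complex.neg_im, abs_neg]; exact hτ.2 z hz
      · rw [neg_mul, Complex.neg_re]; linarith
      · rw [neg_mul, Complex.neg_im, abs_neg]; exact a3
  choose τ hτ using hτ
  have key : ∀ y ∈ K ∩ ball x s, ∀ z ∈ K ∩ ball x s, ‖z - y‖ ≤ 2 * |((z - y) * conj e).re| := fun y hy z hz => by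
    obtain ⟨b1, -, b3⟩ := hτ y hy
    have a1 := ftan_tri (z - y) b1.1 he.1
    have a2 := (b1.2 z hz.1).trans (mul_le_mul_of_nonneg_right (small y hy.2 z hz.2) (norm_nonneg _))
    have a3 := mul_le_mul_of_nonneg_left b3 (norm_nonneg (z - y))
    have a4 := fpt_re (w := (z - y) * conj e) (by
      rw [norm_mul, Complex.norm_conj, he.1, mul_one]; linarith [norm_nonneg (z - y)])
    rwa [norm_mul, Complex.norm_conj, he.1, mul_one] at a4
  obtain ⟨ρ, hρ⟩ : ∃ ρ, ρ = s / 2 := ⟨_, rfl⟩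
  have ρ0 : 0 < ρ := by linarith
  have sub : K ∩ closedBall x ρ ⊆ K ∩ ball x s :=
    inter_subset_inter_right _ (closedBall_subset_ball (by linarith))
  obtain ⟨L, hL⟩ : ∃ L : ℂ →L[ℝ] ℝ, ∀ z, L z = (z * conj e).re / ρ :=
    ⟨ρ⁻¹ • Complex.reCLM.comp (ContinuousLinearMap.mul ℝ ℂ (conj e)), fun z => by
      simp only [ContinuousLinearMap.smul_apply, ContinuousLinearMap.comp_apply,
        ContinuousLinearMap.mul_apply', Complex.reCLM_apply, smul_eq_mul]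
      rw [mul_comm (conj e), div_eq_inv_mul]⟩
  have key' : ∀ y ∈ K ∩ ball x s, ∀ z ∈ K ∩ ball x s, ‖z - y‖ ≤ 2 * ρ * |L z - L y| := fun y hy z hz => by
    rw [← map_sub, hL, abs_div, abs_of_pos ρ0]
    refine (key y hy z hz).trans_eq ?_
    field_simp
  have hLn : ∀ z, |L z| ≤ ‖z‖ / ρ := fun z => by
    rw [hL, abs_div, abs_of_pos ρ0]
    gcongr
    simpa [he.1] using Complex.abs_re_le_norm (z * conj e)
  have surj : ∀ l : ℝ, ∃ z : ℂ, l ∈ Icc (0 : ℝ) 1 → z ∈ K ∩ ball x s ∧ L z + (1 / 2 - L x) = l := fun l => by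
    by_cases hl : l ∈ Icc (0 : ℝ) 1
    swap
    · exact ⟨0, fun h => absurd h hl⟩
    obtain ⟨τ', hτ', -, -, D, -, D1, D2, -, p, hp, q, hq, p1, q1⟩ := flat_arms h (ρ := ρ) ⟨ρ0, by linarith⟩
    have hx' : x ∈ K ∩ ball x s := ⟨h.mem, mem_ball_self s0⟩
    have big : ∀ z ∈ D ∩ sphere x ρ, 1 / 2 ≤ |L z - L x| ∧ |L z - L x| ≤ 1 := fun z hz => by
      have a1 := key' x hx' z (sub (D2 hz.1))
      have a2 := hLn (z - x)
      rw [mem_sphere_iff_norm.1 hz.2] at a1 a2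
      rw [div_self ρ0.ne', map_sub] at a2
      exact ⟨by nlinarith, a2⟩
    have far : 1 / 2 < |L q - L p| := by
      have a1 := key' p (sub (D2 hp.1)) q (sub (D2 hq.1))
      have a2 := Complex.re_le_norm ((q - p) * conj τ')
      rw [norm_mul, Complex.norm_conj, hτ', mul_one,
        show (q - p) * conj τ' = (q - x) * conj τ' - (p - x) * conj τ' by ring, Complex.sub_re] at a2
      nlinarith
    have iv : ∀ a ∈ D, ∀ b ∈ D, L a - L x ≤ -(1 / 2) → 1 / 2 ≤ L b - L x →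
        ∃ z : ℂ, l ∈ Icc (0 : ℝ) 1 → z ∈ K ∩ ball x s ∧ L z + (1 / 2 - L x) = l := fun a ha b hb a1 b1 => by
      obtain ⟨z, hz, z1⟩ := D1.intermediate_value ha hb (f := fun z => L z + (1 / 2 - L x)) (by fun_prop)
        (show l ∈ Icc _ _ from ⟨by linarith [hl.1], by linarith [hl.2]⟩)
      exact ⟨z, fun _ => ⟨sub (D2 hz), z1⟩⟩
    obtain ⟨p2, p3⟩ := big p hp
    obtain ⟨q2, q3⟩ := big q hq
    rw [abs_le] at p3 q3
    rcases le_abs'.1 p2 with p4 | p4 <;> rcases le_abs'.1 q2 with q4 | q4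
    · exact absurd far (not_lt.2 (abs_le.2 ⟨by linarith, by linarith⟩))
    · exact iv p hp.1 q hq.1 p4 q4
    · exact iv q hq.1 p hp.1 q4 p4
    · exact absurd far (not_lt.2 (abs_le.2 ⟨by linarith, by linarith⟩))
  choose γ hγ using surj
  have lip : ∀ a ∈ Icc (0 : ℝ) 1, ∀ b ∈ Icc (0 : ℝ) 1, ‖γ a - γ b‖ ≤ 2 * ρ * |a - b| := fun a ha b hb => by
    refine (key' _ (hγ b hb).1 _ (hγ a ha).1).trans_eq ?_
    congr 2
    linarith [(hγ a ha).2, (hγ b hb).2]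
  have cont : ContinuousOn γ (Icc 0 1) :=
    (LipschitzOnWith.of_dist_le' (K := 2 * ρ) fun a ha b hb => by
      rw [dist_eq_norm, Real.dist_eq]; exact lip a ha b hb).continuousOn
  have Lτ : ∀ y ∈ K ∩ ball x s, L (τ y) ≠ 0 := fun y hy => by
    have := (hτ y hy).2.1
    rw [hL]; positivity
  have img : K ∩ (ball x s ∩ {z | L z + (1 / 2 - L x) ∈ Ioo (0 : ℝ) 1}) = γ '' Ioo 0 1 := by
    ext z
    constructor
    · rintro ⟨z1, z2, z3⟩
      obtain ⟨a1, a2⟩ := hγ _ (Ioo_subset_Icc_self z3)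
      refine ⟨_, z3, ?_⟩
      have := key' z ⟨z1, z2⟩ _ a1
      rw [add_left_injective _ a2, sub_self, abs_zero, mul_zero] at this
      exact sub_eq_zero.1 (norm_le_zero_iff.1 this)
    · rintro ⟨l, hl, rfl⟩
      obtain ⟨a1, a2⟩ := hγ _ (Ioo_subset_Icc_self hl)
      exact ⟨a1.1, a1.2, by rw [mem_setOf_eq, a2]; exact hl⟩
  have hxN : x ∈ ball x s ∩ {z | L z + (1 / 2 - L x) ∈ Ioo (0 : ℝ) 1} :=
    ⟨mem_ball_self s0, by constructor <;> linarith⟩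
  refine ⟨_, isOpen_ball.inter (isOpen_Ioo.preimage (f := fun z => L z + (1 / 2 - L x)) (by fun_prop)),
    inter_subset_left.trans sU, hxN, α.toNNReal, Real.toNNReal_pos.2 hα, γ,
    fun l => τ (γ l) / (L (τ (γ l)) : ℂ), ⟨fun a ha b hb hab => ?_, fun l hl => ?_, fun l hl => ?_, ?_⟩, img,
    img ▸ ⟨h.mem, hxN⟩⟩
  · rw [← (hγ a ha).2, ← (hγ b hb).2, hab]
  · exact graph_deriv hα hr hl (hτ _ (hγ l hl).1).1 (fun a ha => (hγ a ha).1.1) (cont l hl)
      (L.hasFDerivAt.add_const _) (fun a ha => (hγ a ha).2) (Lτ _ (hγ l hl).1)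
  · refine div_ne_zero (fun h0 => ?_) (Complex.ofReal_ne_zero.2 (Lτ _ (hγ l hl).1))
    simpa [h0] using (hτ _ (hγ l hl).1).1.1
  · refine holderOnWith_of (C := 8 * ρ * (4 * C * (2 * ρ / r) ^ α)) hα fun a ha b hb => ?_
    obtain ⟨a1, a2, -⟩ := hτ _ (hγ a ha).1
    obtain ⟨b1, b2, -⟩ := hτ _ (hγ b hb).1
    by_cases hab : γ a = γ b
    · rw [hab, sub_self, norm_zero]; positivity
    rw [hL, hL, mul_assoc (8 * ρ)]
    refine (fpt_div ρ0 a1.1 b1.1 he.1 a2 b2).trans (mul_le_mul_of_nonneg_left ?_ (by positivity))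
    refine (norm_sub_le_im a1.1 b1.1 he.1 a2 b2).trans ?_
    have c1 := tan_close a1 b1 (hγ a ha).1.1 (hγ b hb).1.1 hab
    have c2 : C * (‖γ a - γ b‖ / r) ^ α ≤ C * ((2 * ρ / r) ^ α * |a - b| ^ α) := by
      rw [← Real.mul_rpow (by positivity) (abs_nonneg _), div_mul_eq_mul_div]
      gcongr
      exact lip a ha b hb
    linarith

end Crest.Agent.R135
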