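import Crest.Agent.R135.Defs
import Crest.Agent.R135.TLip
set_option autoImplicit false
open MeasureTheory Metric Set Filter Topology
open scoped ENNReal NNReal Real ComplexConjugate

namespace Crest.Agent.R135

theorem mci_pt {a b M : ℝ} (hM : 0 < M) : |a - b| ≤ min |a - b| M + 2 / M * (a ^ 2 + b ^ 2) := by
  have h0 : 0 ≤ 2 / M * (a ^ 2 + b ^ 2) := by positivity
  rcases le_total |a - b| M with h | h
  · rw [min_eq_left h]; linarith
  · rw [min_eq_right h]
    have h1 : |a - b| * M ≤ 2 * (a ^ 2 + b ^ 2) := by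
      have h2 : |a - b| * M ≤ |a - b| * |a - b| := mul_le_mul_of_nonneg_left h (abs_nonneg _)
      rw [abs_mul_abs_self] at h2
      nlinarith [sq_nonneg (a + b)]
    have h3 : |a - b| ≤ 2 / M * (a ^ 2 + b ^ 2) := by
      rw [div_mul_eq_mul_div, le_div_iff₀ hM]; exact h1
    linarith

/-- averages of circle integrals over thin shells -/
theorem mci_avg {h : ℝ → ℝ → ℝ} {e : ℝ → ℝ} {ρ C : ℝ} (hρ : 0 < ρ) (hm : ∀ r, Measurable (h r))
    (he : IntervalIntegrable e volume 0 ρ)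
    (hr : ∀ᵐ r : ℝ, r ∈ Ioo 0 ρ → IntervalIntegrable (h r) volume (-π) π ∧
      IntervalIntegrable (fun φ => h r φ ^ 2) volume (-π) π ∧ ∫ φ in (-π)..π, h r φ ^ 2 ≤ e r)
    (h1 : IntervalIntegrable (h ρ) volume (-π) π) (h2 : IntervalIntegrable (fun φ => h ρ φ ^ 2) volume (-π) π)
    (hl : ∀ᵐ φ : ℝ, φ ∈ uIoc (-π) π → Tendsto (fun r => h r φ) (𝓝 ρ) (𝓝 (h ρ φ)))
    (hC : ∀ᶠ δ in 𝓝[>] (0 : ℝ), δ⁻¹ * ∫ r in (ρ - δ)..ρ, e r ≤ C)
    (hg : IntervalIntegrable (fun r => ∫ φ in (-π)..π, h r φ) volume 0 ρ) :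
    Tendsto (fun δ => δ⁻¹ * ∫ r in (ρ - δ)..ρ, ∫ φ in (-π)..π, h r φ) (𝓝[>] 0)
      (𝓝 (∫ φ in (-π)..π, h ρ φ)) := by
  have hπ : -π ≤ π := by linarith [Real.pi_pos]
  rw [Metric.tendsto_nhds]
  intro ε hε
  set E := ∫ φ in (-π)..π, h ρ φ ^ 2 with hE
  have hE0 : 0 ≤ E := intervalIntegral.integral_nonneg hπ fun _ _ => sq_nonneg _
  obtain ⟨M, hM, hM'⟩ : ∃ M : ℝ, 0 < M ∧ 2 / M * (C + E) ≤ ε / 3 := by
    refine ⟨6 * (|C| + E + 1) / ε, by positivity, ?_⟩
    have h3 : 0 < |C| + E + 1 := by positivity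
    rw [div_div_eq_mul_div, div_mul_eq_mul_div, div_le_div_iff₀ (by positivity) (by norm_num)]
    nlinarith [le_abs_self C]
  have hmm : ∀ r, Measurable fun φ => min |h r φ - h ρ φ| M := fun r =>
    ((hm r).sub (hm ρ)).abs.min measurable_const
  have hmb : ∀ r φ, ‖min |h r φ - h ρ φ| M‖ ≤ M := fun r φ => by
    rw [Real.norm_of_nonneg (le_min (abs_nonneg _) hM.le)]; exact min_le_right _ _
  have hlim : Tendsto (fun r => ∫ φ in (-π)..π, min |h r φ - h ρ φ| M) (𝓝 ρ) (𝓝 (∫ φ in (-π)..π, (0 : ℝ))) := by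
    refine intervalIntegral.tendsto_integral_filter_of_dominated_convergence (fun _ => M)
      (Eventually.of_forall fun r => (hmm r).aestronglyMeasurable)
      (Eventually.of_forall fun r => Eventually.of_forall fun φ _ => hmb r φ) intervalIntegrable_const ?_
    filter_upwards [hl] with φ hφ hφ'
    have := (((hφ hφ').sub_const (h ρ φ)).abs).min (tendsto_const_nhds (x := M))
    rwa [sub_self, abs_zero, min_eq_left hM.le] at this
  rw [intervalIntegral.integral_zero] at hlim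
  obtain ⟨δ₁, hδ₁, hb⟩ := Metric.eventually_nhds_iff.1 (hlim.eventually (gt_mem_nhds (show 0 < ε / 3 by positivity)))
  filter_upwards [hC, Ioo_mem_nhdsGT (lt_min hδ₁ hρ)] with δ hCδ hδ
  have hδ0 : 0 < δ := hδ.1
  have hδ1 : δ < δ₁ := hδ.2.trans_le (min_le_left _ _)
  have hδ2 : δ < ρ := hδ.2.trans_le (min_le_right _ _)
  have hsub : uIcc (ρ - δ) ρ ⊆ uIcc 0 ρ := by
    rw [uIcc_of_le (by linarith), uIcc_of_le hρ.le]
    exact Icc_subset_Icc_left (by linarith)
  have he' := he.mono_set hsub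
  have hg' := hg.mono_set hsub
  set G := ∫ φ in (-π)..π, h ρ φ with hG
  have key : ‖∫ r in (ρ - δ)..ρ, ((∫ φ in (-π)..π, h r φ) - G)‖ ≤
      ∫ r in (ρ - δ)..ρ, (ε / 3 + 2 / M * (e r + E)) := by
    refine intervalIntegral.norm_integral_le_of_norm_le (by linarith) ?_
      (intervalIntegrable_const.add ((he'.add intervalIntegrable_const).const_mul _))
    have hne : ∀ᵐ r : ℝ, r ≠ ρ := by simp [ae_iff]
    filter_upwards [hr, hne] with r hr hne hr'
    obtain ⟨i1, i2, i3⟩ := hr ⟨by linarith [hr'.1], lt_of_le_of_ne hr'.2 hne⟩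
    have i4 : IntervalIntegrable (fun φ => min |h r φ - h ρ φ| M) volume (-π) π :=
      intervalIntegrable_const.mono_fun' (hmm r).aestronglyMeasurable (Eventually.of_forall (hmb r))
    rw [hG, ← intervalIntegral.integral_sub i1 h1]
    refine (intervalIntegral.norm_integral_le_of_norm_le hπ (Eventually.of_forall fun φ _ => mci_pt hM)
      (i4.add ((i2.add h2).const_mul _))).trans ?_
    rw [intervalIntegral.integral_add i4 ((i2.add h2).const_mul _), intervalIntegral.integral_const_mul,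
      intervalIntegral.integral_add i2 h2]
    have i5 := hb (y := r) (by
      rw [Real.dist_eq, abs_lt]; constructor <;> linarith [hr'.1, hr'.2])
    exact add_le_add i5.le (mul_le_mul_of_nonneg_left (by linarith) (by positivity))
  rw [intervalIntegral.integral_sub hg' intervalIntegrable_const,
    intervalIntegral.integral_add intervalIntegrable_const ((he'.add intervalIntegrable_const).const_mul _),
    intervalIntegral.integral_const_mul, intervalIntegral.integral_add he' intervalIntegrable_const] at key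
  simp only [intervalIntegral.integral_const, sub_sub_cancel, smul_eq_mul] at key
  set A := ∫ r in (ρ - δ)..ρ, ∫ φ in (-π)..π, h r φ
  set X := ∫ r in (ρ - δ)..ρ, e r
  have e1 : δ⁻¹ * A - G = δ⁻¹ * (A - δ * G) := by field_simp
  rw [Real.dist_eq, e1, abs_mul, abs_of_pos (inv_pos.2 hδ0)]
  refine (mul_le_mul_of_nonneg_left key (inv_pos.2 hδ0).le).trans_lt ?_
  have e2 : δ⁻¹ * (δ * (ε / 3) + 2 / M * (X + δ * E)) = ε / 3 + 2 / M * (δ⁻¹ * X + E) := by field_simp
  rw [e2]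
  have := mul_le_mul_of_nonneg_left (add_le_add_left hCδ E) (show 0 ≤ 2 / M by positivity)
  linarith

/-- the cut-off -/
noncomputable def mciE (x : ℂ) (ρ δ : ℝ) (z : ℂ) : ℝ := max 0 (min 1 ((ρ - ‖z - x‖) / δ))

theorem mciE_nonneg (x : ℂ) (ρ δ : ℝ) (z : ℂ) : 0 ≤ mciE x ρ δ z := le_max_left _ _

theorem mciE_le (x : ℂ) (ρ δ : ℝ) (z : ℂ) : mciE x ρ δ z ≤ 1 := max_le zero_le_one (min_le_left _ _)

theorem mciE_one {x z : ℂ} {ρ δ : ℝ} (hδ : 0 < δ) (hz : ‖z - x‖ ≤ ρ - δ) : mciE x ρ δ z = 1 := by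
  rw [mciE, min_eq_left ((one_le_div hδ).2 (by linarith)), max_eq_right zero_le_one]

theorem mciE_zero {x z : ℂ} {ρ δ : ℝ} (hδ : 0 < δ) (hz : ρ ≤ ‖z - x‖) : mciE x ρ δ z = 0 :=
  max_eq_left ((min_le_right _ _).trans (div_nonpos_of_nonpos_of_nonneg (by linarith) hδ.le))

theorem mciE_mid {x z : ℂ} {ρ δ : ℝ} (hδ : 0 < δ) (h1 : ρ - δ ≤ ‖z - x‖) (h2 : ‖z - x‖ ≤ ρ) :
    mciE x ρ δ z = (ρ - ‖z - x‖) / δ := by
  rw [mciE, min_eq_right ((div_le_one hδ).2 (by linarith)), max_eq_right (div_nonneg (by linarith) hδ.le)]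

theorem mciE_lip (x : ℂ) (ρ : ℝ) {δ : ℝ} (hδ : 0 < δ) : ∃ L, LipschitzWith L (mciE x ρ δ) := by
  have h : LipschitzWith ⟨δ⁻¹, by positivity⟩ fun z : ℂ => (ρ - ‖z - x‖) / δ := by
    refine LipschitzWith.of_dist_le_mul fun z w => ?_
    rw [Real.dist_eq, ← sub_div, abs_div, abs_of_pos hδ, div_eq_inv_mul, sub_sub_sub_cancel_left, dist_comm,
      dist_eq_norm]
    refine mul_le_mul_of_nonneg_left ((abs_norm_sub_norm_le _ _).trans_eq ?_) (by positivity)
    rw [sub_sub_sub_cancel_right]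
  exact ⟨_, (h.const_min 1).const_max 0⟩

theorem mci_norm {x z : ℂ} (hz : z ≠ x) :
    HasFDerivAt (fun w : ℂ => ‖w - x‖) (‖z - x‖⁻¹ • innerSL ℝ (z - x)) z := by
  have h0 : 0 < ‖z - x‖ := norm_pos_iff.2 (sub_ne_zero.2 hz)
  have h1 := (((hasFDerivAt_id z).sub_const x).norm_sq).sqrt (by simpa using sub_ne_zero.2 hz)
  simp only [id, Real.sqrt_sq (norm_nonneg _)] at h1
  refine h1.congr_fderiv (ContinuousLinearMap.ext fun d => ?_)
  simp only [smul_apply, ContinuousLinearMap.comp_apply, ContinuousLinearMap.id_apply, smul_eq_mul, nsmul_eq_mul]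
  field_simp
  simp

/-- derivative of the cut-off function -/
theorem mci_fderiv {x z : ℂ} {ρ δ : ℝ} (hδ : 0 < δ) (hδρ : δ < ρ) (hz : z ∈ ball x ρ) (hz' : z ∉ sphere x (ρ - δ))
    {ψ : ℂ → ℝ} (hψ : DifferentiableAt ℝ ψ z) (d : ℂ) :
    fderiv ℝ (fun w => mciE x ρ δ w * ψ w) z d = mciE x ρ δ z * fderiv ℝ ψ z d -
      δ⁻¹ * (ball x ρ \ ball x (ρ - δ)).indicator (fun w => ψ w * (inner ℝ d (w - x) / ‖w - x‖)) z := by
  rw [mem_sphere, dist_eq_norm] at hz'
  have hz1 : ‖z - x‖ < ρ := by rwa [mem_ball, dist_eq_norm] at hz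
  have hc : Continuous fun w : ℂ => ‖w - x‖ := by fun_prop
  rcases lt_or_gt_of_ne hz' with h | h
  · have e : (fun w => mciE x ρ δ w * ψ w) =ᶠ[𝓝 z] ψ := by
      filter_upwards [hc.continuousAt.eventually (gt_mem_nhds h)] with w hw
      rw [mciE_one hδ hw.le, one_mul]
    rw [e.fderiv_eq, mciE_one hδ h.le, indicator_of_notMem fun h' => h'.2 (by rwa [mem_ball, dist_eq_norm])]
    ring
  · have hne : z ≠ x := by
      rintro rfl
      rw [sub_self, norm_zero] at h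
      linarith
    have e : mciE x ρ δ =ᶠ[𝓝 z] fun w => (ρ - ‖w - x‖) * δ⁻¹ := by
      filter_upwards [hc.continuousAt.eventually (lt_mem_nhds h), hc.continuousAt.eventually (gt_mem_nhds hz1)]
        with w hw hw'
      exact mciE_mid hδ hw.le hw'.le
    have h1 := (((mci_norm hne).const_sub ρ).mul_const δ⁻¹).congr_of_eventuallyEq e
    rw [(h1.fun_mul hψ.hasFDerivAt).fderiv,
      indicator_of_mem (show z ∈ ball x ρ \ ball x (ρ - δ) from
        ⟨hz, by rw [mem_ball, dist_eq_norm]; exact not_lt.2 h.le⟩)]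
    simp only [add_apply, smul_apply, neg_apply, smul_eq_mul, innerSL_apply_apply, real_inner_comm]
    ring

end Crest.Agent.R135
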