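import Crest.Agent.R135.Defs
import Crest.Agent.R135.TReg
import Crest.Agent.R135.TWeyl
set_option autoImplicit false
open MeasureTheory Metric Set Filter Topology
open scoped ENNReal NNReal Real ComplexConjugate Convolution

namespace Crest.Agent.R135

/-! Regularity of the original function. With `φ, η` of `exists_mol`: `m_t(p) = ∫ φ_t(z-p) v(z) dz`, `m_t - m_{t/2} = ∫ η_t(z-p) f(z) dz` (`Δη_t = φ_t - φ_{t/2}`).
For `f ∈ L²`: `≤ C t ‖f‖₂`; for `f` locally bounded the gradients differ by `≤ C t M`. So `m_{2^{-k}}` converges locally uniformly (in `C¹`) on `W`, and `m_t → v` a.e. -/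

/-- unnormalised convolution with a rescaled kernel -/
noncomputable def orC (k g : ℂ → ℝ) (t : ℝ) (p : ℂ) : ℝ := ∫ z, wyK k t p z * g z

theorem or_scale (F : ℂ → ℝ) {t : ℝ} (ht : 0 < t) (p : ℂ) : ∫ z, wyK F t p z = t ^ 2 * ∫ z, F z := by
  have e1 : ∫ z, wyK F t p z = ∫ z, F (t⁻¹ • z) :=
    integral_sub_left_eq_self (fun z => F (t⁻¹ • z)) volume p
  rw [e1, Measure.integral_comp_inv_smul_of_nonneg volume F ht.le]
  simp only [Complex.finrank_real_complex, smul_eq_mul]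

theorem or_zero {k : ℂ → ℝ} (h0 : ∀ z, 1 ≤ ‖z‖ → k z = 0) {t : ℝ} (ht : 0 < t) {p z : ℂ}
    (hz : z ∉ closedBall p t) : wyK k t p z = 0 := by
  apply h0
  rw [mem_closedBall, dist_comm, dist_eq_norm, not_le] at hz
  rw [norm_smul, Real.norm_eq_abs, abs_of_pos (inv_pos.2 ht), ← div_eq_inv_mul, le_div_iff₀ ht]
  linarith

theorem or_kint {k : ℂ → ℝ} (hk : Continuous k) (h0 : ∀ z, 1 ≤ ‖z‖ → k z = 0) {t : ℝ} (ht : 0 < t) (p : ℂ) :
    Integrable (wyK k t p) := by
  refine treg_int (p := p) (r := t) (Continuous.continuousOn ?_) fun z hz => or_zero h0 ht hz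
  unfold wyK
  fun_prop

theorem or_int {W : Set ℂ} {f : ℂ → ℝ} (hf : LocallyIntegrableOn f W) {g : ℂ → ℝ} (hg : Continuous g)
    (hc : HasCompactSupport g) (hs : tsupport g ⊆ W) : Integrable fun z => g z * f z := by
  have h1 : IntegrableOn (fun z => g z • f z) (tsupport g) :=
    IntegrableOn.continuousOn_smul (hf.integrableOn_compact_subset hs hc) hg.continuousOn hc
  refine (integrableOn_iff_integrable_of_support_subset ?_).1 h1
  intro z hz
  apply subset_tsupport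
  intro h0
  apply hz
  simp [h0]

theorem or_der0 {k : ℂ → ℝ} (hk : ContDiff ℝ (⊤ : ℕ∞) k) (h0 : ∀ z, 1 ≤ ‖z‖ → k z = 0) (d z : ℂ) (hz : 1 ≤ ‖z‖) :
    fderiv ℝ k z d = 0 := by
  have hc : Continuous fun z => fderiv ℝ k z d := (hk.continuous_fderiv (by simp)).clm_apply continuous_const
  have h1 : {z : ℂ | 1 < ‖z‖} ⊆ {z | fderiv ℝ k z d = 0} := by
    intro y hy
    have : k =ᶠ[𝓝 y] fun _ => 0 := by
      filter_upwards [(isOpen_lt continuous_const continuous_norm).mem_nhds hy] with w hw using h0 w (le_of_lt hw)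
    simp only [mem_ofPred_eq, this.fderiv_eq]
    simp
  have h2 : z ∈ closure {z : ℂ | 1 < ‖z‖} := by
    have : {z : ℂ | 1 < ‖z‖} = (closedBall (0 : ℂ) 1)ᶜ := by
      ext y; simp
    rw [this, closure_compl, interior_closedBall _ one_ne_zero]
    simpa using hz
  exact closure_minimal h1 (isClosed_eq hc continuous_const) h2

theorem orC_smooth {g : ℂ → ℝ} (hg : LocallyIntegrable g) {k : ℂ → ℝ} (hk : ContDiff ℝ (⊤ : ℕ∞) k)
    (h0 : ∀ z, 1 ≤ ‖z‖ → k z = 0) {t : ℝ} (ht : 0 < t) :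
    ContDiff ℝ (⊤ : ℕ∞) (orC k g t) ∧
      ∀ p d : ℂ, fderiv ℝ (orC k g t) p d = t⁻¹ * orC (fun y => fderiv ℝ k y d) g t p := by
  set κ : ℂ → ℝ := fun y => k (t⁻¹ • y) with hκ
  have hks : ContDiff ℝ (⊤ : ℕ∞) κ := hk.comp (contDiff_id.const_smul _)
  have hkc : HasCompactSupport κ := by
    refine HasCompactSupport.intro (isCompact_closedBall (0 : ℂ) t) fun y hy => ?_
    apply h0
    rw [mem_closedBall, dist_zero_right, not_le] at hy
    rw [norm_smul, Real.norm_eq_abs, abs_of_pos (inv_pos.2 ht), ← div_eq_inv_mul, le_div_iff₀ ht]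
    linarith
  set L : ℝ →L[ℝ] ℝ →L[ℝ] ℝ := (ContinuousLinearMap.mul ℝ ℝ).flip with hL
  have e : orC k g t = g ⋆[L, volume] κ := by
    funext q
    simp [orC, convolution_def, hL, hκ, wyK, mul_comm]
  rw [e]
  refine ⟨hkc.contDiff_convolution_right L hg hks, fun p d => ?_⟩
  have hd := hkc.hasFDerivAt_convolution_right L hg (hks.of_le (by simp)) p
  rw [hd.fderiv, convolution_precompR_apply L hg (hkc.fderiv ℝ)
    (hks.continuous_fderiv (by simp)) p d, convolution_def, orC, ← integral_const_mul]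
  refine integral_congr_ae (Eventually.of_forall fun z => ?_)
  have hφd : Differentiable ℝ k := hk.differentiable (by simp)
  have h1 : HasFDerivAt (fun y : ℂ => t⁻¹ • y) (t⁻¹ • ContinuousLinearMap.id ℝ ℂ) (p - z) :=
    (hasFDerivAt_id (𝕜 := ℝ) (p - z)).const_smul t⁻¹
  have h2 := (hφd (t⁻¹ • (p - z))).hasFDerivAt.comp (p - z) h1
  have h3 : fderiv ℝ κ (p - z) = _ := h2.fderiv
  simp only [hL, ContinuousLinearMap.flip_apply, ContinuousLinearMap.mul_apply', h3, wyK,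
    smul_apply, ContinuousLinearMap.comp_apply,
    ContinuousLinearMap.id_apply, map_smul, smul_eq_mul]
  ring

theorem orC_le_sup {g k : ℂ → ℝ} (hk : Continuous k) (h0 : ∀ z, 1 ≤ ‖z‖ → k z = 0) {t M : ℝ} (ht : 0 < t)
    (hM : ∀ᵐ z, |g z| ≤ M) (p : ℂ) : |orC k g t p| ≤ t ^ 2 * (∫ z, |k z|) * M := by
  rw [← or_scale (fun z => |k z|) ht p, ← integral_mul_const, ← Real.norm_eq_abs]
  refine norm_integral_le_of_norm_le
    ((or_kint (k := fun z => |k z|) hk.abs (fun z hz => by simp [h0 z hz]) ht p).mul_const M) ?_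
  filter_upwards [hM] with z hz
  rw [Real.norm_eq_abs, abs_mul]
  exact mul_le_mul_of_nonneg_left hz (abs_nonneg _)

theorem orC_le_L2 {g k : ℂ → ℝ} (hk : Continuous k) (h0 : ∀ z, 1 ≤ ‖z‖ → k z = 0) {t : ℝ} (ht : 0 < t)
    (hg : Integrable fun z => g z ^ 2) (p : ℂ) : |orC k g t p| ≤ t * ((∫ z, k z ^ 2) + ∫ z, g z ^ 2) := by
  have i1 := or_kint (k := fun z => k z ^ 2) (hk.pow 2) (fun z hz => by simp [h0 z hz]) ht p
  have e : t * ((∫ z, k z ^ 2) + ∫ z, g z ^ 2) = ∫ z, (t⁻¹ * wyK (fun z => k z ^ 2) t p z + t * g z ^ 2) := by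
    rw [integral_add (i1.const_mul _) (hg.const_mul _), integral_const_mul, integral_const_mul, or_scale _ ht]
    field_simp
  rw [e, ← Real.norm_eq_abs]
  refine norm_integral_le_of_norm_le ((i1.const_mul _).add (hg.const_mul _)) (Eventually.of_forall fun z => ?_)
  rw [Real.norm_eq_abs, abs_mul]
  simp only [wyK]
  rw [← sq_abs (k _), ← sq_abs (g z)]
  have a1 := abs_nonneg (k (t⁻¹ • (p - z)))
  have a2 := abs_nonneg (g z)
  generalize |k (t⁻¹ • (p - z))| = a at a1 ⊢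
  generalize |g z| = b at a2 ⊢
  have : t * (a * b) ≤ t * (t⁻¹ * a ^ 2 + t * b ^ 2) := by
    rw [mul_add, mul_inv_cancel_left₀ ht.ne']
    nlinarith [sq_nonneg (a - t * b), mul_nonneg ht.le (mul_nonneg a1 a2)]
  exact le_of_mul_le_mul_left this ht

theorem orC_congr {f g k : ℂ → ℝ} (h0 : ∀ z, 1 ≤ ‖z‖ → k z = 0) {t : ℝ} (ht : 0 < t)
    {p : ℂ} (hfg : EqOn f g (closedBall p t)) : orC k f t p = orC k g t p := by
  refine integral_congr_ae (Eventually.of_forall fun z => ?_)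
  by_cases hz : z ∈ closedBall p t
  · simp only [hfg hz]
  · simp only [or_zero h0 ht hz, zero_mul]

theorem orC_half {W : Set ℂ} {v f : ℂ → ℝ} (hv : LocallyIntegrableOn v W)
    (h : ∀ φ : ℂ → ℝ, ContDiff ℝ (⊤ : ℕ∞) φ → HasCompactSupport φ → tsupport φ ⊆ W → ∫ z, v z * lap φ z = ∫ z, f z * φ z)
    {φ η : ℂ → ℝ} (hφ : ContDiff ℝ (⊤ : ℕ∞) φ) (hη : ContDiff ℝ (⊤ : ℕ∞) η)
    (h0 : ∀ z, 1 ≤ ‖z‖ → φ z = 0) (h0' : ∀ z, 1 ≤ ‖z‖ → η z = 0)
    (hl : ∀ z, lap η z = φ z - 4 * φ (2 * z)) {t : ℝ} (ht : 0 < t) {p : ℂ}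
    (hp : closedBall p t ⊆ W) :
    t⁻¹ ^ 2 * orC φ v t p - (t / 2)⁻¹ ^ 2 * orC φ v (t / 2) p = orC η f t p := by
  have T1 := wyK_test hφ h0 ht hp
  have T2 := wyK_test hφ h0 (half_pos ht) ((closedBall_subset_closedBall (half_le_self ht.le)).trans hp)
  have T3 := wyK_test hη h0' ht hp
  have i1 := (or_int hv T1.sm.continuous T1.cs T1.sub).const_mul (t⁻¹ ^ 2)
  have i2 := (or_int hv T2.sm.continuous T2.cs T2.sub).const_mul ((t / 2)⁻¹ ^ 2)
  have key := h _ T3.sm T3.cs T3.sub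
  unfold orC
  rw [← integral_const_mul, ← integral_const_mul, ← integral_sub i1 i2]
  simp only [mul_comm (wyK η t p _)]
  rw [← key]
  refine integral_congr_ae (Eventually.of_forall fun z => ?_)
  simp only [wyK_lap hη, hl, wyK]
  have e : (t / 2)⁻¹ • (p - z) = 2 * (t⁻¹ • (p - z)) := by
    simp only [Complex.real_smul]
    push_cast
    field_simp
  rw [e]
  field_simp
  ring

theorem orC_ae {g : ℂ → ℝ} (hg : Integrable g) {φ : ℂ → ℝ} (hφ : Continuous φ)
    (h0 : ∀ z, 1 ≤ ‖z‖ → φ z = 0) (h1 : ∫ z, φ z = 1) :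
    ∀ᵐ p, Tendsto (fun t => t⁻¹ ^ 2 * orC φ g t p) (𝓝[>] 0) (𝓝 (g p)) := by
  filter_upwards [wyM_ae (g := fun z => (g z : ℂ)) hg.ofReal.locallyIntegrable hφ h0 h1] with p hp
  have := (Complex.continuous_re.tendsto _).comp hp
  simp only [Complex.ofReal_re] at this
  refine this.congr fun t => ?_
  simp only [Function.comp_apply, wyM, orC, Complex.real_smul, ← Complex.ofReal_mul, mul_assoc]
  rw [integral_complex_ofReal, Complex.ofReal_re, integral_const_mul]

theorem or_core {W : Set ℂ} {v f : ℂ → ℝ} (hv : LocallyIntegrableOn v W)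
    (h : ∀ φ : ℂ → ℝ, ContDiff ℝ (⊤ : ℕ∞) φ → HasCompactSupport φ → tsupport φ ⊆ W → ∫ z, v z * lap φ z = ∫ z, f z * φ z)
    {x : ℂ} {r : ℝ} (hr : 0 < r) (hB : closedBall x (2 * r) ⊆ W) :
    ∃ η m : ℂ → ℝ, ContDiff ℝ (⊤ : ℕ∞) η ∧ (∀ z, 1 ≤ ‖z‖ → η z = 0) ∧ ContDiff ℝ (⊤ : ℕ∞) m ∧
      ∀ᵐ p, p ∈ ball x r → (Summable fun i : ℕ => orC η ((closedBall x (2 * r)).indicator f) (r / 2 ^ i) p) →
        m p - ∑' i : ℕ, orC η ((closedBall x (2 * r)).indicator f) (r / 2 ^ i) p = v p := by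
  obtain ⟨φ, η, hφ, hη, h0, h0', -, h1, -, -, hl⟩ := exists_mol
  set v' : ℂ → ℝ := (closedBall x (2 * r)).indicator v with hv'
  have hvi : Integrable v' := (integrable_indicator_iff measurableSet_closedBall).2
    (hv.integrableOn_compact_subset hB (isCompact_closedBall _ _))
  refine ⟨η, fun p => r⁻¹ ^ 2 * orC φ v' r p, hη, h0',
    contDiff_const.mul (orC_smooth hvi.locallyIntegrable hφ h0 hr).1, ?_⟩
  have hτ : ∀ n : ℕ, 0 < r / 2 ^ n ∧ r / 2 ^ n ≤ r := fun n =>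
    ⟨by positivity, div_le_self hr.le (one_le_pow₀ one_le_two)⟩
  filter_upwards [orC_ae hvi hφ.continuous h0 h1] with p hp hpb hs
  have hball : ∀ t, t ≤ r → closedBall p t ⊆ closedBall x (2 * r) := by
    intro t ht
    apply closedBall_subset_closedBall'
    have := mem_ball.1 hpb
    linarith
  have e1 : ∀ n : ℕ, orC φ v' (r / 2 ^ n) p = orC φ v (r / 2 ^ n) p := fun n =>
    orC_congr h0 (hτ n).1 fun z hz => indicator_of_mem (hball _ (hτ n).2 hz) v
  have e2 : ∀ n : ℕ, orC η ((closedBall x (2 * r)).indicator f) (r / 2 ^ n) p = orC η f (r / 2 ^ n) p := fun n =>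
    orC_congr h0' (hτ n).1 fun z hz => indicator_of_mem (hball _ (hτ n).2 hz) f
  have e3 : ∀ n : ℕ, r⁻¹ ^ 2 * orC φ v' r p - ∑ i ∈ Finset.range n, orC η ((closedBall x (2 * r)).indicator f) (r / 2 ^ i) p =
      (r / 2 ^ n)⁻¹ ^ 2 * orC φ v' (r / 2 ^ n) p := by
    intro n
    induction n with
    | zero => simp
    | succ n ih =>
      rw [Finset.sum_range_succ, ← sub_sub, ih, e1, e1, e2,
        ← orC_half hv h hφ hη h0 h0' hl (hτ n).1 ((hball _ (hτ n).2).trans hB), pow_succ 2 n, ← div_div]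
      ring
  have t1 : Tendsto (fun n : ℕ => r / 2 ^ n) atTop (𝓝[>] 0) :=
    tendsto_nhdsWithin_iff.2 ⟨(tendsto_const_nhds (x := r)).div_atTop (tendsto_pow_atTop_atTop_of_one_lt one_lt_two),
      Eventually.of_forall fun n => (hτ n).1⟩
  have t2 := hp.comp t1
  have t3 := (hs.hasSum.tendsto_sum_nat.const_sub (r⁻¹ ^ 2 * orC φ v' r p)).congr e3
  rw [tendsto_nhds_unique t3 t2, hv', indicator_of_mem (hball 0 hr.le (mem_closedBall_self le_rfl))]

theorem or_rad {W : Set ℂ} (hW : IsOpen W) {x : ℂ} (hx : x ∈ W) : ∃ r : ℝ, 0 < r ∧ closedBall x (2 * r) ⊆ W := by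
  obtain ⟨ε, hε, hb⟩ := Metric.isOpen_iff.1 hW x hx
  exact ⟨ε / 3, by positivity, (closedBall_subset_ball (by linarith)).trans hb⟩

theorem or_geo (c r : ℝ) : Summable fun i : ℕ => r / 2 ^ i * c := by
  have := (summable_geometric_two.mul_left r).mul_right c
  simpa only [one_div, inv_pow, ← div_eq_mul_inv] using this

theorem reg0 {W : Set ℂ} (hW : IsOpen W) {v f : ℂ → ℝ} (hv : LocallyIntegrableOn v W) (hf : MemLp f 2 (volume.restrict W))
    (h : ∀ φ : ℂ → ℝ, ContDiff ℝ (⊤ : ℕ∞) φ → HasCompactSupport φ → tsupport φ ⊆ W → ∫ z, v z * lap φ z = ∫ z, f z * φ z) :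
    ∃ v' : ℂ → ℝ, ContinuousOn v' W ∧ ∀ᵐ z, z ∈ W → v' z = v z := by
  have loc : ∀ x ∈ W, ∃ r : ℝ, 0 < r ∧ ∃ V : ℂ → ℝ, Continuous V ∧ ∀ᵐ z, z ∈ ball x r → V z = v z := by
    intro x hx
    obtain ⟨r, hr, hB⟩ := or_rad hW hx
    obtain ⟨η, m, hη, h0, hm, hae⟩ := or_core hv h hr hB
    set f' : ℂ → ℝ := (closedBall x (2 * r)).indicator f with hf'
    have hf2 : MemLp f 2 (volume.restrict (closedBall x (2 * r))) :=
      hf.mono_measure (Measure.restrict_mono hB le_rfl)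
    have : IsFiniteMeasure (volume.restrict (closedBall x (2 * r))) :=
      isFiniteMeasure_restrict.2 measure_closedBall_lt_top.ne
    have hf1 : Integrable f' := (integrable_indicator_iff measurableSet_closedBall).2 (hf2.integrable one_le_two)
    have hf3 : Integrable fun z => f' z ^ 2 := by
      have := (integrable_indicator_iff measurableSet_closedBall).2 hf2.integrable_sq
      refine this.congr (Eventually.of_forall fun z => ?_)
      by_cases hz : z ∈ closedBall x (2 * r) <;> simp [hf', hz]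
    have hτ : ∀ n : ℕ, 0 < r / 2 ^ n := fun n => by positivity
    have hb : ∀ (i : ℕ) p, ‖orC η f' (r / 2 ^ i) p‖ ≤ r / 2 ^ i * ((∫ z, η z ^ 2) + ∫ z, f' z ^ 2) := fun i p =>
      orC_le_L2 hη.continuous h0 (hτ i) hf3 p
    refine ⟨r, hr, fun p => m p - ∑' i : ℕ, orC η f' (r / 2 ^ i) p, hm.continuous.sub
      (continuous_tsum (fun i => (orC_smooth hf1.locallyIntegrable hη h0 (hτ i)).1.continuous) (or_geo _ r) hb), ?_⟩
    filter_upwards [hae] with p hp hpb using hp hpb ((or_geo _ r).of_norm_bounded fun i => hb i p)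
  choose! r hr V hV hae using loc
  have key : ∀ x ∈ W, ∀ p ∈ ball x (r x) ∩ W, V p p = V x p := by
    intro x hx p hp
    have ho : IsOpen (ball x (r x) ∩ ball p (r p)) := isOpen_ball.inter isOpen_ball
    refine Measure.eqOn_open_of_ae_eq (μ := volume) ?_ ho (hV p hp.2).continuousOn (hV x hx).continuousOn
      ⟨hp.1, mem_ball_self (hr p hp.2)⟩
    rw [EventuallyEq, ae_restrict_iff' ho.measurableSet]
    filter_upwards [hae x hx, hae p hp.2] with z h1 h2 hz
    rw [h1 hz.1, h2 hz.2]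
  refine ⟨fun p => V p p, fun x hx => ?_, ?_⟩
  · refine ((hV x hx).continuousAt.congr ?_).continuousWithinAt
    filter_upwards [(isOpen_ball.inter hW).mem_nhds ⟨mem_ball_self (hr x hx), hx⟩] with p hp using (key x hx p hp).symm
  · rw [ae_iff]
    refine measure_null_of_locally_null _ fun x hx => ?_
    simp only [mem_ofPred_eq, Classical.not_imp] at hx
    refine ⟨{z | ¬ (z ∈ ball x (r x) → V x z = v z)}, ?_, ae_iff.1 (hae x hx.1)⟩
    filter_upwards [self_mem_nhdsWithin, mem_nhdsWithin_of_mem_nhds (ball_mem_nhds x (hr x hx.1))] with z hz hzb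
    simp only [mem_ofPred_eq, Classical.not_imp] at hz ⊢
    exact ⟨hzb, by rw [← key x hx.1 z ⟨hzb, hz.1⟩]; exact hz.2⟩

theorem reg1 {W : Set ℂ} (hW : IsOpen W) {v f : ℂ → ℝ} (hv : ContinuousOn v W)
    (hf : AEStronglyMeasurable f (volume.restrict W))
    (hb : ∀ C ⊆ W, IsCompact C → ∃ M : ℝ, ∀ᵐ z, z ∈ C → |f z| ≤ M)
    (h : ∀ φ : ℂ → ℝ, ContDiff ℝ (⊤ : ℕ∞) φ → HasCompactSupport φ → tsupport φ ⊆ W → ∫ z, v z * lap φ z = ∫ z, f z * φ z) :
    ContDiffOn ℝ 1 v W := by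
  intro x hx
  obtain ⟨r, hr, hB⟩ := or_rad hW hx
  obtain ⟨η, m, hη, h0, hm, hae⟩ := or_core (hv.locallyIntegrableOn hW.measurableSet) h hr hB
  set f' : ℂ → ℝ := (closedBall x (2 * r)).indicator f with hf'
  obtain ⟨M, hM⟩ := hb _ hB (isCompact_closedBall _ _)
  have hM' : ∀ᵐ z, |f' z| ≤ |M| := by
    filter_upwards [hM] with z hz
    by_cases hzb : z ∈ closedBall x (2 * r)
    · rw [hf', indicator_of_mem hzb]; exact (hz hzb).trans (le_abs_self M)
    · rw [hf', indicator_of_notMem hzb, abs_zero]; exact abs_nonneg M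
  have hf1 : Integrable f' := by
    refine (integrable_indicator_iff measurableSet_closedBall).2 ?_
    have : IsFiniteMeasure (volume.restrict (closedBall x (2 * r))) :=
      isFiniteMeasure_restrict.2 measure_closedBall_lt_top.ne
    refine (integrable_const M).mono' (hf.mono_measure (Measure.restrict_mono hB le_rfl)) ?_
    rw [ae_restrict_iff' measurableSet_closedBall]
    exact hM
  have hτ : ∀ n : ℕ, 0 < r / 2 ^ n ∧ r / 2 ^ n ≤ r := fun n =>
    ⟨by positivity, div_le_self hr.le (one_le_pow₀ one_le_two)⟩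
  have c0 : ∀ k : ℂ → ℝ, 0 ≤ ∫ z, |k z| := fun k => integral_nonneg fun _ => abs_nonneg _
  have hs := fun i : ℕ => orC_smooth hf1.locallyIntegrable hη h0 (hτ i).1
  have b0 : ∀ (i : ℕ) p, ‖orC η f' (r / 2 ^ i) p‖ ≤ r / 2 ^ i * (r * (∫ z, |η z|) * |M|) := fun i p => by
    refine (orC_le_sup hη.continuous h0 (hτ i).1 hM' p).trans ?_
    have := c0 η
    have h1 := hτ i
    calc (r / 2 ^ i) ^ 2 * (∫ z, |η z|) * |M| = r / 2 ^ i * (r / 2 ^ i * (∫ z, |η z|) * |M|) := by ring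
      _ ≤ _ := by have := h1.1.le; have := h1.2; gcongr
  have b1 : ∀ (i : ℕ) p, ‖fderiv ℝ (orC η f' (r / 2 ^ i)) p‖ ≤
      r / 2 ^ i * (2 * (((∫ z, |fderiv ℝ η z 1|) + ∫ z, |fderiv ℝ η z Complex.I|) * |M|)) := fun i p => by
    rw [← norm_gradient, mul_left_comm]
    refine treg_norm fun d hd => ?_
    have h1 := (hτ i).1
    rw [inner_gradient, (hs i).2, abs_mul, abs_of_pos (inv_pos.2 h1), inv_mul_le_iff₀ h1]
    refine (orC_le_sup ((hη.continuous_fderiv (by simp)).clm_apply continuous_const) (or_der0 hη h0 d) h1 hM' p).trans ?_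
    have a1 := mul_nonneg (mul_nonneg (sq_nonneg (r / 2 ^ i)) (c0 fun z => fderiv ℝ η z 1)) (abs_nonneg M)
    have a2 := mul_nonneg (mul_nonneg (sq_nonneg (r / 2 ^ i)) (c0 fun z => fderiv ℝ η z Complex.I)) (abs_nonneg M)
    rcases hd with rfl | rfl <;> nlinarith
  have hsum : ∀ p, Summable fun i : ℕ => orC η f' (r / 2 ^ i) p := fun p =>
    (or_geo _ r).of_norm_bounded fun i => b0 i p
  have hd : ∀ i : ℕ, Differentiable ℝ (orC η f' (r / 2 ^ i)) := fun i => (hs i).1.differentiable (by simp)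
  have hS : ContDiff ℝ 1 fun p => ∑' i : ℕ, orC η f' (r / 2 ^ i) p := by
    rw [contDiff_one_iff_fderiv]
    refine ⟨differentiable_tsum (or_geo _ r) (fun i p => (hd i p).hasFDerivAt) b1, ?_⟩
    rw [fderiv_tsum (or_geo _ r) hd b1 (hsum 0)]
    exact continuous_tsum (fun i => (hs i).1.continuous_fderiv (by simp)) (or_geo _ r) b1
  have hV : ContDiff ℝ 1 fun p => m p - ∑' i : ℕ, orC η f' (r / 2 ^ i) p := (hm.of_le (by simp)).sub hS
  have hsub : ball x r ⊆ W := (ball_subset_closedBall.trans (closedBall_subset_closedBall (by linarith))).trans hB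
  have heq : EqOn (fun p => m p - ∑' i : ℕ, orC η f' (r / 2 ^ i) p) v (ball x r) := by
    refine Measure.eqOn_open_of_ae_eq (μ := volume) ?_ isOpen_ball hV.continuous.continuousOn (hv.mono hsub)
    rw [EventuallyEq, ae_restrict_iff' measurableSet_ball]
    filter_upwards [hae] with p hp hpb using hp hpb (hsum p)
  refine (hV.contDiffAt.congr_of_eventuallyEq ?_).contDiffWithinAt
  filter_upwards [ball_mem_nhds x hr] with p hp using (heq hp).symm

end Crest.Agent.R135
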