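import Crest.Agent.R135.Defs
import Crest.Agent.R135.OReg
import Crest.Agent.R135.MEL
set_option autoImplicit false
open MeasureTheory Metric Set Filter Topology
open scoped ENNReal NNReal Real ComplexConjugate

namespace Crest.Agent.R135

variable {Ω K : Set ℂ} {g u : ℂ → ℝ} {M : ℝ} {G : ℂ → ℂ}

theorem Raw.diff_eq (h : Raw Ω g M u K G) : Ω \ K = Ω \ closure K := by
  ext z
  exact ⟨fun a => ⟨a.1, fun b => a.2 (h.adm.2.1 ⟨b, a.1⟩)⟩, fun a => ⟨a.1, fun b => a.2 (subset_closure b)⟩⟩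

theorem Raw.orw_open (h : Raw Ω g M u K G) : IsOpen (Ω \ K) := by
  rw [h.diff_eq]; exact h.isOpen.sdiff isClosed_closure

section
variable {E : Type*} [NormedAddCommGroup E] {μ : Measure ℂ}

theorem orw_L2 {F : ℂ → E} (hF : MemLp F 2 μ) : ∫⁻ z, ‖F z‖ₑ ^ 2 ∂μ = ENNReal.ofReal (∫ z, ‖F z‖ ^ 2 ∂μ) := by
  rw [ofReal_integral_eq_lintegral_ofReal ((memLp_two_iff_integrable_sq_norm hF.1).1 hF)
    (Eventually.of_forall fun z => sq_nonneg _)]
  simp only [ENNReal.ofReal_pow (norm_nonneg _), ofReal_norm]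

theorem orw_mem {F : ℂ → E} (hm : AEStronglyMeasurable F μ) (hF : ∫⁻ z, ‖F z‖ₑ ^ 2 ∂μ < ⊤) : MemLp F 2 μ := by
  refine ⟨hm, ?_⟩
  rw [eLpNorm_lt_top_iff_lintegral_rpow_enorm_lt_top (by norm_num) (by norm_num)]
  simpa using hF

theorem orw_quad [InnerProductSpace ℝ E] {F P : ℂ → E} (hF : MemLp F 2 μ) (hP : MemLp P 2 μ) (t : ℝ) :
    ∫ z, ‖F z + t • P z‖ ^ 2 ∂μ =
      ∫ z, ‖F z‖ ^ 2 ∂μ + 2 * t * ∫ z, inner ℝ (F z) (P z) ∂μ + t ^ 2 * ∫ z, ‖P z‖ ^ 2 ∂μ := by
  have i1 := (memLp_two_iff_integrable_sq_norm hF.1).1 hF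
  have i2 := (memLp_two_iff_integrable_sq_norm hP.1).1 hP
  have i3 : Integrable (fun z => inner ℝ (F z) (P z)) μ := by
    refine (i1.add i2).mono' (hF.1.inner hP.1) (Eventually.of_forall fun z => ?_)
    have := norm_inner_le_norm (𝕜 := ℝ) (F z) (P z)
    simp only [Pi.add_apply]
    nlinarith [sq_nonneg (‖F z‖ - ‖P z‖), mul_nonneg (norm_nonneg (F z)) (norm_nonneg (P z))]
  have i4 : Integrable (fun z => ‖F z‖ ^ 2 + 2 * t * inner ℝ (F z) (P z)) μ := i1.add (i3.const_mul _)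
  rw [← integral_const_mul, ← integral_const_mul, ← integral_add i1 (i3.const_mul _), ← integral_add i4 (i2.const_mul _)]
  refine integral_congr_ae (Eventually.of_forall fun z => ?_)
  simp only [norm_add_sq_real, real_inner_smul_right, norm_smul, Real.norm_eq_abs, mul_pow, sq_abs]
  ring
end

theorem orw_wg {W : Set ℂ} {v w : ℂ → ℝ} {F H : ℂ → ℂ} (h1 : WG W v F) (h2 : WG W w H) (t : ℝ) :
    WG W (fun z => v z + t * w z) fun z => F z + t • H z := by
  refine ⟨h1.1.add (h2.1.smul t), h1.2.1.add (h2.2.1.smul t), fun φ a1 a2 a3 d => ?_⟩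
  have T : WyT W φ := ⟨a1, a2, a3⟩
  have i1 : ∀ {f : ℂ → ℝ}, LocallyIntegrableOn f W → IntegrableOn (fun z => f z * fderiv ℝ φ z d) W := fun hf => by
    simpa only [mul_comm] using (or_int hf (T.der d).sm.continuous (T.der d).cs (T.der d).sub).integrableOn
  have i2 : ∀ {f : ℂ → ℂ}, LocallyIntegrableOn f W → IntegrableOn (fun z => inner ℝ (f z) d * φ z) W := fun hf => by
    have := ((wy_int hf a1.continuous a2 a3).inner_const (𝕜 := ℝ) d).integrableOn (s := W)
    simpa only [real_inner_smul_left, mul_comm] using this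
  simp only [add_mul, inner_add_left, real_inner_smul_left, mul_assoc]
  rw [integral_add (i1 h1.1) ((i1 h2.1).const_mul t), integral_add (i2 h1.2.1) ((i2 h2.2.1).const_mul t),
    integral_const_mul, integral_const_mul, h1.2.2 φ a1 a2 a3 d, h2.2.2 φ a1 a2 a3 d]
  ring

theorem Raw.orw_fid (h : Raw Ω g M u K G) : MemLp (fun z => u z - g z) 2 (volume.restrict Ω) := by
  have : IsFiniteMeasure (volume.restrict Ω) := isFiniteMeasure_restrict.2 h.bdd.measure_lt_top.ne
  have h1 : MemLp g 2 (volume.restrict Ω) := MemLp.of_bound h.meas.aestronglyMeasurable M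
    ((ae_restrict_iff' h.isOpen.measurableSet).2 (Eventually.of_forall h.gle))
  exact h.adm.2.2.2.1.sub h1

theorem orw_grad0 {φ : ℂ → ℝ} {z : ℂ} (hz : z ∉ tsupport φ) : gradient φ z = 0 := by
  rw [← norm_eq_zero, norm_gradient, fderiv_of_notMem_tsupport ℝ hz, norm_zero]

/-- compare with `(u + tφ, K, G + t∇φ)` on an open `V ⊇ tsupport φ` with compact closure in `Ω` -/
theorem Raw.el (h : Raw Ω g M u K G) {φ : ℂ → ℝ} (hφ : ContDiff ℝ (⊤ : ℕ∞) φ) (hc : HasCompactSupport φ)
    (hs : tsupport φ ⊆ Ω \ K) : ∫ z, inner ℝ (G z) (gradient φ z) = - ∫ z, (u z - g z) * φ z := by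
  obtain ⟨V, hV, hsV, hVΩ, hVc⟩ := exists_open_between_and_isCompact_closure hc h.isOpen (hs.trans sdiff_subset)
  have hW := h.orw_open
  have hφ1 : ContDiff ℝ 1 φ := hφ.of_le (by simp)
  have mφ : MemLp φ 2 volume := hφ.continuous.memLp_of_hasCompactSupport hc
  have mg : MemLp (gradient φ) 2 volume :=
    (continuousOn_univ.1 (continuousOn_gradient isOpen_univ hφ1.contDiffOn)).memLp_of_hasCompactSupport
      (HasCompactSupport.intro hc fun z hz => orw_grad0 hz)
  have mG : MemLp G 2 (volume.restrict (Ω \ K)) :=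
    orw_mem h.adm.2.2.2.2.1.2.1.aestronglyMeasurable h.adm.2.2.2.2.2
  have hVΩ' : V ⊆ Ω := subset_closure.trans hVΩ
  have mG' : MemLp G 2 (volume.restrict (V \ K)) :=
    mG.mono_measure (Measure.restrict_mono (sdiff_subset_sdiff_left hVΩ') le_rfl)
  have mf : MemLp (fun z => u z - g z) 2 (volume.restrict V) :=
    h.orw_fid.mono_measure (Measure.restrict_mono hVΩ' le_rfl)
  have key : ∀ t : ℝ, 0 ≤ 2 * t * ((∫ z in V \ K, inner ℝ (G z) (gradient φ z)) + ∫ z in V, inner ℝ (u z - g z) (φ z)) +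
      t ^ 2 * ((∫ z in V \ K, ‖gradient φ z‖ ^ 2) + ∫ z in V, ‖φ z‖ ^ 2) + |t| * 0 := by
    intro t
    have m1 : MemLp (fun z => G z + t • gradient φ z) 2 (volume.restrict (Ω \ K)) :=
      mG.add ((mg.restrict _).const_smul t)
    have h1 := h.min V hV hVc hVΩ (fun z => u z + t * φ z) K (fun z => G z + t • gradient φ z)
      ⟨h.adm.1, h.adm.2.1, h.adm.2.2.1, h.adm.2.2.2.1.add ((mφ.restrict _).const_mul t),
        orw_wg h.adm.2.2.2.2.1 (WG_of_locLip hW hφ1.locallyLipschitz.locallyLipschitzOn) t,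
        by rw [orw_L2 m1]; exact ENNReal.ofReal_lt_top⟩
      ⟨tsupport φ, hc, hsV, by simp, Eventually.of_forall fun z hz => by
        simp [image_eq_zero_of_notMem_tsupport hz]⟩
    have m2 : MemLp (fun z => G z + t • gradient φ z) 2 (volume.restrict (V \ K)) :=
      mG'.add ((mg.restrict _).const_smul t)
    have m3 : MemLp (fun z => (u z - g z) + t • φ z) 2 (volume.restrict V) := mf.add ((mφ.restrict _).const_smul t)
    have e : ∀ z, u z + t * φ z - g z = (u z - g z) + t • φ z := fun z => by rw [smul_eq_mul]; ring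
    have hK : H1 (K ∩ V) ≠ ⊤ := ((measure_mono inter_subset_left).trans_lt h.adm.2.2.1).ne
    have n0 : ∀ {E : Type} [NormedAddCommGroup E] (F : ℂ → E) (S : Set ℂ), 0 ≤ ∫ z in S, ‖F z‖ ^ 2 :=
      fun F S => integral_nonneg fun z => sq_nonneg _
    simp only [msE, e] at h1
    rw [orw_L2 mG', orw_L2 mf, orw_L2 m2, orw_L2 m3, add_right_comm, add_right_comm _ (H1 _),
      ENNReal.add_le_add_iff_right hK, ← ENNReal.ofReal_add (n0 _ _) (n0 _ _), ← ENNReal.ofReal_add (n0 _ _) (n0 _ _),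
      ENNReal.ofReal_le_ofReal_iff (add_nonneg (n0 _ _) (n0 _ _)), orw_quad mG' (mg.restrict _),
      orw_quad mf (mφ.restrict _)] at h1
    linarith
  have h2 := mela_alg (add_nonneg (integral_nonneg fun z => sq_nonneg _) (integral_nonneg fun z => sq_nonneg _)) key
  rw [zero_div, abs_nonpos_iff, setIntegral_eq_integral_of_forall_compl_eq_zero, setIntegral_eq_integral_of_forall_compl_eq_zero] at h2
  · simp only [RCLike.inner_apply, conj_trivial, mul_comm (φ _)] at h2
    linarith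
  · intro z hz
    rw [image_eq_zero_of_notMem_tsupport fun a => hz (hsV a), inner_zero_right]
  · intro z hz
    rw [orw_grad0 fun a => hz ⟨hsV a, (hs a).2⟩, inner_zero_right]

theorem orw_lap0 {φ : ℂ → ℝ} {z : ℂ} (hz : z ∉ tsupport φ) : lap φ z = 0 := by
  have : ∀ d, fderiv ℝ (fun y => fderiv ℝ φ y d) z = 0 := fun d =>
    fderiv_of_notMem_tsupport ℝ fun a => hz (tsupport_fderiv_apply_subset ℝ d a)
  simp [lap, this]

theorem orw_lap {W : Set ℂ} {v : ℂ → ℝ} {F : ℂ → ℂ} (h : WG W v F) {φ : ℂ → ℝ} (T : WyT W φ) :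
    ∫ z, v z * lap φ z = - ∫ z, inner ℝ (F z) (gradient φ z) := by
  have i1 : ∀ d, IntegrableOn (fun z => v z * fderiv ℝ (fun y => fderiv ℝ φ y d) z d) W := fun d => by
    simpa only [mul_comm] using
      (or_int h.1 ((T.der d).der d).sm.continuous ((T.der d).der d).cs ((T.der d).der d).sub).integrableOn
  have i2 : ∀ d, IntegrableOn (fun z => inner ℝ (F z) d * fderiv ℝ φ z d) W := fun d => by
    have := ((wy_int h.2.1 (T.der d).sm.continuous (T.der d).cs (T.der d).sub).inner_const (𝕜 := ℝ) d).integrableOn (s := W)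
    simpa only [real_inner_smul_left, mul_comm] using this
  have e := fun d => h.2.2 _ (T.der d).sm (T.der d).cs (T.der d).sub d
  rw [← setIntegral_eq_integral_of_forall_compl_eq_zero (s := W) fun z hz => by
      rw [orw_lap0 fun a => hz (T.sub a), mul_zero],
    ← setIntegral_eq_integral_of_forall_compl_eq_zero (s := W) (f := fun z => inner ℝ (F z) (gradient φ z)) fun z hz => by
      rw [orw_grad0 fun a => hz (T.sub a), inner_zero_right]]
  simp only [lap, mul_add]
  rw [integral_add (i1 _) (i1 _), e, e, ← neg_add, ← integral_add (i2 _) (i2 _)]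
  congr 2
  funext z
  rw [wy_inner_grad, wy_fderiv_apply _ (F z)]
  simp

/-- `∫ u Δφ = -∫⟪G,∇φ⟫ = ∫ (u-g) φ`; `reg0`, `reg1`; weak gradients are unique (`WG_of_locLip`) -/
theorem Raw.reg (h : Raw Ω g M u K G) : ∃ v : ℂ → ℝ, ContDiffOn ℝ 1 v (Ω \ K) ∧ (∀ᵐ z, z ∈ Ω \ K → v z = u z) ∧
    ∀ᵐ z, z ∈ Ω \ K → gradient v z = G z := by
  have hW := h.orw_open
  have hG := h.adm.2.2.2.2.1
  have e1 : ∀ φ : ℂ → ℝ, ContDiff ℝ (⊤ : ℕ∞) φ → HasCompactSupport φ → tsupport φ ⊆ Ω \ K →
      ∫ z, u z * lap φ z = ∫ z, (u z - g z) * φ z := fun φ a1 a2 a3 => by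
    rw [orw_lap hG ⟨a1, a2, a3⟩, h.el a1 a2 a3, neg_neg]
  obtain ⟨v, hv, hae⟩ := reg0 hW hG.1 (h.orw_fid.mono_measure (Measure.restrict_mono sdiff_subset le_rfl)) e1
  have hc : ContDiffOn ℝ 1 v (Ω \ K) := by
    refine reg1 (f := fun z => v z - g z) hW hv
      ((hv.aestronglyMeasurable hW.measurableSet).sub h.meas.aestronglyMeasurable) (fun C hC hCc => ?_)
      fun φ a1 a2 a3 => ?_
    · obtain ⟨B, hB⟩ := hCc.exists_bound_of_continuousOn (hv.mono hC)
      exact ⟨B + M, Eventually.of_forall fun z hz => (abs_sub _ _).trans (add_le_add (hB z hz) (h.gle z (hC hz).1))⟩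
    · refine (integral_congr_ae ?_).trans ((e1 φ a1 a2 a3).trans (integral_congr_ae ?_))
      · filter_upwards [hae] with z hz
        by_cases a : z ∈ tsupport φ
        · rw [hz (a3 a)]
        · rw [orw_lap0 a, mul_zero, mul_zero]
      · filter_upwards [hae] with z hz
        by_cases a : z ∈ tsupport φ
        · rw [hz (a3 a)]
        · rw [image_eq_zero_of_notMem_tsupport a, mul_zero, mul_zero]
  refine ⟨v, hc, hae, ?_⟩
  have h1 := orw_wg (WG_of_locLip hW (locLip_of_contDiffOn hW hc)) hG (-1)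
  have h2 := hW.ae_eq_zero_of_integral_contDiff_smul_eq_zero h1.2.1 fun φ a1 a2 a3 => by
    refine ext_inner_left ℝ fun d => ?_
    have h3 := h1.2.2 φ a1 a2 a3 d
    rw [setIntegral_congr_ae hW.measurableSet (g := fun _ => 0) (hae.mono fun z hz hh => by simp only [hz hh]; ring),
      integral_zero, eq_comm, neg_eq_zero, setIntegral_eq_integral_of_forall_compl_eq_zero fun z hz => by
        rw [image_eq_zero_of_notMem_tsupport fun a => hz (a3 a), mul_zero]] at h3
    rw [← integral_inner (wy_int h1.2.1 a1.continuous a2 a3), inner_zero_right, ← h3]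
    congr 1
    funext z
    rw [real_inner_smul_right, real_inner_comm, mul_comm]
  filter_upwards [h2] with z hz hh
  have := hz hh
  rwa [neg_smul, one_smul, ← sub_eq_add_neg, sub_eq_zero] at this

end Crest.Agent.R135
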