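import Crest.Agent.R135.Defs
import Crest.Agent.R135.ORaw
import Crest.Agent.R135.MGood
set_option autoImplicit false
open MeasureTheory Metric Set Filter Topology
open scoped ENNReal NNReal Real ComplexConjugate

namespace Crest.Agent.R135

variable {Ω K : Set ℂ} {g u v : ℂ → ℝ} {M : ℝ} {G : ℂ → ℂ}

theorem ocp_li {F : Type*} [NormedAddCommGroup F] {W : Set ℂ} (hW : MeasurableSet W) {f f' : ℂ → F}
    (h : LocallyIntegrableOn f W) (e : ∀ᵐ z, z ∈ W → f' z = f z) : LocallyIntegrableOn f' W := by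
  intro x hx
  obtain ⟨s, hs, hi⟩ := h x hx
  refine ⟨s ∩ W, inter_mem hs self_mem_nhdsWithin, (hi.mono_set inter_subset_left).congr ?_⟩
  exact ae_restrict_of_ae_restrict_of_subset inter_subset_right ((ae_restrict_iff' hW).2 (e.mono fun z hz hh => (hz hh).symm))

theorem ocp_wg {W : Set ℂ} (hW : MeasurableSet W) {f f' : ℂ → ℝ} {H H' : ℂ → ℂ} (h : WG W f H)
    (e1 : ∀ᵐ z, z ∈ W → f' z = f z) (e2 : ∀ᵐ z, z ∈ W → H' z = H z) : WG W f' H' := by
  refine ⟨ocp_li hW h.1 e1, ocp_li hW h.2.1 e2, fun φ a1 a2 a3 d => ?_⟩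
  rw [setIntegral_congr_ae hW (g := fun z => f z * fderiv ℝ φ z d) (e1.mono fun z hz hh => by rw [hz hh]),
    setIntegral_congr_ae hW (f := fun z => inner ℝ (H' z) d * φ z) (g := fun z => inner ℝ (H z) d * φ z)
      (e2.mono fun z hz hh => by rw [hz hh])]
  exact h.2.2 φ a1 a2 a3 d

theorem ocp_split (g u : ℂ → ℝ) (K : Set ℂ) (G : ℂ → ℂ) {B V : Set ℂ} (hB : MeasurableSet B) (h : B ⊆ V) :
    msE g u K G V = msE g u K G B + msE g u K G (V \ B) := by
  have e1 : (V \ K) ∩ B = B \ K := by ext z; exact ⟨fun h1 => ⟨h1.2, h1.1.2⟩, fun h1 => ⟨⟨h h1.1, h1.2⟩, h1.1⟩⟩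
  rw [msE, msE, msE, ← lintegral_inter_add_sdiff _ (V \ K) hB, ← measure_inter_add_sdiff (K ∩ V) hB,
    ← lintegral_inter_add_sdiff _ V hB, e1, inter_assoc, inter_eq_right.2 h, inter_sdiff_assoc, sdiff_right_comm]
  ring

theorem Raw.ocp_null (h : Raw Ω g M u K G) : ∀ᵐ z, z ∉ K :=
  measure_eq_zero_iff_ae_notMem.1 (vol_zero_of_H1 h.adm.2.2.1)

theorem Raw.ocp_fid (h : Raw Ω g M u K G) : ∫⁻ z in Ω, ‖u z - g z‖ₑ ^ 2 < ⊤ := by
  have : IsFiniteMeasure (volume.restrict Ω) := isFiniteMeasure_restrict.2 h.bdd.measure_lt_top.ne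
  have h1 : MemLp g 2 (volume.restrict Ω) := MemLp.of_bound h.meas.aestronglyMeasurable M
    ((ae_restrict_iff' h.isOpen.measurableSet).2 (Eventually.of_forall h.gle))
  have h2 := (h.adm.2.2.2.1.sub h1).2
  rw [eLpNorm_lt_top_iff_lintegral_rpow_enorm_lt_top (by norm_num) (by norm_num)] at h2
  simpa using h2

theorem Raw.ocp_E (h : Raw Ω g M u K G) (h1 : ∀ᵐ z, z ∈ Ω \ K → v z = u z)
    (h2 : ∀ᵐ z, z ∈ Ω \ K → gradient v z = G z) {B : Set ℂ} (hm : MeasurableSet B) (hB : B ⊆ Ω) :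
    msE g u K G B = En (closure K) v B + ∫⁻ z in B, ‖v z - g z‖ₑ ^ 2 := by
  have e : closure K ∩ B = K ∩ B := by
    ext z; exact ⟨fun a => ⟨h.adm.2.1 ⟨a.1, hB a.2⟩, a.2⟩, fun a => ⟨subset_closure a.1, a.2⟩⟩
  rw [msE, En, e, Dir, setLIntegral_congr (sdiff_null_ae_eq_self (vol_zero_of_H1 h.adm.2.2.1))]
  congr 1
  · congr 1
    refine setLIntegral_congr_fun_ae hm ?_
    filter_upwards [h2, h.ocp_null] with z a1 a2 a3
    rw [a1 ⟨hB a3, a2⟩]
  · refine setLIntegral_congr_fun_ae hm ?_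
    filter_upwards [h1, h.ocp_null] with z a1 a2 a3
    rw [a1 ⟨hB a3, a2⟩]

theorem Raw.ocp_fin (h : Raw Ω g M u K G) {B : Set ℂ} (hB : B ⊆ Ω) : msE g u K G B < ⊤ :=
  ENNReal.add_lt_top.2 ⟨ENNReal.add_lt_top.2 ⟨(lintegral_mono_set (sdiff_subset_sdiff_left hB)).trans_lt h.adm.2.2.2.2.2,
    (measure_mono inter_subset_left).trans_lt h.adm.2.2.1⟩, (lintegral_mono_set hB).trans_lt h.ocp_fid⟩

/-- Lipschitz competitors are admissible: `L = K' ∩ Ω`, `H = gradient w` (`WG_of_locLip`), `V = ball x ρ'` slightly larger; `w = v = u` a.e. off the ball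
(`K`, `K' ∩ Ω` are null); cancel the finite energy of the shell. WLOG the right side is finite.
Note the competitor must equal `u` a.e. off the ball in the whole plane: use `piecewise (closedBall x ρ) w u` (a.e. equal to `w` on `Ω`; `WG` ignores null sets). -/
theorem Raw.comp (h : Raw Ω g M u K G) (hv : ContDiffOn ℝ 1 v (Ω \ K)) (h1 : ∀ᵐ z, z ∈ Ω \ K → v z = u z)
    (h2 : ∀ᵐ z, z ∈ Ω \ K → gradient v z = G z) {K' : Set ℂ} {w : ℂ → ℝ} {x : ℂ} {ρ : ℝ} (hB : closedBall x ρ ⊆ Ω)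
    (hc : Comp Ω (closure K) v K' w x ρ) (hb : ∃ B : ℝ, ∀ z ∈ closedBall x ρ \ K', |w z| ≤ B) :
    En (closure K) v (closedBall x ρ) + ∫⁻ z in closedBall x ρ, ‖v z - g z‖ₑ ^ 2 ≤
      En K' w (closedBall x ρ) + ∫⁻ z in closedBall x ρ, ‖w z - g z‖ₑ ^ 2 := by
  classical
  rcases eq_or_ne (En K' w (closedBall x ρ)) ⊤ with e | hfin
  · simp [e]
  obtain ⟨f1, f2⟩ := ENNReal.add_ne_top.1 hfin
  set B := closedBall x ρ with hBdef
  have hm : MeasurableSet B := measurableSet_closedBall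
  obtain ⟨V, hV, hBV, hVΩ, hVc⟩ := exists_open_between_and_isCompact_closure (isCompact_closedBall x ρ) h.isOpen hB
  have hVΩ' : V ⊆ Ω := subset_closure.trans hVΩ
  have hout : ∀ z ∈ Ω, z ∉ B → (z ∈ K' ↔ z ∈ K) := fun z a1 a2 =>
    ⟨fun a => h.adm.2.1 ⟨(hc.eqK.subset ⟨a, a2⟩).1, a1⟩, fun a => (hc.eqK.symm.subset ⟨subset_closure a, a2⟩).1⟩
  have hsub : K' ∩ Ω ⊆ (K' ∩ B) ∪ K := fun z a => by
    by_cases a2 : z ∈ B
    · exact Or.inl ⟨a.1, a2⟩
    · exact Or.inr ((hout z a.2 a2).1 a.1)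
  have hH : H1 (K' ∩ Ω) < ⊤ := (measure_mono hsub).trans_lt ((measure_union_le _ _).trans_lt
    (ENNReal.add_lt_top.2 ⟨f2.lt_top, h.adm.2.2.1⟩))
  have hnull : ∀ᵐ z, z ∉ K' ∩ Ω := measure_eq_zero_iff_ae_notMem.1 (vol_zero_of_H1 hH)
  have hW : IsOpen (Ω \ K') := h.isOpen.sdiff hc.closed
  have eW : Ω \ (K' ∩ Ω) = Ω \ K' := by ext z; exact ⟨fun a => ⟨a.1, fun b => a.2 ⟨b, a.1⟩⟩, fun a => ⟨a.1, fun b => a.2 b.1⟩⟩
  have e1 : ∀ᵐ z, z ∈ Ω \ K' → B.piecewise w u z = w z := by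
    filter_upwards [h1] with z a1 a2
    by_cases a3 : z ∈ B
    · exact piecewise_eq_of_mem _ _ _ a3
    · rw [piecewise_eq_of_notMem _ _ _ a3, hc.eqw ⟨a2, a3⟩, a1 ⟨a2.1, fun a => a2.2 ((hout z a2.1 a3).2 a)⟩]
  have e2 : ∀ᵐ z, z ∈ Ω \ K' → B.piecewise (gradient w) G z = gradient w z := by
    filter_upwards [h2] with z a1 a2
    by_cases a3 : z ∈ B
    · exact piecewise_eq_of_mem _ _ _ a3
    · rw [piecewise_eq_of_notMem _ _ _ a3, ← a1 ⟨a2.1, fun a => a2.2 ((hout z a2.1 a3).2 a)⟩]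
      refine Filter.EventuallyEq.gradient_eq ?_
      filter_upwards [(hW.sdiff isClosed_closedBall).mem_nhds ⟨a2, a3⟩] with y hy
      exact (hc.eqw hy).symm
  have hadm : AdmP Ω (B.piecewise w u) (K' ∩ Ω) (B.piecewise (gradient w) G) := by
    refine ⟨inter_subset_right, fun z a => ⟨closure_minimal inter_subset_left hc.closed a.1, a.2⟩, hH, ?_, ?_, ?_⟩
    · refine MemLp.piecewise hm ?_ (h.adm.2.2.2.1.restrict _)
      rw [Measure.restrict_restrict hm, inter_eq_left.2 hB]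
      have : IsFiniteMeasure (volume.restrict B) := isFiniteMeasure_restrict.2 measure_closedBall_lt_top.ne
      obtain ⟨A, hA⟩ := hb
      refine MemLp.of_bound ((hc.lip.continuousOn.aestronglyMeasurable hW.measurableSet).mono_measure
        (Measure.restrict_mono_ae ?_)) A ((ae_restrict_iff' hm).2 ?_)
      · filter_upwards [hnull] with z a1 a2
        exact ⟨hB a2, fun a => a1 ⟨a, hB a2⟩⟩
      · filter_upwards [hnull] with z a1 a2
        exact hA z ⟨a2, fun a => a1 ⟨a, hB a2⟩⟩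
    · rw [eW]
      exact ocp_wg hW.measurableSet (WG_of_locLip hW hc.lip) e1 e2
    · rw [eW, ← lintegral_inter_add_sdiff _ (Ω \ K') hm]
      refine ENNReal.add_lt_top.2 ⟨lt_of_le_of_lt ?_ f1.lt_top, lt_of_le_of_lt ?_ h.adm.2.2.2.2.2⟩
      · refine (lintegral_mono_set inter_subset_right).trans (le_of_eq (setLIntegral_congr_fun hm fun z a => ?_))
        simp only [piecewise_eq_of_mem _ _ _ a]
      · refine (le_of_eq (setLIntegral_congr_fun (hW.measurableSet.diff hm) (g := fun z => ‖G z‖ₑ ^ 2) fun z a => ?_)).trans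
          (lintegral_mono_set fun z a => ⟨a.1.1, fun b => a.1.2 ((hout z a.1.1 a.2).2 b)⟩)
        simp only [piecewise_eq_of_notMem _ _ _ a.2]
  have hmin := h.min V hV hVc hVΩ _ _ _ hadm ⟨B, isCompact_closedBall x ρ, hBV, fun z a => by
    by_contra a2
    rcases a with a | a
    · exact a.2 ((hout z a.1.2 a2).1 a.1.1)
    · exact a.2 ⟨(hout z (h.adm.1 a.1) a2).2 a.1, h.adm.1 a.1⟩,
    Eventually.of_forall fun z a => piecewise_eq_of_notMem _ _ _ a⟩
  have hVm := hV.measurableSet.diff hm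
  have e3 : msE g (B.piecewise w u) (K' ∩ Ω) (B.piecewise (gradient w) G) (V \ B) = msE g u K G (V \ B) := by
    have a1 : (V \ B) \ (K' ∩ Ω) = (V \ B) \ K := by
      ext z
      exact ⟨fun a => ⟨a.1, fun b => a.2 ⟨(hout z (hVΩ' a.1.1) a.1.2).2 b, hVΩ' a.1.1⟩⟩,
        fun a => ⟨a.1, fun b => a.2 ((hout z b.2 a.1.2).1 b.1)⟩⟩
    have a2 : K' ∩ Ω ∩ (V \ B) = K ∩ (V \ B) := by
      ext z
      exact ⟨fun a => ⟨(hout z a.1.2 a.2.2).1 a.1.1, a.2⟩,
        fun a => ⟨⟨(hout z (hVΩ' a.2.1) a.2.2).2 a.1, hVΩ' a.2.1⟩, a.2⟩⟩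
    rw [msE, msE, a2, ← a1]
    congr 1
    · congr 1
      refine setLIntegral_congr_fun (hVm.diff (hc.closed.measurableSet.inter h.isOpen.measurableSet)) fun z a => ?_
      simp only [piecewise_eq_of_notMem _ _ _ a.1.2]
    · refine setLIntegral_congr_fun hVm fun z a => ?_
      simp only [piecewise_eq_of_notMem _ _ _ a.2]
  have e4 : msE g (B.piecewise w u) (K' ∩ Ω) (B.piecewise (gradient w) G) B =
      En K' w B + ∫⁻ z in B, ‖w z - g z‖ₑ ^ 2 := by
    rw [msE, En, Dir, setLIntegral_congr (sdiff_null_ae_eq_self (vol_zero_of_H1 hH)), inter_assoc, inter_eq_right.2 hB]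
    congr 1
    · congr 1
      refine setLIntegral_congr_fun hm fun z a => ?_
      simp only [piecewise_eq_of_mem _ _ _ a]
    · refine setLIntegral_congr_fun hm fun z a => ?_
      simp only [piecewise_eq_of_mem _ _ _ a]
  rw [ocp_split g u K G hm hBV, ocp_split g _ _ _ hm hBV, e3, e4, h.ocp_E h1 h2 hm hB] at hmin
  exact (ENNReal.add_le_add_iff_right (h.ocp_fin (sdiff_subset.trans hVΩ')).ne).1 hmin

/-- truncation -/
noncomputable def ocpT (A t : ℝ) : ℝ := max (-A) (min t A)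

theorem ocpT_lip (A : ℝ) : LipschitzWith 1 (ocpT A) := (LipschitzWith.id.min_const A).const_max (-A)

theorem ocpT_eq {A t : ℝ} (h : |t| ≤ A) : ocpT A t = t := by
  rw [ocpT, min_eq_left (abs_le.1 h).2, max_eq_right (abs_le.1 h).1]

theorem ocpT_le {A : ℝ} (hA : 0 ≤ A) (t : ℝ) : |ocpT A t| ≤ A :=
  abs_le.2 ⟨le_max_left _ _, max_le (by linarith) (min_le_right _ _)⟩

theorem Raw.ocp_open (h : Raw Ω g M u K G) : IsOpen (Ω \ K) := h.diff_eq ▸ h.isOpen.sdiff isClosed_closure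

theorem Raw.ocp_meas (h : Raw Ω g M u K G) (hv : ContDiffOn ℝ 1 v (Ω \ K)) {B : Set ℂ} (hB : B ⊆ Ω) :
    AEMeasurable (fun z => ‖v z - g z‖ₑ ^ 2) (volume.restrict B) := by
  have h1 : AEMeasurable v (volume.restrict B) :=
    (hv.continuousOn.aemeasurable h.ocp_open.measurableSet).mono_measure (Measure.restrict_mono_ae (by
      filter_upwards [h.ocp_null] with z a1 a2
      exact ⟨hB a2, a1⟩))
  exact (h1.sub h.meas.aemeasurable).enorm.pow_const 2

theorem Raw.ocp_trunc (h : Raw Ω g M u K G) (hv : ContDiffOn ℝ 1 v (Ω \ K)) (h1 : ∀ᵐ z, z ∈ Ω \ K → v z = u z)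
    (h2 : ∀ᵐ z, z ∈ Ω \ K → gradient v z = G z) {K' : Set ℂ} {w : ℂ → ℝ} {x : ℂ} {ρ A : ℝ} (hA : 0 ≤ A)
    (hB : closedBall x ρ ⊆ Ω) (hK' : IsClosed K') (he : K' \ closedBall x ρ = closure K \ closedBall x ρ)
    (hl : ∀ z ∈ closedBall x ρ \ K', ∃ L, ∃ t ∈ 𝓝 z, LipschitzOnWith L w t)
    (ho : ∀ z ∈ closedBall x ρ \ K', ∀ᶠ y in 𝓝 z, y ∉ closedBall x ρ → ocpT A (w y) = v y) :
    En (closure K) v (closedBall x ρ) + ∫⁻ z in closedBall x ρ, ‖v z - g z‖ₑ ^ 2 ≤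
      En K' w (closedBall x ρ) + ∫⁻ z in closedBall x ρ, ‖ocpT A (w z) - g z‖ₑ ^ 2 := by
  classical
  rcases eq_or_ne (En K' w (closedBall x ρ)) ⊤ with e | hfin
  · simp [e]
  obtain ⟨f1, f2⟩ := ENNReal.add_ne_top.1 hfin
  have hc : Comp Ω (closure K) v K' ((closedBall x ρ).piecewise (ocpT A ∘ w) v) x ρ := by
    refine ⟨hK', he, fun z hz => piecewise_eq_of_notMem _ _ _ hz.2, fun z hz => ?_⟩
    by_cases a : z ∈ closedBall x ρ
    · obtain ⟨L, t, ht, hL⟩ := hl z ⟨a, hz.2⟩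
      refine ⟨1 * L, _, mem_nhdsWithin_of_mem_nhds (inter_mem ht (ho z ⟨a, hz.2⟩)), fun p hp q hq => ?_⟩
      have e : ∀ y ∈ t ∩ {y | y ∉ closedBall x ρ → ocpT A (w y) = v y},
          (closedBall x ρ).piecewise (ocpT A ∘ w) v y = (ocpT A ∘ w) y := fun y hy => by
        by_cases b : y ∈ closedBall x ρ
        · exact piecewise_eq_of_mem _ _ _ b
        · rw [piecewise_eq_of_notMem _ _ _ b]; exact (hy.2 b).symm
      rw [e p hp, e q hq]
      exact (ocpT_lip A).comp_lipschitzOnWith hL hp.1 hq.1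
    · have a1 : z ∈ Ω \ K := ⟨hz.1, fun b => hz.2 (he.symm.subset ⟨subset_closure b, a⟩).1⟩
      obtain ⟨L, t, ht, hL⟩ := locLip_of_contDiffOn h.ocp_open hv a1
      rw [h.ocp_open.nhdsWithin_eq a1] at ht
      refine ⟨L, _, mem_nhdsWithin_of_mem_nhds (inter_mem ht (isClosed_closedBall.isOpen_compl.mem_nhds a)),
        fun p hp q hq => ?_⟩
      rw [piecewise_eq_of_notMem _ _ _ hp.2, piecewise_eq_of_notMem _ _ _ hq.2]
      exact hL hp.1 hq.1
  refine (h.comp hv h1 h2 hB hc ⟨A, fun z hz => ?_⟩).trans (add_le_add (add_le_add ?_ le_rfl) (le_of_eq ?_))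
  · rw [piecewise_eq_of_mem _ _ _ hz.1]
    exact ocpT_le hA _
  · rw [Dir_closedBall, Dir_closedBall]
    refine lintegral_mono_ae ((ae_restrict_iff' measurableSet_ball).2 ?_)
    filter_upwards [measure_eq_zero_iff_ae_notMem.1 (vol_zero_of_H1 f2.lt_top),
      ae_diff_of_locLip (isOpen_ball.sdiff hK') (W := ball x ρ \ K') (w := w) fun z hz => by
        obtain ⟨L, t, ht, hL⟩ := hl z ⟨ball_subset_closedBall hz.1, hz.2⟩
        exact ⟨L, t, mem_nhdsWithin_of_mem_nhds ht, hL⟩] with z a1 a2 a3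
    have e : (closedBall x ρ).piecewise (ocpT A ∘ w) v =ᶠ[𝓝 z] ocpT A ∘ w := by
      filter_upwards [isOpen_ball.mem_nhds a3] with y hy
      exact piecewise_eq_of_mem _ _ _ (ball_subset_closedBall hy)
    rw [e.gradient_eq]
    gcongr
    rw [← ofReal_norm, ← ofReal_norm]
    exact ENNReal.ofReal_le_ofReal (norm_gradient_comp_le (ocpT_lip A)
      (a2 ⟨a3, fun b => a1 ⟨b, ball_subset_closedBall a3⟩⟩))
  · refine setLIntegral_congr_fun measurableSet_closedBall fun z a => ?_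
    simp only [piecewise_eq_of_mem _ _ _ a, Function.comp_apply]

theorem ocp_sq (t : ℝ) : ‖t‖ₑ ^ 2 = ENNReal.ofReal (t ^ 2) := by
  rw [← ofReal_norm, ← ENNReal.ofReal_pow (norm_nonneg _), Real.norm_eq_abs, sq_abs]

/-- Local boundedness. On a circle with finitely many points of `K` and integrable `‖∇v‖` (`ae_finite_sphere`, `integral_polar`), `v` is bounded by `M₀` (`bdd_off_finite`,
`hasDerivAt_circle`); truncate at level `M' = max M₀ M + 1` inside the ball (`norm_gradient_comp_le`); `|T v - g| ≤ |v - g|` with strict inequality where `|v| > M'`,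
so `Raw.comp` forces `|v| ≤ M'` a.e., then everywhere off `K` by continuity. -/
theorem Raw.bdd_near (h : Raw Ω g M u K G) (hv : ContDiffOn ℝ 1 v (Ω \ K)) (h1 : ∀ᵐ z, z ∈ Ω \ K → v z = u z)
    (h2 : ∀ᵐ z, z ∈ Ω \ K → gradient v z = G z) {x : ℂ} (hx : x ∈ Ω) :
    ∃ R M' : ℝ, 0 < R ∧ closedBall x R ⊆ Ω ∧ 0 ≤ M' ∧ M ≤ M' ∧ ∀ z ∈ ball x R \ K, |v z| ≤ M' := by
  obtain ⟨R₀, hR₀, hB₀⟩ := nhds_basis_closedBall.mem_iff.1 (h.isOpen.mem_nhds hx)
  have hfin : ∀ {B : Set ℂ}, MeasurableSet B → B ⊆ Ω → En (closure K) v B ≠ ⊤ ∧ ∫⁻ z in B, ‖v z - g z‖ₑ ^ 2 ≠ ⊤ :=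
    fun hm hB => ENNReal.add_ne_top.1 (h.ocp_E h1 h2 hm hB ▸ (h.ocp_fin hB).ne)
  obtain ⟨f1, f2⟩ := ENNReal.add_ne_top.1 (hfin measurableSet_closedBall hB₀).1
  have a1 := (integral_polar x le_rfl hR₀.le _ ((mela_iff.1 f1.lt_top).mono_set
    (sdiff_subset.trans ball_subset_closedBall))).1
  have a2 := ae_finite_sphere x _ (isClosed_closure.measurableSet.inter measurableSet_closedBall) f2.lt_top
  obtain ⟨ρ, hρ, b1, b2⟩ := Measure.exists_mem_of_measure_ne_zero_of_ae (μ := volume) (s := Ioo 0 R₀)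
    (by simpa using hR₀) (ae_restrict_of_ae (a1.and a2))
  have hB : closedBall x ρ ⊆ Ω := (closedBall_subset_closedBall hρ.2.le).trans hB₀
  have b3 : (K ∩ sphere x ρ).Finite := b2.subset fun z hz =>
    ⟨⟨subset_closure hz.1, closedBall_subset_closedBall hρ.2.le (sphere_subset_closedBall hz.2)⟩, hz.2⟩
  have b4 : IntervalIntegrable (cp v x ρ) volume 0 (2 * π + 1) := by
    refine mgood_sq (measurable_cp v x ρ) (((circle_integrable x ρ (fun z => ‖gradient v z‖ ^ 2) (b1 hρ) _ _).const_mul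
      (ρ ^ 2)).mono_fun' ((measurable_cp v x ρ).pow_const 2).aestronglyMeasurable (Eventually.of_forall fun φ => ?_))
    simp only
    rw [Real.norm_of_nonneg (sq_nonneg _), ← cp_sq_add_cq_sq]
    exact le_add_of_nonneg_right (sq_nonneg _)
  have hd : ∀ z ∈ Ω \ K, DifferentiableAt ℝ v z := fun z hz =>
    (hv.differentiableOn one_ne_zero).differentiableAt (h.ocp_open.mem_nhds hz)
  obtain ⟨M₀, hM₀⟩ := bdd_off_finite (g := fun θ => v (circleMap x ρ θ)) (p := cp v x ρ) (s := 0) (t := 2 * π + 1)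
    (by positivity) (finite_angles hρ.1 b3 0 (2 * π + 1)) (fun φ hφ => hasDerivAt_circle
      (hd _ ⟨hB (circleMap_mem_closedBall x hρ.1.le φ), fun hK => hφ.2 ⟨Ioo_subset_Icc_self hφ.1, hK⟩⟩)) b4
  have hS : ∀ z ∈ sphere x ρ \ K, |v z| ≤ M₀ := fun z hz => by
    have c1 := hz.1
    rw [← abs_of_pos hρ.1, ← image_circleMap_Ioc] at c1
    obtain ⟨φ, hφ, rfl⟩ := c1
    exact hM₀ φ ⟨⟨hφ.1, by linarith [hφ.2]⟩, fun c2 => hz.2 c2.2⟩
  set A := max (max M₀ M) 0 + 1 with hA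
  have c1 : M₀ < A := by have := le_max_left M₀ M; have := le_max_left (max M₀ M) 0; linarith
  have c2 : M < A := by have := le_max_right M₀ M; have := le_max_left (max M₀ M) 0; linarith
  have c3 : 0 ≤ A := by have := le_max_right (max M₀ M) 0; linarith
  have hmem : ∀ z ∈ closedBall x ρ \ closure K, z ∈ Ω \ K := fun z hz => ⟨hB hz.1, fun c => hz.2 (subset_closure c)⟩
  have key := h.ocp_trunc hv h1 h2 (w := v) c3 hB isClosed_closure rfl (fun z hz => by
    obtain ⟨L, t, ht, hL⟩ := locLip_of_contDiffOn h.ocp_open hv (hmem z hz)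
    rw [h.ocp_open.nhdsWithin_eq (hmem z hz)] at ht
    exact ⟨L, t, ht, hL⟩) (fun z hz => by
    by_cases d1 : z ∈ ball x ρ
    · filter_upwards [isOpen_ball.mem_nhds d1] with y hy hy'
      exact absurd (ball_subset_closedBall hy) hy'
    · have d2 : z ∈ sphere x ρ := by
        have := hz.1
        rw [← ball_union_sphere] at this
        exact this.resolve_left d1
      filter_upwards [(hd z (hmem z hz)).continuousAt.abs.eventually
        (gt_mem_nhds ((hS z ⟨d2, (hmem z hz).2⟩).trans_lt c1))] with y hy _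
      exact ocpT_eq (le_of_lt hy))
  obtain ⟨f3, f4⟩ := hfin measurableSet_closedBall hB
  rw [ENNReal.add_le_add_iff_left f3] at key
  have hle : ∀ z ∈ closedBall x ρ, (ocpT A (v z) - g z) ^ 2 ≤ (v z - g z) ^ 2 ∧
      (A < |v z| → (ocpT A (v z) - g z) ^ 2 < (v z - g z) ^ 2) := fun z hz => by
    obtain ⟨d1, d2⟩ := abs_le.1 (h.gle z (hB hz))
    rcases le_or_gt |v z| A with d3 | d3
    · rw [ocpT_eq d3]
      exact ⟨le_rfl, fun d4 => absurd d3 (not_le.2 d4)⟩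
    · have : (ocpT A (v z) - g z) ^ 2 < (v z - g z) ^ 2 := by
        rcases lt_abs.1 d3 with d4 | d4
        · rw [ocpT, min_eq_right d4.le, max_eq_right (by linarith)]
          nlinarith
        · rw [ocpT, min_eq_left (by linarith), max_eq_left (by linarith)]
          nlinarith
      exact ⟨this.le, fun _ => this⟩
  have hle' : (fun z => ‖ocpT A (v z) - g z‖ₑ ^ 2) ≤ᵐ[volume.restrict (closedBall x ρ)] fun z => ‖v z - g z‖ₑ ^ 2 := by
    filter_upwards [ae_restrict_mem measurableSet_closedBall] with z hz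
    rw [ocp_sq, ocp_sq]
    exact ENNReal.ofReal_le_ofReal (hle z hz).1
  have heq := (ae_restrict_iff' measurableSet_closedBall).1
    (ae_eq_of_ae_le_of_lintegral_le hle' (ne_top_of_le_ne_top f4 (lintegral_mono_ae hle')) (h.ocp_meas hv hB) key)
  refine ⟨ρ, A, hρ.1, hB, c3, c2.le, fun z hz => le_of_not_gt fun d1 => ?_⟩
  have d2 : ∀ᶠ y in 𝓝 z, y ∈ ball x ρ ∧ A < |v y| := (isOpen_ball.eventually_mem hz.1).and
    ((hd z ⟨hB (ball_subset_closedBall hz.1), hz.2⟩).continuousAt.abs.eventually (lt_mem_nhds d1))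
  obtain ⟨y, d3, d4⟩ := Measure.exists_mem_of_measure_ne_zero_of_ae (Measure.measure_pos_of_mem_nhds volume d2).ne'
    (ae_restrict_of_ae heq)
  have d5 := d4 (ball_subset_closedBall d3.1)
  simp only [ocp_sq] at d5
  exact ((hle y (ball_subset_closedBall d3.1)).2 d3.2).ne
    ((ENNReal.ofReal_eq_ofReal_iff (sq_nonneg _) (sq_nonneg _)).1 d5)

/-- `a = 4M'`, `b = 2M'`. For a competitor `(K', w)` in `closedBall y ρ ⊆ ball x R` use `T w` (truncation at `M'`) in the closed ball and `v` elsewhere in `Ω`;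
`(Tw - g)² - (v - g)² ≤ 4M' |Tw - v| ≤ 4M' min |w - v| (2M')`. -/
theorem Raw.abs (h : Raw Ω g M u K G) {x : ℂ} (hx : x ∈ Ω) :
    ∃ (R a b : ℝ) (v : ℂ → ℝ), 0 < R ∧ ball x R ⊆ Ω ∧ Abs (ball x R) a b (closure K) v := by
  obtain ⟨v, hv, h1, h2⟩ := h.reg
  obtain ⟨R, A, hR, hB, hA, hMA, hb⟩ := h.bdd_near hv h1 h2 hx
  have hB' : ball x R ⊆ Ω := ball_subset_closedBall.trans hB
  have hb' : ∀ z ∈ ball x R \ closure K, |v z| ≤ A := fun z hz => hb z ⟨hz.1, fun c => hz.2 (subset_closure c)⟩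
  have key : ∀ (K' : Set ℂ) (w : ℂ → ℝ) (y : ℂ) (ρ : ℝ), closedBall y ρ ⊆ ball x R →
      Comp (ball x R) (closure K) v K' w y ρ → En (closure K) v (closedBall y ρ) ≤
        En K' w (closedBall y ρ) + Err (4 * A) (2 * A) v w (closedBall y ρ) := by
    intro K' w y ρ hs hc
    have hs' := hs.trans hB'
    have hW := isOpen_ball.sdiff hc.closed (s := ball x R)
    have k1 := h.ocp_trunc hv h1 h2 (w := w) hA hs' hc.closed hc.eqK (fun z hz => by
      obtain ⟨L, t, ht, hL⟩ := hc.lip ⟨hs hz.1, hz.2⟩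
      rw [hW.nhdsWithin_eq ⟨hs hz.1, hz.2⟩] at ht
      exact ⟨L, t, ht, hL⟩) (fun z hz => by
      filter_upwards [hW.mem_nhds ⟨hs hz.1, hz.2⟩] with p hp hp'
      rw [hc.eqw ⟨hp, hp'⟩]
      exact ocpT_eq (hb' p ⟨hp.1, fun c => hp.2 (hc.eqK.symm.subset ⟨c, hp'⟩).1⟩))
    have k2 : ∫⁻ z in closedBall y ρ, ‖ocpT A (w z) - g z‖ₑ ^ 2 ≤
        (∫⁻ z in closedBall y ρ, ‖v z - g z‖ₑ ^ 2) + Err (4 * A) (2 * A) v w (closedBall y ρ) := by
      rw [Err, ← lintegral_const_mul' _ _ ENNReal.ofReal_ne_top, ← lintegral_add_left' (h.ocp_meas hv hs')]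
      refine lintegral_mono_ae ((ae_restrict_iff' measurableSet_closedBall).2 ?_)
      filter_upwards [h.ocp_null] with z a1 a2
      have b1 := hb z ⟨hs a2, a1⟩
      have b2 := (h.gle z (hs' a2)).trans hMA
      have b3 := ocpT_le hA (w z)
      have b4 : |ocpT A (w z) - v z| ≤ Min.min |w z - v z| (2 * A) := by
        refine le_min ?_ ((abs_sub _ _).trans (by linarith))
        have := (ocpT_lip A).dist_le_mul (w z) (v z)
        rwa [ocpT_eq b1, NNReal.coe_one, one_mul] at this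
      have b5 : |ocpT A (w z) + v z - 2 * g z| ≤ 4 * A := by
        rw [abs_le] at b1 b2 b3 ⊢
        constructor <;> linarith [b1.1, b1.2, b2.1, b2.2, b3.1, b3.2]
      rw [ocp_sq, ocp_sq, ← ENNReal.ofReal_mul (by positivity),
        ← ENNReal.ofReal_add (sq_nonneg _) (mul_nonneg (by positivity) ((abs_nonneg _).trans b4))]
      refine ENNReal.ofReal_le_ofReal ?_
      have b6 := (le_abs_self _).trans ((abs_mul _ _).trans_le (mul_le_mul b5 b4 (abs_nonneg _) (by positivity)))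
      nlinarith
    have k3 := k1.trans (add_le_add le_rfl k2)
    rw [add_comm (∫⁻ z in closedBall y ρ, ‖v z - g z‖ₑ ^ 2) (Err _ _ _ _ _), ← add_assoc] at k3
    exact (ENNReal.add_le_add_iff_right
      (ENNReal.add_ne_top.1 (h.ocp_E h1 h2 measurableSet_closedBall hs' ▸ (h.ocp_fin hs').ne)).2).1 k3
  refine ⟨R, 4 * A, 2 * A, v, hR, hB', ⟨isOpen_ball, isClosed_closure, by positivity, by positivity,
    hv.mono fun z hz => ⟨hB' hz.1, fun c => hz.2 (subset_closure c)⟩, fun z hz => ?_,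
    fun K' w y ρ a1 a2 _ => key K' w y ρ a1 a2⟩, key, fun y hy t ht => ?_⟩
  · have := hb' z hz
    nlinarith
  · obtain ⟨r, hr, hr'⟩ := nhds_basis_closedBall.mem_iff.1 (h.isOpen.mem_nhds (hB' hy.2))
    refine (h.red y (h.adm.2.1 ⟨hy.1, hB' hy.2⟩) (Min.min r t) (lt_min hr ht)
      ((closedBall_subset_closedBall (min_le_left _ _)).trans hr')).trans_le (measure_mono ?_)
    exact inter_subset_inter subset_closure (ball_subset_ball (min_le_right _ _))

end Crest.Agent.R135
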