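import Crest.Agent.R135.Defs
import Crest.Agent.R135.FTan
import Crest.Agent.R135.AClose
import Crest.Agent.R135.FGraph
set_option autoImplicit false
open MeasureTheory Metric Set Filter Topology
open scoped ENNReal NNReal Real ComplexConjugate

namespace Crest.Agent.R135

/-- geometric form of the star hypothesis -/
structure StarGeo (n : ℕ) (K : Set ℂ) (x : ℂ) (ρ₀ C α σ : ℝ) : Prop where
  pos : 0 < ρ₀
  C0 : 0 ≤ C
  α0 : 0 < α
  σ0 : 0 < σ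
  σ1 : σ ≤ 1
  ctr : x ∈ K
  near : ∀ ε : ℝ, 0 < ε → ∃ ρ₁ : ℝ, 0 < ρ₁ ∧ ∀ ρ ∈ Ioc 0 ρ₁, Near ε n K x ρ
  flat : ∀ y ∈ K, ‖y - x‖ ∈ Ioc 0 ρ₀ → FH (1 / 2000) K y (σ * ‖y - x‖) ∧ ∃ τ : ℂ, Tan C α K y (σ * ‖y - x‖) τ

/-- `close_flat` with `r = ρ/4`, `t = σ²ρ`-type choice at every `y` (`exists_Sm`); neighbours `y'` have `‖y'-x‖ ≥ ρ/2`; `flat_tan` -/
theorem starGeo_of {U K : Set ℂ} {a b : ℝ} {u : ℂ → ℝ} (h : Abs U a b K u) {x : ℂ} (hx : x ∈ K ∩ U) {n : ℕ}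
    (hs : StarHyp n K u x) : ∃ ρ₀ C α σ : ℝ, StarGeo n K x ρ₀ C α σ := by
  obtain ⟨σ, δ, σ0, σ1, δ0, hcf⟩ := close_flat (1 / 2000) (by norm_num)
  obtain ⟨C, δ', C0, δ'0, hft⟩ := flat_tan
  obtain ⟨r₀, r0, hS⟩ := exists_Sm h.ms.isOpen hx.2 a b δ0
  obtain ⟨r₁, r1, hS'⟩ := exists_Sm h.ms.isOpen hx.2 a b δ'0
  obtain ⟨ε, ε0, hε⟩ := nhds_basis_closedBall.mem_iff.1 (h.ms.isOpen.mem_nhds hx.2)
  obtain ⟨ρ₁, ρ1, hρ⟩ := hs 1 one_pos (σ / 4) ⟨by positivity, by linarith⟩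
  set m := min (min r₀ r₁) (min ε ρ₁) with hm
  have m0 : 0 < m := lt_min (lt_min r0 r1) (lt_min ε0 ρ1)
  have m1 : m ≤ r₀ := (min_le_left _ _).trans (min_le_left _ _)
  have m2 : m ≤ r₁ := (min_le_left _ _).trans (min_le_right _ _)
  have m3 : m ≤ ε := (min_le_right _ _).trans (min_le_left _ _)
  have m4 : m ≤ ρ₁ := (min_le_right _ _).trans (min_le_right _ _)
  have σ2 : σ * σ / 8 ≤ 1 / 2 := by nlinarith
  have σ3 : 0 < σ * σ / 8 := by positivity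
  have key : ∀ y ∈ K, ‖y - x‖ ∈ Ioc 0 (m / 2) → FG (1 / 2000) K y (σ * (σ / 4 * ‖y - x‖)) := by
    intro y hy hyx
    obtain ⟨hD, hL⟩ := (hρ ‖y - x‖ ⟨hyx.1, by linarith [hyx.2]⟩).2 y hy rfl
    have h0 := hyx.1
    refine hcf U K a b u h y hy (‖y - x‖ / 4) (by positivity)
      (hS y (by rw [mem_ball, dist_eq_norm]; linarith [hyx.2]) _ ⟨by positivity, by linarith [hyx.2]⟩)
      (by linarith) _ ⟨by positivity, le_of_eq (by ring)⟩ hL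
  refine ⟨m / 4, C, 1 / 16, σ * σ / 8, by positivity, C0, by norm_num, σ3, by linarith, hx.1, ?_, ?_⟩
  · intro η hη
    obtain ⟨ρ₂, ρ2, h2⟩ := hs η hη (1 / 4) ⟨by norm_num, le_rfl⟩
    exact ⟨ρ₂, ρ2, fun ρ hρ => (h2 ρ hρ).1⟩
  · intro y hy hyx
    have h0 := hyx.1
    have h1 := hyx.2
    have h2 : σ * σ / 8 * ‖y - x‖ ≤ ‖y - x‖ / 2 := by nlinarith
    have hF : FH (1 / 2000) K y (σ * σ / 8 * ‖y - x‖) := by
      refine ⟨h.ms.closed, hy, by positivity, fun y' hy' s hs' => ?_⟩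
      have h3 : ‖y' - y‖ < σ * σ / 8 * ‖y - x‖ := by rw [← dist_eq_norm]; exact hy'.2
      have h4 : ‖y' - x‖ ≤ ‖y' - y‖ + ‖y - x‖ := by
        simpa using norm_add_le (y' - y) (y - x)
      have h5 : ‖y - x‖ ≤ ‖y' - y‖ + ‖y' - x‖ := by
        have := norm_add_le (y - y') (y' - x)
        rw [norm_sub_rev y y'] at this
        simpa using this
      refine key y' hy'.1 ⟨by linarith, by linarith⟩ s ⟨hs'.1, hs'.2.trans ?_⟩
      have h6 : ‖y - x‖ ≤ 2 * ‖y' - x‖ := by linarith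
      nlinarith [mul_le_mul_of_nonneg_left h6 σ3.le]
    refine ⟨hF, hft U K a b u h y _ hF ((closedBall_subset_closedBall' ?_).trans hε) ?_⟩
    · rw [dist_eq_norm]; linarith
    · exact (hS' y (by rw [mem_ball, dist_eq_norm]; linarith) _ ⟨by positivity, by linarith⟩).ab

theorem sgeo_neg {C α r : ℝ} {K : Set ℂ} {y τ : ℂ} (h : Tan C α K y r τ) : Tan C α K y r (-τ) := by
  refine ⟨by rw [norm_neg]; exact h.1, fun z hz => ?_⟩
  have := h.2 z hz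
  rwa [map_neg, mul_neg, Complex.neg_im, abs_neg]

theorem sgeo_lam {C α σ : ℝ} (hα : 0 < α) (hσ : 0 < σ) :
    ∃ l : ℝ, 0 < l ∧ l ≤ 1 / 4 ∧ C * (2 * l / σ) ^ α ≤ 1 / 100 := by
  have hc : ContinuousAt (fun l : ℝ => C * (2 * l / σ) ^ α) 0 := by
    refine continuousAt_const.mul (ContinuousAt.rpow_const (by fun_prop (disch := exact hσ.ne')) (Or.inr hα.le))
  have h0 : (fun l : ℝ => C * (2 * l / σ) ^ α) 0 < 1 / 100 := by
    simp [Real.zero_rpow hα.ne']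
  have h1 : ∀ᶠ l in 𝓝[>] (0 : ℝ), C * (2 * l / σ) ^ α < 1 / 100 :=
    (hc.eventually (gt_mem_nhds h0)).filter_mono nhdsWithin_le_nhds
  have h2 : ∀ᶠ l in 𝓝[>] (0 : ℝ), l ∈ Ioo (0 : ℝ) (1 / 4) := Ioo_mem_nhdsGT (by norm_num)
  obtain ⟨l, h3, h4⟩ := (h1.and h2).exists
  exact ⟨l, h4.1, h4.2.le, h3.le⟩

theorem sgeo_unit {w : ℂ} (hw : ‖w‖ = 1) (h : |w.im| ≤ 3 / 100) : 999 / 1000 ≤ |w.re| := by
  have h1 : w.re ^ 2 + w.im ^ 2 = 1 := by
    have := Complex.sq_norm w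
    rw [hw, Complex.normSq_apply] at this
    nlinarith
  have h2 : w.im ^ 2 ≤ (3 / 100) ^ 2 := by
    rw [← sq_abs]; exact pow_le_pow_left₀ (abs_nonneg _) h 2
  refine (pow_le_pow_iff_left₀ (by norm_num) (abs_nonneg _) two_ne_zero).1 ?_
  rw [sq_abs]; nlinarith

/-- Tangents are almost radial. Fix `λ ≤ 1/4` with `C (2λ/σ)^α ≤ 1/100`, then `ε ≪ λ`. For `y ∈ K`, `ρ = ‖y-x‖`, `Near ε n K x (2ρ)` gives a ray direction `d = eζ`
with `‖y - x - ρ d‖ ≤ 4ερ` and `z ∈ K` within `2ερ` of `x + (1+λ)ρ d`; so `z - y ≈ λρ d` is almost parallel to `τ`. Flip the sign of `τ`. -/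
theorem StarGeo.radial {n : ℕ} (hn : n ≠ 0) {K : Set ℂ} {x : ℂ} {ρ₀ C α σ : ℝ} (h : StarGeo n K x ρ₀ C α σ) :
    ∃ ρ₁ ∈ Ioc 0 ρ₀, ∀ y ∈ K, ‖y - x‖ ∈ Ioc 0 ρ₁ → ∃ τ : ℂ, Tan C α K y (σ * ‖y - x‖) τ ∧
      99 / 100 * ‖y - x‖ ≤ (τ * conj (y - x)).re := by
  obtain ⟨l, l0, l1, hl⟩ := sgeo_lam (C := C) h.α0 h.σ0
  obtain ⟨ρ₁, ρ1, hN⟩ := h.near (l / 1000) (by positivity)
  refine ⟨min ρ₀ (ρ₁ / 2), ⟨lt_min h.pos (half_pos ρ1), min_le_left _ _⟩, fun y hy hyx => ?_⟩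
  obtain ⟨τ, hτ⟩ := (h.flat y hy ⟨hyx.1, hyx.2.trans (min_le_left _ _)⟩).2
  have ρ0 := hyx.1
  have ρ2 := hyx.2.trans (min_le_right _ _)
  set ρ := ‖y - x‖ with hρ
  obtain ⟨e, he, hN1, hN2⟩ := hN (2 * ρ) ⟨by positivity, by linarith⟩
  obtain ⟨w, ⟨s, s0, ζ, hζ, rfl⟩, hw⟩ := hN1 y ⟨hy, by rw [mem_ball, dist_eq_norm]; linarith⟩
  have ζ1 : ‖ζ‖ = 1 := by
    have := congrArg norm hζ
    rw [norm_pow, norm_one] at this
    exact (pow_eq_one_iff_of_nonneg (norm_nonneg _) hn).1 this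
  set d := e * ζ with hd
  have d1 : ‖d‖ = 1 := by rw [hd, norm_mul, he, ζ1, mul_one]
  rw [dist_eq_norm, mul_assoc, ← hd] at hw
  have hs : |s - ρ| ≤ l / 1000 * (2 * ρ) := by
    have h1 : ‖(s : ℂ) * d‖ = s := by rw [norm_mul, d1, mul_one, Complex.norm_real, Real.norm_of_nonneg s0]
    have h2 := abs_norm_sub_norm_le ((s : ℂ) * d) (y - x)
    rw [h1] at h2
    refine h2.trans (le_of_eq_of_le ?_ hw)
    rw [norm_sub_rev]
    congr 1; ring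
  have hE : ‖y - x - ρ * d‖ ≤ l / 1000 * (4 * ρ) := by
    have h1 : y - x - ρ * d = (y - (x + s * d)) + ((s - ρ : ℝ) : ℂ) * d := by push_cast; ring
    rw [h1]
    refine (norm_add_le _ _).trans ?_
    rw [norm_mul, d1, mul_one, Complex.norm_real, Real.norm_eq_abs]
    linarith
  obtain ⟨z, hz, hzw⟩ := hN2 (x + (((1 + l) * ρ : ℝ) : ℂ) * e * ζ) ⟨⟨(1 + l) * ρ, by positivity, ζ, hζ, rfl⟩, by
    rw [mem_ball, dist_eq_norm, add_sub_cancel_left, mul_assoc, ← hd, norm_mul, d1, mul_one, Complex.norm_real,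
      Real.norm_of_nonneg (by positivity)]
    nlinarith⟩
  rw [dist_eq_norm, mul_assoc, ← hd] at hzw
  have hE2 : ‖z - y - (l * ρ : ℝ) * d‖ ≤ l / 1000 * (6 * ρ) := by
    have h1 : z - y - (l * ρ : ℝ) * d = (z - (x + (((1 + l) * ρ : ℝ) : ℂ) * d)) - (y - x - ρ * d) := by push_cast; ring
    rw [h1]
    refine (norm_sub_le _ _).trans ?_
    linarith
  have lρ : 0 < l * ρ := mul_pos l0 ρ0
  have hld : ‖((l * ρ : ℝ) : ℂ) * d‖ = l * ρ := by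
    rw [norm_mul, d1, mul_one, Complex.norm_real, Real.norm_of_nonneg lρ.le]
  have hzy : ‖z - y‖ ≤ 2 * l * ρ := by
    have h1 := norm_add_le (z - y - (l * ρ : ℝ) * d) (((l * ρ : ℝ) : ℂ) * d)
    rw [sub_add_cancel, hld] at h1
    nlinarith
  have σ0 := h.σ0
  have h3 : |((z - y) * conj τ).im| ≤ 1 / 100 * (2 * l * ρ) := by
    refine (hτ.2 z hz).trans (mul_le_mul (le_trans ?_ hl) hzy (norm_nonneg _) (by norm_num))
    refine mul_le_mul_of_nonneg_left (Real.rpow_le_rpow (by positivity) ?_ h.α0.le) h.C0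
    rw [div_le_div_iff₀ (by positivity) σ0]
    nlinarith [mul_le_mul_of_nonneg_right hzy σ0.le]
  have cτ : ‖conj τ‖ = 1 := by rw [Complex.norm_conj, hτ.1]
  have h4 : |(d * conj τ).im| ≤ 3 / 100 := by
    have h1 : (l * ρ) * (d * conj τ).im = ((z - y) * conj τ).im - ((z - y - (l * ρ : ℝ) * d) * conj τ).im := by
      rw [← Complex.sub_im, ← sub_mul, sub_sub_cancel, mul_assoc _ d, Complex.im_ofReal_mul]
    have h2 : |((z - y - (l * ρ : ℝ) * d) * conj τ).im| ≤ l / 1000 * (6 * ρ) := by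
      refine (Complex.abs_im_le_norm _).trans ?_
      rwa [norm_mul, cτ, mul_one]
    have h5 : (l * ρ) * |(d * conj τ).im| ≤ (l * ρ) * (3 / 100) := by
      rw [← abs_of_pos lρ, ← abs_mul, abs_of_pos lρ, h1]
      refine (abs_sub _ _).trans ?_
      nlinarith
    exact le_of_mul_le_mul_left h5 lρ
  have h5 := sgeo_unit (by rw [norm_mul, d1, cτ, mul_one]) h4
  have key : ∀ t : ℂ, ‖t‖ = 1 → 999 / 1000 ≤ (d * conj t).re → 99 / 100 * ρ ≤ (t * conj (y - x)).re := by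
    intro t ht h6
    have h1 : (t * conj (y - x)).re = ρ * (d * conj t).re + (t * conj (y - x - ρ * d)).re := by
      simp only [map_sub, map_mul, Complex.conj_ofReal, Complex.mul_re, Complex.sub_re, Complex.sub_im, Complex.conj_re,
        Complex.conj_im, Complex.mul_im, Complex.ofReal_re, Complex.ofReal_im]
      ring
    have h2 : |(t * conj (y - x - ρ * d)).re| ≤ l / 1000 * (4 * ρ) := by
      refine (Complex.abs_re_le_norm _).trans ?_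
      rwa [norm_mul, ht, one_mul, Complex.norm_conj]
    have h7 := (abs_le.1 h2).1
    rw [h1]
    nlinarith
  rcases le_abs.1 h5 with h6 | h6
  · exact ⟨τ, hτ, key τ hτ.1 h6⟩
  · refine ⟨-τ, sgeo_neg hτ, key (-τ) (by rw [norm_neg, hτ.1]) ?_⟩
    rwa [map_neg, mul_neg, Complex.neg_re]

end Crest.Agent.R135
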