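import Crest.Agent.R135.Defs
set_option autoImplicit false
open MeasureTheory Metric Set Filter Topology
open scoped ENNReal NNReal Real ComplexConjugate

namespace Crest.Agent.R135

/-- sections over `J` -/
def SsecS (K : Set ℂ) (x : ℂ) (J : Set ℝ) (p : ℝ → ℂ) : Prop :=
  (∀ s ∈ J, p s ∈ K ∧ ‖p s - x‖ = s) ∧ ∀ s ∈ J, ∀ t ∈ J, ‖p s - p t‖ ≤ 2 * |s - t|

theorem ssec_ind {η : ℝ} (hη : 0 < η) {J : Set ℝ} (hJ : IsPreconnected J) (h0 : ∀ s ∈ J, 0 < s) {Q : ℝ → Prop}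
    (h : ∀ s ∈ J, ∀ t ∈ J, |s - t| ≤ η * s / 2 → |s - t| ≤ η * t / 2 → Q s → Q t) {s : ℝ} (hs : s ∈ J) (hQ : Q s) :
    ∀ t ∈ J, Q t := fun t ht => by
  refine hJ.induction₂' (fun s t => Q s → Q t) (fun s hs => ?_) (fun _ _ _ _ _ _ h1 h2 => h2 ∘ h1) hs ht hQ
  have e : |s - s| < η * s / 2 := by simpa using mul_pos hη (h0 s hs)
  have c : ContinuousAt (fun t => |s - t|) s := by fun_prop
  filter_upwards [self_mem_nhdsWithin, mem_nhdsWithin_of_mem_nhds (c.eventually_lt continuousAt_const e),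
    mem_nhdsWithin_of_mem_nhds (c.eventually_lt (g := fun t => η * t / 2) (by fun_prop) e)] with t ht h1 h2
  exact ⟨h s hs t ht h1.le h2.le, h t ht s hs (abs_sub_comm s t ▸ h2.le) (abs_sub_comm s t ▸ h1.le)⟩


/-- Sections by continuation. On `[ρ₀(1-η)^{k+1}, ρ₀(1-η)^k]` let `p ρ` be the point given by `step` from `p (ρ₀(1-η)^k)`; by `sepr` any two points obtained
from nearby points on the same sphere coincide, which gives the local (hence global) Lipschitz bound. Conversely push `z` outward with `step` until radius `ρ₀`;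
uniqueness of continuation (`sepr`) shows that `z` is on the section through the end point. -/
theorem section_lemma {K : Set ℂ} {x : ℂ} {ρ₀ η : ℝ} (hρ : 0 < ρ₀) (hη : 0 < η) (hη1 : η ≤ 1 / 2)
    (step : ∀ y ∈ K, ‖y - x‖ ∈ Ioc 0 ρ₀ → ∀ ρ' ∈ Ioc 0 ρ₀, |ρ' - ‖y - x‖| ≤ η * ‖y - x‖ →
      ∃ z ∈ K, ‖z - x‖ = ρ' ∧ ‖z - y‖ ≤ 2 * |ρ' - ‖y - x‖|)
    (sepr : ∀ y ∈ K, ∀ z ∈ K, ‖y - x‖ ∈ Ioc 0 ρ₀ → ‖z - x‖ = ‖y - x‖ → ‖z - y‖ ≤ 10 * η * ‖y - x‖ → z = y) :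
    ∃ P : ℂ → ℝ → ℂ, (∀ y ∈ K ∩ sphere x ρ₀, P y ρ₀ = y ∧ LipschitzOnWith 2 (P y) (Ioc 0 ρ₀) ∧
        ∀ ρ ∈ Ioc 0 ρ₀, P y ρ ∈ K ∧ ‖P y ρ - x‖ = ρ) ∧
      (∀ y ∈ K ∩ sphere x ρ₀, ∀ y' ∈ K ∩ sphere x ρ₀, ∀ ρ ∈ Ioc 0 ρ₀, P y ρ = P y' ρ → y = y') ∧
      ∀ z ∈ K, ‖z - x‖ ∈ Ioc 0 ρ₀ → ∃ y ∈ K ∩ sphere x ρ₀, z = P y ‖z - x‖ := by
  have sep' : ∀ y ∈ K, ∀ z ∈ K, ∀ s ∈ Ioc 0 ρ₀, ‖y - x‖ = s → ‖z - x‖ = s → ‖z - y‖ ≤ 10 * η * s → z = y :=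
    fun y hy z hz s hs h1 h2 h3 => sepr y hy z hz (h1 ▸ hs) (h2.trans h1.symm) (h1 ▸ h3)
  have step' : ∀ y ∈ K, ∀ s ∈ Ioc 0 ρ₀, ‖y - x‖ = s → ∀ t ∈ Ioc 0 ρ₀, |t - s| ≤ η * s →
      ∃ z ∈ K, ‖z - x‖ = t ∧ ‖z - y‖ ≤ 2 * |t - s| :=
    fun y hy s hs h1 t ht h2 => h1 ▸ step y hy (h1 ▸ hs) t ht (h1 ▸ h2)
  have uniq : ∀ {J : Set ℝ} {p q : ℝ → ℂ}, IsPreconnected J → J ⊆ Ioc 0 ρ₀ → SsecS K x J p → SsecS K x J q →
      ∀ s ∈ J, p s = q s → ∀ t ∈ J, p t = q t := fun {J p q} hJ hJ' hp hq s hs e =>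
    ssec_ind hη hJ (fun t ht => (hJ' ht).1) (Q := fun t => p t = q t) (fun s hs t ht _ h2 e => by
      refine sep' _ (hq.1 t ht).1 _ (hp.1 t ht).1 t (hJ' ht) (hq.1 t ht).2 (hp.1 t ht).2 ?_
      have e1 := norm_sub_le_norm_sub_add_norm_sub (p t) (p s) (q t)
      have e2 := hq.2 s hs t ht
      have e3 := hp.2 t ht s hs
      rw [← e] at e2
      rw [abs_sub_comm] at e3
      linarith [mul_pos hη (hJ' ht).1]) hs e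
  have ex : ∀ y ∈ K ∩ sphere x ρ₀, ∀ s ∈ Ioc 0 ρ₀, ∃ p, SsecS K x (Icc s ρ₀) p ∧ p ρ₀ = y := fun y hy => by
    refine ssec_ind hη isPreconnected_Ioc (fun t ht => ht.1) (fun s hs t ht h1 h2 ⟨p, hp, e⟩ => ?_)
      ⟨hρ, le_rfl⟩ ⟨fun _ => y, ⟨fun s hs => ⟨hy.1, ?_⟩, fun _ _ _ _ => by simp⟩, rfl⟩
    swap
    · rw [le_antisymm hs.2 hs.1]
      exact mem_sphere_iff_norm.1 hy.2
    rcases le_total s t with h3 | h3
    · exact ⟨p, ⟨fun r hr => hp.1 r ⟨h3.trans hr.1, hr.2⟩, fun r hr r' hr' =>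
        hp.2 r ⟨h3.trans hr.1, hr.2⟩ r' ⟨h3.trans hr'.1, hr'.2⟩⟩, e⟩
    have hs' : s ∈ Icc s ρ₀ := ⟨le_rfl, hs.2⟩
    have hst := le_abs_self (s - t)
    have hηs := mul_pos hη hs.1
    have hηt := mul_le_mul_of_nonneg_right hη1 hs.1.le
    have c : ∀ r, ∃ z, r ∈ Icc t s → z ∈ K ∧ ‖z - x‖ = r ∧ ‖z - p s‖ ≤ 2 * (s - r) := fun r => by
      by_cases hr : r ∈ Icc t s
      · obtain ⟨z, hz⟩ := step' _ (hp.1 s hs').1 s hs (hp.1 s hs').2 r ⟨ht.1.trans_le hr.1, hr.2.trans hs.2⟩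
          (abs_le.2 ⟨by linarith [hr.1], by linarith [hr.2]⟩)
        rw [abs_sub_comm, abs_of_nonneg (sub_nonneg.2 hr.2)] at hz
        exact ⟨z, fun _ => hz⟩
      · exact ⟨0, fun h => (hr h).elim⟩
    choose q hq using c
    have mix : ∀ r ∈ Icc t s, ∀ r' ∈ Icc s ρ₀, ‖q r - p r'‖ ≤ 2 * |r - r'| := fun r hr r' hr' => by
      have e1 := norm_sub_le_norm_sub_add_norm_sub (q r) (p s) (p r')
      have e2 := hp.2 s hs' r' hr'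
      rw [abs_of_nonpos (sub_nonpos.2 hr'.1)] at e2
      rw [abs_of_nonpos (sub_nonpos.2 (hr.2.trans hr'.1))]
      linarith [(hq r hr).2.2]
    refine ⟨fun r => if s ≤ r then p r else q r, ⟨fun r hr => ?_, fun r hr r' hr' => ?_⟩, by simp [hs.2, e]⟩
    · by_cases h4 : s ≤ r
      · simpa only [if_pos h4] using hp.1 r ⟨h4, hr.2⟩
      · simp only [if_neg h4]
        exact ⟨(hq r ⟨hr.1, (not_le.1 h4).le⟩).1, (hq r ⟨hr.1, (not_le.1 h4).le⟩).2.1⟩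
    · by_cases h4 : s ≤ r <;> by_cases h5 : s ≤ r' <;> simp only [h4, h5, if_true, if_false]
      · exact hp.2 r ⟨h4, hr.2⟩ r' ⟨h5, hr'.2⟩
      · rw [norm_sub_rev, abs_sub_comm]
        exact mix r' ⟨hr'.1, (not_le.1 h5).le⟩ r ⟨h4, hr.2⟩
      · exact mix r ⟨hr.1, (not_le.1 h4).le⟩ r' ⟨h5, hr'.2⟩
      · obtain ⟨a1, a2, a3⟩ := hq r ⟨hr.1, (not_le.1 h4).le⟩
        obtain ⟨b1, b2, b3⟩ := hq r' ⟨hr'.1, (not_le.1 h5).le⟩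
        have k1 : |r - r'| ≤ s - t := abs_le.2 ⟨by linarith [hr.1], by linarith [hr'.1]⟩
        have k2 := mul_le_mul_of_nonneg_left hr.1 hη.le
        have k3 := mul_le_mul_of_nonneg_left hr'.1 hη.le
        have k4 := mul_pos hη ht.1
        obtain ⟨z, z1, z2, z3⟩ := step' _ b1 r' ⟨ht.1.trans_le hr'.1, hr'.2⟩ b2 r ⟨ht.1.trans_le hr.1, hr.2⟩
          (by linarith)
        rw [← sep' _ a1 z z1 r ⟨ht.1.trans_le hr.1, hr.2⟩ a2 z2 ?_]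
        · exact z3
        · have e1 := norm_sub_le_norm_sub_add_norm_sub z (q r') (q r)
          have e2 := norm_sub_le_norm_sub_add_norm_sub (q r') (p s) (q r)
          rw [norm_sub_rev (p s)] at e2
          linarith [hr.1, hr'.1]
  choose! p hp e using ex
  have hsub : ∀ s ∈ Ioc 0 ρ₀, Icc s ρ₀ ⊆ Ioc 0 ρ₀ := fun s hs r hr => ⟨hs.1.trans_le hr.1, hr.2⟩
  have hS : ∀ y ∈ K ∩ sphere x ρ₀, SsecS K x (Ioc 0 ρ₀) fun s => p y s s := fun y hy => by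
    have h1 : ∀ s ∈ Ioc 0 ρ₀, ∀ t ∈ Ioc 0 ρ₀, s ≤ t → ‖p y s s - p y t t‖ ≤ 2 * |s - t| := fun s hs t ht hst => by
      rw [uniq isPreconnected_Icc (hsub t ht) (hp y hy t ht) (q := p y s)
        ⟨fun r hr => (hp y hy s hs).1 r ⟨hst.trans hr.1, hr.2⟩, fun r hr r' hr' =>
          (hp y hy s hs).2 r ⟨hst.trans hr.1, hr.2⟩ r' ⟨hst.trans hr'.1, hr'.2⟩⟩ ρ₀ ⟨ht.2, le_rfl⟩
        ((e y hy t ht).trans (e y hy s hs).symm) t ⟨le_rfl, ht.2⟩]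
      exact (hp y hy s hs).2 s ⟨le_rfl, hs.2⟩ t ⟨hst, ht.2⟩
    refine ⟨fun s hs => (hp y hy s hs).1 s ⟨le_rfl, hs.2⟩, fun s hs t ht => ?_⟩
    rcases le_total s t with h2 | h2
    · exact h1 s hs t ht h2
    · rw [norm_sub_rev, abs_sub_comm]
      exact h1 t ht s hs h2
  have h0 : ρ₀ ∈ Ioc 0 ρ₀ := ⟨hρ, le_rfl⟩
  refine ⟨fun y s => p y s s, fun y hy => ⟨e y hy _ h0, LipschitzOnWith.of_dist_le_mul fun s hs t ht => ?_,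
    (hS y hy).1⟩, fun y hy y' hy' s hs h1 => ?_, fun z hz hz' => ?_⟩
  · simpa only [dist_eq_norm, Real.norm_eq_abs, NNReal.coe_ofNat] using (hS y hy).2 s hs t ht
  · rw [← e y hy _ h0, ← e y' hy' _ h0]
    exact uniq isPreconnected_Ioc subset_rfl (hS y hy) (hS y' hy') s hs h1 _ h0
  refine ssec_ind hη isPreconnected_Ioc (fun t ht => ht.1)
    (Q := fun s => ∀ z ∈ K, ‖z - x‖ = s → ∃ y ∈ K ∩ sphere x ρ₀, z = p y s s)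
    (fun s hs t ht _ h2 H z hz h3 => ?_) h0
    (fun z hz h3 => ⟨z, ⟨hz, mem_sphere_iff_norm.2 h3⟩, (e z ⟨hz, mem_sphere_iff_norm.2 h3⟩ _ h0).symm⟩)
    _ hz' z hz rfl
  have k := mul_pos hη ht.1
  obtain ⟨w, w1, w2, w3⟩ := step' z hz t ht h3 s hs (by linarith)
  obtain ⟨y, hy, rfl⟩ := H w w1 w2
  refine ⟨y, hy, sep' _ ((hS y hy).1 t ht).1 z hz t ht ((hS y hy).1 t ht).2 h3 ?_⟩
  have e1 := norm_sub_le_norm_sub_add_norm_sub z (p y s s) (p y t t)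
  rw [norm_sub_rev z (p y s s)] at e1
  linarith [(hS y hy).2 s hs t ht]

end Crest.Agent.R135
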