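import Crest.Agent.R135.Defs
import Crest.Agent.R135.SGeo
import Crest.Agent.R135.SSect
import Crest.Agent.R135.TCone
set_option autoImplicit false
open MeasureTheory Metric Set Filter Topology
open scoped ENNReal NNReal Real ComplexConjugate

namespace Crest.Agent.R135

theorem sss_sq (z y x : ℂ) : ‖z - x‖ ^ 2 = ‖y - x‖ ^ 2 + 2 * ((z - y) * conj (y - x)).re + ‖z - y‖ ^ 2 := by
  rw [show z - x = (z - y) + (y - x) by ring, Complex.sq_norm, Complex.sq_norm, Complex.sq_norm, Complex.normSq_add]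
  ring

theorem sss_core {τ v w : ℂ} (hτ : ‖τ‖ = 1) (h1 : 99 / 100 * ‖v‖ ≤ (τ * conj v).re)
    (h2 : |(w * conj τ).im| ≤ ‖w‖ / 100) :
    99 / 100 * ‖w‖ ≤ (w * conj τ).re ∧ 97 / 100 * (‖w‖ * ‖v‖) ≤ (w * conj v).re ∨
      (w * conj τ).re ≤ -(99 / 100 * ‖w‖) ∧ (w * conj v).re ≤ -(97 / 100 * (‖w‖ * ‖v‖)) := by
  have e1 : w * conj v = w * conj τ * (τ * conj v) := by
    have : τ * conj τ = 1 := by rw [Complex.mul_conj, Complex.normSq_eq_norm_sq, hτ]; simp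
    linear_combination (-(w * conj v)) * this
  have e2 : ‖w‖ ^ 2 = (w * conj τ).re * (w * conj τ).re + (w * conj τ).im * (w * conj τ).im := by
    rw [← Complex.normSq_apply, ← Complex.sq_norm]
    simp [hτ]
  have e3 : |(τ * conj v).im| ≤ ‖v‖ := (Complex.abs_im_le_norm _).trans_eq (by simp [hτ])
  have e4 := abs_le.1 ((abs_mul _ _).trans_le (mul_le_mul h2 e3 (abs_nonneg _) (by positivity)))
  rw [e1, Complex.mul_re (w * conj τ)]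
  generalize (w * conj τ).re = a at *
  generalize (w * conj τ).im = b at *
  have e5 : b ^ 2 ≤ (‖w‖ / 100) ^ 2 := sq_le_sq' (abs_le.1 h2).1 (abs_le.1 h2).2
  have e6 : 99 / 100 * ‖w‖ ≤ |a| := (abs_le_of_sq_le_sq' (by rw [sq_abs]; nlinarith) (abs_nonneg a)).2
  have e7 := mul_nonneg (norm_nonneg w) (norm_nonneg v)
  rcases le_abs'.1 e6 with h | h
  · have := mul_le_mul (show 99 / 100 * ‖w‖ ≤ -a by linarith) h1 (by positivity) (by linarith [norm_nonneg w])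
    exact Or.inr ⟨h, by linarith [e4.1]⟩
  · have := mul_le_mul h h1 (by positivity) (by linarith [norm_nonneg w])
    exact Or.inl ⟨h, by linarith [e4.2]⟩


/-- `step`: `flat_arms` at `y` with radius `s' = 2|ρ' - ρ| ≤ σρ/32`; the end points `p - y`, `q - y` are almost `±s' τ` (`Tan`, opposite sides), so one is at distance
`≥ ρ + s'/2` from `x` and the other `≤ ρ - s'/2`; `conn_meets_sphere`. `sepr`: a short chord of a circle is almost tangential, against `Tan` + `radial`. -/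
theorem StarGeo.step_sep {n : ℕ} (hn : n ≠ 0) {K : Set ℂ} {x : ℂ} {ρ₀ C α σ : ℝ} (h : StarGeo n K x ρ₀ C α σ) :
    ∃ ρ₁ ∈ Ioc 0 ρ₀, ∃ η : ℝ, 0 < η ∧ η ≤ 1 / 100 ∧
      (∀ y ∈ K, ‖y - x‖ ∈ Ioc 0 ρ₁ → ∀ ρ' : ℝ, |ρ' - ‖y - x‖| ≤ η * ‖y - x‖ →
        ∃ z ∈ K, ‖z - x‖ = ρ' ∧ ‖z - y‖ ≤ 2 * |ρ' - ‖y - x‖|) ∧
      ∀ y ∈ K, ∀ z ∈ K, ‖y - x‖ ∈ Ioc 0 ρ₁ → ‖z - x‖ = ‖y - x‖ → ‖z - y‖ ≤ 10 * η * ‖y - x‖ → z = y := by
  obtain ⟨ρ₁, hρ₁, H⟩ := h.radial hn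
  have hσ := h.σ0
  obtain ⟨η, hη, η1, η2, η3⟩ : ∃ η : ℝ, 0 < η ∧ η ≤ 1 / 100 ∧ η ≤ σ / 64 ∧ C * (10 * η / σ) ^ α ≤ 1 / 100 := by
    have c : ContinuousAt (fun η : ℝ => C * (10 * η / σ) ^ α) 0 :=
      continuousAt_const.mul (ContinuousAt.rpow_const (by fun_prop) (Or.inr h.α0.le))
    have e1 := c.eventually_lt (continuousAt_const (y := (1 / 100 : ℝ))) (by simp [Real.zero_rpow h.α0.ne'])
    obtain ⟨η, ⟨a1, a2, a3⟩, a4⟩ := (((e1.and ((ge_mem_nhds (show (0 : ℝ) < 1 / 100 by norm_num) :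
      ∀ᶠ η in 𝓝 (0 : ℝ), η ≤ 1 / 100).and (ge_mem_nhds (show 0 < σ / 64 by positivity)))).filter_mono
      nhdsWithin_le_nhds).and (self_mem_nhdsWithin (a := (0 : ℝ)) (s := Ioi 0))).exists
    exact ⟨η, a4, a2, a3, a1.le⟩
  have key : ∀ y ∈ K, ‖y - x‖ ∈ Ioc 0 ρ₁ → ∃ τ : ℂ, ‖τ‖ = 1 ∧ ∀ z ∈ K, ‖z - y‖ ≤ 10 * η * ‖y - x‖ →
      |((z - y) * conj τ).im| ≤ ‖z - y‖ / 100 ∧
      (99 / 100 * ‖z - y‖ ≤ ((z - y) * conj τ).re ∧
          97 / 100 * (‖z - y‖ * ‖y - x‖) ≤ ((z - y) * conj (y - x)).re ∨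
        ((z - y) * conj τ).re ≤ -(99 / 100 * ‖z - y‖) ∧
          ((z - y) * conj (y - x)).re ≤ -(97 / 100 * (‖z - y‖ * ‖y - x‖))) := fun y hy hr => by
    obtain ⟨τ, h1, h2⟩ := H y hy hr
    refine ⟨τ, h1.1, fun z hz hd => ?_⟩
    have h3 : |((z - y) * conj τ).im| ≤ ‖z - y‖ / 100 := by
      have h4 : ‖z - y‖ / (σ * ‖y - x‖) ≤ 10 * η / σ := by
        rw [div_le_div_iff₀ (mul_pos hσ hr.1) hσ]
        nlinarith
      have h5 := (mul_le_mul_of_nonneg_left (Real.rpow_le_rpow (by positivity) h4 h.α0.le) h.C0).trans η3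
      linarith [h1.2 z hz, mul_le_mul_of_nonneg_right h5 (norm_nonneg (z - y))]
    exact ⟨h3, sss_core h1.1 h2 h3⟩
  refine ⟨ρ₁, hρ₁, η, hη, η1, fun y hy hr ρ' hd => ?_, fun y hy z hz hr he hd => ?_⟩
  · rcases (abs_nonneg (ρ' - ‖y - x‖)).eq_or_lt with h0 | h0
    · exact ⟨y, hy, (sub_eq_zero.1 (abs_eq_zero.1 h0.symm)).symm, by simp⟩
    obtain ⟨τ, hτ, h1⟩ := key y hy hr
    have k1 := mul_le_mul_of_nonneg_right η1 hr.1.le
    have k2 := mul_le_mul_of_nonneg_right η2 hr.1.le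
    have k3 := mul_pos hη hr.1
    obtain ⟨τ', hτ', -, -, Q, -, c2, c3, -, p, hp, q, hq, d2, d3⟩ :=
      flat_arms (h.flat y hy ⟨hr.1, hr.2.trans hρ₁.2⟩).1 (ρ := 2 * |ρ' - ‖y - x‖|) ⟨by positivity, by linarith⟩
    have np := mem_sphere_iff_norm.1 hp.2
    have nq := mem_sphere_iff_norm.1 hq.2
    obtain ⟨p1, p2⟩ := h1 p (c3 hp.1).1 (by linarith)
    obtain ⟨q1, q2⟩ := h1 q (c3 hq.1).1 (by linarith)
    have fin : ∀ m ∈ Q ∩ sphere y (2 * |ρ' - ‖y - x‖|), ∀ m' ∈ Q ∩ sphere y (2 * |ρ' - ‖y - x‖|),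
        ((m - y) * conj (y - x)).re ≤ -(97 / 100 * (‖m - y‖ * ‖y - x‖)) →
        97 / 100 * (‖m' - y‖ * ‖y - x‖) ≤ ((m' - y) * conj (y - x)).re →
        ∃ z ∈ K, ‖z - x‖ = ρ' ∧ ‖z - y‖ ≤ 2 * |ρ' - ‖y - x‖| := fun m hm m' hm' a1 a2 => by
      have a3 := sss_sq m y x
      have a4 := sss_sq m' y x
      rw [mem_sphere_iff_norm.1 hm.2] at a1 a3
      rw [mem_sphere_iff_norm.1 hm'.2] at a2 a4
      have a5 := le_abs_self (ρ' - ‖y - x‖)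
      have a6 := neg_abs_le (ρ' - ‖y - x‖)
      have a7 := mul_pos h0 hr.1
      have a8 := mul_le_mul_of_nonneg_left (hd.trans k1) h0.le
      have b1 : ‖m - x‖ ≤ ‖y - x‖ - |ρ' - ‖y - x‖| := (abs_le_of_sq_le_sq' (by nlinarith) (by linarith)).2
      have b2 : ‖y - x‖ + |ρ' - ‖y - x‖| ≤ ‖m' - x‖ := (abs_le_of_sq_le_sq' (by nlinarith) (norm_nonneg _)).2
      obtain ⟨z, z1, z2⟩ := conn_meets_sphere c2 (x := x) (ρ := ρ') hm.1 hm'.1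
        (by rw [dist_eq_norm]; linarith) (by rw [dist_eq_norm]; linarith)
      exact ⟨z, (c3 z1).1, mem_sphere_iff_norm.1 z2, mem_closedBall_iff_norm.1 (c3 z1).2⟩
    have far : 198 / 100 * (2 * |ρ' - ‖y - x‖|) ≤ |((q - y) * conj τ).re - ((p - y) * conj τ).re| +
        |((q - y) * conj τ).im - ((p - y) * conj τ).im| := by
      have a1 := Complex.re_le_norm ((q - y) * conj τ' - (p - y) * conj τ')
      have a2 := Complex.norm_le_abs_re_add_abs_im ((q - y) * conj τ - (p - y) * conj τ)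
      rw [Complex.sub_re, ← sub_mul, norm_mul, Complex.norm_conj, hτ'] at a1
      rw [Complex.sub_re, Complex.sub_im, ← sub_mul, norm_mul, Complex.norm_conj, hτ] at a2
      linarith
    have rp : |((p - y) * conj τ).re| ≤ ‖p - y‖ := (Complex.abs_re_le_norm _).trans_eq (by simp [hτ])
    have rq : |((q - y) * conj τ).re| ≤ ‖q - y‖ := (Complex.abs_re_le_norm _).trans_eq (by simp [hτ])
    have im := abs_sub ((q - y) * conj τ).im ((p - y) * conj τ).im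
    rw [abs_le] at rp rq
    rcases p2 with p2 | p2 <;> rcases q2 with q2 | q2
    · have : |((q - y) * conj τ).re - ((p - y) * conj τ).re| ≤ ‖p - y‖ :=
        abs_le.2 ⟨by linarith [p2.1, q2.1], by linarith [p2.1, q2.1]⟩
      linarith
    · exact fin q hq p hp q2.2 p2.2
    · exact fin p hp q hq p2.2 q2.2
    · have : |((q - y) * conj τ).re - ((p - y) * conj τ).re| ≤ ‖p - y‖ :=
        abs_le.2 ⟨by linarith [p2.1, q2.1], by linarith [p2.1, q2.1]⟩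
      linarith
  · by_contra hne
    have h0 : 0 < ‖z - y‖ := norm_pos_iff.2 (sub_ne_zero.2 hne)
    obtain ⟨τ, -, h1⟩ := key y hy hr
    have a1 := sss_sq z y x
    have a2 := mul_pos h0 hr.1
    have a3 := mul_le_mul_of_nonneg_left (hd.trans (mul_le_mul_of_nonneg_right
      (mul_le_mul_of_nonneg_left η1 (by norm_num)) hr.1.le)) h0.le
    rw [he] at a1
    rcases (h1 z hz hd).2 with h2 | h2 <;> nlinarith [h2.2]

theorem sarc_nrm {n : ℕ} (hn : n ≠ 0) {e ζ : ℂ} (he : ‖e‖ = 1) (hζ : ζ ^ n = 1) (s : ℝ) :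
    ‖(s : ℂ) * e * ζ‖ = |s| := by
  rw [norm_mul, norm_mul, he, tc_norm hn hζ, mul_one, mul_one, Complex.norm_real, Real.norm_eq_abs]

theorem sarc_close {n : ℕ} (hn : n ≠ 0) {K : Set ℂ} {x e y : ℂ} {ε ρ : ℝ} (he : ‖e‖ = 1) (hρ : 0 < ρ)
    (h : ∀ z ∈ K ∩ ball x (2 * ρ), ∃ w ∈ Cone n x e, dist z w ≤ ε * (2 * ρ)) (hy : y ∈ K)
    (hy' : ‖y - x‖ = ρ) : ∃ ζ : ℂ, ζ ^ n = 1 ∧ ‖y - x - ρ * e * ζ‖ ≤ 4 * ε * ρ := by
  obtain ⟨_, ⟨s, hs, ζ, hζ, rfl⟩, hd⟩ := h y ⟨hy, by rw [mem_ball, dist_eq_norm]; linarith⟩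
  refine ⟨ζ, hζ, ?_⟩
  rw [dist_eq_norm, ← sub_sub] at hd
  have h1 := abs_norm_sub_norm_le (y - x) (s * e * ζ)
  rw [hy', sarc_nrm hn he hζ, abs_of_nonneg hs, abs_sub_comm] at h1
  have h2 := norm_add_le (y - x - s * e * ζ) (((s - ρ : ℝ) : ℂ) * e * ζ)
  rw [sarc_nrm hn he hζ, show y - x - s * e * ζ + ((s - ρ : ℝ) : ℂ) * e * ζ = y - x - ρ * e * ζ by
    push_cast; ring] at h2
  linarith

theorem sarc_re {n : ℕ} (hn : n = 1 ∨ n = 3) {e ζ ξ a b : ℂ} {ρ δ : ℝ} (he : ‖e‖ = 1) (hζ : ζ ^ n = 1)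
    (hξ : ξ ^ n = 1) (hne : ζ ≠ ξ) (hρ : 0 ≤ ρ) (ha : ‖a‖ = ρ) (h1 : ‖a - ρ * e * ζ‖ ≤ δ * ρ)
    (h2 : ‖b - ρ * e * ξ‖ ≤ δ * ρ) : |(a * conj b).re + ρ ^ 2 / 2| ≤ 2 * δ * ρ ^ 2 := by
  have h3 : (ζ * conj ξ).re = -1 / 2 := by
    rcases hn with rfl | rfl
    · exact absurd ((pow_one ζ ▸ hζ).trans (pow_one ξ ▸ hξ).symm) hne
    · exact cube_root_re hζ hξ hne
  have h4 : e * conj e = 1 := by rw [Complex.mul_conj, Complex.normSq_eq_norm_sq, he]; simp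
  have h5 : a * conj b = a * conj (b - ρ * e * ξ) + (a - ρ * e * ζ) * conj (ρ * e * ξ) +
      ((ρ ^ 2 : ℝ) : ℂ) * (ζ * conj ξ) := by
    simp only [map_sub, map_mul, Complex.conj_ofReal]
    push_cast
    linear_combination (ρ ^ 2 * ζ * conj ξ : ℂ) * h4
  rw [h5, Complex.add_re, Complex.re_ofReal_mul, h3, show ∀ u : ℝ, u + ρ ^ 2 * (-1 / 2) + ρ ^ 2 / 2 = u
    from fun u => by ring]
  refine (Complex.abs_re_le_norm _).trans ((norm_add_le _ _).trans ?_)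
  rw [norm_mul, norm_mul, Complex.norm_conj, Complex.norm_conj, ha,
    sarc_nrm (by omega) he hξ, abs_of_nonneg hρ]
  linarith [mul_le_mul_of_nonneg_left h2 hρ, mul_le_mul_of_nonneg_left h1 hρ]

theorem sarc_tri {x y z w : ℂ} {a b : ℝ} (h1 : ‖y - x - w‖ ≤ a) (h2 : ‖z - x - w‖ ≤ b) : ‖z - y‖ ≤ a + b := by
  have := norm_sub_le (z - x - w) (y - x - w)
  rw [show z - x - w - (y - x - w) = z - y by ring] at this
  linarith

/-- With `ε ≪ η`, at each small radius the points of `K ∩ sphere x ρ` correspond bijectively to the roots of unity (`Near ε n K x (2ρ)`: each point is within `4ερ` of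
some `x + ρ e ζ`; uniqueness by `sepr`, existence by `step`), which gives the count at `ρ₀` and `ang` (`cube_root_re`). `section_lemma`, `StarGeo.radial`. -/
theorem StarGeo.arcs {n : ℕ} (hn : n = 1 ∨ n = 3) {K : Set ℂ} {x : ℂ} {ρ₀ C α σ : ℝ} (h : StarGeo n K x ρ₀ C α σ) :
    ∃ ρ₁ ∈ Ioc 0 ρ₀, ∃ p τ : Fin n → ℝ → ℂ, Arcs n K x ρ₁ C α σ p τ := by
  have hn0 : n ≠ 0 := by omega
  obtain ⟨ρs, hρs, η, hη, hη1, step, sepr⟩ := h.step_sep hn0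
  obtain ⟨ρr, hρr, hrad⟩ := h.radial hn0
  obtain ⟨ρn, hρn, hnear⟩ := h.near (η / 4) (by positivity)
  obtain ⟨ρ, hρ, r1, r2, r3⟩ : ∃ ρ, 0 < ρ ∧ 2 * ρ ≤ ρs ∧ ρ ≤ ρr ∧ 2 * ρ ≤ ρn :=
    ⟨min (ρs / 2) (min ρr (ρn / 2)), lt_min (half_pos hρs.1) (lt_min hρr.1 (half_pos hρn)),
      by linarith [min_le_left (ρs / 2) (min ρr (ρn / 2))], (min_le_right _ _).trans (min_le_left _ _),
      by linarith [(min_le_right (ρs / 2) (min ρr (ρn / 2))).trans (min_le_right _ _)]⟩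
  have sub : Ioc 0 ρ ⊆ Ioc 0 ρs := Ioc_subset_Ioc_right (by linarith)
  have sep' : ∀ y ∈ K, ∀ z ∈ K, ∀ s ∈ Ioc 0 ρ, ‖y - x‖ = s → ‖z - x‖ = s → ‖z - y‖ ≤ 10 * η * s → z = y :=
    fun y hy z hz s hs h1 h2 h3 => sepr y hy z hz (h1 ▸ sub hs) (h2.trans h1.symm) (h1 ▸ h3)
  obtain ⟨P, hP, hPi, hPs⟩ := section_lemma hρ hη (by linarith)
    (fun y hy h1 ρ' _ h2 => step y hy (sub h1) ρ' h2) fun y hy z hz h1 => sepr y hy z hz (sub h1)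
  obtain ⟨e, he, n1, n2⟩ := hnear (2 * ρ) ⟨by linarith, r3⟩
  let ω := (Finset.equivFinOfCardEq (tc_card hn0)).symm
  have hω : ∀ j, (ω j : ℂ) ^ n = 1 := fun j => (tc_mem hn0).1 (ω j).2
  have hηρ := mul_pos hη hρ
  have hηρ' := mul_le_mul_of_nonneg_right hη1 hρ.le
  have ex : ∀ j, ∃ y ∈ K, ‖y - x‖ = ρ ∧ ‖y - x - ρ * e * ω j‖ ≤ 3 / 2 * η * ρ := fun j => by
    have h0 := sarc_nrm hn0 he (hω j) ρ
    rw [abs_of_pos hρ] at h0
    obtain ⟨z, hz, hd⟩ := n2 (x + ρ * e * ω j) ⟨⟨ρ, hρ.le, _, hω j, rfl⟩, by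
      rw [mem_ball, dist_eq_norm, add_sub_cancel_left, h0]; linarith⟩
    rw [dist_eq_norm, ← sub_sub] at hd
    have h1 := abs_norm_sub_norm_le (z - x) (ρ * e * ω j)
    rw [h0, abs_sub_comm] at h1
    obtain ⟨h2, h3⟩ := abs_le.1 (h1.trans hd)
    obtain ⟨y, hy, h4, h5⟩ := step z hz ⟨by linarith, by linarith⟩ ρ (by
      have : ρ / 2 ≤ ‖z - x‖ := by linarith
      linarith [mul_le_mul_of_nonneg_left this hη.le])
    refine ⟨y, hy, h4, ?_⟩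
    have := norm_add_le (y - z) (z - x - ρ * e * ω j)
    rw [show y - z + (z - x - ρ * e * ω j) = y - x - ρ * e * ω j by ring] at this
    linarith
  choose y hyK hyn hyc using ex
  have hy : ∀ j, y j ∈ K ∩ sphere x ρ := fun j => ⟨hyK j, mem_sphere_iff_norm.2 (hyn j)⟩
  have inj : ∀ j k, j ≠ k → ∀ s ∈ Ioc 0 ρ, P (y j) s ≠ P (y k) s := fun j k hjk s hs hh => by
    have h1 := hPi _ (hy j) _ (hy k) s hs hh
    have h2 := sarc_re hn he (hω j) (hω k) (fun h => hjk (ω.injective (Subtype.ext h))) hρ.le (hyn j)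
      (hyc j) (hyc k)
    rw [← h1, Complex.mul_conj, Complex.ofReal_re, Complex.normSq_eq_norm_sq, hyn j] at h2
    have := le_abs_self (ρ ^ 2 + ρ ^ 2 / 2)
    nlinarith
  have hτ : ∀ j, ∀ s ∈ Ioc 0 ρ, ∃ τ, Tan C α K (P (y j) s) (σ * s) τ ∧
      s / 2 ≤ (τ * conj (P (y j) s - x)).re := fun j s hs => by
    obtain ⟨h1, h2⟩ := (hP _ (hy j)).2.2 s hs
    obtain ⟨τ, h3, h4⟩ := hrad _ h1 (by rw [h2]; exact ⟨hs.1, hs.2.trans r2⟩)
    rw [h2] at h3 h4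
    exact ⟨τ, h3, by linarith [hs.1]⟩
  choose! τ hτ1 hτ2 using hτ
  refine ⟨ρ, ⟨hρ, r2.trans hρr.2⟩, fun j => P (y j), τ, hρ, h.C0, h.α0, h.σ0, h.ctr,
    fun j s hs => ((hP _ (hy j)).2.2 s hs).1, fun j s hs => ((hP _ (hy j)).2.2 s hs).2,
    fun z hz => ?_, inj, fun j => (hP _ (hy j)).2.1, hτ1, hτ2, fun ε hε => ?_⟩
  · refine or_iff_not_imp_left.2 fun hzx => ?_
    obtain ⟨w, hw, hz'⟩ := hPs z hz.1 ⟨norm_pos_iff.2 (sub_ne_zero.2 hzx), mem_closedBall_iff_norm.1 hz.2⟩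
    have hw' := mem_sphere_iff_norm.1 hw.2
    obtain ⟨ζ, hζ, hc⟩ := sarc_close hn0 he hρ n1 hw.1 hw'
    obtain ⟨j, hj⟩ := ω.surjective ⟨ζ, (tc_mem hn0).2 hζ⟩
    have h1 := hyc j
    rw [hj] at h1
    refine ⟨j, ?_⟩
    rw [← sep' _ (hyK j) w hw.1 ρ ⟨hρ, le_rfl⟩ (hyn j) hw' ((sarc_tri h1 hc).trans (by linarith))]
    exact hz'
  · obtain ⟨ρ', hρ', hne⟩ := h.near (min η (ε / 8)) (by positivity)
    refine ⟨ρ' / 2, half_pos hρ', fun s hs hs' j k hjk => ?_⟩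
    obtain ⟨e', he', m1, -⟩ := hne (2 * s) ⟨by linarith [hs.1], by linarith⟩
    obtain ⟨a1, a2⟩ := (hP _ (hy j)).2.2 s hs
    obtain ⟨b1, b2⟩ := (hP _ (hy k)).2.2 s hs
    obtain ⟨ζ, hζ, c1⟩ := sarc_close hn0 he' hs.1 m1 a1 a2
    obtain ⟨ξ, hξ, c2⟩ := sarc_close hn0 he' hs.1 m1 b1 b2
    have hne : ζ ≠ ξ := fun hh => by
      subst hh
      refine inj j k hjk s hs (sep' _ b1 _ a1 s hs b2 a2 ((sarc_tri c2 c1).trans ?_))
      linarith [mul_le_mul_of_nonneg_right (min_le_left η (ε / 8)) hs.1.le, mul_pos hη hs.1]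
    refine (sarc_re hn he' hζ hξ hne hs.1.le a2 c1 c2).trans ?_
    linarith [mul_le_mul_of_nonneg_right (min_le_right η (ε / 8)) (sq_nonneg s)]

end Crest.Agent.R135
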