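import Crest.Agent.R135.Defs
import Crest.Agent.R135.FGraph
set_option autoImplicit false
open MeasureTheory Metric Set Filter Topology
open scoped ENNReal NNReal Real ComplexConjugate

namespace Crest.Agent.R135

theorem Arcs.mono {n : ℕ} {K : Set ℂ} {x : ℂ} {ρ₀ C α σ : ℝ} {p τ : Fin n → ℝ → ℂ} (h : Arcs n K x ρ₀ C α σ p τ) {ρ₁ : ℝ}
    (h1 : ρ₁ ∈ Ioc 0 ρ₀) : Arcs n K x ρ₁ C α σ p τ := by
  have hs : Ioc 0 ρ₁ ⊆ Ioc 0 ρ₀ := Ioc_subset_Ioc_right h1.2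
  exact ⟨h1.1, h.C0, h.α0, h.σ0, h.ctr, fun j ρ hρ => h.mem j ρ (hs hρ), fun j ρ hρ => h.nrm j ρ (hs hρ),
    fun z hz => h.all z ⟨hz.1, closedBall_subset_closedBall h1.2 hz.2⟩,
    fun j k hjk ρ hρ => h.inj j k hjk ρ (hs hρ), fun j => (h.lip j).mono hs, fun j ρ hρ => h.tan j ρ (hs hρ),
    fun j ρ hρ => h.rad j ρ (hs hρ), fun ε hε => (h.ang ε hε).imp fun r hr =>
      ⟨hr.1, fun ρ hρ => hr.2 ρ (hs hρ)⟩⟩

/-- velocity of the arcs -/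
noncomputable def avel (x : ℂ) (p τ : ℝ → ℂ) (ρ : ℝ) : ℂ := τ ρ / (((τ ρ * conj (p ρ - x)).re / ρ : ℝ) : ℂ)

theorem sder_norm_sub {τ τ' : ℂ} (h : ‖τ‖ = 1) (h' : ‖τ'‖ = 1) (h1 : 1 / 2 ≤ ‖τ + τ'‖) :
    ‖τ - τ'‖ ≤ 4 * |(τ * conj τ').im| := by
  have e0 : ∀ {z : ℂ}, ‖z‖ = 1 → z * conj z = 1 := fun hz => by
    rw [Complex.mul_conj, Complex.normSq_eq_norm_sq, hz]
    simp
  have e1 : (τ - τ') * conj (τ + τ') = τ * conj τ' - conj (τ * conj τ') := by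
    rw [map_add, map_mul, Complex.conj_conj]
    linear_combination e0 h - e0 h'
  have e2 := congrArg norm e1
  rw [Complex.sub_conj, norm_mul, norm_mul, Complex.norm_I, mul_one, Complex.norm_conj, Complex.norm_real,
    Real.norm_eq_abs, abs_mul, abs_two] at e2
  nlinarith [norm_nonneg (τ - τ')]

theorem Arcs.sder_cont {n : ℕ} {K : Set ℂ} {x : ℂ} {ρ₀ C α σ : ℝ} {p τ : Fin n → ℝ → ℂ} (h : Arcs n K x ρ₀ C α σ p τ)
    (j : Fin n) : ContinuousOn (τ j) (Ioc 0 ρ₀) := by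
  intro ρ hρ
  have hc := (h.lip j).continuousOn ρ hρ
  have hd : ContinuousWithinAt (fun s => ‖p j s - p j ρ‖) (Ioc 0 ρ₀) ρ := (hc.sub continuousWithinAt_const).norm
  have hσ := mul_pos h.σ0 hρ.1
  have h0 : ContinuousWithinAt (fun s => 4 * (C * (‖p j s - p j ρ‖ / (σ * s)) ^ α +
      C * (‖p j s - p j ρ‖ / (σ * ρ)) ^ α)) (Ioc 0 ρ₀) ρ :=
    ((((hd.div (continuousWithinAt_id.const_mul σ) hσ.ne').rpow_const (Or.inr h.α0.le)).const_mul C).add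
      (((hd.div_const _).rpow_const (Or.inr h.α0.le)).const_mul C)).const_mul 4
  have h1 : ContinuousWithinAt (fun s => s / 2 - ‖p j s - p j ρ‖) (Ioc 0 ρ₀) ρ :=
    (continuousWithinAt_id.div_const 2).sub hd
  refine tendsto_iff_norm_sub_tendsto_zero.2 (squeeze_zero' (Eventually.of_forall fun s => norm_nonneg _) ?_
    (h0.tendsto.trans_eq (by simp [Real.zero_rpow h.α0.ne'])))
  filter_upwards [h1.eventually (lt_mem_nhds (show 0 < ρ / 2 - ‖p j ρ - p j ρ‖ by simpa using hρ.1)),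
    self_mem_nhdsWithin] with s h2 hs
  rcases eq_or_ne s ρ with rfl | hne
  · simp [Real.zero_rpow h.α0.ne']
  have t1 := h.tan j s hs
  have t2 := h.tan j ρ hρ
  refine (sder_norm_sub t1.1 t2.1 ?_).trans (mul_le_mul_of_nonneg_left
    (tan_close t1 t2 (h.mem j s hs) (h.mem j ρ hρ) fun e => hne ?_) (by norm_num))
  · have e1 := Complex.re_le_norm ((τ j s + τ j ρ) * conj (p j ρ - x))
    have e2 := Complex.re_le_norm (τ j s * conj (p j s - p j ρ))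
    have e3 : (τ j s + τ j ρ) * conj (p j ρ - x) = τ j s * conj (p j s - x) - τ j s * conj (p j s - p j ρ) +
        τ j ρ * conj (p j ρ - x) := by
      simp only [map_sub]
      ring
    rw [norm_mul, Complex.norm_conj, h.nrm j ρ hρ, e3, Complex.add_re, Complex.sub_re] at e1
    rw [norm_mul, Complex.norm_conj, t1.1, one_mul] at e2
    refine le_of_mul_le_mul_right ?_ hρ.1
    linarith [h.rad j s hs, h.rad j ρ hρ]
  · rw [← h.nrm j s hs, e, h.nrm j ρ hρ]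

/-- `graph_deriv` with `f = ‖· - x‖`; continuity of `τ` from `tan_close` + `norm_sub_le_im` (for `s` near `ρ` both `τ s`, `τ ρ` make `re ≥ 1/2 - small` with the radial direction:
use the version `‖τ - τ'‖ ≤ 4|im|` when `re ≥ 1/4`, or argue `re (τ conj τ') > 0` directly) -/
theorem Arcs.deriv {n : ℕ} {K : Set ℂ} {x : ℂ} {ρ₀ C α σ : ℝ} {p τ : Fin n → ℝ → ℂ} (h : Arcs n K x ρ₀ C α σ p τ) (j : Fin n) :
    (∀ ρ ∈ Ioc 0 ρ₀, HasDerivWithinAt (p j) (avel x (p j) (τ j) ρ) (Ioc 0 ρ₀) ρ) ∧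
      ContinuousOn (avel x (p j) (τ j)) (Ioc 0 ρ₀) ∧ ∀ ρ ∈ Ioc 0 ρ₀, ‖avel x (p j) (τ j) ρ‖ ≤ 2 := by
  have hc := (h.lip j).continuousOn
  have hr : ∀ ρ ∈ Ioc 0 ρ₀, 1 / 2 ≤ (τ j ρ * conj (p j ρ - x)).re / ρ := fun ρ hρ => by
    rw [le_div_iff₀ hρ.1]
    linarith [h.rad j ρ hρ]
  refine ⟨fun ρ hρ => ?_, ?_, fun ρ hρ => ?_⟩
  · have hn := h.nrm j ρ hρ
    have hf := ((hasFDerivAt_id (𝕜 := ℝ) (p j ρ)).sub_const x).norm_sq.sqrt
      (by rw [id, hn]; exact (pow_pos hρ.1 2).ne')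
    have e : ((1 / (2 * √(‖id (p j ρ) - x‖ ^ 2))) •
        (2 • (innerSL ℝ (id (p j ρ) - x)).comp (ContinuousLinearMap.id ℝ ℂ))) (τ j ρ) =
        (τ j ρ * conj (p j ρ - x)).re / ρ := by
      have := hρ.1
      simp only [id, hn, Real.sqrt_sq hρ.1.le, ContinuousLinearMap.smul_apply, ContinuousLinearMap.comp_apply,
        ContinuousLinearMap.id_apply, innerSL_apply_apply, Complex.inner, smul_eq_mul, nsmul_eq_mul]
      field_simp
      norm_num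
    have := graph_deriv h.α0 (mul_pos h.σ0 hρ.1) hρ (h.tan j ρ hρ) (h.mem j) (hc ρ hρ) hf
      (fun s hs => by rw [id, h.nrm j s hs, Real.sqrt_sq hs.1.le]) (by rw [e]; linarith [hr ρ hρ])
    rwa [e] at this
  · have ht := h.sder_cont j
    refine ht.div (Complex.continuous_ofReal.comp_continuousOn ((Complex.continuous_re.comp_continuousOn
      (ht.mul (Complex.continuous_conj.comp_continuousOn (hc.sub continuousOn_const)))).div continuousOn_id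
        fun ρ hρ => hρ.1.ne')) fun ρ hρ => Complex.ofReal_ne_zero.2 ?_
    linarith [hr ρ hρ]
  · have := hr ρ hρ
    rw [avel, norm_div, (h.tan j ρ hρ).1, Complex.norm_real, Real.norm_of_nonneg (by linarith),
      div_le_iff₀ (by linarith)]
    linarith

theorem Arcs.arc1 {K : Set ℂ} {x : ℂ} {ρ₀ C α σ : ℝ} {p τ : Fin 1 → ℝ → ℂ} (h : Arcs 1 K x ρ₀ C α σ p τ) :
    Arc1 K x ρ₀ (p 0) (avel x (p 0) (τ 0)) := by
  exact ⟨h.pos, h.mem 0, h.nrm 0, fun z hz => (h.all z hz).imp_right fun ⟨j, hj⟩ => Subsingleton.elim j 0 ▸ hj,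
    (h.deriv 0).1, (h.deriv 0).2.1, (h.deriv 0).2.2⟩

/-- a rate on a smaller interval is a rate on the whole interval -/
theorem Rate.extend {n : ℕ} {x : ℂ} {ρ₀ ρ₁ : ℝ} {p : Fin n → ℝ → ℂ} (h1 : 0 < ρ₁) (h : Rate x ρ₁ p)
    (hp : ∀ j, ∀ ρ ∈ Ioc 0 ρ₀, ‖p j ρ - x‖ = ρ) : Rate x ρ₀ p := by
  obtain ⟨β, hβ, C, e, h⟩ := h
  refine ⟨β, hβ, max C ((1 + ‖e‖) / ρ₁ ^ β), e, fun j ρ hρ => ?_⟩
  have h0 := Real.rpow_nonneg hρ.1.le β
  rcases le_total ρ ρ₁ with h2 | h2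
  · exact (h j ρ ⟨hρ.1, h2⟩).trans (mul_le_mul_of_nonneg_right (le_max_left _ _) h0)
  · refine le_trans ?_ (mul_le_mul_of_nonneg_right (le_max_right _ _) h0)
    have h3 : ‖(p j ρ - x) / ρ - e j‖ ≤ 1 + ‖e‖ := (norm_sub_le _ _).trans (add_le_add (by
      rw [norm_div, hp j ρ hρ, Complex.norm_real, Real.norm_of_nonneg hρ.1.le, div_self hρ.1.ne'])
        (norm_le_pi_norm e j))
    have h4 := Real.rpow_pos_of_pos h1 β
    rw [div_mul_eq_mul_div, le_div_iff₀ h4]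
    exact mul_le_mul h3 (Real.rpow_le_rpow h1.le h2 hβ.le) h4.le (by positivity)

/-- dyadic increments summed up -/
theorem rate_of_dyadic {g : ℝ → ℂ} {ρ₀ C β : ℝ} (hρ : 0 < ρ₀) (hβ : 0 < β)
    (h : ∀ t ∈ Ioc 0 ρ₀, ∀ s ∈ Icc (t / 2) t, ‖g t - g s‖ ≤ C * t ^ β) :
    ∃ (C' : ℝ) (e : ℂ), ∀ t ∈ Ioc 0 ρ₀, ‖g t - e‖ ≤ C' * t ^ β := by
  have hC : 0 ≤ C := nonneg_of_mul_nonneg_left ((norm_nonneg _).trans
    (h ρ₀ ⟨hρ, le_rfl⟩ ρ₀ ⟨by linarith, le_rfl⟩)) (Real.rpow_pos_of_pos hρ β)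
  have hr : (1 / 2 : ℝ) ^ β < 1 := Real.rpow_lt_one (by norm_num) (by norm_num) hβ
  have e1 : ∀ k : ℕ, (ρ₀ * (1 / 2) ^ k) ^ β = ρ₀ ^ β * ((1 / 2) ^ β) ^ k := fun k => by
    rw [Real.mul_rpow hρ.le (by positivity), ← Real.rpow_natCast, ← Real.rpow_natCast,
      ← Real.rpow_mul (by norm_num), ← Real.rpow_mul (by norm_num), mul_comm β]
  have hu : ∀ k : ℕ, dist (g (ρ₀ * (1 / 2) ^ k)) (g (ρ₀ * (1 / 2) ^ (k + 1))) ≤
      C * ρ₀ ^ β * ((1 / 2) ^ β) ^ k := fun k => by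
    have h0 : 0 < ρ₀ * (1 / 2) ^ k := by positivity
    rw [dist_eq_norm, mul_assoc, ← e1]
    refine h _ ⟨h0, mul_le_of_le_one_right hρ.le (pow_le_one₀ (by norm_num) (by norm_num))⟩ _ ⟨?_, ?_⟩ <;>
      rw [pow_succ] <;> linarith
  obtain ⟨e, he⟩ := cauchySeq_tendsto_of_complete (cauchySeq_of_le_geometric _ _ hr hu)
  refine ⟨C + C / (1 - (1 / 2) ^ β), e, fun t ht => ?_⟩
  obtain ⟨k, k1, k2⟩ := exists_nat_pow_near_of_lt_one (div_pos ht.1 hρ) ((div_le_one hρ).2 ht.2)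
    (show (0 : ℝ) < 1 / 2 by norm_num) (by norm_num)
  rw [lt_div_iff₀' hρ] at k1
  rw [div_le_iff₀' hρ] at k2
  have h1 := h t ht (ρ₀ * (1 / 2) ^ (k + 1)) ⟨by rw [pow_succ]; linarith, k1.le⟩
  have h2 := dist_le_of_le_geometric_of_tendsto _ _ hr hu he (k + 1)
  rw [dist_eq_norm, mul_assoc, ← e1, mul_div_right_comm] at h2
  have h3 := mul_le_mul_of_nonneg_left (Real.rpow_le_rpow (by positivity) k1.le hβ.le)
    (div_nonneg hC (sub_nonneg.2 hr.le))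
  linarith [norm_sub_le_norm_sub_add_norm_sub (g t) (g (ρ₀ * (1 / 2) ^ (k + 1))) e]

end Crest.Agent.R135
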