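import Crest.Agent.R135.Defs
import Crest.Agent.R135.SDer
set_option autoImplicit false
open MeasureTheory Metric Set Filter Topology
open scoped ENNReal NNReal Real ComplexConjugate

namespace Crest.Agent.R135

theorem shol_pow {a m D δ : ℝ} (hm : 0 < m) (h : m ≤ a) (h0 : 0 ≤ δ) (h1 : δ ≤ D) :
    δ ^ a ≤ D ^ (a - m) * δ ^ m := by
  conv_lhs => rw [← sub_add_cancel a m, Real.rpow_add_of_nonneg h0 (sub_nonneg.2 h) hm.le]
  exact mul_le_mul_of_nonneg_right (Real.rpow_le_rpow h0 h1 (sub_nonneg.2 h)) (Real.rpow_nonneg h0 _)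

theorem shol_key {τ ξ : ℂ} (hτ : ‖τ‖ = 1) (hξ : ‖ξ‖ = 1) (h : 1 / 2 ≤ (τ * conj ξ).re) (w : ℂ) :
    ‖w‖ ≤ 2 * |(w * conj ξ).re| + 3 * |(w * conj τ).im| := by
  have e1 : w * conj ξ = w * conj τ * (τ * conj ξ) := by
    have : τ * conj τ = 1 := by rw [Complex.mul_conj, Complex.normSq_eq_norm_sq, hτ]; simp
    linear_combination (-(w * conj ξ)) * this
  have e2 : ‖w‖ ≤ |(w * conj τ).re| + |(w * conj τ).im| :=
    le_of_eq_of_le (by simp [hτ]) (Complex.norm_le_abs_re_add_abs_im _)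
  have e3 : |(τ * conj ξ).im| ≤ 1 := (Complex.abs_im_le_norm _).trans_eq (by simp [hτ, hξ])
  have e4 := abs_add_le (w * conj ξ).re ((w * conj τ).im * (τ * conj ξ).im)
  nth_rw 1 [e1] at e4
  rw [Complex.mul_re (w * conj τ), sub_add_cancel, abs_mul, abs_mul, abs_of_pos (a := (τ * conj ξ).re)
    (by linarith)] at e4
  linarith [mul_le_mul_of_nonneg_left h (abs_nonneg (w * conj τ).re),
    mul_le_mul_of_nonneg_left e3 (abs_nonneg (w * conj τ).im)]

theorem shol_data {τ v : ℂ} {ρ : ℝ} (hτ : ‖τ‖ = 1) (h0 : 0 < ρ) (hv : ‖v‖ = ρ) (h : ρ / 2 ≤ (τ * conj v).re) :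
    ‖v / ρ‖ = 1 ∧ 1 / 2 ≤ (τ * conj (v / ρ)).re ∧ (τ / (((τ * conj v).re / ρ : ℝ) : ℂ) * conj (v / ρ)).re = 1 ∧
      (τ / (((τ * conj v).re / ρ : ℝ) : ℂ) * conj τ).im = 0 ∧ ‖τ / (((τ * conj v).re / ρ : ℝ) : ℂ)‖ ≤ 2 ∧
      ∀ τ' : ℂ, |(τ / (((τ * conj v).re / ρ : ℝ) : ℂ) * conj τ').im| ≤ 2 * |(τ * conj τ').im| := by
  have e1 : (τ * conj (v / ρ)).re = (τ * conj v).re / ρ := by
    rw [map_div₀, Complex.conj_ofReal, ← mul_div_assoc, Complex.div_ofReal_re]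
  have e2 : 1 / 2 ≤ (τ * conj v).re / ρ := by rw [le_div_iff₀ h0]; linarith
  generalize (τ * conj v).re / ρ = c at e1 e2
  have hc : 0 < c := by linarith
  refine ⟨by rw [norm_div, hv, Complex.norm_real, Real.norm_of_nonneg h0.le, div_self h0.ne'], e1 ▸ e2, ?_, ?_,
    ?_, fun τ' => ?_⟩
  · rw [div_mul_eq_mul_div, Complex.div_ofReal_re, e1, div_self hc.ne']
  · rw [div_mul_eq_mul_div, Complex.div_ofReal_im, Complex.mul_conj, Complex.ofReal_im, zero_div]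
  · rw [norm_div, hτ, Complex.norm_real, Real.norm_of_nonneg hc.le, div_le_iff₀ hc]
    linarith
  · rw [div_mul_eq_mul_div, Complex.div_ofReal_im, abs_div, abs_of_pos hc, div_le_iff₀ hc]
    linarith [mul_le_mul_of_nonneg_left e2 (abs_nonneg (τ * conj τ').im)]

theorem shol_interp {g : ℝ → ℂ} {e : ℂ} {ρ₀ m γ B₁ B₂ : ℝ} (hm : 0 < m) (hγ : 0 < γ) (h1 : 0 ≤ B₁) (h2 : 0 ≤ B₂)
    (ha : ∀ ρ ∈ Ioc 0 ρ₀, ‖g ρ - e‖ ≤ B₁ * ρ ^ γ)
    (hb : ∀ s ∈ Ioc 0 ρ₀, ∀ t ∈ Ioc 0 ρ₀, s < t → ∀ δ ∈ Icc 0 √ρ₀, (t - s) / s ≤ δ → ‖g s - g t‖ ≤ B₂ * δ ^ m) :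
    ∃ B : ℝ, (∀ ρ ∈ Ioc 0 ρ₀, ‖g ρ - e‖ ≤ B * ρ ^ (min m γ / 2)) ∧
      ∀ s ∈ Ioc 0 ρ₀, ∀ t ∈ Ioc 0 ρ₀, ‖g s - g t‖ ≤ B * |s - t| ^ (min m γ / 2) := by
  have hμ := lt_min hm hγ
  set X := B₁ * |ρ₀| ^ (γ - min m γ / 2)
  set Y := B₂ * √ρ₀ ^ (m - min m γ)
  set Z := 2 * B₁ * (1 + √ρ₀) ^ γ * √ρ₀ ^ (γ - min m γ)
  have hX : 0 ≤ X := by positivity
  have hY : 0 ≤ Y := by positivity
  have hZ : 0 ≤ Z := by positivity
  have main : ∀ s ∈ Ioc 0 ρ₀, ∀ t ∈ Ioc 0 ρ₀, s < t → ‖g s - g t‖ ≤ (X + Y + Z) * (t - s) ^ (min m γ / 2) := by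
    intro s hs t ht hst
    have d0 : 0 ≤ t - s := sub_nonneg.2 hst.le
    have d1 : √(t - s) ≤ √ρ₀ := Real.sqrt_le_sqrt (by linarith [hs.1, ht.2])
    have d2 := Real.sqrt_nonneg (t - s)
    have d3 := Real.mul_self_sqrt d0
    rw [show (t - s) ^ (min m γ / 2) = √(t - s) ^ min m γ by
      rw [Real.sqrt_eq_rpow, ← Real.rpow_mul d0]; congr 1; ring]
    generalize √(t - s) = δ at d1 d2 d3
    have d4 : 0 ≤ δ ^ min m γ := by positivity
    rcases le_total δ s with h | h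
    · refine (hb s hs t ht hst δ ⟨d2, d1⟩ ((div_le_iff₀ hs.1).2 (by nlinarith))).trans
        ((mul_le_mul_of_nonneg_left (shol_pow hμ (min_le_left _ _) d2 d1) h2).trans ?_)
      rw [← mul_assoc]
      exact mul_le_mul_of_nonneg_right (by linarith) d4
    · have k1 : t ^ γ ≤ (1 + √ρ₀) ^ γ * δ ^ γ := by
        rw [← Real.mul_rpow (by positivity) d2]
        exact Real.rpow_le_rpow ht.1.le (by nlinarith) hγ.le
      have k2 := (Real.rpow_le_rpow hs.1.le hst.le hγ.le).trans k1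
      have k3 := shol_pow hμ (min_le_right _ _) d2 d1
      calc _ ≤ ‖g s - e‖ + ‖g t - e‖ := by
            rw [norm_sub_rev (g t)]
            exact norm_sub_le_norm_sub_add_norm_sub _ _ _
        _ ≤ B₁ * ((1 + √ρ₀) ^ γ * δ ^ γ) + B₁ * ((1 + √ρ₀) ^ γ * δ ^ γ) := add_le_add
            ((ha s hs).trans (mul_le_mul_of_nonneg_left k2 h1)) ((ha t ht).trans (mul_le_mul_of_nonneg_left k1 h1))
        _ = 2 * B₁ * (1 + √ρ₀) ^ γ * δ ^ γ := by ring
        _ ≤ 2 * B₁ * (1 + √ρ₀) ^ γ * (√ρ₀ ^ (γ - min m γ) * δ ^ min m γ) := by gcongr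
        _ = Z * δ ^ min m γ := by rw [← mul_assoc]
        _ ≤ _ := mul_le_mul_of_nonneg_right (by linarith) d4
  refine ⟨X + Y + Z, fun ρ hρ => (ha ρ hρ).trans ((mul_le_mul_of_nonneg_left (shol_pow (half_pos hμ)
    (by linarith [min_le_right m γ]) hρ.1.le (hρ.2.trans (le_abs_self _))) h1).trans ?_), fun s hs t ht => ?_⟩
  · rw [← mul_assoc]
    exact mul_le_mul_of_nonneg_right (by linarith) (Real.rpow_nonneg hρ.1.le _)
  rcases lt_trichotomy s t with h | rfl | h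
  · rw [abs_sub_comm, abs_of_pos (sub_pos.2 h)]
    exact main s hs t ht h
  · rw [sub_self, norm_zero]
    positivity
  · rw [norm_sub_rev, abs_of_pos (sub_pos.2 h)]
    exact main t ht s hs h


/-- Hölder velocity up to the centre. (1) `‖τ ρ - e‖ ≤ Cρ^{β'}`: with `λ = (ρ/ρ₀)^{β/2}/2`, the chord `p ρ - p((1-λ)ρ) = λρ e + O(ρ^{1+β})` is almost parallel to `τ ρ`
(`Tan`), and `re (τ conj e) ≥ 1/2 - small`. (2) for `s < t`: `‖τ t - τ s‖ ≤ min (C((t-s)/t)^α) (C t^{β'})` when `s ≥ t/2` (`tan_close`), interpolate `min A B ≤ A^θ B^{1-θ}`;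
if `s < t/2` use `t ≤ 2(t-s)`. Same for `x̂`. (3) `avel = τ / re (τ conj x̂)` with denominator `≥ 1/2`. -/
theorem avel_holder {n : ℕ} {K : Set ℂ} {x : ℂ} {ρ₀ C α σ : ℝ} {p τ : Fin n → ℝ → ℂ} (h : Arcs n K x ρ₀ C α σ p τ)
    {β A : ℝ} (hβ : 0 < β) {e : Fin n → ℂ} (hr : ∀ j, ∀ ρ ∈ Ioc 0 ρ₀, ‖(p j ρ - x) / ρ - e j‖ ≤ A * ρ ^ β) :
    ∃ γ B : ℝ, 0 < γ ∧ ∀ j, (∀ ρ ∈ Ioc 0 ρ₀, ‖avel x (p j) (τ j) ρ - e j‖ ≤ B * ρ ^ γ) ∧
      ∀ s ∈ Ioc 0 ρ₀, ∀ t ∈ Ioc 0 ρ₀, ‖avel x (p j) (τ j) s - avel x (p j) (τ j) t‖ ≤ B * |s - t| ^ γ := by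
  have hα := h.α0
  have hσ := h.σ0
  have hC := h.C0
  have h0 := h.pos
  have hm : 0 < min α 1 := lt_min hα one_pos
  have hγ : 0 < β / 2 * min α 1 := by positivity
  have key : ∀ j, ∃ B : ℝ, (∀ ρ ∈ Ioc 0 ρ₀, ‖avel x (p j) (τ j) ρ - e j‖ ≤
        B * ρ ^ (min (min α 1) (β / 2 * min α 1) / 2)) ∧ ∀ s ∈ Ioc 0 ρ₀, ∀ t ∈ Ioc 0 ρ₀,
      ‖avel x (p j) (τ j) s - avel x (p j) (τ j) t‖ ≤ B * |s - t| ^ (min (min α 1) (β / 2 * min α 1) / 2) := by
    intro j
    have hA : 0 ≤ A := nonneg_of_mul_nonneg_left ((norm_nonneg _).trans (hr j ρ₀ ⟨h0, le_rfl⟩)) (by positivity)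
    have lip : ∀ s ∈ Ioc 0 ρ₀, ∀ t ∈ Ioc 0 ρ₀, ‖p j s - p j t‖ ≤ 2 * |s - t| := fun s hs t ht => by
      simpa only [dist_eq_norm, Real.norm_eq_abs, NNReal.coe_ofNat] using (h.lip j).dist_le_mul s hs t ht
    have D := fun s hs => shol_data (h.tan j s hs).1 hs.1 (h.nrm j s hs) (h.rad j s hs)
    refine shol_interp (B₁ := 14 * A * ρ₀ ^ (β / 2) * (ρ₀ ^ (β / 2)) ^ (1 - min α 1) +
        6 * C / (ρ₀ ^ (β / 2) * σ) ^ α * (ρ₀ ^ (β / 2)) ^ (α - min α 1))
      (B₂ := 12 * √ρ₀ ^ (1 - min α 1) + 12 * C * (2 / σ) ^ α * √ρ₀ ^ (α - min α 1)) hm hγ (by positivity)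
      (by positivity) (fun ρ hρ => ?_) fun s hs t ht hst δ hδ hd => ?_
    · obtain ⟨d1, d2, d3, d4, -⟩ := D ρ hρ
      have r0 := hρ.1
      have m0 : 0 < ρ ^ (β / 2) := by positivity
      have m1 : ρ ^ (β / 2) ≤ ρ₀ ^ (β / 2) := Real.rpow_le_rpow r0.le hρ.2 (by positivity)
      have m2 : ρ ^ β = ρ ^ (β / 2) * ρ ^ (β / 2) := by rw [← Real.rpow_add r0, add_halves]
      have k1 := shol_pow hm (min_le_left α 1) m0.le m1
      have k2 := shol_pow hm (min_le_right α 1) m0.le m1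
      have a1 := hr j ρ hρ
      rw [Real.rpow_mul r0.le]
      rw [Real.rpow_one] at k2
      have hs : ∀ l : ℝ, 0 < l → l ≤ 1 / 2 →
          |(e j * conj (τ j ρ)).im| * l ≤ 2 * C * (2 * l / σ) ^ α * l + 2 * (A * ρ ^ β) := fun l l0 l1 => by
        have s0 : ρ - l * ρ ∈ Ioc 0 ρ₀ := ⟨by nlinarith, by nlinarith [hρ.2]⟩
        have a2 := (hr j _ s0).trans (mul_le_mul_of_nonneg_left
          (Real.rpow_le_rpow s0.1.le (by nlinarith : ρ - l * ρ ≤ ρ) hβ.le) hA)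
        have a3 := lip _ s0 ρ hρ
        rw [sub_sub_cancel_left, abs_neg, abs_of_pos (by positivity)] at a3
        have a4 := ((h.tan j ρ hρ).2 _ (h.mem j _ s0)).trans (mul_le_mul (mul_le_mul_of_nonneg_left
          (Real.rpow_le_rpow (by positivity) (div_le_div_of_nonneg_right a3 (by positivity)) hα.le) hC) a3
          (norm_nonneg _) (by positivity))
        rw [show 2 * (l * ρ) / (σ * ρ) = 2 * l / σ by field_simp] at a4
        have a5 : ((l * ρ : ℝ) : ℂ) * e j = -(p j (ρ - l * ρ) - p j ρ) - (ρ : ℂ) * ((p j ρ - x) / ρ - e j) +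
            ((ρ - l * ρ : ℝ) : ℂ) * ((p j (ρ - l * ρ) - x) / ((ρ - l * ρ : ℝ) : ℂ) - e j) := by
          rw [mul_sub, mul_sub, mul_div_cancel₀ _ (Complex.ofReal_ne_zero.2 r0.ne'),
            mul_div_cancel₀ _ (Complex.ofReal_ne_zero.2 s0.1.ne')]
          push_cast
          ring
        have tn := (h.tan j ρ hρ).1
        generalize p j (ρ - l * ρ) - p j ρ = P at a4 a5
        generalize (p j ρ - x) / ρ - e j = Q at a1 a5
        generalize (p j (ρ - l * ρ) - x) / ((ρ - l * ρ : ℝ) : ℂ) - e j = R at a2 a5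
        have a6 : l * ρ * (e j * conj (τ j ρ)).im = -(P * conj (τ j ρ)).im - ρ * (Q * conj (τ j ρ)).im +
            (ρ - l * ρ) * (R * conj (τ j ρ)).im := by
          simpa only [mul_assoc, add_mul, sub_mul, neg_mul, Complex.im_ofReal_mul, Complex.add_im, Complex.sub_im,
            Complex.neg_im] using congrArg (fun z => (z * conj (τ j ρ)).im) a5
        have q1 : |(Q * conj (τ j ρ)).im| ≤ A * ρ ^ β := (Complex.abs_im_le_norm _).trans (by simpa [tn] using a1)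
        have q2 : |(R * conj (τ j ρ)).im| ≤ A * ρ ^ β := (Complex.abs_im_le_norm _).trans (by simpa [tn] using a2)
        have q3 := mul_le_mul_of_nonneg_left q1 r0.le
        have q4 := mul_le_mul (by nlinarith : ρ - l * ρ ≤ ρ) q2 (abs_nonneg _) r0.le
        rw [← abs_of_pos r0, ← abs_mul, abs_of_pos r0] at q3
        nth_rw 1 [← abs_of_pos s0.1] at q4
        rw [← abs_mul] at q4
        refine le_of_mul_le_mul_right ?_ r0
        rw [mul_assoc, mul_comm, ← abs_of_pos (mul_pos l0 r0), ← abs_mul, a6, abs_le]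
        rw [abs_le] at q3 q4 a4
        constructor <;> linarith [q3.1, q3.2, q4.1, q4.2, a4.1, a4.2]
      have μ0 : 0 < ρ₀ ^ (β / 2) := by positivity
      have b1 := hs (ρ ^ (β / 2) / (2 * ρ₀ ^ (β / 2))) (by positivity) (by rw [div_le_iff₀ (by positivity)]; linarith)
      rw [show 2 * (ρ ^ (β / 2) / (2 * ρ₀ ^ (β / 2))) / σ = ρ ^ (β / 2) / (ρ₀ ^ (β / 2) * σ) by field_simp,
        Real.div_rpow m0.le (by positivity), m2] at b1
      have b2 := shol_key (h.tan j ρ hρ).1 d1 d2 (avel x (p j) (τ j) ρ - e j)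
      have b3 : ((avel x (p j) (τ j) ρ - e j) * conj ((p j ρ - x) / ρ)).re =
          (((p j ρ - x) / ρ - e j) * conj ((p j ρ - x) / ρ)).re := by
        rw [sub_mul, sub_mul _ (e j), Complex.sub_re, Complex.sub_re, Complex.mul_conj, Complex.normSq_eq_norm_sq, d1,
          avel, d3]
        simp
      have b4 : |(((p j ρ - x) / ρ - e j) * conj ((p j ρ - x) / ρ)).re| ≤ A * ρ ^ β :=
        (Complex.abs_re_le_norm _).trans (by rwa [norm_mul, Complex.norm_conj, d1, mul_one])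
      rw [b3, sub_mul _ _ (conj (τ j ρ)), Complex.sub_im, avel, d4, zero_sub, abs_neg] at b2
      rw [m2] at b4
      rw [avel]
      generalize ρ ^ (β / 2) = μ at *
      generalize ρ₀ ^ (β / 2) = M at *
      have b5 : |(e j * conj (τ j ρ)).im| ≤ 2 * C * (μ ^ α / (M * σ) ^ α) + 4 * A * M * μ := by
        refine le_of_mul_le_mul_right (b1.trans_eq ?_) (by positivity : 0 < μ / (2 * M))
        field_simp
        ring
      have b6 := mul_le_mul_of_nonneg_left k1 (by positivity : 0 ≤ 6 * C / (M * σ) ^ α)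
      have b7 := mul_le_mul_of_nonneg_left k2 (by positivity : 0 ≤ 14 * A * M)
      have b8 := mul_le_mul_of_nonneg_left m1 (by positivity : 0 ≤ A * μ)
      rw [div_mul_eq_mul_div, mul_div_assoc] at b6
      linarith
    · obtain ⟨d1, d2, d3, d4, -⟩ := D s hs
      obtain ⟨f1, -, f3, -, f5, f6⟩ := D t ht
      have s0 := hs.1
      have k1 := shol_pow hm (min_le_left α 1) hδ.1 hδ.2
      have k2 := shol_pow hm (min_le_right α 1) hδ.1 hδ.2
      rw [Real.rpow_one] at k2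
      have l1 := lip t ht s hs
      rw [abs_of_pos (sub_pos.2 hst)] at l1
      have l2 : ‖p j t - p j s‖ / s ≤ 2 * δ := (div_le_div_of_nonneg_right l1 s0.le).trans (by
        rw [mul_div_assoc]; linarith)
      have l3 : ‖p j t - p j s‖ / (σ * s) ≤ 2 / σ * δ := by
        rw [mul_comm, ← div_div, div_mul_eq_mul_div]
        exact div_le_div_of_nonneg_right l2 hσ.le
      have l4 : ‖p j t - p j s‖ / (σ * t) ≤ 2 / σ * δ :=
        (div_le_div_of_nonneg_left (norm_nonneg _) (by positivity) (by gcongr)).trans l3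
      have b1 := tan_close (h.tan j t ht) (h.tan j s hs) (h.mem j t ht) (h.mem j s hs) fun e => hst.ne (by
        rw [← h.nrm j s hs, ← e, h.nrm j t ht])
      have b2 := shol_key (h.tan j s hs).1 d1 d2 (avel x (p j) (τ j) s - avel x (p j) (τ j) t)
      have b3 : ((avel x (p j) (τ j) s - avel x (p j) (τ j) t) * conj ((p j s - x) / s)).re =
          (avel x (p j) (τ j) t * conj ((p j t - x) / t - (p j s - x) / s)).re := by
        rw [sub_mul, map_sub, mul_sub, Complex.sub_re, Complex.sub_re, avel, avel, d3, f3]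
      have b4 : (p j t - x) / t - (p j s - x) / s = (p j t - p j s) / s - (((t - s) / s : ℝ) : ℂ) * ((p j t - x) / t) := by
        have := Complex.ofReal_ne_zero.2 s0.ne'
        have := Complex.ofReal_ne_zero.2 ht.1.ne'
        push_cast
        field_simp
        ring
      have b5 : ‖(p j t - x) / t - (p j s - x) / s‖ ≤ 3 * δ := by
        rw [b4]
        refine (norm_sub_le _ _).trans ?_
        rw [norm_mul, f1, norm_div, Complex.norm_real, Complex.norm_real, Real.norm_of_nonneg s0.le,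
          Real.norm_of_nonneg (div_nonneg (sub_pos.2 hst).le s0.le)]
        linarith
      have b6 : |(avel x (p j) (τ j) t * conj ((p j t - x) / t - (p j s - x) / s)).re| ≤ 2 * (3 * δ) :=
        (Complex.abs_re_le_norm _).trans (by
          rw [norm_mul, Complex.norm_conj]; exact mul_le_mul f5 b5 (norm_nonneg _) zero_le_two)
      have b7 := f6 (τ j s)
      have b8 := mul_le_mul_of_nonneg_left (Real.rpow_le_rpow (by positivity) l3 hα.le) hC
      have b9 := mul_le_mul_of_nonneg_left (Real.rpow_le_rpow (div_nonneg (norm_nonneg _)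
        (mul_pos hσ ht.1).le) l4 hα.le) hC
      rw [Real.mul_rpow (by positivity) hδ.1] at b8 b9
      rw [b3, sub_mul _ _ (conj (τ j s)), Complex.sub_im, avel, avel, d4, zero_sub, abs_neg] at b2
      have k3 := mul_le_mul_of_nonneg_left k1 (by positivity : 0 ≤ 12 * C * (2 / σ) ^ α)
      rw [avel] at b6
      rw [avel, avel]
      linarith
  choose B hB using key
  have hB' : ∀ j, B j ≤ ∑ i, |B i| := fun j =>
    (le_abs_self _).trans (Finset.single_le_sum (fun i _ => abs_nonneg (B i)) (Finset.mem_univ j))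
  exact ⟨_, ∑ i, |B i|, half_pos (lt_min hm hγ), fun j => ⟨fun ρ hρ => ((hB j).1 ρ hρ).trans
    (mul_le_mul_of_nonneg_right (hB' j) (Real.rpow_nonneg hρ.1.le _)), fun s hs t ht => ((hB j).2 s hs t ht).trans
    (mul_le_mul_of_nonneg_right (hB' j) (Real.rpow_nonneg (abs_nonneg _) _))⟩⟩

end Crest.Agent.R135
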