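import Crest.Agent.R135.Defs
import Crest.Agent.R135.SHol
set_option autoImplicit false
open MeasureTheory Metric Set Filter Topology
open scoped ENNReal NNReal Real ComplexConjugate

namespace Crest.Agent.R135

theorem spt_lim {g : ℝ → ℂ} {e : ℂ} {ρ₀ A β : ℝ} (h0 : 0 < ρ₀) (hβ : 0 < β)
    (h : ∀ ρ ∈ Ioc 0 ρ₀, ‖g ρ - e‖ ≤ A * ρ ^ β) : Tendsto g (𝓝[>] 0) (𝓝 e) := by
  rw [tendsto_iff_norm_sub_tendsto_zero]
  have hc : ContinuousAt (fun l : ℝ => A * l ^ β) 0 :=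
    continuousAt_const.mul (ContinuousAt.rpow_const continuousAt_id (Or.inr hβ.le))
  have h1 : Tendsto (fun l : ℝ => A * l ^ β) (𝓝[>] 0) (𝓝 0) := by
    have := hc.tendsto.mono_left (nhdsWithin_le_nhds (s := Ioi 0))
    simpa [Real.zero_rpow hβ.ne'] using this
  refine squeeze_zero' (Eventually.of_forall fun _ => norm_nonneg _) ?_ h1
  filter_upwards [Ioc_mem_nhdsGT h0] with ρ hρ using h ρ hρ

theorem spt_img {n : ℕ} {K : Set ℂ} {x : ℂ} {ρ₀ C α σ : ℝ} {p τ : Fin n → ℝ → ℂ} (h : Arcs n K x ρ₀ C α σ p τ)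
    {γ : Fin n → ℝ → ℂ} (h0 : ∀ k, γ k 0 = x) (h1 : ∀ k, ∀ t ∈ Ioc (0 : ℝ) 1, γ k t = p k (ρ₀ * t)) (j₀ : Fin n) :
    K ∩ ball x ρ₀ = ⋃ k, γ k '' Ico 0 1 := by
  have ρ0 := h.pos
  ext z
  constructor
  · rintro ⟨hz, hb⟩
    by_cases hx : z = x
    · exact mem_iUnion.2 ⟨j₀, 0, ⟨le_rfl, one_pos⟩, by rw [h0, hx]⟩
    rcases h.all z ⟨hz, ball_subset_closedBall hb⟩ with h2 | ⟨j, h2⟩
    · exact absurd h2 hx
    have h3 : 0 < ‖z - x‖ := norm_pos_iff.2 (sub_ne_zero.2 hx)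
    have h4 : ‖z - x‖ / ρ₀ < 1 := by rw [div_lt_one ρ0, ← dist_eq_norm]; exact hb
    refine mem_iUnion.2 ⟨j, ‖z - x‖ / ρ₀, ⟨by positivity, h4⟩, ?_⟩
    rw [h1 j _ ⟨by positivity, h4.le⟩, mul_div_cancel₀ _ ρ0.ne', ← h2]
  · intro hz
    obtain ⟨k, t, ht, rfl⟩ := mem_iUnion.1 hz
    rcases ht.1.eq_or_lt with h2 | h2
    · rw [← h2, h0]; exact ⟨h.ctr, mem_ball_self ρ0⟩
    · have h3 : ρ₀ * t ∈ Ioc 0 ρ₀ := ⟨by positivity, by nlinarith [ht.2]⟩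
      rw [h1 k t ⟨h2, ht.2.le⟩]
      refine ⟨h.mem k _ h3, ?_⟩
      rw [mem_ball, dist_eq_norm, h.nrm k _ h3]
      nlinarith [ht.2]

/-- `γ j λ = if λ = 0 then x else p j (ρ₀ λ)`, `γ' j λ = ρ₀ • (if λ = 0 then e j else avel …)`; `‖e j‖ = 1`; `N = ball x ρ₀`. -/
theorem arcs_harc {n : ℕ} {K : Set ℂ} {x : ℂ} {ρ₀ C α σ : ℝ} {p τ : Fin n → ℝ → ℂ} (h : Arcs n K x ρ₀ C α σ p τ)
    (hr : Rate x ρ₀ p) : ∃ α' : ℝ≥0, 0 < α' ∧ ∃ γ γ' : Fin n → ℝ → ℂ, (∀ k, HArc α' (γ k) (γ' k)) ∧ (∀ k, γ k 0 = x) ∧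
      (∀ k, ∀ t ∈ Ioc (0 : ℝ) 1, γ k t = p k (ρ₀ * t)) ∧ (∀ k, ‖γ' k 0‖ = ρ₀) ∧
      ∀ j k, j ≠ k → inner ℝ (γ' j 0) (γ' k 0) = -(1 / 2 : ℝ) * ρ₀ ^ 2 := by
  obtain ⟨β, hβ, A, e, hA⟩ := hr
  obtain ⟨g, B, g0, hB⟩ := avel_holder h hβ hA
  have ρ0 := h.pos
  have hlim : ∀ j, Tendsto (fun ρ : ℝ => (p j ρ - x) / ρ) (𝓝[>] 0) (𝓝 (e j)) := fun j => spt_lim ρ0 hβ (hA j)
  have e1 : ∀ j, ‖e j‖ = 1 := by
    intro j
    refine tendsto_nhds_unique (hlim j).norm (tendsto_const_nhds.congr' ?_)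
    filter_upwards [Ioc_mem_nhdsGT ρ0] with ρ hρ
    rw [norm_div, h.nrm j ρ hρ, Complex.norm_real, Real.norm_of_nonneg hρ.1.le, div_self hρ.1.ne']
  have e2 : ∀ j k, j ≠ k → (e j * conj (e k)).re = -(1 / 2) := by
    intro j k hjk
    have h1 : Tendsto (fun ρ : ℝ => |((p j ρ - x) / ρ * conj ((p k ρ - x) / ρ)).re + 1 / 2|) (𝓝[>] 0)
        (𝓝 |(e j * conj (e k)).re + 1 / 2|) :=
      (((Complex.continuous_re.tendsto _).comp ((hlim j).mul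
        ((Complex.continuous_conj.tendsto _).comp (hlim k)))).add_const _).abs
    have h2 : ∀ ε : ℝ, 0 < ε → |(e j * conj (e k)).re + 1 / 2| ≤ ε := by
      intro ε hε
      obtain ⟨ρ₁, ρ1, h3⟩ := h.ang ε hε
      refine le_of_tendsto h1 ?_
      filter_upwards [Ioc_mem_nhdsGT ρ0, Ioc_mem_nhdsGT ρ1] with ρ hρ hρ'
      have h4 := h3 ρ hρ hρ'.2 j k hjk
      have ρp := hρ.1
      have h5 : ((p j ρ - x) / ρ * conj ((p k ρ - x) / ρ)).re + 1 / 2 =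
          (((p j ρ - x) * conj (p k ρ - x)).re + ρ ^ 2 / 2) / ρ ^ 2 := by
        rw [map_div₀, Complex.conj_ofReal, div_mul_div_comm, ← Complex.ofReal_mul, Complex.div_ofReal_re]
        field_simp
      rw [h5, abs_div, abs_of_pos (pow_pos ρp 2), div_le_iff₀ (pow_pos ρp 2)]
      exact h4
    have h3 : |(e j * conj (e k)).re + 1 / 2| ≤ 0 := le_of_forall_pos_le_add fun ε hε => by simpa using h2 ε hε
    have h4 := abs_nonpos_iff.1 h3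
    linarith
  have hm : ∀ t ∈ Ioc (0 : ℝ) 1, ρ₀ * t ∈ Ioc 0 ρ₀ := fun t ht => ⟨mul_pos ρ0 ht.1, by nlinarith [ht.2]⟩
  refine ⟨g.toNNReal, Real.toNNReal_pos.2 g0, fun k t => if t = 0 then x else p k (ρ₀ * t),
    fun k t => ρ₀ * (if t = 0 then e k else avel x (p k) (τ k) (ρ₀ * t)), fun k => ⟨?_, ?_, ?_, ?_⟩,
    fun k => if_pos rfl, fun k t ht => if_neg ht.1.ne', fun k => ?_, fun j k hjk => ?_⟩
  · have hn : ∀ t ∈ Icc (0 : ℝ) 1, ‖(if t = 0 then x else p k (ρ₀ * t)) - x‖ = ρ₀ * t := by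
      intro t ht
      rcases ht.1.eq_or_lt with h2 | h2
      · simp [← h2]
      · rw [if_neg h2.ne', h.nrm k _ (hm t ⟨h2, ht.2⟩)]
    intro s hs t ht hst
    have h1 := hn s hs
    simp only at hst
    rw [hst, hn t ht] at h1
    exact (mul_left_cancel₀ ρ0.ne' h1).symm
  · intro t ht
    rcases ht.1.eq_or_lt with h2 | h2
    · subst h2
      rw [hasDerivWithinAt_iff_tendsto_slope, Icc_sdiff_left, nhdsWithin_Ioc_eq_nhdsGT one_pos]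
      simp only [if_pos]
      have h3 : Tendsto (fun t : ℝ => ρ₀ * t) (𝓝[>] 0) (𝓝[>] 0) := by
        refine tendsto_nhdsWithin_iff.2 ⟨?_, ?_⟩
        · have : Tendsto (fun t : ℝ => ρ₀ * t) (𝓝 0) (𝓝 (ρ₀ * 0)) := (continuous_const.mul continuous_id).tendsto 0
          rw [mul_zero] at this
          exact this.mono_left nhdsWithin_le_nhds
        · filter_upwards [self_mem_nhdsWithin] with t ht using mul_pos ρ0 ht
      refine (((hlim k).comp h3).const_mul (ρ₀ : ℂ)).congr' ?_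
      filter_upwards [self_mem_nhdsWithin] with t ht
      have t0 : t ≠ 0 := ne_of_gt ht
      have t1 : (t : ℂ) ≠ 0 := by exact_mod_cast t0
      have r1 : (ρ₀ : ℂ) ≠ 0 := by exact_mod_cast ρ0.ne'
      simp only [slope_def_module, if_neg t0, if_pos, Function.comp, sub_zero, Complex.real_smul]
      push_cast
      field_simp
    · have h3 := ((h.deriv k).1 _ (hm t ⟨h2, ht.2⟩)).scomp t
        (((hasDerivAt_id t).const_mul ρ₀).hasDerivWithinAt (s := Ioc 0 1)) (fun s hs => hm s hs)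
      have h4 : HasDerivWithinAt (fun t => if t = 0 then x else p k (ρ₀ * t))
          ((ρ₀ : ℂ) * (if t = 0 then e k else avel x (p k) (τ k) (ρ₀ * t))) (Ioc 0 1) t := by
        rw [if_neg h2.ne']
        refine HasDerivWithinAt.congr (by simpa [Complex.real_smul, Function.comp_def] using h3) (fun s hs => if_neg hs.1.ne') (if_neg h2.ne')
      refine h4.mono_of_mem_nhdsWithin ?_
      filter_upwards [self_mem_nhdsWithin, mem_nhdsWithin_of_mem_nhds (Ioi_mem_nhds h2)] with s hs hs'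
      exact ⟨hs', hs.2⟩
  · intro t ht
    refine mul_ne_zero (by exact_mod_cast ρ0.ne') ?_
    rcases ht.1.eq_or_lt with h2 | h2
    · rw [if_pos h2.symm, ← norm_pos_iff, e1]; exact one_pos
    · rw [if_neg h2.ne']
      have h3 := hm t ⟨h2, ht.2⟩
      have h4 := h.rad k _ h3
      refine div_ne_zero (by rw [← norm_pos_iff, (h.tan k _ h3).1]; exact one_pos) ?_
      have h5 := h3.1
      exact Complex.ofReal_ne_zero.2 (div_pos (by linarith) h5).ne'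
  · refine holderOnWith_of (C := ρ₀ * (B * ρ₀ ^ g)) g0 ?_
    have key : ∀ t ∈ Icc (0 : ℝ) 1, t ≠ 0 → ‖avel x (p k) (τ k) (ρ₀ * t) - e k‖ ≤ B * ρ₀ ^ g * |t| ^ g := by
      intro t ht t0
      have h2 : 0 < t := lt_of_le_of_ne ht.1 t0.symm
      refine ((hB k).1 _ (hm t ⟨h2, ht.2⟩)).trans (le_of_eq ?_)
      rw [Real.mul_rpow ρ0.le h2.le, abs_of_pos h2, mul_assoc]
    intro s hs t ht
    rw [← mul_sub, norm_mul, Complex.norm_real, Real.norm_of_nonneg ρ0.le, mul_assoc]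
    refine mul_le_mul_of_nonneg_left ?_ ρ0.le
    by_cases s0 : s = 0 <;> by_cases t0 : t = 0
    · simp [s0, t0, Real.zero_rpow g0.ne']
    · rw [if_pos s0, if_neg t0, norm_sub_rev, s0, zero_sub, abs_neg]; exact key t ht t0
    · rw [if_pos t0, if_neg s0, t0, sub_zero]; exact key s hs s0
    · rw [if_neg s0, if_neg t0]
      refine ((hB k).2 _ (hm s ⟨lt_of_le_of_ne hs.1 (Ne.symm s0), hs.2⟩) _
        (hm t ⟨lt_of_le_of_ne ht.1 (Ne.symm t0), ht.2⟩)).trans (le_of_eq ?_)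
      rw [← mul_sub, abs_mul, abs_of_pos ρ0, Real.mul_rpow ρ0.le (abs_nonneg _), mul_assoc]
  · simp only [if_pos]
    rw [norm_mul, e1, mul_one, Complex.norm_real, Real.norm_of_nonneg ρ0.le]
  · simp only [if_pos]
    rw [Complex.inner, map_mul, Complex.conj_ofReal]
    have h1 : (ρ₀ : ℂ) * e k * (ρ₀ * conj (e j)) = ((ρ₀ ^ 2 : ℝ) : ℂ) * (e k * conj (e j)) := by push_cast; ring
    rw [h1, Complex.re_ofReal_mul, e2 k j hjk.symm]
    ring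

theorem endPt_of {U K : Set ℂ} {x : ℂ} {ρ₀ C α σ : ℝ} {p τ : Fin 1 → ℝ → ℂ} (h : Arcs 1 K x ρ₀ C α σ p τ)
    (hr : Rate x ρ₀ p) (hB : closedBall x ρ₀ ⊆ U) : EndPt U K x := by
  obtain ⟨α', h0, γ, γ', h1, h2, h3, -, -⟩ := arcs_harc h hr
  refine ⟨ball x ρ₀, isOpen_ball, ball_subset_closedBall.trans hB, mem_ball_self h.pos, α', h0, γ 0, γ' 0, h1 0, ?_, h2 0⟩
  rw [spt_img h h2 h3 0]
  ext z
  simp only [mem_iUnion]
  exact ⟨fun ⟨k, hk⟩ => by rwa [Subsingleton.elim k 0] at hk, fun hz => ⟨0, hz⟩⟩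

theorem triPt_of {U K : Set ℂ} {x : ℂ} {ρ₀ C α σ : ℝ} {p τ : Fin 3 → ℝ → ℂ} (h : Arcs 3 K x ρ₀ C α σ p τ)
    (hr : Rate x ρ₀ p) (hB : closedBall x ρ₀ ⊆ U) : TriPt U K x := by
  obtain ⟨α', h0, γ, γ', h1, h2, h3, h4, h5⟩ := arcs_harc h hr
  have ρ0 := h.pos
  refine ⟨ball x ρ₀, isOpen_ball, ball_subset_closedBall.trans hB, mem_ball_self h.pos, α', h0, γ, γ', h1, h2,
    spt_img h h2 h3 0, fun j k hjk => ?_, fun j k hjk => by rw [h5 j k hjk, h4, h4]; ring⟩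
  have hm : ∀ t ∈ Ioc (0 : ℝ) 1, ρ₀ * t ∈ Ioc 0 ρ₀ := fun t ht => ⟨mul_pos ρ0 ht.1, by nlinarith [ht.2]⟩
  refine Subset.antisymm ?_ (singleton_subset_iff.2 ⟨⟨0, ⟨le_rfl, one_pos⟩, h2 j⟩, ⟨0, ⟨le_rfl, one_pos⟩, h2 k⟩⟩)
  rintro z ⟨⟨s, hs, rfl⟩, ⟨t, ht, hst⟩⟩
  rcases hs.1.eq_or_lt with s0 | s0
  · rw [← s0]; exact h2 j
  rcases ht.1.eq_or_lt with t0 | t0
  · rw [← hst, ← t0]; exact h2 k
  exfalso
  have h6 := hm s ⟨s0, hs.2.le⟩
  have h7 := hm t ⟨t0, ht.2.le⟩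
  rw [h3 j s ⟨s0, hs.2.le⟩, h3 k t ⟨t0, ht.2.le⟩] at hst
  have h8 : ρ₀ * t = ρ₀ * s := by rw [← h.nrm k _ h7, hst, h.nrm j _ h6]
  rw [h8] at hst
  exact h.inj j k hjk _ h6 hst.symm

end Crest.Agent.R135
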