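import Crest.Agent.R135.Defs
import Crest.Agent.R135.SDer
import Crest.Agent.R135.MTip
import Crest.Agent.R135.TGron
set_option autoImplicit false
open MeasureTheory Metric Set Filter Topology
open scoped ENNReal NNReal Real ComplexConjugate

namespace Crest.Agent.R135

theorem stip_alg {q e : ℂ} (he : ‖e‖ = 1) (h1 : (q * conj e).re = 1) (h2 : 1 ≤ ‖q‖) (h3 : ‖q‖ ≤ 2) :
    ‖q - e‖ ≤ 4 * ‖q / (‖q‖ : ℂ) - e‖ := by
  have h0 : (‖q‖ : ℂ) ≠ 0 := by exact_mod_cast (by linarith : ‖q‖ ≠ 0)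
  set D := q / (‖q‖ : ℂ) - e with hD
  have e1 : q - e = (‖q‖ : ℂ) * D + ((‖q‖ - 1 : ℝ) : ℂ) * e := by
    rw [hD]; push_cast; field_simp; ring
  have e2 : ‖q‖ - 1 = -(‖q‖ * (D * conj e).re) := by
    have : (‖q‖ : ℂ) * (D * conj e) = q * conj e - ((‖q‖ : ℝ) : ℂ) := by
      rw [hD, sub_mul, Complex.mul_conj', he]; push_cast; field_simp
    rw [← Complex.re_ofReal_mul, this, Complex.sub_re, h1, Complex.ofReal_re]; ring
  have e3 : |(D * conj e).re| ≤ ‖D‖ := by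
    simpa [he] using Complex.abs_re_le_norm (D * conj e)
  have e4 := (abs_le.1 e3).1
  have e5 := norm_nonneg D
  calc ‖q - e‖ ≤ ‖(‖q‖ : ℂ) * D‖ + ‖((‖q‖ - 1 : ℝ) : ℂ) * e‖ := by rw [e1]; exact norm_add_le _ _
    _ = ‖q‖ * ‖D‖ + (‖q‖ - 1) := by
      rw [norm_mul, norm_mul, he, Complex.norm_real, Complex.norm_real, norm_norm, Real.norm_of_nonneg (by linarith), mul_one]
    _ ≤ _ := by nlinarith

/-- `Y ρ = Dr ρ - ρ`, `Y' = ce - 1 ≥ -Cρ` and `Dr ρ → 0` give `Y ≥ -Cρ²`; `(C₀-1) Y' ≥ C₀ Y/ρ - Cρ` with `C₀` enlarged to be `> 2`, `gron_full` with `β = C₀/(C₀-1) ∈ (1,2)`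
gives `Y t ≤ C t^β`. Then `∫_{t/2}^t (ce - Dr/ρ) = Y t - Y (t/2) - ∫ Y/ρ ≤ C t^β`. For `x̂ = (p - x)/ρ`: `x̂' = (p' - x̂)/ρ`, `p' = T/re(T conj x̂)`,
`‖p' - x̂‖ ≤ C‖T - x̂‖` (`Arc1.re_eq`), Cauchy–Schwarz on `[s,t] ⊆ [t/2,t]`, `rate_of_dyadic` with exponent `(β-1)/2`. -/
theorem tip_rate {U K : Set ℂ} {a b : ℝ} {u : ℂ → ℝ} (h : MS U a b K u) {x : ℂ} {ρ₀ : ℝ} {p p' : ℝ → ℂ}
    (hA : Arc1 K x ρ₀ p p') (hB : closedBall x ρ₀ ⊆ U) : Rate x ρ₀ (fun _ : Fin 1 => p) := by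
  obtain ⟨C₀, C, hC₀, hC, hae⟩ := h.tip_ineq hA hB
  have hρ₀ := hA.pos
  set c := a * C with hc
  have hc0 : 0 ≤ c := mul_nonneg h.a0 hC
  obtain ⟨hi, hD⟩ := h.ce_int hρ₀.le hB
  set r := ρ₀ / 4 with hr
  have hr0 : 0 < r := by positivity
  have hint : ∀ s t, 0 ≤ s → s ≤ t → t ≤ ρ₀ → IntervalIntegrable (fun ρ => ce u x ρ - 1) volume s t ∧
      Dr u x t - t = Dr u x s - s + ∫ ρ in s..t, (ce u x ρ - 1) := by
    intro s t h1 h2 h3
    have i1 : IntervalIntegrable (ce u x) volume s t := hi.mono_set (by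
      rw [uIcc_of_le h2, uIcc_of_le hρ₀.le]; exact Icc_subset_Icc h1 h3)
    refine ⟨i1.sub intervalIntegrable_const, ?_⟩
    rw [intervalIntegral.integral_sub i1 intervalIntegrable_const, hD s t h1 h2 h3]
    simp
    ring
  have hlow : ∀ s ∈ Ioc 0 r, -(c * s ^ 2) ≤ Dr u x s - s := by
    intro s hs
    obtain ⟨i1, e1⟩ := hint 0 s le_rfl hs.1.le (by linarith [hs.2])
    have e2 : ∫ ρ in (0 : ℝ)..s, -(c * s) ≤ ∫ ρ in (0 : ℝ)..s, (ce u x ρ - 1) := by
      refine intervalIntegral.integral_mono_ae_restrict hs.1.le intervalIntegrable_const i1 ?_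
      rw [← Measure.restrict_congr_set Ioo_ae_eq_Icc]
      filter_upwards [ae_restrict_of_ae hae, ae_restrict_mem measurableSet_Ioo] with ρ h1 h2
      have h3 := (h1 ⟨h2.1, by linarith [h2.2, hs.2]⟩).1
      nlinarith [h2.2]
    have e3 := Dr_nonneg u x 0
    simp only [intervalIntegral.integral_const, sub_zero, smul_eq_mul] at e2
    nlinarith
  set β := (C₀ + 1) / C₀ with hβ
  have hC0 : 0 < C₀ := by linarith
  have hβ1 : 1 < β := by rw [hβ, lt_div_iff₀ hC0]; linarith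
  have hβ2 : β < 2 := by rw [hβ, div_lt_iff₀ hC0]; linarith
  set M := |Dr u x r - r + c / (2 - β) * r ^ 2| / r ^ β with hM
  have hM0 : 0 ≤ M := by positivity
  have hup : ∀ t ∈ Ioc 0 r, Dr u x t - t ≤ M * t ^ β := by
    intro t ht
    have h1 := gron_full (Y := fun s => Dr u x s - s) (y := fun ρ => ce u x ρ - 1) ht.1 ht.2 hβ2 hc0
      (hint t r ht.1.le ht.2 (by linarith)).1 (fun s hs => (hint t s ht.1.le hs.1 (by linarith [hs.2])).2) (by
        filter_upwards [hae] with ρ h1 h2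
        have h0 : 0 < ρ := ht.1.trans h2.1
        obtain ⟨-, h4, h5⟩ := h1 ⟨h0, by linarith [h2.2]⟩
        have h6 := (sq_nonneg _).trans h5
        have e : β * (Dr u x ρ - ρ) / ρ = (C₀ + 1) * (Dr u x ρ / ρ - 1) / C₀ := by rw [hβ]; field_simp
        rw [e, sub_le_iff_le_add, div_le_iff₀ hC0]
        have h7 : 0 ≤ c * ρ := mul_nonneg hc0 h0.le
        have h8 : -(c * ρ) ≤ ce u x ρ - Dr u x ρ / ρ := by
          by_contra h9
          nlinarith
        nlinarith)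
    have h2 : 0 ≤ c / (2 - β) * t ^ 2 := by have := sub_pos.2 hβ2; positivity
    have h3 : (t / r) ^ β * (Dr u x r - r + c / (2 - β) * r ^ 2) ≤ M * t ^ β := by
      rw [hM, Real.div_rpow ht.1.le hr0.le]
      calc _ ≤ t ^ β / r ^ β * |Dr u x r - r + c / (2 - β) * r ^ 2| :=
          mul_le_mul_of_nonneg_left (le_abs_self _) (by have := ht.1; positivity)
        _ = _ := by ring
    linarith
  set γ := (β - 1) / 2 with hγ
  have hγ0 : 0 < γ := by rw [hγ]; linarith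
  set N := C₀ * M + (2 * C₀ + 1) * c * r ^ (2 - β) with hN
  have hN0 : 0 ≤ N := by positivity
  obtain ⟨C', e, he⟩ := rate_of_dyadic (g := fun ρ => (p ρ - x) / ρ) (C := 4 * (1 + N)) hr0 hγ0 (by
    intro t ht s hs
    have t0 := ht.1
    have s0 : 0 < s := by linarith [hs.1]
    have hI : ∀ ρ ∈ uIcc s t, ρ ∈ Ioo 0 ρ₀ := fun ρ hρ => by
      rw [uIcc_of_le hs.2] at hρ
      exact ⟨by linarith [hρ.1], by linarith [hρ.2, ht.2]⟩
    have hder : ∀ ρ ∈ uIcc s t, HasDerivAt (fun ρ : ℝ => (p ρ - x) / ρ) ((p' ρ - (p ρ - x) / ρ) / ρ) ρ := by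
      intro ρ hρ
      have h1 := hI ρ hρ
      have h2 : (ρ : ℂ) ≠ 0 := by exact_mod_cast h1.1.ne'
      have h3 := ((hA.der ρ ⟨h1.1, h1.2.le⟩).hasDerivAt (Ioc_mem_nhds h1.1 h1.2)).sub_const x
      have h4 : HasDerivAt (fun y : ℝ => (y : ℂ)) 1 ρ := by simpa using (hasDerivAt_id ρ).ofReal_comp
      have h5 := h3.fun_div h4 h2
      refine h5.congr_deriv ?_
      field_simp
    have hsub : uIcc s t ⊆ Ioc 0 ρ₀ := fun ρ hρ => ⟨(hI ρ hρ).1, (hI ρ hρ).2.le⟩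
    have hne : ∀ ρ ∈ uIcc s t, (ρ : ℂ) ≠ 0 := fun ρ hρ => by exact_mod_cast (hI ρ hρ).1.ne'
    have hco : ContinuousOn (fun ρ : ℝ => (p' ρ - (p ρ - x) / ρ) / ρ) (uIcc s t) :=
      ((hA.cont.mono hsub).sub fun ρ hρ => (hder ρ hρ).continuousAt.continuousWithinAt).div
        Complex.continuous_ofReal.continuousOn hne
    set l := t ^ γ with hl
    have l0 : 0 < l := Real.rpow_pos_of_pos t0 _
    obtain ⟨i1, e1⟩ := hint s t s0.le hs.2 (by linarith [ht.2])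
    rw [← intervalIntegral.integral_eq_sub_of_hasDerivAt hder hco.intervalIntegrable]
    refine (intervalIntegral.norm_integral_le_of_norm_le (g := fun ρ => 4 / t * l + 4 / (t * l) * ((C₀ + 1) * c * t) +
      4 / (t * l) * C₀ * (ce u x ρ - 1)) hs.2 ?_ (intervalIntegrable_const.add (i1.const_mul _))).trans ?_
    · filter_upwards [hae] with ρ h1 h2
      have h0 : 0 < ρ := s0.trans h2.1
      have h00 : ρ ∈ Ioc 0 ρ₀ := ⟨h0, by linarith [h2.2, ht.2]⟩
      obtain ⟨-, -, h5⟩ := h1 ⟨h0, by linarith [h2.2, ht.2]⟩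
      obtain ⟨h6, h7⟩ := hA.re_eq h00
      have h8 := stip_alg (q := p' ρ) (e := (p ρ - x) / ρ)
        (by rw [norm_div, hA.nrm ρ h00, Complex.norm_real, Real.norm_of_nonneg h0.le, div_self h0.ne'])
        (by rw [map_div₀, Complex.conj_ofReal, ← mul_div_assoc, Complex.div_ofReal_re, h6, div_self h0.ne']) h7
        (hA.bdd ρ h00)
      generalize ‖p' ρ / (‖p' ρ‖ : ℂ) - (p ρ - x) / ρ‖ = w at h5 h8
      have h9 : 1 - c * ρ ≤ Dr u x ρ / ρ := by
        rw [le_div_iff₀ h0]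
        have := hlow ρ ⟨h0, h2.2.trans ht.2⟩
        nlinarith
      have h10 : w ^ 2 ≤ (C₀ + 1) * c * t + C₀ * (ce u x ρ - 1) := by
        have := mul_le_mul_of_nonneg_left h2.2 hc0
        nlinarith
      have h11 : 2 * w ≤ l + ((C₀ + 1) * c * t + C₀ * (ce u x ρ - 1)) / l := by
        have : 2 * w - l ≤ ((C₀ + 1) * c * t + C₀ * (ce u x ρ - 1)) / l := by
          rw [le_div_iff₀ l0]; nlinarith [sq_nonneg (w - l)]
        linarith
      rw [norm_div, Complex.norm_real, Real.norm_of_nonneg h0.le]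
      have h12 : t / 2 ≤ ρ := hs.1.trans h2.1.le
      calc _ ≤ ‖p' ρ - (p ρ - x) / ρ‖ / (t / 2) := div_le_div_of_nonneg_left (norm_nonneg _) (by positivity) h12
        _ ≤ (2 * (l + ((C₀ + 1) * c * t + C₀ * (ce u x ρ - 1)) / l)) / (t / 2) := by gcongr; linarith
        _ = _ := by field_simp; ring
    · rw [intervalIntegral.integral_add intervalIntegrable_const (i1.const_mul _), intervalIntegral.integral_const,
        intervalIntegral.integral_const_mul, smul_eq_mul]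
      have h1 : ∫ ρ in s..t, (ce u x ρ - 1) ≤ M * t ^ β + c * t ^ 2 := by
        have a1 := hup t ht
        have a2 := hlow s ⟨s0, hs.2.trans ht.2⟩
        have a3 : c * s ^ 2 ≤ c * t ^ 2 := by have := hs.2; gcongr
        linarith
      have h2 : t ^ β = t * l * l := by
        rw [hl, mul_assoc, ← Real.rpow_add t0, show β = 1 + (γ + γ) by rw [hγ]; ring, Real.rpow_add t0, Real.rpow_one]
      have h3 : t ^ 2 ≤ r ^ (2 - β) * (t * l * l) := by
        rw [← h2]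
        calc t ^ 2 = t ^ (2 - β) * t ^ β := by rw [← Real.rpow_add t0]; norm_num
          _ ≤ _ := by have := ht.2; gcongr
      have h4 : (t - s) * (4 / t * l + 4 / (t * l) * ((C₀ + 1) * c * t)) ≤
          t * (4 / t * l + 4 / (t * l) * ((C₀ + 1) * c * t)) := by gcongr; linarith
      have h5 : 4 / (t * l) * C₀ * ∫ ρ in s..t, (ce u x ρ - 1) ≤ 4 / (t * l) * C₀ * (M * t ^ β + c * t ^ 2) := by gcongr
      have h6 : t * (4 / t * l + 4 / (t * l) * ((C₀ + 1) * c * t)) + 4 / (t * l) * C₀ * (M * t ^ β + c * t ^ 2) =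
          4 * (1 + C₀ * M) * l + 4 / (t * l) * ((2 * C₀ + 1) * c) * t ^ 2 := by rw [h2]; field_simp; ring
      have h7 : 4 / (t * l) * ((2 * C₀ + 1) * c) * t ^ 2 ≤
          4 / (t * l) * ((2 * C₀ + 1) * c) * (r ^ (2 - β) * (t * l * l)) := by gcongr
      have h8 : 4 / (t * l) * ((2 * C₀ + 1) * c) * (r ^ (2 - β) * (t * l * l)) =
          4 * ((2 * C₀ + 1) * c * r ^ (2 - β)) * l := by field_simp
      have h9 : 4 * (1 + N) * l = 4 * (1 + C₀ * M) * l + 4 * ((2 * C₀ + 1) * c * r ^ (2 - β)) * l := by rw [hN]; ring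
      linarith)
  exact Rate.extend hr0 ⟨γ, hγ0, C', fun _ => e, fun _ => he⟩ fun _ => hA.nrm

end Crest.Agent.R135
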