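import Crest.Agent.R135.Defs
import Crest.Agent.R135.SDer
import Crest.Agent.R135.MCI2
set_option autoImplicit false
open MeasureTheory Metric Set Filter Topology
open scoped ENNReal NNReal Real ComplexConjugate

namespace Crest.Agent.R135

/-- counterclockwise angle from `w₀` to `w` -/
noncomputable def triA (w₀ w : ℂ) : ℝ := Complex.arg (-(w / w₀)) + π

theorem triA_eq {w₀ w : ℂ} (h0 : w₀ ≠ 0) (h : ‖w‖ = ‖w₀‖) : w = w₀ * Complex.exp (triA w₀ w * Complex.I) := by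
  have h1 : ‖-(w / w₀)‖ = 1 := by rw [norm_neg, norm_div, h, div_self (norm_ne_zero_iff.2 h0)]
  have h2 := Complex.norm_mul_exp_arg_mul_I (-(w / w₀))
  rw [h1, Complex.ofReal_one, one_mul] at h2
  rw [triA, Complex.ofReal_add, add_mul, Complex.exp_add, h2, Complex.exp_pi_mul_I]
  field_simp

theorem triA_pos (w₀ w : ℂ) : 0 < triA w₀ w := by
  have := Complex.neg_pi_lt_arg (-(w / w₀))
  rw [triA]; linarith

theorem triA_lt {w₀ w : ℂ} (h0 : w₀ ≠ 0) (h : ‖w‖ = ‖w₀‖) (hne : w ≠ w₀) : triA w₀ w < 2 * π := by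
  have h1 : triA w₀ w ≤ 2 * π := by
    have := Complex.arg_le_pi (-(w / w₀))
    rw [triA]; linarith
  refine lt_of_le_of_ne h1 fun h2 => hne ?_
  have h3 := triA_eq h0 h
  rw [h2] at h3
  simpa using h3

theorem triA_exp {w₀ : ℂ} (h0 : w₀ ≠ 0) {t : ℝ} (ht : t ∈ Ioo 0 (2 * π)) :
    triA w₀ (w₀ * Complex.exp (t * Complex.I)) = t := by
  have e : -(w₀ * Complex.exp (t * Complex.I) / w₀) = Complex.cos ((t - π : ℝ) : ℂ) +
      Complex.sin ((t - π : ℝ) : ℂ) * Complex.I := by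
    rw [← Complex.exp_mul_I, Complex.ofReal_sub, sub_mul, Complex.exp_sub, Complex.exp_pi_mul_I]
    field_simp
  rw [triA, e, Complex.arg_cos_add_sin_mul_I ⟨by linarith [ht.1], by linarith [ht.2]⟩]
  ring

theorem triA_cont {X : Type*} [TopologicalSpace X] {f g : X → ℂ} {z : X} (hf : ContinuousAt f z) (hg : ContinuousAt g z)
    (h0 : f z ≠ 0) (h : ‖g z‖ = ‖f z‖) (hne : g z ≠ f z) : ContinuousAt (fun y => triA (f y) (g y)) z := by
  have h1 : -(g z / f z) ∈ Complex.slitPlane := by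
    rw [Complex.mem_slitPlane_iff_arg]
    refine ⟨fun h2 => ?_, fun h2 => ?_⟩
    · have := triA_lt h0 h hne
      rw [triA, h2] at this
      linarith
    · rw [neg_eq_zero, div_eq_zero_iff] at h2
      rcases h2 with h2 | h2
      · rw [h2, norm_zero] at h
        exact h0 (norm_eq_zero.1 h.symm)
      · exact h0 h2
  exact (ContinuousAt.comp (f := fun y => -(g y / f y)) (Complex.continuousAt_arg h1) (hg.div hf h0).neg).add
    continuousAt_const

theorem tri_re (w : ℂ) (s t : ℝ) : (w * Complex.exp (s * Complex.I) * conj (w * Complex.exp (t * Complex.I))).re =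
    ‖w‖ ^ 2 * Real.cos (s - t) := by
  have e : w * Complex.exp (s * Complex.I) * conj (w * Complex.exp (t * Complex.I)) =
      ((‖w‖ ^ 2 : ℝ) : ℂ) * Complex.exp ((s - t : ℝ) * Complex.I) := by
    rw [map_mul, ← Complex.exp_conj, map_mul, Complex.conj_ofReal, Complex.conj_I, Complex.ofReal_pow,
      ← Complex.mul_conj', Complex.ofReal_sub, sub_mul, Complex.exp_sub, mul_neg, Complex.exp_neg]
    ring
  rw [e, Complex.re_ofReal_mul, Complex.exp_ofReal_mul_I_re]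

theorem tri_cos {t : ℝ} (h1 : 0 ≤ t) (h2 : t ≤ 2 * π) (h : Real.cos t < 0) : π / 2 < t ∧ t < 3 * π / 2 := by
  have := Real.pi_pos
  refine ⟨lt_of_not_ge fun h3 => ?_, lt_of_not_ge fun h3 => ?_⟩
  · exact absurd (Real.cos_nonneg_of_mem_Icc ⟨by linarith, h3⟩) (not_le.2 h)
  · rw [← Real.cos_sub_two_pi] at h
    exact absurd (Real.cos_nonneg_of_mem_Icc ⟨by linarith, by linarith⟩) (not_le.2 h)

/-- Three sectors. For small radii the three unit directions have pairwise `re ≈ -1/2`, so `w j k ρ = im ((p k ρ - x) conj (p j ρ - x)) ≠ 0` and, by continuity on the interval,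
has constant sign; relabel so that `w 0 1, w 1 2, w 2 0 > 0`. The sets `S_j = {z | 0 < ‖z-x‖ < R, im ((z-x) conj (p j - x)) > 0, im ((p (j+1) - x) conj (z-x)) > 0}` (arcs evaluated at
`‖z-x‖`) are open, disjoint and cover `ball x R \ K`; so `lab` is locally constant there. On a circle: `α 0` an angle of `p 0`, `α (j+1) = α j + arg ((p (j+1) - x)/(p j - x))`, gaps in
`(0.6π, 0.7π)`, sum `2π`. -/
theorem tri_labels {K : Set ℂ} {x : ℂ} {ρ₀ C α σ : ℝ} {p τ : Fin 3 → ℝ → ℂ} (h : Arcs 3 K x ρ₀ C α σ p τ) :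
    ∃ R ∈ Ioc 0 ρ₀, ∃ lab : ℂ → ℝ, LC (ball x R \ K) lab ∧ ∀ ρ ∈ Ioo 0 R, ∃ θ : ℕ → ℝ, θ 3 = θ 0 + 2 * π ∧
      (∀ j < 3, θ j < θ (j + 1) ∧ θ (j + 1) ≤ θ j + 15 / 4) ∧
      ∀ j < 3, ∀ φ ∈ Ioo (θ j) (θ (j + 1)), circleMap x ρ φ ∉ K ∧ lab (circleMap x ρ φ) = j := by
  classical
  obtain ⟨ρ₁, hρ₁, hang⟩ := h.ang (1 / 4) (by norm_num)
  set A : ℂ → ℝ := fun z => triA (p 0 ‖z - x‖ - x) (z - x) with hA
  set a : Fin 3 → ℝ → ℝ := fun j r => triA (p 0 r - x) (p j r - x) with ha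
  have hR : min ρ₀ ρ₁ ∈ Ioc 0 ρ₀ := ⟨lt_min h.pos hρ₁, min_le_left _ _⟩
  have hI : ∀ ρ ∈ Ioo 0 (min ρ₀ ρ₁), ρ ∈ Ioc 0 ρ₀ := fun ρ hρ => ⟨hρ.1, hρ.2.le.trans (min_le_left _ _)⟩
  have h0 : ∀ ρ ∈ Ioc 0 ρ₀, p 0 ρ - x ≠ 0 := fun ρ hρ hh => by
    have := h.nrm 0 ρ hρ
    rw [hh, norm_zero] at this
    exact hρ.1.ne this
  have hnn : ∀ j, ∀ ρ ∈ Ioc 0 ρ₀, ‖p j ρ - x‖ = ‖p 0 ρ - x‖ := fun j ρ hρ => by rw [h.nrm j ρ hρ, h.nrm 0 ρ hρ]
  have hne : ∀ j, j ≠ 0 → ∀ ρ ∈ Ioc 0 ρ₀, p j ρ - x ≠ p 0 ρ - x := fun j hj ρ hρ hh =>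
    h.inj j 0 hj ρ hρ (sub_left_injective hh)
  refine ⟨_, hR, fun z => if A z < min (a 1 ‖z - x‖) (a 2 ‖z - x‖) then 0
    else if A z < max (a 1 ‖z - x‖) (a 2 ‖z - x‖) then 1 else 2, fun z hz => ?_, fun ρ hρ => ?_⟩
  · have hzx : z ≠ x := fun hh => hz.2 (hh ▸ h.ctr)
    have hr : ‖z - x‖ ∈ Ioo 0 (min ρ₀ ρ₁) := ⟨norm_pos_iff.2 (sub_ne_zero.2 hzx), by simpa [dist_eq_norm] using hz.1⟩
    have hr' := hI _ hr
    have cn : ContinuousAt (fun y : ℂ => ‖y - x‖) z := by fun_prop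
    have cp : ∀ j, ContinuousAt (fun y : ℂ => p j ‖y - x‖ - x) z := fun j =>
      (ContinuousAt.comp (f := fun y : ℂ => ‖y - x‖) ((h.lip j).continuousOn.continuousAt
        (Ioc_mem_nhds hr.1 (hr.2.trans_le (min_le_left _ _)))) cn).sub continuousAt_const
    have hzp : ∀ j, z - x ≠ p j ‖z - x‖ - x := fun j hh => hz.2 (sub_left_injective hh ▸ h.mem j _ hr')
    have cA : ContinuousAt A z := triA_cont (cp 0) (continuousAt_id.sub continuousAt_const) (h0 _ hr')
      (h.nrm 0 _ hr').symm (hzp 0)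
    have ca : ∀ j, j ≠ 0 → ContinuousAt (fun y : ℂ => a j ‖y - x‖) z := fun j hj =>
      triA_cont (cp 0) (cp j) (h0 _ hr') (hnn j _ hr') (hne j hj _ hr')
    have hAa : ∀ j, A z ≠ a j ‖z - x‖ := fun j hh => hzp j (by
      have e1 := triA_eq (h0 _ hr') (h.nrm 0 _ hr').symm
      have e2 := triA_eq (h0 _ hr') (hnn j _ hr')
      simp only [hA, ha] at hh
      rw [hh] at e1
      exact e1.trans e2.symm)
    have c1 := (ca 1 (by decide)).min (ca 2 (by decide))
    have c2 := (ca 1 (by decide)).max (ca 2 (by decide))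
    have n1 : A z ≠ min (a 1 ‖z - x‖) (a 2 ‖z - x‖) := by
      rcases min_choice (a 1 ‖z - x‖) (a 2 ‖z - x‖) with e | e <;> rw [e] <;> exact hAa _
    have n2 : A z ≠ max (a 1 ‖z - x‖) (a 2 ‖z - x‖) := by
      rcases max_choice (a 1 ‖z - x‖) (a 2 ‖z - x‖) with e | e <;> rw [e] <;> exact hAa _
    rcases n1.lt_or_gt with e1 | e1
    · filter_upwards [cA.eventually_lt c1 e1] with y hy
      rw [if_pos hy, if_pos e1]
    · rcases n2.lt_or_gt with e2 | e2
      · filter_upwards [c1.eventually_lt cA e1, cA.eventually_lt c2 e2] with y hy hy'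
        rw [if_neg (not_lt.2 hy.le), if_neg (not_lt.2 e1.le), if_pos hy', if_pos e2]
      · filter_upwards [c1.eventually_lt cA e1, c2.eventually_lt cA e2] with y hy hy'
        rw [if_neg (not_lt.2 hy.le), if_neg (not_lt.2 e1.le), if_neg (not_lt.2 hy'.le), if_neg (not_lt.2 e2.le)]
  · have hr' := hI _ hρ
    have hpi := Real.pi_pos
    have hpi4 := Real.pi_lt_d2
    have hneg : ∀ j k, j ≠ k → ∀ s t : ℝ, p j ρ - x = (p 0 ρ - x) * Complex.exp (s * Complex.I) →
        p k ρ - x = (p 0 ρ - x) * Complex.exp (t * Complex.I) → Real.cos (s - t) < 0 := by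
      intro j k hjk s t e1 e2
      have b1 := (abs_le.1 (hang ρ hr' (hρ.2.le.trans (min_le_right _ _)) j k hjk)).2
      rw [e1, e2, tri_re, h.nrm 0 ρ hr'] at b1
      have b2 : 0 < ρ ^ 2 := pow_pos hρ.1 2
      nlinarith
    have e0 : p 0 ρ - x = (p 0 ρ - x) * Complex.exp ((0 : ℝ) * Complex.I) := by simp
    have ej : ∀ j, p j ρ - x = (p 0 ρ - x) * Complex.exp (a j ρ * Complex.I) := fun j => triA_eq (h0 _ hr') (hnn j _ hr')
    have p1 : 0 < a 1 ρ := triA_pos _ _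
    have p2 : 0 < a 2 ρ := triA_pos _ _
    have l1 : a 1 ρ < 2 * π := triA_lt (h0 _ hr') (hnn 1 _ hr') (hne 1 (by decide) _ hr')
    have l2 : a 2 ρ < 2 * π := triA_lt (h0 _ hr') (hnn 2 _ hr') (hne 2 (by decide) _ hr')
    have t1 := tri_cos p1.le l1.le (by simpa using hneg 1 0 (by decide) _ _ (ej 1) e0)
    have t2 := tri_cos p2.le l2.le (by simpa using hneg 2 0 (by decide) _ _ (ej 2) e0)
    have t3 : π / 2 < max (a 1 ρ) (a 2 ρ) - min (a 1 ρ) (a 2 ρ) := by
      rcases le_total (a 1 ρ) (a 2 ρ) with e | e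
      · rw [max_eq_right e, min_eq_left e]
        exact (tri_cos (by linarith) (by linarith) (hneg 2 1 (by decide) _ _ (ej 2) (ej 1))).1
      · rw [max_eq_left e, min_eq_right e]
        exact (tri_cos (by linarith) (by linarith) (hneg 1 2 (by decide) _ _ (ej 1) (ej 2))).1
    have t4 : π / 2 < min (a 1 ρ) (a 2 ρ) := lt_min t1.1 t2.1
    have t5 : max (a 1 ρ) (a 2 ρ) < 3 * π / 2 := max_lt t1.2 t2.2
    set θ₀ := Complex.arg (p 0 ρ - x) with hθ₀
    have key : ∀ φ, φ - θ₀ ∈ Ioo 0 (2 * π) → ‖circleMap x ρ φ - x‖ = ρ ∧ A (circleMap x ρ φ) = φ - θ₀ ∧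
        (φ - θ₀ ≠ min (a 1 ρ) (a 2 ρ) → φ - θ₀ ≠ max (a 1 ρ) (a 2 ρ) → circleMap x ρ φ ∉ K) := by
      intro φ hφ
      have b1 : ‖circleMap x ρ φ - x‖ = ρ := by simp [abs_of_pos hρ.1]
      have b2 : circleMap x ρ φ - x = (p 0 ρ - x) * Complex.exp ((φ - θ₀ : ℝ) * Complex.I) := by
        conv_rhs => rw [← Complex.norm_mul_exp_arg_mul_I (p 0 ρ - x), h.nrm 0 ρ hr', ← hθ₀, mul_assoc, ← Complex.exp_add]
        simp only [circleMap, add_sub_cancel_left]
        congr 2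
        push_cast
        ring
      have b3 : A (circleMap x ρ φ) = φ - θ₀ := by
        simp only [hA]
        rw [b1, b2, triA_exp (h0 _ hr') hφ]
      refine ⟨b1, b3, fun n1 n2 hk => ?_⟩
      rcases h.all _ ⟨hk, by rw [mem_closedBall, dist_eq_norm, b1]; exact hr'.2⟩ with e | ⟨j, e⟩
      · rw [e, sub_self, norm_zero] at b1
        exact hρ.1.ne b1
      · rw [b1] at e
        have b4 : φ - θ₀ = a j ρ := by
          rw [← b3]
          simp only [hA, ha]
          rw [b1, ← e]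
        fin_cases j
        · have b5 : a 0 ρ = 2 * π := by
            simp only [ha, triA, div_self (h0 _ hr'), Complex.arg_neg_one]
            ring
          have b6 : φ - θ₀ = 2 * π := b4.trans b5
          exact hφ.2.ne b6
        · rcases le_total (a 1 ρ) (a 2 ρ) with e' | e'
          · exact n1 (b4.trans (min_eq_left e').symm)
          · exact n2 (b4.trans (max_eq_left e').symm)
        · rcases le_total (a 1 ρ) (a 2 ρ) with e' | e'
          · exact n2 (b4.trans (max_eq_right e').symm)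
          · exact n1 (b4.trans (min_eq_right e').symm)
    refine ⟨fun j => θ₀ + if j = 0 then 0 else if j = 1 then min (a 1 ρ) (a 2 ρ)
      else if j = 2 then max (a 1 ρ) (a 2 ρ) else 2 * π, by simp, fun j hj => ?_, fun j hj φ hφ => ?_⟩
    · generalize min (a 1 ρ) (a 2 ρ) = m at t3 t4 ⊢
      generalize max (a 1 ρ) (a 2 ρ) = M at t3 t5 ⊢
      interval_cases j <;> simp <;> constructor <;> linarith
    · have hφ1 := hφ.1
      have hφ2 := hφ.2
      interval_cases j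
      · simp only [↓reduceIte, zero_add, one_ne_zero] at hφ1 hφ2
        obtain ⟨b1, b2, b3⟩ := key φ ⟨by linarith, by linarith⟩
        refine ⟨b3 (ne_of_lt (by linarith)) (ne_of_lt (by linarith)), ?_⟩
        simp only [b1, b2]
        rw [if_pos (by linarith)]
        simp
      · simp only [↓reduceIte, one_ne_zero, Nat.reduceAdd, OfNat.ofNat_ne_zero, OfNat.ofNat_ne_one] at hφ1 hφ2
        obtain ⟨b1, b2, b3⟩ := key φ ⟨by linarith, by linarith⟩
        refine ⟨b3 (ne_of_gt (by linarith)) (ne_of_lt (by linarith)), ?_⟩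
        simp only [b1, b2]
        rw [if_neg (by linarith), if_pos (by linarith)]
        simp
      · simp only [↓reduceIte, Nat.reduceAdd, OfNat.ofNat_ne_zero, OfNat.ofNat_ne_one, Nat.reduceEqDiff] at hφ1 hφ2
        obtain ⟨b1, b2, b3⟩ := key φ ⟨by linarith, by linarith⟩
        refine ⟨b3 (ne_of_gt (by linarith)) (ne_of_gt (by linarith)), ?_⟩
        simp only [b1, b2]
        rw [if_neg (by linarith), if_neg (by linarith)]
        simp

end Crest.Agent.R135
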