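import Crest.Agent.R135.Defs
import Crest.Agent.R135.STri
import Crest.Agent.R135.MXL
import Crest.Agent.R135.TGron
import Crest.Agent.R135.TLen
import Crest.Agent.R135.MCI2
import Crest.Agent.R135.SDer
set_option autoImplicit false
open MeasureTheory Metric Set Filter Topology
open scoped ENNReal NNReal Real ComplexConjugate

namespace Crest.Agent.R135

/-- `tri_labels` + `MS.decay_ineq` (`Λ = c ∘ lab`, midpoint values or `0`), `gron_full` with `β = 3/2`: `Dr t ≤ C t^{3/2}` -/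
theorem tri_decay {U K : Set ℂ} {a b : ℝ} {u : ℂ → ℝ} (hm : MS U a b K u) {x : ℂ} {ρ₀ C α σ : ℝ} {p τ : Fin 3 → ℝ → ℂ}
    (h : Arcs 3 K x ρ₀ C α σ p τ) (hB : closedBall x ρ₀ ⊆ U) :
    ∃ A : ℝ, ∀ t ∈ Ioc 0 ρ₀, Dr u x t ≤ A * (t * √t) := by
  obtain ⟨R, hR, lab, hlab, hθ⟩ := tri_labels h
  have hab : 0 ≤ a * b := mul_nonneg hm.a0 hm.b0
  have hRU : ball x R ⊆ U := (ball_subset_closedBall.trans (closedBall_subset_closedBall hR.2)).trans hB
  obtain ⟨hi, hD⟩ := hm.ce_int h.pos.le hB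
  have key : ∀ ρ ∈ Ioo 0 R, Good K u x ρ → Dr u x ρ ≤ 2 / 3 * ρ * ce u x ρ + 2 * (a * b) * ρ ^ 2 := by
    intro ρ hρ hg
    obtain ⟨θ, h1, h2, h3⟩ := hθ ρ hρ
    set c : ℝ → ℝ := fun l => u (circleMap x ρ ((θ (min ⌊l⌋₊ 2) + θ (min ⌊l⌋₊ 2 + 1)) / 2)) with hc
    refine hm.decay_ineq hg hρ.2 hRU (Λ := fun z => c (lab z)) (fun z hz => (hlab z hz).mono fun y hy => congrArg c hy)
      (fun z _ => hm.osc _ ⟨hRU ?_, (h3 (min ⌊lab z⌋₊ 2) (by omega) _ ?_).1⟩) 3 θ h1 h2 fun j hj φ hφ => ⟨(h3 j hj φ hφ).1, ?_⟩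
    · rw [mem_ball, tpolar_dist x hρ.1]; exact hρ.2
    · have := (h2 (min ⌊lab z⌋₊ 2) (by omega)).1
      constructor <;> linarith
    · rw [(h3 j hj φ hφ).2, hc]
      simp only [Nat.floor_natCast, min_eq_left (by omega : j ≤ 2)]
  have hs : 0 < R * √R := mul_pos hR.1 (Real.sqrt_pos.2 hR.1)
  refine ⟨(Dr u x ρ₀ + 6 * (a * b) * R ^ 2) / (R * √R), fun t ht => ?_⟩
  have hmono : ∀ s, s ≤ ρ₀ → Dr u x s ≤ Dr u x ρ₀ := fun s hs => hm.Dr_mono hB (ball_subset_ball hs)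
  have h6 : 0 ≤ 6 * (a * b) * R ^ 2 := by positivity
  rw [div_mul_eq_mul_div, le_div_iff₀ hs]
  rcases le_total t R with htR | htR
  · have h1 := gron_full (Y := Dr u x) (y := ce u x) (β := 3 / 2) (c := 3 * (a * b)) ht.1 htR (by norm_num) (by positivity)
      (hi.mono_set (by rw [uIcc_of_le htR, uIcc_of_le h.pos.le]; exact Icc_subset_Icc ht.1.le hR.2))
      (fun s hs => hD t s ht.1.le hs.1 (hs.2.trans hR.2)) (by
        filter_upwards [hm.ae_good hB] with ρ hg hρ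
        have h0 : 0 < ρ := ht.1.trans hρ.1
        have h2 := key ρ ⟨h0, hρ.2⟩ (hg ⟨h0, hρ.2.trans_le hR.2⟩)
        rw [sub_le_iff_le_add, div_le_iff₀ h0]
        nlinarith)
    have e : (t / R) ^ (3 / 2 : ℝ) = t * √t / (R * √R) := by
      have := div_pos ht.1 hR.1
      rw [show (3 / 2 : ℝ) = 1 + 1 / 2 by norm_num, Real.rpow_add this, Real.rpow_one, ← Real.sqrt_eq_rpow,
        Real.sqrt_div ht.1.le, div_mul_div_comm]
    rw [e, div_mul_eq_mul_div (t * √t), le_div_iff₀ hs, show 3 * (a * b) / (2 - 3 / 2) = 6 * (a * b) by ring] at h1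
    have h2 := hmono R hR.2
    have h3 : 0 ≤ t * √t := mul_nonneg ht.1.le (Real.sqrt_nonneg _)
    have h4 : 0 ≤ 6 * (a * b) * t ^ 2 * (R * √R) := by positivity
    have h5 := mul_le_mul_of_nonneg_left h2 h3
    linarith
  · have t0 := ht.1.le
    have h1 : R * √R ≤ t * √t := by have := hR.1; gcongr
    have h2 := Dr_nonneg u x t
    have h3 := hmono t ht.2
    calc Dr u x t * (R * √R) ≤ Dr u x t * (t * √t) := by gcongr
      _ ≤ _ := by gcongr; linarith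

section
variable {n : ℕ} {K : Set ℂ} {x : ℂ} {ρ₀ C α σ : ℝ} {p τ : Fin n → ℝ → ℂ}

theorem Arcs.st2_inj (h : Arcs n K x ρ₀ C α σ p τ) (j : Fin n) : InjOn (p j) (Ioc 0 ρ₀) := fun s hs t ht e => by
  rw [← h.nrm j s hs, e, h.nrm j t ht]

theorem Arcs.st2_meas (h : Arcs n K x ρ₀ C α σ p τ) (j : Fin n) {I : Set ℝ} (hI : MeasurableSet I) (hs : I ⊆ Ioc 0 ρ₀) :
    MeasurableSet (p j '' I) :=
  hI.image_of_continuousOn_injOn ((h.lip j).continuousOn.mono hs) ((h.st2_inj j).mono hs)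

theorem Arcs.st2_rad (h : Arcs n K x ρ₀ C α σ p τ) (j : Fin n) {s t : ℝ} (hs : 0 ≤ s) (ht : t ≤ ρ₀) :
    ENNReal.ofReal (t - s) ≤ H1 (p j '' Ioo s t) := by
  have h1 := (LipschitzWith.dist_left x).hausdorffMeasure_image_le zero_le_one (p j '' Ioo s t)
  rw [hausdorffMeasure_real, ENNReal.coe_one, ENNReal.one_rpow, one_mul] at h1
  refine le_trans ?_ h1
  rw [← Real.volume_Ioo]
  refine measure_mono fun r hr => ⟨p j r, mem_image_of_mem _ hr, ?_⟩
  simp only [dist_eq_norm]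
  exact h.nrm j r ⟨hs.trans_lt hr.1, hr.2.le.trans ht⟩

theorem Arcs.st2_chord (h : Arcs n K x ρ₀ C α σ p τ) (j : Fin n) {s t : ℝ} (hs : 0 < s) (hst : s ≤ t) (ht : t ≤ ρ₀) :
    ENNReal.ofReal ‖p j t - p j s‖ ≤ H1 (p j '' Icc s t) :=
  (H1_ge_of_conn (isPreconnected_Icc.image _ ((h.lip j).continuousOn.mono fun _ hr => ⟨hs.trans_le hr.1, hr.2.trans ht⟩))
    (mem_image_of_mem _ (left_mem_Icc.2 hst)) (mem_image_of_mem _ (right_mem_Icc.2 hst)) (dist_eq_norm _ _).ge).trans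
    (measure_mono inter_subset_left)

theorem Arcs.st2_one (h : Arcs n K x ρ₀ C α σ p τ) (j : Fin n) {s t ρ : ℝ} (hs : 0 < s) (hst : s ≤ t) (ht : t < ρ)
    (hρ : ρ ≤ ρ₀) : ENNReal.ofReal (ρ + (‖p j t - p j s‖ - (t - s))) ≤ H1 (p j '' Ioo 0 ρ) := by
  have s1 : Ioo 0 s ⊆ Ioc 0 ρ₀ := fun r hr => ⟨hr.1, by linarith [hr.2]⟩
  have s2 : Icc s t ⊆ Ioc 0 ρ₀ := fun r hr => ⟨hs.trans_le hr.1, by linarith [hr.2]⟩
  have s3 : Ioo t ρ ⊆ Ioc 0 ρ₀ := fun r hr => ⟨by linarith [hr.1], by linarith [hr.2]⟩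
  have d1 : Disjoint (p j '' Ioo 0 s) (p j '' Icc s t) :=
    Disjoint.image (disjoint_left.2 fun r h1 h2 => h1.2.not_ge h2.1) (h.st2_inj j) s1 s2
  have d2 : Disjoint (p j '' (Ioo 0 s ∪ Icc s t)) (p j '' Ioo t ρ) :=
    Disjoint.image (disjoint_left.2 fun r h1 h2 => h1.elim (fun h3 => by linarith [h3.2, h2.1]) fun h3 => h2.1.not_ge h3.2)
      (h.st2_inj j) (union_subset s1 s2) s3
  have e : ρ + (‖p j t - p j s‖ - (t - s)) = (s - 0) + ‖p j t - p j s‖ + (ρ - t) := by ring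
  rw [e, ENNReal.ofReal_add (by have := norm_nonneg (p j t - p j s); linarith) (by linarith),
    ENNReal.ofReal_add (by linarith) (norm_nonneg _)]
  refine (add_le_add (add_le_add (h.st2_rad j le_rfl (by linarith)) (h.st2_chord j hs hst (by linarith)))
    (h.st2_rad j (by linarith) hρ)).trans ?_
  rw [← measure_union d1 (h.st2_meas j measurableSet_Icc s2), ← image_union,
    ← measure_union d2 (h.st2_meas j measurableSet_Ioo s3), ← image_union]
  refine measure_mono (image_mono fun r hr => ?_)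
  rcases hr with (hr | hr) | hr
  · exact ⟨hr.1, by linarith [hr.2]⟩
  · exact ⟨hs.trans_le hr.1, hr.2.trans_lt ht⟩
  · exact ⟨by linarith [hr.1], hr.2⟩

theorem Arcs.st2_low (h : Arcs n K x ρ₀ C α σ p τ) (j : Fin n) {s t ρ : ℝ} (hs : 0 < s) (hst : s ≤ t) (ht : t < ρ)
    (hρ : ρ ≤ ρ₀) : ENNReal.ofReal (n * ρ + (‖p j t - p j s‖ - (t - s))) ≤ H1 (K ∩ ball x ρ) := by
  classical
  have s1 : Ioo 0 ρ ⊆ Ioc 0 ρ₀ := fun r hr => ⟨hr.1, by linarith [hr.2]⟩
  have hd : Pairwise (Function.onFun Disjoint fun k => p k '' Ioo 0 ρ) := by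
    intro k l hkl
    refine disjoint_left.2 ?_
    rintro _ ⟨r, hr, rfl⟩ ⟨r', hr', e⟩
    have : r' = r := by rw [← h.nrm l r' (s1 hr'), e, h.nrm k r (s1 hr)]
    subst this
    exact h.inj k l hkl _ (s1 hr) e.symm
  have hc : t - s ≤ ‖p j t - p j s‖ := by
    have := norm_sub_norm_le (p j t - x) (p j s - x)
    rwa [h.nrm j t ⟨by linarith, by linarith⟩, h.nrm j s ⟨hs, by linarith⟩, sub_sub_sub_cancel_right] at this
  have h1 : H1 (⋃ k, p k '' Ioo 0 ρ) ≤ H1 (K ∩ ball x ρ) := by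
    refine measure_mono (iUnion_subset fun k => ?_)
    rintro _ ⟨r, hr, rfl⟩
    exact ⟨h.mem k r (s1 hr), by rw [mem_ball, dist_eq_norm, h.nrm k r (s1 hr)]; exact hr.2⟩
  rw [measure_iUnion hd fun k => h.st2_meas k measurableSet_Ioo s1, tsum_fintype] at h1
  refine le_trans ?_ h1
  have e : n * ρ + (‖p j t - p j s‖ - (t - s)) = ∑ k : Fin n, (ρ + if k = j then ‖p j t - p j s‖ - (t - s) else 0) := by
    rw [Finset.sum_add_distrib]; simp
  rw [e, ENNReal.ofReal_sum_of_nonneg fun k _ => by split_ifs <;> linarith]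
  refine Finset.sum_le_sum fun k _ => ?_
  split_ifs with hk
  · subst hk; exact h.st2_one k hs hst ht hρ
  · simpa using h.st2_rad k le_rfl hρ

theorem Arcs.st2_card (h : Arcs n K x ρ₀ C α σ p τ) {ρ : ℝ} (hρ : ρ ∈ Ioc 0 ρ₀) (hf : (K ∩ sphere x ρ).Finite) :
    (hf.toFinset.card : ℝ) ≤ n := by
  classical
  have : hf.toFinset ⊆ Finset.univ.image fun j => p j ρ := by
    intro z hz
    rw [Finite.mem_toFinset] at hz
    have h1 : ‖z - x‖ = ρ := by simpa [dist_eq_norm] using hz.2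
    rcases h.all z ⟨hz.1, by rw [mem_closedBall, dist_eq_norm, h1]; exact hρ.2⟩ with rfl | ⟨j, hj⟩
    · rw [sub_self, norm_zero] at h1; exact absurd h1 hρ.1.ne
    · rw [h1] at hj
      exact Finset.mem_image.2 ⟨j, Finset.mem_univ _, hj.symm⟩
  have h2 := (Finset.card_le_card this).trans Finset.card_image_le
  rw [Finset.card_univ, Fintype.card_fin] at h2
  exact_mod_cast h2
end

theorem st2_alg {P Q : ℂ} {s t : ℝ} (hs : 0 < s) (ht : 0 < t) (hP : ‖P‖ = t) (hQ : ‖Q‖ = s) :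
    ‖P - Q‖ ^ 2 = (t - s) ^ 2 + t * s * ‖P / t - Q / s‖ ^ 2 := by
  have h1 : P.re ^ 2 + P.im ^ 2 = t ^ 2 := by rw [← hP, Complex.sq_norm, Complex.normSq_apply]; ring
  have h2 : Q.re ^ 2 + Q.im ^ 2 = s ^ 2 := by rw [← hQ, Complex.sq_norm, Complex.normSq_apply]; ring
  simp only [Complex.sq_norm, Complex.normSq_apply, Complex.sub_re, Complex.sub_im, Complex.div_ofReal_re,
    Complex.div_ofReal_im]
  field_simp
  linear_combination (t * s - s ^ 2) * h1 + (t * s - t ^ 2) * h2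

theorem st2_fin {s t v N D d : ℝ} (t0 : 0 < t) (hs : s ∈ Icc (t / 2) t) (v0 : 0 < v) (v1 : v ≤ 1) (hN0 : 0 ≤ N)
    (hD : 0 ≤ D) (hch : D ≤ t - s + N * (t * v ^ 2)) (hal : D ^ 2 = (t - s) ^ 2 + t * s * d ^ 2) :
    d ≤ 2 * (1 + N) * v := by
  refine abs_le_of_sq_le_sq' ?_ (by positivity) |>.2
  rw [mul_pow]
  have w0 : 0 < v ^ 2 := by positivity
  have w1 : v ^ 2 ≤ 1 := pow_le_one₀ v0.le v1
  generalize v ^ 2 = w at *
  have c1 : D ^ 2 ≤ (t - s + N * (t * w)) ^ 2 := by gcongr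
  have c2 : t * (t / 2) * d ^ 2 ≤ t * s * d ^ 2 := by have := hs.1; gcongr
  have c3 : 2 * (t - s) * (N * (t * w)) ≤ t * (N * (t * w)) := by gcongr; linarith [hs.1]
  have c4 : (N * (t * w)) ^ 2 ≤ N ^ 2 * t ^ 2 * w := by
    calc (N * (t * w)) ^ 2 = N ^ 2 * t ^ 2 * (w * w) := by ring
      _ ≤ _ := by gcongr; exact mul_le_of_le_one_right w0.le w1
  have c5 : t ^ 2 * d ^ 2 ≤ t ^ 2 * (2 * (N + N ^ 2) * w) := by linarith
  have c6 := le_of_mul_le_mul_left c5 (by positivity)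
  exact c6.trans (mul_le_mul_of_nonneg_right (by nlinarith) w0.le)

/-- For `t` small choose a good `ρ ∈ (t, 2t)` with `ce ≤ C√t`; `MS.xl` with apex `x`, `κ = (ρ/2) (ρ/ρ₀)^{1/4}`: `Lr ρ ≤ 3ρ + C ρ^{5/4}`. Lower bound: the images of
`(0,s), [s,t], (t,ρ)` under `p j` and of `(0,ρ)` under the other arcs are disjoint with lengths `≥ s, ‖p t - p s‖, ρ - t, ρ, ρ` (project on the radius; `H1_ge_of_conn`).
So `‖p t - p s‖ ≤ t - s + E`, and `‖p t - p s‖² = (t-s)² + t s ‖x̂ t - x̂ s‖²`. `rate_of_dyadic`, `Rate.extend`. -/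
theorem tri_rate {U K : Set ℂ} {a b : ℝ} {u : ℂ → ℝ} (hm : MS U a b K u) {x : ℂ} {ρ₀ C α σ : ℝ} {p τ : Fin 3 → ℝ → ℂ}
    (h : Arcs 3 K x ρ₀ C α σ p τ) (hB : closedBall x ρ₀ ⊆ U) : Rate x ρ₀ p := by
  obtain ⟨A₀, hA₀⟩ := tri_decay hm h hB
  set A := |A₀| with hA
  have hA0 : 0 ≤ A := abs_nonneg _
  have hab : 0 ≤ a * b := mul_nonneg hm.a0 hm.b0
  have hρ₀ := h.pos
  have hpi := Real.pi_pos
  obtain ⟨hi, hD⟩ := hm.ce_int hρ₀.le hB
  set N := 6 + 4 * A * √ρ₀ + 128 * π ^ 2 * A * √ρ₀ + 4 * π * (a * b) * ρ₀ with hN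
  have hN0 : 0 ≤ N := by positivity
  have key : ∀ j, ∀ t ∈ Ioc 0 (ρ₀ / 2), ∀ s ∈ Icc (t / 2) t,
      ‖(p j t - x) / t - (p j s - x) / s‖ ≤ (2 * (1 + N) / ρ₀ ^ (1 / 8 : ℝ)) * t ^ (1 / 8 : ℝ) := by
    intro j t ht s hs
    have t0 := ht.1
    have s0 : 0 < s := by linarith [hs.1]
    have h2t : 2 * t ≤ ρ₀ := by linarith [ht.2]
    set v := (t / ρ₀) ^ (1 / 8 : ℝ) with hv
    have v0 : 0 < v := Real.rpow_pos_of_pos (by positivity) _
    have v1 : v ≤ 1 := Real.rpow_le_one (by positivity) (by rw [div_le_one hρ₀]; linarith) (by norm_num)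
    have v8 : v ^ 8 = t / ρ₀ := by
      rw [hv, ← Real.rpow_natCast, ← Real.rpow_mul (by positivity)]; norm_num
    set w := v ^ 2 with hw
    have w0 : 0 < w := by positivity
    have w1 : w ≤ 1 := pow_le_one₀ v0.le v1
    have w4 : t = ρ₀ * w ^ 4 := by rw [hw, ← pow_mul, v8]; field_simp
    have wq : √t = √ρ₀ * w ^ 2 := by
      rw [w4, Real.sqrt_mul hρ₀.le, show w ^ 4 = (w ^ 2) ^ 2 by ring, Real.sqrt_sq (by positivity)]
    obtain ⟨ρ, hρ, -, hg, hce⟩ := exists_radius (f := ce u x) (s := t) (t := 2 * t) (m := 0) (I := 4 * A * √t * t)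
      (by linarith) ∅ (by simp) le_rfl (by linarith)
      (hi.mono_set (by rw [uIcc_of_le (by linarith), uIcc_of_le hρ₀.le]; exact Icc_subset_Icc t0.le h2t))
      (fun ρ hρ => ce_nonneg u x (by linarith [hρ.1])) (by
        have a1 := hD t (2 * t) t0.le (by linarith) h2t
        have a2 := hA₀ (2 * t) ⟨by linarith, h2t⟩
        have a3 := Dr_nonneg u x t
        have a4 : √(2 * t) ≤ 2 * √t := by
          rw [Real.sqrt_le_left (by positivity), mul_pow, Real.sq_sqrt t0.le]; linarith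
        have a5 : A₀ * (2 * t * √(2 * t)) ≤ A * (2 * t * (2 * √t)) :=
          (mul_le_mul_of_nonneg_right (le_abs_self _) (by positivity)).trans (by gcongr)
        linarith)
      (P := fun ρ => Good K u x ρ) ((hm.ae_good hB).mono fun ρ h1 h2 => h1 ⟨by linarith [h2.1], by linarith [h2.2]⟩)
    have ρ0 : 0 < ρ := hg.pos
    have hρρ : ρ ≤ ρ₀ := by linarith [hρ.2]
    have hB' : closedBall x ρ ⊆ U := (closedBall_subset_closedBall hρρ).trans hB
    rw [show 4 * A * √t * t / (2 * t - t - 0) = 4 * A * √ρ₀ * w ^ 2 by rw [wq]; field_simp; ring] at hce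
    have hκ : 0 < t * w / 2 := by positivity
    have hxl := hm.xl (y := x) hg hB' hκ (by linarith [hρ.1, mul_le_of_le_one_right t0.le w1]) (mem_closedBall_self ρ0.le)
    have hcard := h.st2_card ⟨ρ0, hρρ⟩ hg.fin
    have hsum : ∑ q ∈ hg.fin.toFinset, ‖q - x‖ = hg.fin.toFinset.card * ρ := by
      rw [Finset.sum_congr rfl (g := fun _ => ρ) fun q hq => by
        simpa [dist_eq_norm] using ((Finite.mem_toFinset _).1 hq).2]
      simp
    have hlow := h.st2_low j s0 hs.2 hρ.1 hρρ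
    rw [← hm.ofReal_Lr hB', ENNReal.ofReal_le_ofReal_iff (Lr_nonneg _ _ _)] at hlow
    have hc0 := ce_nonneg u x ρ0.le
    have b1 : (hg.fin.toFinset.card : ℝ) * ρ ≤ 3 * ρ := by gcongr; exact_mod_cast hcard
    have b2 : 4 * (hg.fin.toFinset.card : ℝ) * (t * w / 2) ≤ 4 * 3 * (t * w / 2) := by gcongr; exact_mod_cast hcard
    have b3 : 2 * (t * w / 2) * ce u x ρ ≤ 2 * (t * w / 2) * (4 * A * √ρ₀) := by
      gcongr
      exact hce.trans (mul_le_of_le_one_right (by positivity) (pow_le_one₀ w0.le w1))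
    have b4 : 2 * π * (ρ / (t * w / 2)) * ce1 u x ρ ^ 2 ≤
        2 * π * (2 * t / (t * w / 2)) * (2 * π * (2 * t) * (4 * A * √ρ₀ * w ^ 2)) := by
      have := hρ.2.le
      gcongr
      exact hg.ce1_sq.trans (by gcongr)
    have b4' : 2 * π * (2 * t / (t * w / 2)) * (2 * π * (2 * t) * (4 * A * √ρ₀ * w ^ 2)) =
        128 * π ^ 2 * A * √ρ₀ * (t * w) := by field_simp; ring
    have b5 : π * (a * b) * ρ ^ 2 ≤ 4 * π * (a * b) * ρ₀ * (t * w) := by
      have c1 : ρ ^ 2 ≤ (2 * t) ^ 2 := by have := hρ.2.le; gcongr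
      have c2 : t ≤ ρ₀ * w := by
        rw [w4]; gcongr; exact pow_le_of_le_one w0.le w1 (by norm_num)
      calc π * (a * b) * ρ ^ 2 ≤ π * (a * b) * (4 * t * (ρ₀ * w)) := by
            gcongr
            linarith [mul_le_mul_of_nonneg_left c2 t0.le]
        _ = _ := by ring
    have hD0 := Dr_nonneg u x ρ
    have hch : ‖p j t - p j s‖ ≤ t - s + N * (t * w) := by
      rw [hsum] at hxl
      push_cast at hlow
      rw [hN]
      linarith
    have hal := st2_alg s0 t0 (h.nrm j t ⟨t0, by linarith⟩) (h.nrm j s ⟨s0, by linarith [hs.2]⟩)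
    rw [sub_sub_sub_cancel_right] at hal
    have e : 2 * (1 + N) / ρ₀ ^ (1 / 8 : ℝ) * t ^ (1 / 8 : ℝ) = 2 * (1 + N) * v := by
      rw [hv, Real.div_rpow t0.le hρ₀.le]; ring
    rw [e]
    exact st2_fin t0 hs v0 v1 hN0 (norm_nonneg _) hch hal
  choose C' e he using fun j => rate_of_dyadic (g := fun ρ => (p j ρ - x) / ρ) (half_pos hρ₀) (by norm_num) (key j)
  refine Rate.extend (half_pos hρ₀) ⟨1 / 8, by norm_num, ∑ j, |C' j|, e, fun j ρ hρ => (he j ρ hρ).trans ?_⟩ h.nrm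
  exact mul_le_mul_of_nonneg_right ((le_abs_self _).trans
    (Finset.single_le_sum (f := fun j => |C' j|) (fun _ _ => abs_nonneg _) (Finset.mem_univ j))) (Real.rpow_nonneg hρ.1.le _)

end Crest.Agent.R135
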