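import Crest.Agent.R135.Defs
import Crest.Agent.R135.ATri
import Crest.Agent.R135.SArcs
import Crest.Agent.R135.STip
import Crest.Agent.R135.STri2
import Crest.Agent.R135.SPt
import Crest.Agent.R135.FPt
import Crest.Agent.R135.OComp
set_option autoImplicit false
open MeasureTheory Metric Set Filter Topology
open scoped ENNReal NNReal Real ComplexConjugate

namespace Crest.Agent.R135

theorem Abs.locStr {U K : Set ℂ} {a b : ℝ} {u : ℂ → ℝ} (h : Abs U a b K u) {x : ℂ} (hx : x ∈ K ∩ U) : LocStr U K x := by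
  obtain ⟨ρ', hρ', hB⟩ := Metric.isOpen_iff.1 h.ms.isOpen x hx.2
  have star : ∀ n : ℕ, (n = 1 ∨ n = 3) → StarHyp n K u x → ∃ (ρ₀ C α σ : ℝ) (p τ : Fin n → ℝ → ℂ),
      Arcs n K x ρ₀ C α σ p τ ∧ closedBall x ρ₀ ⊆ U := by
    intro n hn hs
    obtain ⟨ρ₀, C, α, σ, hg⟩ := starGeo_of h hx hs
    obtain ⟨ρ₁, hρ₁, p, τ, hA⟩ := hg.arcs hn
    refine ⟨min ρ₁ (ρ' / 2), C, α, σ, p, τ, hA.mono ⟨lt_min hρ₁.1 (by linarith), min_le_left _ _⟩, ?_⟩
    exact (closedBall_subset_ball (lt_of_le_of_lt (min_le_right _ _) (by linarith))).trans hB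
  rcases trichotomy h hx with hf | hs | hs
  · left
    obtain ⟨σ, δ, hσ, hσ1, hδ, hcf⟩ := close_flat (1 / 2000) (by norm_num)
    obtain ⟨r, hr⟩ := flatHyp_FH h hx ⟨σ, δ, hσ, hσ1, hδ, hcf U K a b u h⟩ hf
    obtain ⟨C, δ', hC, hδ', ht⟩ := flat_tan
    have hab : 0 ≤ a * b := mul_nonneg h.ms.a0 h.ms.b0
    set s : ℝ := min (min r (ρ' / 2)) (δ' / (a * b + 1)) with hs
    have hs0 : 0 < s := lt_min (lt_min hr.pos (by linarith)) (by positivity)
    have hsr : s ≤ r := (min_le_left _ _).trans (min_le_left _ _)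
    have hsρ : s ≤ ρ' / 2 := (min_le_left _ _).trans (min_le_right _ _)
    have hsδ : s ≤ δ' / (a * b + 1) := min_le_right _ _
    have h1 := hr.mono hs0 hsr
    refine intPt_of h.ms.isOpen hx.2 hC (show (0 : ℝ) < 1 / 16 by norm_num) (h1.mono (s := s / 2) (by linarith) (by linarith))
      (fun y hy => ht U K a b u h y (s / 2) (h1.move hy) ?_ ?_)
    · refine subset_trans (fun z hz => ?_) hB
      have h2 := mem_closedBall.1 hz
      have h3 := mem_ball.1 hy.2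
      have h4 := dist_triangle z y x
      exact mem_ball.2 (by linarith)
    · have h5 : s * (a * b + 1) ≤ δ' := (le_div_iff₀ (by positivity)).1 hsδ
      nlinarith
  · obtain ⟨ρ₀, C, α, σ, p, τ, hA, hB'⟩ := star 1 (Or.inl rfl) hs
    right; left
    refine endPt_of hA ?_ hB'
    have := tip_rate h.ms hA.arc1 hB'
    have e : p = fun _ : Fin 1 => p 0 := by funext j; rw [Subsingleton.elim j 0]
    rw [e]; exact this
  · obtain ⟨ρ₀, C, α, σ, p, τ, hA, hB'⟩ := star 3 (Or.inr rfl) hs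
    exact Or.inr (Or.inr (triPt_of hA (tri_rate h.ms hA hB') hB'))

theorem LocStr.of_eq {U Ω K K' : Set ℂ} {x : ℂ} (h : LocStr U K' x) (hU : U ⊆ Ω) (hK : K' ∩ U = K ∩ U) : LocStr Ω K x := by
  have key : ∀ N : Set ℂ, N ⊆ U → K ∩ N = K' ∩ N := by
    intro N hN
    ext z
    constructor
    · rintro ⟨h1, h2⟩
      have : z ∈ K' ∩ U := hK ▸ ⟨h1, hN h2⟩
      exact ⟨this.1, h2⟩
    · rintro ⟨h1, h2⟩
      have : z ∈ K ∩ U := hK ▸ ⟨h1, hN h2⟩
      exact ⟨this.1, h2⟩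
  rcases h with ⟨N, h1, h2, h3, h4⟩ | ⟨N, h1, h2, h3, h4⟩ | ⟨N, h1, h2, h3, h4⟩
  · exact Or.inl ⟨N, h1, h2.trans hU, h3, by rw [key N h2]; exact h4⟩
  · exact Or.inr (Or.inl ⟨N, h1, h2.trans hU, h3, by rw [key N h2]; exact h4⟩)
  · exact Or.inr (Or.inr ⟨N, h1, h2.trans hU, h3, by rw [key N h2]; exact h4⟩)

theorem Raw.locStr {Ω K : Set ℂ} {g u : ℂ → ℝ} {M : ℝ} {G : ℂ → ℂ} (h : Raw Ω g M u K G) {x : ℂ} (hx : x ∈ K) :
    LocStr Ω K x := by
  obtain ⟨R, a, b, v, hR, hB, hA⟩ := h.abs (h.adm.1 hx)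
  refine (hA.locStr ⟨subset_closure hx, mem_ball_self hR⟩).of_eq hB ?_
  ext z
  exact ⟨fun hz => ⟨h.adm.2.1 ⟨hz.1, hB hz.2⟩, hz.2⟩, fun hz => ⟨subset_closure hz.1, hz.2⟩⟩

end Crest.Agent.R135
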