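import Crest.Agent.R135.Defs
import Crest.Prelude.Def_MumfordShah
set_option autoImplicit false
open MeasureTheory Metric Set Filter Topology
open scoped ENNReal NNReal Real ComplexConjugate

namespace Crest.Agent.R135

open Crest.AnalysisR.PDE.OnePhase Crest.AnalysisR.PDE.MumfordShah

/-- the isometry `ℂ ≃ ℝ²` -/
noncomputable def eC : ℂ ≃ₗᵢ[ℝ] EuclideanSpace ℝ (Fin 2) := Complex.orthonormalBasisOneI.repr

local notation "E2" => EuclideanSpace ℝ (Fin 2)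

theorem otr_mp : MeasurePreserving eC := eC.measurePreserving

theorem otr_me : MeasurableEmbedding eC := eC.toHomeomorph.measurableEmbedding

theorem otr_sub {A B : Set E2} : eC ⁻¹' A ⊆ eC ⁻¹' B ↔ A ⊆ B := eC.surjective.preimage_subset_preimage_iff

theorem otr_cl (A : Set E2) : closure (eC ⁻¹' A) = eC ⁻¹' closure A := (eC.toHomeomorph.preimage_closure A).symm

theorem otr_H1 (A : Set E2) : H1 (eC ⁻¹' A) = Measure.hausdorffMeasure 1 A :=
  eC.toIsometryEquiv.hausdorffMeasure_preimage 1 A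

theorem otr_li {F : Type*} [NormedAddCommGroup F] (f : E2 → F) (W : Set E2) :
    LocallyIntegrableOn (f ∘ eC) (eC ⁻¹' W) ↔ LocallyIntegrableOn f W := by
  constructor
  · intro h x hx
    obtain ⟨z, rfl⟩ := eC.surjective x
    obtain ⟨s, hs, hi⟩ := h z hx
    refine ⟨eC.symm ⁻¹' s, ?_, (otr_mp.integrableOn_comp_preimage otr_me).1 ?_⟩
    · have h1 : Tendsto eC.symm (𝓝[W] (eC z)) (𝓝[eC ⁻¹' W] z) := by
        have := eC.symm.continuous.continuousWithinAt (s := W) (x := eC z) |>.tendsto_nhdsWithin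
          (t := eC ⁻¹' W) (fun y hy => by simpa using hy)
        simpa using this
      exact h1 hs
    · have e : eC ⁻¹' (eC.symm ⁻¹' s) = s := by ext; simp
      rwa [e]
  · intro h z hz
    obtain ⟨s, hs, hi⟩ := h (eC z) hz
    exact ⟨eC ⁻¹' s, (eC.continuous.continuousWithinAt.tendsto_nhdsWithin (fun y hy => hy)) hs,
      (otr_mp.integrableOn_comp_preimage otr_me).2 hi⟩

theorem otr_li' (G : E2 → E2) (W : Set E2) :
    LocallyIntegrableOn (eC.symm ∘ G ∘ eC) (eC ⁻¹' W) ↔ LocallyIntegrableOn G W := by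
  rw [← Function.comp_assoc, otr_li]
  simp only [LocallyIntegrableOn, IntegrableAtFilter, IntegrableOn]
  refine forall₂_congr fun x _ => exists_congr fun s => and_congr Iff.rfl ?_
  exact eC.symm.toContinuousLinearEquiv.integrable_comp_iff

theorem otr_key (W : Set E2) (v ψ : E2 → ℝ) (G : E2 → E2) (i : Fin 2) (d : ℂ) (hd : eC d = EuclideanSpace.single i 1) :
    ((∫ z in eC ⁻¹' W, (v ∘ eC) z * fderiv ℝ (ψ ∘ eC) z d =
      - ∫ z in eC ⁻¹' W, inner ℝ ((eC.symm ∘ G ∘ eC) z) d * (ψ ∘ eC) z) ↔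
      ∫ x in W, v x * partialD ψ i x = - ∫ x in W, G x i * ψ x) := by
  rw [← otr_mp.setIntegral_preimage_emb otr_me (fun x => v x * partialD ψ i x),
    ← otr_mp.setIntegral_preimage_emb otr_me (fun x => G x i * ψ x)]
  have e1 : ∀ z, fderiv ℝ (ψ ∘ eC) z d = partialD ψ i (eC z) := fun z => by
    have := eC.toContinuousLinearEquiv.comp_right_fderiv (f := ψ) (x := z)
    rw [show (ψ ∘ eC) = ψ ∘ eC.toContinuousLinearEquiv from rfl, this, partialD, ← hd]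
    rfl
  have e2 : ∀ z, inner ℝ ((eC.symm ∘ G ∘ eC) z) d = G (eC z) i := fun z => by
    rw [← eC.inner_map_map, hd]
    simp [EuclideanSpace.inner_single_right]
  simp only [e1, e2]
  rfl

theorem otr_one : eC 1 = EuclideanSpace.single 0 1 := by
  ext i; fin_cases i <;> simp [eC]

theorem otr_I : eC Complex.I = EuclideanSpace.single 1 1 := by
  ext i; fin_cases i <;> simp [eC]

theorem otr_int {W : Set ℂ} {v g φ : ℂ → ℝ} (hv : LocallyIntegrableOn v W) (hg : Continuous g) (hc : HasCompactSupport φ)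
    (hs : tsupport φ ⊆ W) (h : ∀ z ∉ tsupport φ, g z = 0) : IntegrableOn (fun z => v z * g z) W := by
  refine ((integrableOn_iff_integrable_of_support_subset (s := tsupport φ) fun z hz => ?_).1
    ((hv.integrableOn_compact_subset hs hc).mul_continuousOn hg.continuousOn hc)).integrableOn
  by_contra hz'
  exact hz (by simp [h z hz'])

theorem otr_ts (ψ : E2 → ℝ) : tsupport (ψ ∘ eC) = eC ⁻¹' tsupport ψ := by
  rw [tsupport, tsupport, ← otr_cl]
  rfl

theorem otr_wg (W : Set E2) (v : E2 → ℝ) (G : E2 → E2) :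
    WG (eC ⁻¹' W) (v ∘ eC) (eC.symm ∘ G ∘ eC) ↔ IsWeakGradOn W v G := by
  constructor
  · rintro ⟨h1, h2, h3⟩
    refine ⟨(otr_li _ _).1 h1, (otr_li' _ _).1 h2, fun ψ a1 a2 a3 i => ?_⟩
    have h4 := h3 (ψ ∘ eC) (a1.comp eC.contDiff) (a2.comp_homeomorph eC.toHomeomorph) (by rw [otr_ts]; exact otr_sub.2 a3)
    fin_cases i
    · exact (otr_key W v ψ G 0 1 otr_one).1 (h4 1)
    · exact (otr_key W v ψ G 1 _ otr_I).1 (h4 _)
  · rintro ⟨h1, h2, h3⟩
    have l1 := (otr_li _ _).2 h1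
    have l2 := (otr_li' _ _).2 h2
    refine ⟨l1, l2, fun φ a1 a2 a3 d => ?_⟩
    obtain ⟨ψ, rfl⟩ : ∃ ψ : E2 → ℝ, φ = ψ ∘ eC := ⟨φ ∘ eC.symm, by ext; simp⟩
    have e : ψ = (ψ ∘ eC) ∘ eC.symm := by ext; simp
    have h4 := h3 ψ (e ▸ a1.comp eC.symm.contDiff) (e ▸ a2.comp_homeomorph eC.symm.toHomeomorph)
      (by rw [otr_ts] at a3; exact otr_sub.1 a3)
    have b1 := (otr_key W v ψ G 0 1 otr_one).2 (h4 0)
    have b2 := (otr_key W v ψ G 1 _ otr_I).2 (h4 1)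
    generalize ψ ∘ eC = φ at *
    generalize v ∘ eC = w at *
    generalize eC.symm ∘ G ∘ eC = H at *
    generalize eC ⁻¹' W = V at *
    have i1 : ∀ c : ℂ, IntegrableOn (fun z => w z * fderiv ℝ φ z c) V := fun c =>
      otr_int l1 ((a1.continuous_fderiv (by simp)).clm_apply continuous_const) a2 a3 fun z hz => by
        simp [fderiv_of_notMem_tsupport ℝ hz]
    have i2 : ∀ c : ℂ, IntegrableOn (fun z => inner ℝ (H z) c * φ z) V := fun c =>
      otr_int (fun z hz => by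
        obtain ⟨s, hs, hi⟩ := l2 z hz
        exact ⟨s, hs, hi.inner_const c⟩) a1.continuous a2 a3 fun z hz => image_eq_zero_of_notMem_tsupport hz
    have ed : d = d.re • (1 : ℂ) + d.im • Complex.I := by
      simp [Complex.re_add_im]
    rw [ed]
    simp only [map_add, map_smul, inner_add_right, real_inner_smul_right, smul_eq_mul, mul_add, add_mul,
      mul_left_comm (w _), mul_assoc]
    rw [integral_add ((i1 _).const_mul _) ((i1 _).const_mul _), integral_add ((i2 _).const_mul _) ((i2 _).const_mul _)]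
    simp only [integral_const_mul, b1, b2]
    ring

theorem otr_dir (G : E2 → E2) (S : Set E2) :
    ∫⁻ z in eC ⁻¹' S, ‖(eC.symm ∘ G ∘ eC) z‖ₑ ^ 2 = ∫⁻ x in S, ‖G x‖ₑ ^ 2 := by
  rw [← otr_mp.setLIntegral_comp_preimage_emb otr_me (fun x => ‖G x‖ₑ ^ 2)]
  simp

theorem otr_adm (Ω K : Set E2) (u : E2 → ℝ) (G : E2 → E2) :
    AdmP (eC ⁻¹' Ω) (u ∘ eC) (eC ⁻¹' K) (eC.symm ∘ G ∘ eC) ↔ IsAdmissiblePair Ω u K G := by
  rw [AdmP, IsAdmissiblePair, otr_sub, otr_cl, ← preimage_inter, otr_sub, otr_H1, ← preimage_sdiff, otr_wg, otr_dir,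
    ← otr_me.memLp_map_measure_iff, (otr_mp.restrict_preimage_emb otr_me Ω).map_eq]

theorem otr_E (g u : E2 → ℝ) (K V : Set E2) (G : E2 → E2) :
    msE (g ∘ eC) (u ∘ eC) (eC ⁻¹' K) (eC.symm ∘ G ∘ eC) (eC ⁻¹' V) = msEnergy g u K G V := by
  rw [msE, msEnergy, ← preimage_sdiff, otr_dir, ← preimage_inter, otr_H1,
    ← otr_mp.setLIntegral_comp_preimage_emb otr_me (fun x => ‖u x - g x‖ₑ ^ 2)]
  rfl

theorem otr_arc {α : ℝ≥0} {γ γ' : ℝ → ℂ} (h : HArc α γ γ') : IsHolderArc α (eC ∘ γ) (eC ∘ γ') := by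
  obtain ⟨h1, h2, h3, C, h4⟩ := h
  refine ⟨eC.injective.comp_injOn h1, fun t ht => ?_, fun t ht => by simpa using h3 t ht, C, fun s hs t ht => ?_⟩
  · exact eC.toContinuousLinearEquiv.hasFDerivAt.comp_hasDerivWithinAt t (h2 t ht)
  · simpa using h4 s hs t ht

theorem otr_img (S : Set ℂ) : eC '' S = eC.symm ⁻¹' S := by
  ext x
  constructor
  · rintro ⟨z, hz, rfl⟩
    simpa using hz
  · exact fun hx => ⟨_, hx, by simp⟩

theorem otr_conn {α : ℝ≥0} {γ γ' : ℝ → E2} (h : IsHolderArc α γ γ') {S : Set ℝ} (hS : IsPreconnected S)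
    (hs : S ⊆ Icc 0 1) : IsPreconnected (γ '' S) :=
  hS.image _ (ContinuousOn.mono (fun t ht => (h.2.1 t ht).continuousWithinAt) hs)

/-- Transfer to `ℂ`: `eC` preserves volume (`LinearIsometryEquiv.measurePreserving`, `OrthonormalBasis.measurePreserving_repr`) and `μH[1]`
(`IsometryEquiv.measurePreserving_hausdorffMeasure`, `Isometry.hausdorffMeasure_preimage`); prove `WG (eC ⁻¹' W) (v ∘ eC) (eC.symm ∘ G ∘ eC) ↔ IsWeakGradOn W v G`
(directions `1, I` correspond to `single 0 1`, `single 1 1`; linearity in `d`), the same for `AdmP` and `msE`. -/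
theorem raw_of_orig (Ω : Set (EuclideanSpace ℝ (Fin 2))) (hΩo : IsOpen Ω) (hΩb : Bornology.IsBounded Ω)
    (g : EuclideanSpace ℝ (Fin 2) → ℝ) (hgm : Measurable g) {M : ℝ} (hgb : ∀ x ∈ Ω, ‖g x‖ ≤ M)
    (u : EuclideanSpace ℝ (Fin 2) → ℝ) (K : Set (EuclideanSpace ℝ (Fin 2)))
    (G : EuclideanSpace ℝ (Fin 2) → EuclideanSpace ℝ (Fin 2))
    (hmin : IsAbsoluteMinimizer Ω g u K G) (hred : IsReduced Ω K) :
    Raw (eC ⁻¹' Ω) (g ∘ eC) M (u ∘ eC) (eC ⁻¹' K) (eC.symm ∘ G ∘ eC) := by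
  refine ⟨hΩo.preimage eC.continuous, eC.antilipschitz.isBounded_preimage hΩb, hgm.comp eC.continuous.measurable,
    fun z hz => hgb _ hz, (otr_adm _ _ _ _).2 hmin.1, fun V a1 a2 a3 w L H a4 a5 => ?_, fun z hz r hr hB => ?_⟩
  · obtain ⟨V, rfl⟩ : ∃ V' : Set E2, V = eC ⁻¹' V' := ⟨eC.symm ⁻¹' V, by ext; simp⟩
    obtain ⟨L, rfl⟩ : ∃ V' : Set E2, L = eC ⁻¹' V' := ⟨eC.symm ⁻¹' L, by ext; simp⟩
    obtain ⟨w, rfl⟩ : ∃ ψ : E2 → ℝ, w = ψ ∘ eC := ⟨w ∘ eC.symm, by ext; simp⟩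
    obtain ⟨H, rfl⟩ : ∃ ψ : E2 → E2, H = eC.symm ∘ ψ ∘ eC := ⟨eC ∘ H ∘ eC.symm, by ext; simp⟩
    obtain ⟨C, c1, c2, c3, c4⟩ := a5
    obtain ⟨C, rfl⟩ : ∃ V' : Set E2, C = eC ⁻¹' V' := ⟨eC.symm ⁻¹' C, by ext; simp⟩
    rw [otr_cl] at a2 a3
    rw [otr_E, otr_E]
    refine hmin.2 V (eC.toHomeomorph.isOpen_preimage.1 a1) (eC.toHomeomorph.isCompact_preimage.1 a2) (otr_sub.1 a3)
      w L H ((otr_adm _ _ _ _).1 a4) ⟨C, eC.toHomeomorph.isCompact_preimage.1 c1, otr_sub.1 c2, ?_, ?_⟩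
    · rw [← preimage_symmDiff] at c3
      exact otr_sub.1 c3
    · filter_upwards [eC.symm.measurePreserving.quasiMeasurePreserving.ae c4] with x hx
      simpa using hx
  · have e1 : ball z r = eC ⁻¹' ball (eC z) r := by ext; simp
    have e2 : closedBall z r = eC ⁻¹' closedBall (eC z) r := by ext; simp
    rw [e1, ← preimage_inter, otr_H1]
    exact hred _ hz r hr (otr_sub.1 (e2 ▸ hB))

theorem locStr_back {Ω K : Set (EuclideanSpace ℝ (Fin 2))} {x : EuclideanSpace ℝ (Fin 2)}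
    (h : LocStr (eC ⁻¹' Ω) (eC ⁻¹' K) (eC.symm x)) :
    IsArcInteriorPoint Ω K x ∨ IsArcEndPoint Ω K x ∨ IsTripleJunctionPoint Ω K x := by
  have hN : ∀ N : Set ℂ, N ⊆ eC ⁻¹' Ω → eC.symm ⁻¹' N ⊆ Ω := fun N hN y hy => by simpa using hN hy
  have hK : ∀ N : Set ℂ, K ∩ eC.symm ⁻¹' N = eC '' (eC ⁻¹' K ∩ N) := fun N => by
    rw [otr_img]; ext; simp
  rcases h with ⟨N, h1, h2, h3, α, hα, γ, γ', h4, h5, h6⟩ | ⟨N, h1, h2, h3, α, hα, γ, γ', h4, h5, h6⟩ |
    ⟨N, h1, h2, h3, α, hα, γ, γ', h4, h5, h6, h7, h8⟩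
  · refine Or.inl ⟨_, h1.preimage eC.symm.continuous, hN N h2, h3, α, hα, _, _, otr_arc h4, ?_, ?_⟩
    · rw [hK, h5, image_comp]
    · rw [image_comp, otr_img]
      exact h6
  · refine Or.inr (Or.inl ⟨_, h1.preimage eC.symm.continuous, hN N h2, h3, α, hα, _, _, otr_arc h4, ?_, ?_⟩)
    · rw [hK, h5, image_comp]
    · simp [h6]
  · refine Or.inr (Or.inr ⟨_, h1.preimage eC.symm.continuous, hN N h2, h3, α, hα, fun k => eC ∘ γ k, fun k => eC ∘ γ' k,
      fun k => otr_arc (h4 k), fun k => by simp [h5 k], ?_, fun j k hjk => ?_, fun j k hjk => ?_⟩)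
    · rw [hK, h6, image_iUnion]
      simp only [image_comp]
    · rw [image_comp, image_comp, ← image_inter eC.injective, h7 j k hjk]
      simp
    · simpa using h8 j k hjk

/-- each local shape gives an open `N ∋ x` with `K ∩ N` preconnected; cover the compact set `K ∩ closure U` by finitely many of them -/
theorem finite_components {Ω K : Set (EuclideanSpace ℝ (Fin 2))} (hK : closure K ∩ Ω ⊆ K)
    (h : ∀ x ∈ K, IsArcInteriorPoint Ω K x ∨ IsArcEndPoint Ω K x ∨ IsTripleJunctionPoint Ω K x)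
    (U : Set (EuclideanSpace ℝ (Fin 2))) (hc : IsCompact (closure U)) (hU : closure U ⊆ Ω) :
    Set.Finite {C : Set (EuclideanSpace ℝ (Fin 2)) | ∃ x ∈ K ∩ U, C = connectedComponentIn K x} := by
  have key : ∀ x ∈ K, ∃ N : Set E2, IsOpen N ∧ x ∈ N ∧ IsPreconnected (K ∩ N) := by
    intro x hx
    rcases h x hx with ⟨N, h1, -, h3, α, -, γ, γ', h4, h5, -⟩ | ⟨N, h1, -, h3, α, -, γ, γ', h4, h5, -⟩ |
      ⟨N, h1, -, h3, α, -, γ, γ', h4, h5, h6, -⟩
    · exact ⟨N, h1, h3, h5 ▸ otr_conn h4 isPreconnected_Ioo Ioo_subset_Icc_self⟩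
    · exact ⟨N, h1, h3, h5 ▸ otr_conn h4 isPreconnected_Ico Ico_subset_Icc_self⟩
    · refine ⟨N, h1, h3, h6 ▸ isPreconnected_iUnion ⟨x, mem_iInter.2 fun k => ⟨0, by simp, h5 k⟩⟩ fun k => ?_⟩
      exact otr_conn (h4 k) isPreconnected_Ico Ico_subset_Icc_self
  choose! N hN using key
  have hcp : IsCompact (closure U ∩ closure K) := hc.inter_right isClosed_closure
  have hsub : ∀ x ∈ closure U ∩ closure K, x ∈ K := fun x hx => hK ⟨hx.2, hU hx.1⟩
  obtain ⟨t, ht, hcov⟩ := hcp.elim_nhds_subcover N fun x hx =>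
    (hN x (hsub x hx)).1.mem_nhds (hN x (hsub x hx)).2.1
  refine (t.finite_toSet.image fun y => connectedComponentIn K y).subset ?_
  rintro C ⟨x, hx, rfl⟩
  obtain ⟨y, hy, hxy⟩ := mem_iUnion₂.1 (hcov ⟨subset_closure hx.2, subset_closure hx.1⟩)
  have hyK := hsub y (ht y hy)
  exact ⟨y, hy, connectedComponentIn_eq
    ((hN y hyK).2.2.subset_connectedComponentIn ⟨hyK, (hN y hyK).2.1⟩ inter_subset_left ⟨hx.1, hxy⟩)⟩

end Crest.Agent.R135
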